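import Vale.Agent.P073Z.A1
import Vale.Agent.P073Z.SHELL.A

/-!
# Structure of polyhedra: CMP, LIP, AEAFF
-/

open Set Metric Topology Filter MeasureTheory
open scoped NNReal

namespace P073

open A1

theorem cmp_thm : CMP := by
  intro E _ _ _ X a b hX hc ha hb h0 h1
  classical
  obtain ⟨𝒮, -, h2, h3⟩ := exists_simplices hX hc (ha.2.prodMk hb.2)
  have hP : ∀ p ∈ 𝒮.biUnion id, p ∈ X := fun p hp => by
    obtain ⟨s, hs, hps⟩ := Finset.mem_biUnion.1 hp
    rw [h2]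
    exact mem_iUnion₂.2 ⟨s, hs, subset_convexHull ℝ _ hps⟩
  have hn : ∀ p ∈ 𝒮.biUnion id, 0 ≤ |a p| / b p := fun p hp =>
    div_nonneg (abs_nonneg _) (h0 p (hP p hp))
  refine ⟨1 + ∑ p ∈ 𝒮.biUnion id, |a p| / b p,
    add_pos_of_pos_of_nonneg one_pos (Finset.sum_nonneg hn), fun x hx => ?_⟩
  set C := 1 + ∑ p ∈ 𝒮.biUnion id, |a p| / b p with hC
  have hv : ∀ p ∈ 𝒮.biUnion id, a p ≤ C * b p := fun p hp => by
    rcases (h0 p (hP p hp)).eq_or_lt with h | h
    · rw [← h, mul_zero]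
      exact h1 p (hP p hp) h.symm
    · rw [← div_le_iff₀ h]
      have k1 := Finset.single_le_sum hn hp
      have k2 : a p / b p ≤ |a p| / b p := div_le_div_of_nonneg_right (le_abs_self _) h.le
      linarith
  rw [h2] at hx
  obtain ⟨s, hs, hxs⟩ := mem_iUnion₂.1 hx
  obtain ⟨A, hA⟩ := h3 s hs
  let L : (ℝ × ℝ) →ₗ[ℝ] ℝ := LinearMap.fst ℝ ℝ ℝ - C • LinearMap.snd ℝ ℝ ℝ
  have hL : ∀ y ∈ convexHull ℝ (s : Set E), (L.toAffineMap.comp A) y = a y - C * b y :=
    fun y hy => by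
      rw [AffineMap.comp_apply, ← hA hy]
      simp [L]
  have := convexHull_min (fun p hp => ?_)
    ((convex_Iic (0 : ℝ)).affine_preimage (L.toAffineMap.comp A)) hxs
  · rw [mem_preimage, hL x hxs, mem_Iic] at this
    linarith
  · rw [mem_preimage, hL p (subset_convexHull ℝ _ hp), mem_Iic, sub_nonpos]
    exact hv p (Finset.mem_biUnion.2 ⟨s, hs, hp⟩)

theorem A1.locCone_prod {E F : Type} [NormedAddCommGroup E] [NormedSpace ℝ E]
    [NormedAddCommGroup F] [NormedSpace ℝ F] {X : Set E} {Y : Set F} (hX : LocCone X)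
    (hY : LocCone Y) : LocCone (X ×ˢ Y) := by
  rintro ⟨x, y⟩
  obtain ⟨r, hr, h1⟩ := hX x
  obtain ⟨s, hs, h2⟩ := hY y
  exact ⟨min r s, lt_min hr hs, fun v hv t ht => and_congr
    (h1 v.1 ((norm_fst_le v).trans (hv.trans (min_le_left _ _))) t ht)
    (h2 v.2 ((norm_snd_le v).trans (hv.trans (min_le_right _ _))) t ht)⟩

theorem lip : LIP := by
  intro E F _ _ _ _ _ _ X h hX hc hh
  let e : E ≃L[ℝ] (Fin (Module.finrank ℝ E) → ℝ) := ContinuousLinearEquiv.ofFinrankEq (by simp)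
  let f : F ≃L[ℝ] (Fin (Module.finrank ℝ F) → ℝ) := ContinuousLinearEquiv.ofFinrankEq (by simp)
  have hZ := locCone_prod hc hc
  have c1 : ContinuousOn (fun p : E × E => f (h p.1 - h p.2)) (X ×ˢ X) :=
    f.continuous.comp_continuousOn ((hh.1.comp continuousOn_fst fun _ hp => hp.1).sub
      (hh.1.comp continuousOn_snd fun _ hp => hp.2))
  have c2 : ContinuousOn (fun p : E × E => e (p.1 - p.2)) (X ×ˢ X) := by fun_prop
  have k1 : ConicalOn (fun p : E × E => f (h p.1 - h p.2)) (X ×ˢ X) :=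
    ((hh.2.comp (Sh.conicalOn_fst hZ.conicalSet) (fun _ hp => hp.1) continuousOn_fst).sub
      (hh.2.comp (Sh.conicalOn_snd hZ.conicalSet) (fun _ hp => hp.2)
        continuousOn_snd)).linear_comp f.toLinearMap
  have k2 : ConicalOn (fun p : E × E => e (p.1 - p.2)) (X ×ˢ X) :=
    ((Sh.conicalOn_fst hZ.conicalSet).sub (Sh.conicalOn_snd hZ.conicalSet)).linear_comp
      e.toLinearMap
  obtain ⟨C, hC, H⟩ := cmp_thm (a := fun p : E × E => ‖f (h p.1 - h p.2)‖)
    (b := fun p : E × E => ‖e (p.1 - p.2)‖) (hX.prod hX) hZ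
    ⟨c1.norm, Sh.conicalOn_norm_pi.comp k1 (mapsTo_univ _ _) c1⟩
    ⟨c2.norm, Sh.conicalOn_norm_pi.comp k2 (mapsTo_univ _ _) c2⟩ (fun _ _ => norm_nonneg _)
    (fun p _ hp => by
      have : p.1 = p.2 := by simpa [sub_eq_zero] using hp
      simp [this])
  refine ⟨NNReal.mk (‖(f.symm : (Fin (Module.finrank ℝ F) → ℝ) →L[ℝ] F)‖ *
    (C * ‖(e : E →L[ℝ] (Fin (Module.finrank ℝ E) → ℝ))‖)) (by positivity),
    LipschitzOnWith.of_dist_le_mul fun x hx y hy => ?_⟩
  have h1 := (f.symm : (Fin (Module.finrank ℝ F) → ℝ) →L[ℝ] F).le_opNorm (f (h x - h y))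
  have h2 := (e : E →L[ℝ] (Fin (Module.finrank ℝ E) → ℝ)).le_opNorm (x - y)
  have h3 := H (x, y) ⟨hx, hy⟩
  simp only [ContinuousLinearEquiv.coe_coe, ContinuousLinearEquiv.symm_apply_apply] at h1 h2 h3
  rw [dist_eq_norm, dist_eq_norm, NNReal.coe_mk, mul_assoc, mul_assoc]
  refine h1.trans ?_
  gcongr
  exact h3.trans (by gcongr)

theorem aeaff : AEAFF := by
  intro n F _ _ _ U h hU hh
  have key : ∀ x ∈ U, ∃ r > 0, closedBall x r ⊆ U ∧ LocCone (closedBall x r) ∧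
      PLOn h (closedBall x r) := fun x hx => by
    obtain ⟨r, hr, hb⟩ := Metric.nhds_basis_closedBall.mem_iff.1 (hU.mem_nhds hx)
    have hc : LocCone (closedBall x r) := by
      rw [closedBall_pi x hr.le]
      simp only [Real.closedBall_eq_Icc, pi_univ_Icc]
      exact locCone_Icc_pi _ _
    exact ⟨r, hr, hb, hc, hh.1.mono hb, hh.2.mono hc.conicalSet hb⟩
  constructor
  · intro x hx
    obtain ⟨r, hr, -, hc, hp⟩ := key x hx
    obtain ⟨M, hM⟩ := lip (isCompact_closedBall x r) hc hp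
    exact ⟨M, _, mem_nhdsWithin_of_mem_nhds (closedBall_mem_nhds x hr), hM⟩
  · rw [ae_iff]
    refine measure_null_of_locally_null _ fun x hx => ?_
    rw [mem_ofPred_eq, Classical.not_imp] at hx
    obtain ⟨r, hr, -, hc, hp⟩ := key x hx.1
    obtain ⟨𝒮, -, h2, h3⟩ := exists_simplices (isCompact_closedBall x r) hc hp.2
    refine ⟨_, inter_mem_nhdsWithin _ (closedBall_mem_nhds x hr), measure_mono_null
      (t := ⋃ s ∈ 𝒮, frontier (convexHull ℝ (s : Set (Fin n → ℝ)))) (fun y hy => ?_) ?_⟩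
    · obtain ⟨s, hs, hys⟩ := mem_iUnion₂.1 (h2 ▸ hy.2)
      refine mem_iUnion₂.2 ⟨s, hs, subset_closure hys, fun hi => hy.1 fun _ => ?_⟩
      obtain ⟨A, hA⟩ := h3 s hs
      exact ⟨A, eventually_of_mem (mem_interior_iff_mem_nhds.1 hi) hA⟩
    · exact (measure_biUnion_null_iff 𝒮.countable_toSet).2 fun s _ =>
        (convex_convexHull ℝ _).addHaar_frontier volume

end P073
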