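import Vale.Agent.P073Z.Defs

/-!
# Regular PL cell complexes: the basic interface
-/

open Set Metric Topology Filter

namespace P073

section general

variable {T ι : Type} [TopologicalSpace T] {X : ι → Set T} {V : Set T}

theorem LFIn.mono (h : LFIn X V) {W : Set T} (hW : W ⊆ V) : LFIn X W := fun x hx => h x (hW hx)

/-- a locally finite family meets a compact set finitely often -/
theorem LFIn.finite_meet (h : LFIn X V) {C : Set T} (hC : IsCompact C) (hCV : C ⊆ V) :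
    {i | (X i ∩ C).Nonempty}.Finite := by
  classical
  choose! U hU hfin using h
  obtain ⟨t, htC, ht⟩ := hC.elim_nhds_subcover U (fun x hx => hU x (hCV hx))
  refine (t.finite_toSet.biUnion fun x hx => hfin x (hCV (htC x hx))).subset ?_
  rintro i ⟨y, hyi, hyC⟩
  obtain ⟨x, hx, hyU⟩ := mem_iUnion₂.1 (ht hyC)
  exact mem_iUnion₂.2 ⟨x, hx, y, hyi, hyU⟩

theorem LFIn.finite_mem (h : LFIn X V) {x : T} (hx : x ∈ V) : {i | x ∈ X i}.Finite := by
  obtain ⟨U, hU, hfin⟩ := h x hx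
  exact hfin.subset fun i hi => ⟨x, hi, mem_of_mem_nhds hU⟩

/-- near a point only members containing the point are seen -/
theorem LFIn.exists_nhds (h : LFIn X V) (hc : ∀ i, IsClosed (X i)) {x : T} (hx : x ∈ V) :
    ∃ U ∈ 𝓝 x, ∀ i, (X i ∩ U).Nonempty → x ∈ X i := by
  obtain ⟨U, hU, hfin⟩ := h x hx
  have hfin' : {i | (X i ∩ U).Nonempty ∧ x ∉ X i}.Finite := hfin.subset fun i hi => hi.1
  have h2 : (⋂ i ∈ {i | (X i ∩ U).Nonempty ∧ x ∉ X i}, (X i)ᶜ) ∈ 𝓝 x :=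
    (biInter_mem hfin').2 fun i hi => (hc i).isOpen_compl.mem_nhds hi.2
  refine ⟨_, inter_mem hU h2, ?_⟩
  rintro i ⟨y, hyi, hyU, hy2⟩
  by_contra hxi
  exact mem_iInter₂.1 hy2 i ⟨⟨y, hyi, hyU⟩, hxi⟩ hyi

theorem LFIn.eventually (h : LFIn X V) (hc : ∀ i, IsClosed (X i)) {x : T} (hx : x ∈ V) :
    ∀ᶠ y in 𝓝 x, ∀ i, y ∈ X i → x ∈ X i := by
  obtain ⟨U, hU, H⟩ := h.exists_nhds hc hx
  filter_upwards [hU] with y hy i hi using H i ⟨y, hi, hy⟩

/-- a union of members of a locally finite family of closed sets is closed -/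
theorem LFIn.closedIn_of_cover (h : LFIn X V) (hc : ∀ i, IsClosed (X i)) {Y : Set T}
    (hY : ∀ y ∈ Y, ∃ i, y ∈ X i ∧ X i ⊆ Y) : ClosedIn Y V := by
  intro x hx hcl
  obtain ⟨U, hU, H⟩ := h.exists_nhds hc hx
  obtain ⟨y, hyU, hyY⟩ := mem_closure_iff_nhds.1 hcl U hU
  obtain ⟨i, hi, hsub⟩ := hY y hyY
  exact hsub (H i ⟨y, hi, hyU⟩)

theorem LFIn.comp_injective (h : LFIn X V) {κ : Type} {f : κ → ι} (hf : Function.Injective f) :
    LFIn (fun k => X (f k)) V := by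
  intro x hx
  obtain ⟨U, hU, hfin⟩ := h x hx
  exact ⟨U, hU, Finite.preimage (f := f) hf.injOn hfin⟩

theorem LFIn.countable [SecondCountableTopology T] (h : LFIn X V)
    (hne : ∀ i, (X i ∩ V).Nonempty) : Countable ι := by
  choose! U hU hfin using h
  obtain ⟨t, htV, htc, ht⟩ := TopologicalSpace.countable_cover_nhdsWithin (s := V) (f := U)
    (fun x hx => mem_nhdsWithin_of_mem_nhds (hU x hx))
  rw [← countable_univ_iff]
  refine (htc.biUnion fun x hx => (hfin x (htV hx)).countable).mono ?_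
  intro i _
  obtain ⟨y, hyi, hyV⟩ := hne i
  obtain ⟨x, hx, hyU⟩ := mem_iUnion₂.1 (ht hyV)
  exact mem_iUnion₂.2 ⟨x, hx, y, hyi, hyU⟩

theorem ClosedIn.mono {Y W : Set T} (h : ClosedIn Y V) (hW : W ⊆ V) : ClosedIn Y W :=
  fun x hx => h x (hW hx)

theorem closedIn_of_isClosed {Y : Set T} (h : IsClosed Y) (V : Set T) : ClosedIn Y V :=
  fun _ _ hx => h.closure_eq ▸ hx

/-- the complement of a relatively closed set is a neighbourhood of its points -/
theorem ClosedIn.compl_mem_nhds {Y : Set T} (h : ClosedIn Y V) {x : T} (hx : x ∈ V)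
    (hxY : x ∉ Y) : Yᶜ ∈ 𝓝 x := by
  have : x ∉ closure Y := fun hc => hxY (h x hx hc)
  exact mem_of_superset (isClosed_closure.isOpen_compl.mem_nhds this)
    (compl_subset_compl.2 subset_closure)

theorem ClosedIn.isOpen_diff {Y : Set T} (h : ClosedIn Y V) (hV : IsOpen V) : IsOpen (V \ Y) :=
  isOpen_iff_mem_nhds.2 fun _ hx => inter_mem (hV.mem_nhds hx.1) (h.compl_mem_nhds hx.1 hx.2)

end general

variable {E F : Type} [NormedAddCommGroup E] [NormedSpace ℝ E]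
  [NormedAddCommGroup F] [NormedSpace ℝ F]

/-- a union of members of a locally finite family of polyhedra is a polyhedron -/
theorem LFIn.locConeAt_of_cover {ι : Type} {X : ι → Set E} {V Y : Set E} (h : LFIn X V)
    (hc : ∀ i, LocCone (X i)) (hY : ∀ y ∈ Y, ∃ i, y ∈ X i ∧ X i ⊆ Y) {x : E} (hx : x ∈ V) :
    LocConeAt Y x := by
  obtain ⟨U, hU, hfin⟩ := h x hx
  have hfin' : {i | (X i ∩ U).Nonempty ∧ X i ⊆ Y}.Finite := hfin.subset fun i hi => hi.1
  have : Finite {i | (X i ∩ U).Nonempty ∧ X i ⊆ Y} := hfin'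
  have key : LocConeAt (⋃ i : {i | (X i ∩ U).Nonempty ∧ X i ⊆ Y}, X i) x :=
    LocConeAt.iUnion_finite fun i => hc i x
  refine (locConeAt_congr ?_).1 key
  filter_upwards [hU] with y hy
  constructor
  · intro hh
    obtain ⟨i, hi⟩ := mem_iUnion.1 hh
    exact i.2.2 hi
  · intro hh
    obtain ⟨i, hi, hsub⟩ := hY y hh
    exact mem_iUnion.2 ⟨⟨i, ⟨y, hi, hy⟩, hsub⟩, hi⟩

/-- a locally finite family stays locally finite under a homeomorphism of a set containing it -/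
theorem LFIn.image {ι S T : Type} [TopologicalSpace S] [TopologicalSpace T] {X : ι → Set S}
    {V A : Set S} {B : Set T} {f : S → T} {g : T → S} (h : LFIn X V) (hVA : V ⊆ A)
    (hX : ∀ i, X i ⊆ A) (hm : MapsTo f A B) (hl : LeftInvOn g f A) (hg : ContinuousOn g B) :
    LFIn (fun i => f '' X i) (f '' V) := by
  rintro _ ⟨x, hx, rfl⟩
  obtain ⟨U, hU, hfin⟩ := h x hx
  have h1 : g ⁻¹' U ∈ 𝓝[B] (f x) := by
    apply hg (f x) (hm (hVA hx))
    rw [hl (hVA hx)]; exact hU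
  obtain ⟨W, hW, hWs⟩ := mem_nhdsWithin_iff_exists_mem_nhds_inter.1 h1
  refine ⟨W, hW, hfin.subset ?_⟩
  rintro i ⟨_, ⟨y, hy, rfl⟩, hyW⟩
  have h2 : g (f y) ∈ U := hWs ⟨hyW, hm (hX i hy)⟩
  rw [hl (hX i hy)] at h2
  exact ⟨y, hy, h2⟩

/-! ### small balls -/

theorem ConBall.diff_nonempty {n : ℕ} {C B : Set E} (h : ConBall n C B) : (C \ B).Nonempty := by
  obtain ⟨hBC, φ, hφ⟩ := h
  have h0 : (0 : Fin n → ℝ) ∈ closedBall (0 : Fin n → ℝ) 1 := mem_closedBall_self zero_le_one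
  refine ⟨φ.invFun 0, φ.mapsTo_inv h0, fun hB => ?_⟩
  have : φ.toFun (φ.invFun 0) ∈ sphere (0 : Fin n → ℝ) 1 := hφ ▸ mem_image_of_mem _ hB
  rw [φ.right_inv h0] at this
  simp at this

theorem ConBall.nonempty {n : ℕ} {C B : Set E} (h : ConBall n C B) : C.Nonempty :=
  h.diff_nonempty.mono sdiff_subset

theorem ConBall.zero_eq {C B : Set E} (h : ConBall 0 C B) : (∃ a, C = {a}) ∧ B = ∅ := by
  obtain ⟨hBC, φ, hφ⟩ := h
  have h0 : (0 : Fin 0 → ℝ) ∈ closedBall (0 : Fin 0 → ℝ) 1 := mem_closedBall_self zero_le_one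
  refine ⟨⟨φ.invFun 0, ?_⟩, ?_⟩
  · refine eq_singleton_iff_unique_mem.2 ⟨φ.mapsTo_inv h0, fun x hx => ?_⟩
    rw [← φ.left_inv hx, Subsingleton.elim (φ.toFun x) 0]
  · refine eq_empty_iff_forall_notMem.2 fun x hx => ?_
    have : φ.toFun x ∈ sphere (0 : Fin 0 → ℝ) 1 := hφ ▸ mem_image_of_mem _ hx
    rw [Subsingleton.elim (φ.toFun x) 0, mem_sphere_zero_iff_norm, norm_zero] at this
    exact zero_ne_one this

theorem conBall_zero (a : E) : ConBall 0 ({a} : Set E) ∅ := by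
  refine ⟨empty_subset _,
    { toFun := fun _ => 0
      invFun := fun _ => a
      mapsTo := fun _ _ => mem_closedBall_self zero_le_one
      mapsTo_inv := fun _ _ => rfl
      left_inv := fun x hx => hx.symm
      right_inv := fun x _ => Subsingleton.elim _ _
      cont := continuousOn_const
      cont_inv := continuousOn_const
      conical := conicalOn_const _ (Convex.conicalSet (convex_singleton a)) }, ?_⟩
  rw [image_empty]
  refine (eq_empty_iff_forall_notMem.2 fun x hx => ?_).symm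
  rw [Subsingleton.elim x 0, mem_sphere_zero_iff_norm, norm_zero] at hx
  exact zero_ne_one hx

/-- the interval as a one-dimensional cube -/
def icc1 : ConHomeo (Icc (-1:ℝ) 1) (closedBall (0 : Fin 1 → ℝ) 1) where
  toFun := fun t _ => t
  invFun := fun x => x 0
  mapsTo := fun t ht => by
    rw [mem_closedBall_zero_iff, pi_norm_le_iff_of_nonneg zero_le_one]
    intro _
    exact abs_le.2 ht
  mapsTo_inv := fun x hx => by
    rw [mem_closedBall_zero_iff, pi_norm_le_iff_of_nonneg zero_le_one] at hx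
    exact abs_le.1 (hx 0)
  left_inv := fun _ _ => rfl
  right_inv := fun x _ => by
    funext i
    rw [Subsingleton.elim i 0]
  cont := (continuous_pi fun _ => continuous_id).continuousOn
  cont_inv := (continuous_apply 0).continuousOn
  conical := conicalOn_linear (LinearMap.pi fun _ : Fin 1 => (LinearMap.id : ℝ →ₗ[ℝ] ℝ))
    (Convex.conicalSet (convex_Icc _ _))

theorem icc1_ends : icc1.toFun '' ({-1, 1} : Set ℝ) = sphere 0 1 := by
  ext x
  rw [mem_sphere_zero_iff_norm]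
  have hx : x = fun _ => x 0 := by
    funext i
    rw [Subsingleton.elim i 0]
  have hn : ‖x‖ = |x 0| := by
    rw [hx]; exact pi_norm_const (x 0)
  rw [hn]
  constructor
  · rintro ⟨t, ht, rfl⟩
    rcases ht with rfl | rfl
    · show |(-1:ℝ)| = 1
      simp
    · show |(1:ℝ)| = 1
      simp
  · intro h
    refine ⟨x 0, ?_, hx.symm⟩
    rcases (abs_eq zero_le_one).1 h with h | h
    · exact Or.inr h
    · exact Or.inl h

theorem ConBall.one_arc {C B : Set E} (h : ConBall 1 C B) : ∃ p q, IsArc C p q ∧ B = {p, q} := by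
  obtain ⟨φ, hφ⟩ := h.eq_preimage
  refine ⟨_, _, IsArc.of_param (show (-1:ℝ) < 1 by norm_num) (icc1.trans φ.symm) rfl rfl, ?_⟩
  rw [← hφ, ← icc1_ends, image_image, image_pair]
  rfl

theorem IsArc.conBall {A : Set E} {p q : E} (h : IsArc A p q) : ConBall 1 A {p, q} := by
  have hp := h.left_mem
  have hq := h.right_mem
  obtain ⟨φ, h0, h1⟩ := h.exists_param (show (-1:ℝ) < 1 by norm_num)
  refine ⟨insert_subset hp (singleton_subset_iff.2 hq), φ.symm.trans icc1, ?_⟩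
  rw [← icc1_ends, image_pair, image_pair, ← h0, ← h1]
  show ({icc1.toFun (φ.invFun (φ.toFun (-1))), icc1.toFun (φ.invFun (φ.toFun 1))} : Set _) = _
  rw [φ.left_inv ⟨le_rfl, by norm_num⟩, φ.left_inv ⟨by norm_num, le_rfl⟩]

/-- a connected part of an arc with both ends is the arc -/
theorem IsArc.eq_of_isPreconnected {A S : Set E} {p q : E} (h : IsArc A p q) (hS : S ⊆ A)
    (hc : IsPreconnected S) (hp : p ∈ S) (hq : q ∈ S) : S = A := by
  obtain ⟨φ, h0, h1⟩ := h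
  have h2 : IsPreconnected (φ.invFun '' S) := hc.image _ (φ.cont_inv.mono hS)
  have e0 : (0:ℝ) ∈ φ.invFun '' S :=
    ⟨p, hp, by rw [← h0, φ.left_inv ⟨le_rfl, zero_le_one⟩]⟩
  have e1 : (1:ℝ) ∈ φ.invFun '' S :=
    ⟨q, hq, by rw [← h1, φ.left_inv ⟨zero_le_one, le_rfl⟩]⟩
  refine Subset.antisymm hS fun x hx => ?_
  obtain ⟨y, hy, hyx⟩ := h2.Icc_subset e0 e1 (φ.mapsTo_inv hx)
  rw [← φ.right_inv hx, ← hyx, φ.right_inv (hS hy)]
  exact hy

theorem IsArc.eq_segment {A : Set E} {p q : E} (h : IsArc A p q) (hc : Convex ℝ A) :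
    A = segment ℝ p q :=
  (h.eq_of_isPreconnected (hc.segment_subset h.left_mem h.right_mem)
    (convex_segment p q).isPreconnected (left_mem_segment _ _ _) (right_mem_segment _ _ _)).symm

/-! ### complexes -/

namespace RCx

variable (K : RCx E) {i j : K.ι} {x : E} {X Y : Set E}

theorem bd_subset (i : K.ι) : K.bd i ⊆ K.cell i := (K.ball i).1
theorem ocell_subset (i : K.ι) : K.ocell i ⊆ K.cell i := sdiff_subset
theorem cell_subset_carrier (i : K.ι) : K.cell i ⊆ K.carrier := subset_iUnion K.cell i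
theorem mem_carrier : x ∈ K.carrier ↔ ∃ i, x ∈ K.cell i := mem_iUnion
theorem mem_skel {k : ℕ} : x ∈ K.skel k ↔ ∃ i, K.dim i ≤ k ∧ x ∈ K.cell i := by
  simp only [skel, mem_iUnion, exists_prop]
theorem mem_rbd {T : Type} {R : K.ι → Set T} {y : T} :
    y ∈ K.rbd R i ↔ ∃ j, K.cell j ⊆ K.bd i ∧ y ∈ R j := by
  simp only [rbd, mem_iUnion, exists_prop]
theorem mem_rskel {T : Type} {R : K.ι → Set T} {y : T} {k : ℕ} :
    y ∈ K.rskel R k ↔ ∃ i, K.dim i ≤ k ∧ y ∈ R i := by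
  simp only [rskel, mem_iUnion, exists_prop]
theorem subset_rbd {T : Type} (R : K.ι → Set T) (h : K.cell j ⊆ K.bd i) : R j ⊆ K.rbd R i :=
  fun _ hy => K.mem_rbd.2 ⟨j, h, hy⟩
theorem subset_rskel {T : Type} (R : K.ι → Set T) {k : ℕ} (h : K.dim i ≤ k) :
    R i ⊆ K.rskel R k := fun _ hy => K.mem_rskel.2 ⟨i, h, hy⟩
theorem cell_subset_skel {k : ℕ} (h : K.dim i ≤ k) : K.cell i ⊆ K.skel k :=
  fun _ hy => K.mem_skel.2 ⟨i, h, hy⟩
theorem skel_subset_carrier (k : ℕ) : K.skel k ⊆ K.carrier := fun _ hx =>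
  let ⟨i, _, hi⟩ := K.mem_skel.1 hx; K.cell_subset_carrier i hi
theorem skel_mono {k l : ℕ} (h : k ≤ l) : K.skel k ⊆ K.skel l := fun _ hx =>
  let ⟨i, hi, hx⟩ := K.mem_skel.1 hx; K.mem_skel.2 ⟨i, hi.trans h, hx⟩
theorem rskel_mono {T : Type} (R : K.ι → Set T) {k l : ℕ} (h : k ≤ l) :
    K.rskel R k ⊆ K.rskel R l := fun _ hx =>
  let ⟨i, hi, hx⟩ := K.mem_rskel.1 hx; K.mem_rskel.2 ⟨i, hi.trans h, hx⟩
theorem rskel_cell (k : ℕ) : K.rskel K.cell k = K.skel k := rfl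
theorem skel_eq_carrier {k : ℕ} (h : ∀ i, K.dim i ≤ k) : K.skel k = K.carrier :=
  Subset.antisymm (K.skel_subset_carrier k) fun _ hx =>
    let ⟨i, hi⟩ := K.mem_carrier.1 hx; K.mem_skel.2 ⟨i, h i, hi⟩

theorem isCompact_cell (i : K.ι) : IsCompact (K.cell i) := (K.ball i).isCompact
theorem isClosed_cell (i : K.ι) : IsClosed (K.cell i) := (K.ball i).isClosed
theorem isCompact_bd (i : K.ι) : IsCompact (K.bd i) := (K.ball i).isCompact_bdry
theorem isClosed_bd (i : K.ι) : IsClosed (K.bd i) := (K.isCompact_bd i).isClosed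
theorem locCone_cell (i : K.ι) : LocCone (K.cell i) := (K.ball i).locCone
theorem locCone_bd (i : K.ι) : LocCone (K.bd i) := (K.ball i).locCone_bdry
theorem locCone_ocell (i : K.ι) : LocCone (K.ocell i) :=
  (K.locCone_cell i).inter (K.locCone_bd i).compl
theorem ocell_nonempty (i : K.ι) : (K.ocell i).Nonempty := (K.ball i).diff_nonempty
theorem cell_nonempty (i : K.ι) : (K.cell i).Nonempty := (K.ball i).nonempty
theorem lfIn : LFIn K.cell K.carrier := K.lf

theorem ocell_unique (hi : x ∈ K.ocell i) (hj : x ∈ K.ocell j) : i = j := by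
  by_contra h
  exact Set.disjoint_left.1 (K.disj i j h) hi hj

theorem exists_face_bd (hx : x ∈ K.bd i) :
    ∃ j, x ∈ K.ocell j ∧ K.cell j ⊆ K.bd i ∧ K.dim j < K.dim i := K.bdry i x hx

/-- every point of a cell lies in an open face -/
theorem exists_face (hx : x ∈ K.cell i) : ∃ j, x ∈ K.ocell j ∧ K.cell j ⊆ K.cell i := by
  by_cases hb : x ∈ K.bd i
  · obtain ⟨j, h1, h2, -⟩ := K.bdry i x hb
    exact ⟨j, h1, h2.trans (K.bd_subset i)⟩
  · exact ⟨i, ⟨hx, hb⟩, Subset.rfl⟩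

theorem exists_ocell (hx : x ∈ K.carrier) : ∃ i, x ∈ K.ocell i := by
  obtain ⟨i, hi⟩ := K.mem_carrier.1 hx
  obtain ⟨j, hj, -⟩ := K.exists_face hi
  exact ⟨j, hj⟩

theorem existsUnique_ocell (hx : x ∈ K.carrier) : ∃! i, x ∈ K.ocell i :=
  let ⟨i, hi⟩ := K.exists_ocell hx; ⟨i, hi, fun _ hj => K.ocell_unique hj hi⟩

/-- an open cell meeting a cell is a face of it -/
theorem cell_subset_of_mem (hj : x ∈ K.ocell j) (hi : x ∈ K.cell i) : K.cell j ⊆ K.cell i := by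
  obtain ⟨m, hm, hsub⟩ := K.exists_face hi
  rwa [K.ocell_unique hj hm]

theorem subset_bd_of_mem (hj : x ∈ K.ocell j) (hi : x ∈ K.bd i) : K.cell j ⊆ K.bd i := by
  obtain ⟨m, hm, hsub, -⟩ := K.bdry i x hi
  rwa [K.ocell_unique hj hm]

theorem dim_lt (h : K.cell j ⊆ K.bd i) : K.dim j < K.dim i := by
  obtain ⟨x, hx⟩ := K.ocell_nonempty j
  obtain ⟨m, hm, -, hd⟩ := K.bdry i x (h hx.1)
  rwa [K.ocell_unique hx hm]

theorem eq_or_subset_bd (h : K.cell j ⊆ K.cell i) : j = i ∨ K.cell j ⊆ K.bd i := by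
  obtain ⟨x, hx⟩ := K.ocell_nonempty j
  by_cases hb : x ∈ K.bd i
  · exact Or.inr (K.subset_bd_of_mem hx hb)
  · exact Or.inl (K.ocell_unique hx ⟨h hx.1, hb⟩)

theorem subset_bd_of_ne (h : K.cell j ⊆ K.cell i) (hne : j ≠ i) : K.cell j ⊆ K.bd i :=
  (K.eq_or_subset_bd h).resolve_left hne

theorem dim_le (h : K.cell j ⊆ K.cell i) : K.dim j ≤ K.dim i := by
  rcases K.eq_or_subset_bd h with h | h
  · rw [h]
  · exact (K.dim_lt h).le

theorem eq_of_subset_of_dim_le (h : K.cell j ⊆ K.cell i) (hd : K.dim i ≤ K.dim j) : j = i :=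
  (K.eq_or_subset_bd h).resolve_right fun h => absurd (K.dim_lt h) (not_lt.2 hd)

theorem subset_bd_of_dim_lt (h : K.cell j ⊆ K.cell i) (hd : K.dim j < K.dim i) :
    K.cell j ⊆ K.bd i := K.subset_bd_of_ne h fun e => by rw [e] at hd; exact lt_irrefl _ hd

theorem subset_bd_iff : K.cell j ⊆ K.bd i ↔ K.cell j ⊆ K.cell i ∧ j ≠ i :=
  ⟨fun h => ⟨h.trans (K.bd_subset i), fun e => by
    have := K.dim_lt h
    rw [e] at this; exact lt_irrefl _ this⟩, fun h => K.subset_bd_of_ne h.1 h.2⟩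

theorem cell_injective : Function.Injective K.cell := fun _ _ h =>
  K.eq_of_subset_of_dim_le h.le (K.dim_le h.ge)

theorem not_cell_subset_bd (i : K.ι) : ¬ K.cell i ⊆ K.bd i := fun h => lt_irrefl _ (K.dim_lt h)

/-- a point of two cells lies in an open common face -/
theorem exists_common_face (hi : x ∈ K.cell i) (hj : x ∈ K.cell j) :
    ∃ m, x ∈ K.ocell m ∧ K.cell m ⊆ K.cell i ∧ K.cell m ⊆ K.cell j :=
  let ⟨m, hm, h⟩ := K.exists_face hi; ⟨m, hm, h, K.cell_subset_of_mem hm hj⟩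

/-- two different cells, the first not of smaller dimension, meet in the boundary of the first -/
theorem inter_subset_bd (hne : i ≠ j) (hd : K.dim j ≤ K.dim i) : K.cell i ∩ K.cell j ⊆ K.bd i := by
  rintro x ⟨hi, hj⟩
  by_contra hb
  exact hne (K.eq_of_subset_of_dim_le (K.cell_subset_of_mem ⟨hi, hb⟩ hj) hd)

theorem disjoint_ocell_cell (h : ¬ K.cell i ⊆ K.cell j) : Disjoint (K.ocell i) (K.cell j) :=
  Set.disjoint_left.2 fun _ hi hj => h (K.cell_subset_of_mem hi hj)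

theorem mem_skel_iff_dim (hi : x ∈ K.ocell i) {k : ℕ} : x ∈ K.skel k ↔ K.dim i ≤ k :=
  ⟨fun h => let ⟨_, hj, hx⟩ := K.mem_skel.1 h; (K.dim_le (K.cell_subset_of_mem hi hx)).trans hj,
    fun h => K.mem_skel.2 ⟨i, h, hi.1⟩⟩

theorem cell_inter_skel {k : ℕ} (h : K.dim i = k + 1) : K.cell i ∩ K.skel k = K.bd i := by
  apply Subset.antisymm
  · rintro x ⟨hi, hk⟩
    by_contra hb
    have := (K.mem_skel_iff_dim ⟨hi, hb⟩).1 hk
    omega
  · intro x hx
    obtain ⟨j, hj, -, hd⟩ := K.bdry i x hx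
    exact ⟨K.bd_subset i hx, K.mem_skel.2 ⟨j, by omega, hj.1⟩⟩

theorem bd_subset_skel {k : ℕ} (h : K.dim i ≤ k + 1) : K.bd i ⊆ K.skel k := by
  intro x hx
  obtain ⟨j, hj, -, hd⟩ := K.bdry i x hx
  exact K.mem_skel.2 ⟨j, by omega, hj.1⟩

theorem finite_meet {C : Set E} (hC : IsCompact C) (h : C ⊆ K.carrier) :
    {i | (K.cell i ∩ C).Nonempty}.Finite := K.lfIn.finite_meet hC h

theorem finite_subset {C : Set E} (hC : IsCompact C) (h : C ⊆ K.carrier) :
    {i | K.cell i ⊆ C}.Finite := (K.finite_meet hC h).subset fun i hi => by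
  obtain ⟨x, hx⟩ := K.cell_nonempty i
  exact ⟨x, hx, hi hx⟩

theorem finite_meet_cell (i : K.ι) : {j | (K.cell j ∩ K.cell i).Nonempty}.Finite :=
  K.finite_meet (K.isCompact_cell i) (K.cell_subset_carrier i)

theorem finite_faces (i : K.ι) : {j | K.cell j ⊆ K.cell i}.Finite :=
  K.finite_subset (K.isCompact_cell i) (K.cell_subset_carrier i)

theorem finite_bd_faces (i : K.ι) : {j | K.cell j ⊆ K.bd i}.Finite :=
  (K.finite_faces i).subset fun _ hj => Subset.trans hj (K.bd_subset i)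

theorem finite_cofaces (i : K.ι) : {j | K.cell i ⊆ K.cell j}.Finite :=
  (K.finite_meet_cell i).subset fun _ hj =>
    let ⟨x, hx⟩ := K.cell_nonempty i; ⟨x, hj hx, hx⟩

theorem finite_mem (hx : x ∈ K.carrier) : {i | x ∈ K.cell i}.Finite := K.lfIn.finite_mem hx

theorem rbd_cell (i : K.ι) : K.rbd K.cell i = K.bd i := by
  apply Subset.antisymm
  · intro x hx
    obtain ⟨j, hj, hx⟩ := K.mem_rbd.1 hx
    exact hj hx
  · intro x hx
    obtain ⟨j, hj, hsub, -⟩ := K.bdry i x hx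
    exact K.mem_rbd.2 ⟨j, hsub, hj.1⟩

/-- near a point of the carrier only cells through the point are seen -/
theorem exists_nhds (hx : x ∈ K.carrier) :
    ∃ U ∈ 𝓝 x, ∀ i, (K.cell i ∩ U).Nonempty → x ∈ K.cell i :=
  K.lfIn.exists_nhds K.isClosed_cell hx

theorem eventually_star (hx : x ∈ K.carrier) : ∀ᶠ y in 𝓝 x, ∀ i, y ∈ K.cell i → x ∈ K.cell i :=
  K.lfIn.eventually K.isClosed_cell hx

/-- near a point of an open cell only cofaces are seen -/
theorem eventually_coface (hx : x ∈ K.ocell j) :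
    ∀ᶠ y in 𝓝 x, ∀ i, y ∈ K.cell i → K.cell j ⊆ K.cell i :=
  (K.eventually_star (K.cell_subset_carrier j hx.1)).mono fun _ h i hi =>
    K.cell_subset_of_mem hx (h i hi)

theorem countable [SecondCountableTopology E] : Countable K.ι :=
  K.lfIn.countable fun i => let ⟨x, hx⟩ := K.cell_nonempty i; ⟨x, hx, K.cell_subset_carrier i hx⟩

/-! ### subcomplexes as sets -/

theorem Sub.subset_carrier {K : RCx E} (h : K.Sub X) : X ⊆ K.carrier := fun x hx =>
  let ⟨i, hi, _⟩ := h x hx; K.cell_subset_carrier i hi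

theorem Sub.cell_subset {K : RCx E} {j : K.ι} (h : K.Sub X) (hj : x ∈ K.ocell j) (hx : x ∈ X) :
    K.cell j ⊆ X :=
  let ⟨_, hi, hs⟩ := h x hx; (K.cell_subset_of_mem hj hi).trans hs

theorem Sub.exists_ocell {K : RCx E} (h : K.Sub X) (hx : x ∈ X) :
    ∃ j, x ∈ K.ocell j ∧ K.cell j ⊆ X :=
  let ⟨j, hj⟩ := K.exists_ocell (h.subset_carrier hx); ⟨j, hj, h.cell_subset hj hx⟩

theorem Sub.subset_or_disjoint {K : RCx E} (h : K.Sub X) (j : K.ι) :
    K.cell j ⊆ X ∨ Disjoint (K.ocell j) X := by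
  by_cases hd : Disjoint (K.ocell j) X
  · exact Or.inr hd
  · obtain ⟨x, hj, hx⟩ := not_disjoint_iff.1 hd
    exact Or.inl (h.cell_subset hj hx)

theorem Sub.eq_iUnion {K : RCx E} (h : K.Sub X) : X = ⋃ i, ⋃ (_ : K.cell i ⊆ X), K.cell i :=
  Subset.antisymm (fun x hx => let ⟨i, hi, hs⟩ := h x hx; mem_iUnion₂.2 ⟨i, hs, hi⟩)
    (iUnion₂_subset fun _ hi => hi)

theorem sub_empty : K.Sub ∅ := fun _ hx => hx.elim
theorem sub_cell (i : K.ι) : K.Sub (K.cell i) := fun _ hx => ⟨i, hx, Subset.rfl⟩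
theorem sub_bd (i : K.ι) : K.Sub (K.bd i) := fun x hx =>
  let ⟨j, hj, hs, _⟩ := K.bdry i x hx; ⟨j, hj.1, hs⟩
theorem sub_skel (k : ℕ) : K.Sub (K.skel k) := fun _ hx =>
  let ⟨i, hi, hx⟩ := K.mem_skel.1 hx; ⟨i, hx, K.cell_subset_skel hi⟩
theorem sub_carrier : K.Sub K.carrier := fun _ hx =>
  let ⟨i, hx⟩ := K.mem_carrier.1 hx; ⟨i, hx, K.cell_subset_carrier i⟩

theorem Sub.union {K : RCx E} (h : K.Sub X) (h' : K.Sub Y) : K.Sub (X ∪ Y) := by
  rintro x (hx | hx)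
  · obtain ⟨i, hi, hs⟩ := h x hx
    exact ⟨i, hi, hs.trans subset_union_left⟩
  · obtain ⟨i, hi, hs⟩ := h' x hx
    exact ⟨i, hi, hs.trans subset_union_right⟩

theorem Sub.inter {K : RCx E} (h : K.Sub X) (h' : K.Sub Y) : K.Sub (X ∩ Y) := fun _ hx =>
  let ⟨j, hj, hs⟩ := h.exists_ocell hx.1; ⟨j, hj.1, subset_inter hs (h'.cell_subset hj hx.2)⟩

theorem sub_iUnion {κ : Sort*} {Z : κ → Set E} (h : ∀ k, K.Sub (Z k)) : K.Sub (⋃ k, Z k) := by
  intro x hx
  obtain ⟨k, hk⟩ := mem_iUnion.1 hx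
  obtain ⟨i, hi, hs⟩ := h k x hk
  exact ⟨i, hi, hs.trans (subset_iUnion Z k)⟩

theorem sub_iInter {κ : Sort*} [Nonempty κ] {Z : κ → Set E} (h : ∀ k, K.Sub (Z k)) :
    K.Sub (⋂ k, Z k) := by
  intro x hx
  obtain ⟨k⟩ := ‹Nonempty κ›
  obtain ⟨j, hj, -⟩ := (h k).exists_ocell (mem_iInter.1 hx k)
  exact ⟨j, hj.1, subset_iInter fun l => (h l).cell_subset hj (mem_iInter.1 hx l)⟩

theorem sub_biUnion (P : K.ι → Prop) : K.Sub (⋃ i, ⋃ (_ : P i), K.cell i) :=
  K.sub_iUnion fun i => K.sub_iUnion fun _ => K.sub_cell i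

theorem Sub.closedIn {K : RCx E} (h : K.Sub X) : ClosedIn X K.carrier :=
  K.lfIn.closedIn_of_cover K.isClosed_cell h

theorem Sub.locConeAt {K : RCx E} (h : K.Sub X) (hx : x ∈ K.carrier) : LocConeAt X x :=
  K.lfIn.locConeAt_of_cover K.locCone_cell h hx

theorem Sub.locConeOn {K : RCx E} (h : K.Sub X) : LocConeOn X K.carrier :=
  fun _ hx => h.locConeAt hx

theorem Sub.conicalSet {K : RCx E} (h : K.Sub X) : ConicalSet X := fun _ hx =>
  (h.locConeAt (h.subset_carrier hx)).conicalSetAt hx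

theorem Sub.locCone {K : RCx E} (h : K.Sub X) (hc : IsClosed X) : LocCone X := fun x => by
  by_cases hx : x ∈ X
  · exact h.locConeAt (h.subset_carrier hx)
  · exact locConeAt_of_compl_mem_nhds (hc.isOpen_compl.mem_nhds hx)

theorem Sub.locCone_of_isCompact {K : RCx E} (h : K.Sub X) (hc : IsCompact X) : LocCone X :=
  h.locCone hc.isClosed

theorem Sub.isCompact_of_finite {K : RCx E} (h : K.Sub X) (hf : {i | K.cell i ⊆ X}.Finite) :
    IsCompact X := by
  rw [h.eq_iUnion]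
  exact hf.isCompact_biUnion fun i _ => K.isCompact_cell i

/-- continuity is checked cell by cell -/
theorem Sub.continuousOn {K : RCx E} (h : K.Sub X) {T : Type} [TopologicalSpace T] {f : E → T}
    (hf : ∀ i, K.cell i ⊆ X → ContinuousOn f (K.cell i)) : ContinuousOn f X := by
  have hL : RelLF (fun i : {i // K.cell i ⊆ X} => K.cell i) :=
    ⟨fun z hz => (K.lfIn.comp_injective Subtype.val_injective) z
      (iUnion_subset (fun i => K.cell_subset_carrier _) hz),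
      fun i z _ hz => (K.isClosed_cell i).closure_eq ▸ hz⟩
  refine (hL.continuousOn fun i => hf i i.2).mono fun x hx => ?_
  obtain ⟨i, hi, hs⟩ := h x hx
  exact mem_iUnion.2 ⟨⟨i, hs⟩, hi⟩

/-- conicality is checked cell by cell -/
theorem Sub.conicalOn {K : RCx E} (h : K.Sub X) {f : E → F}
    (hf : ∀ i, K.cell i ⊆ X → ConicalOn f (K.cell i)) : ConicalOn f X := by
  have hL : RelLF (fun i : {i // K.cell i ⊆ X} => K.cell i) :=
    ⟨fun z hz => (K.lfIn.comp_injective Subtype.val_injective) z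
      (iUnion_subset (fun i => K.cell_subset_carrier _) hz),
      fun i z _ hz => (K.isClosed_cell i).closure_eq ▸ hz⟩
  refine (hL.conicalOn fun i => hf i i.2).mono h.conicalSet fun x hx => ?_
  obtain ⟨i, hi, hs⟩ := h x hx
  exact mem_iUnion.2 ⟨⟨i, hs⟩, hi⟩

theorem Sub.plOn {K : RCx E} (h : K.Sub X) {f : E → F}
    (hf : ∀ i, K.cell i ⊆ X → PLOn f (K.cell i)) : PLOn f X :=
  ⟨h.continuousOn fun i hi => (hf i hi).1, h.conicalOn fun i hi => (hf i hi).2⟩

/-- a cell of maximal dimension in a subcomplex is a neighbourhood of its open cell -/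
theorem Sub.cell_mem_nhdsWithin {K : RCx E} {j : K.ι} (h : K.Sub X) (hx : x ∈ K.ocell j)
    (hd : ∀ i, K.cell i ⊆ X → K.cell j ⊆ K.cell i → K.dim i ≤ K.dim j) :
    K.cell j ∈ 𝓝[X] x := by
  filter_upwards [mem_nhdsWithin_of_mem_nhds (K.eventually_coface hx), self_mem_nhdsWithin]
    with y hy hyX
  obtain ⟨i, hi, hs⟩ := h y hyX
  rw [K.eq_of_subset_of_dim_le (hy i hi) (hd i hs (hy i hi))]
  exact hi

/-! ### vertices and edges -/

theorem exists_vertex (h : K.dim i = 0) : ∃ a, K.cell i = {a} :=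
  (ConBall.zero_eq (h ▸ K.ball i)).1

theorem bd_eq_empty (h : K.dim i = 0) : K.bd i = ∅ := (ConBall.zero_eq (h ▸ K.ball i)).2

theorem ocell_eq_cell (h : K.dim i = 0) : K.ocell i = K.cell i := by
  rw [ocell, K.bd_eq_empty h, sdiff_empty]

/-- a boundary point of an edge is a vertex -/
theorem vertex_of_mem_bd (h : K.dim i = 1) (hx : x ∈ K.bd i) :
    ∃ j, K.dim j = 0 ∧ K.cell j = {x} := by
  obtain ⟨j, hj, -, hd⟩ := K.bdry i x hx
  have h0 : K.dim j = 0 := by omega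
  obtain ⟨a, ha⟩ := K.exists_vertex h0
  have : x = a := by have := hj.1; rwa [ha] at this
  exact ⟨j, h0, this ▸ ha⟩

/-- an edge is an arc between two different vertices -/
theorem exists_edge (h : K.dim i = 1) : ∃ (p q : E) (j₁ j₂ : K.ι), IsArc (K.cell i) p q ∧
    K.bd i = {p, q} ∧ K.dim j₁ = 0 ∧ K.dim j₂ = 0 ∧ K.cell j₁ = {p} ∧ K.cell j₂ = {q} ∧
    j₁ ≠ j₂ := by
  obtain ⟨p, q, ha, hb⟩ := ConBall.one_arc (h ▸ K.ball i)
  obtain ⟨j₁, h1, h1'⟩ := K.vertex_of_mem_bd h (x := p) (by rw [hb]; simp)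
  obtain ⟨j₂, h2, h2'⟩ := K.vertex_of_mem_bd h (x := q) (by rw [hb]; simp)
  refine ⟨p, q, j₁, j₂, ha, hb, h1, h2, h1', h2', fun e => ha.ne ?_⟩
  rw [e, h2'] at h1'
  exact (singleton_injective h1').symm

theorem Cvx.exists_segment {K : RCx E} {i : K.ι} (hK : K.Cvx) (h : K.dim i = 1) :
    ∃ (p q : E) (j₁ j₂ : K.ι), p ≠ q ∧ K.cell i = segment ℝ p q ∧
    K.bd i = {p, q} ∧ K.dim j₁ = 0 ∧ K.dim j₂ = 0 ∧ K.cell j₁ = {p} ∧ K.cell j₂ = {q} ∧
    j₁ ≠ j₂ := by
  obtain ⟨p, q, j₁, j₂, ha, hr⟩ := K.exists_edge h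
  exact ⟨p, q, j₁, j₂, ha.ne, ha.eq_segment (hK i).1, hr⟩

end RCx

end P073
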