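import Vale.Agent.P073Z.EN.B
import Vale.Agent.P073Z.RCX
import Vale.Agent.P073Z.A1b

/-!
# Energy on the boundary of a cell
-/

open Set Metric Topology Filter MeasureTheory
open scoped ENNReal NNReal

namespace P073

/-- a PL ball is null for the Hausdorff measures of higher dimension -/
theorem ConBall.hausdorff_zero {E : Type} [NormedAddCommGroup E] [NormedSpace ℝ E]
    [FiniteDimensional ℝ E] [MeasurableSpace E] [BorelSpace E] {m k : ℕ} {C B : Set E}
    (h : ConBall m C B) (hk : m < k) : μH[(k : ℝ)] C = 0 := by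
  obtain ⟨-, φ, -⟩ := h
  have hc : LocCone (closedBall (0 : Fin m → ℝ) 1) := (Sh.conBall_cube m one_pos).locCone
  obtain ⟨M, hM⟩ := lip (isCompact_closedBall (0 : Fin m → ℝ) 1) hc ⟨φ.cont_inv, φ.conical_inv⟩
  have h1 : C ⊆ φ.invFun '' closedBall 0 1 := fun x hx => ⟨_, φ.mapsTo hx, φ.left_inv hx⟩
  have h2 : μH[(k : ℝ)] (closedBall (0 : Fin m → ℝ) 1) = 0 := by
    have : dimH (closedBall (0 : Fin m → ℝ) 1) < ((k : ℝ≥0) : ℝ≥0∞) := by
      refine (dimH_mono (subset_univ _)).trans_lt ?_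
      rw [Real.dimH_univ_pi_fin]
      exact_mod_cast hk
    simpa using hausdorffMeasure_of_dimH_lt this
  refine measure_mono_null h1 (nonpos_iff_eq_zero.1 ?_)
  refine (hM.hausdorffMeasure_image_le (Nat.cast_nonneg k)).trans ?_
  rw [h2, mul_zero]

theorem enc : ENC := by
  intro E F _ _ _ _ _ _ _ K k p h s i hp hi hs
  refine EN.en_le_sum hp s (g := fun _ => h) (K.isClosed_bd i).measurableSet
    (fun _ _ _ _ => rfl) ?_
  have hfin : {j | K.cell j ⊆ K.bd i ∧ K.dim j < k}.Finite :=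
    (K.finite_bd_faces i).subset fun _ hj => hj.1
  have h0 : (μH[(k : ℝ)] : Measure E)
      (⋃ j ∈ {j | K.cell j ⊆ K.bd i ∧ K.dim j < k}, K.cell j) = 0 :=
    (measure_biUnion_null_iff hfin.countable).2 fun j hj => (K.ball j).hausdorff_zero hj.2
  filter_upwards [compl_mem_ae_iff.2 h0] with x hx hxb
  obtain ⟨j, hj, hsub, hd⟩ := K.exists_face_bd hxb
  have hjk : K.dim j = k := by
    by_contra hne
    exact hx (mem_iUnion₂.2 ⟨j, ⟨hsub, by omega⟩, hj.1⟩)
  refine ⟨j, (hs j).2 ⟨hsub, hjk⟩, (K.sub_bd i).cell_mem_nhdsWithin hj fun l hl _ => ?_⟩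
  have := K.dim_lt hl
  omega

end P073
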