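import Vale.Agent.P073Z.Sk2
import Vale.Agent.P073Z.EN.B

/-!
# Bounded variation on almost every segment from every point
-/

open Set Metric Topology Filter MeasureTheory
open scoped ENNReal NNReal

namespace P073

open Vale.Agent.P073.HB

section seg

variable {E : Type} [NormedAddCommGroup E] [NormedSpace ℝ E] {T T' : Type}

theorem lineMap_mem_seg (a b : E) {s : ℝ} (hs : s ∈ Icc (0:ℝ) 1) :
    AffineMap.lineMap a b s ∈ segment ℝ a b := by
  rw [segment_eq_image_lineMap]; exact mem_image_of_mem _ hs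

theorem segVar_congr [PseudoEMetricSpace T] {f g : E → T} {a b : E}
    (h : EqOn f g (segment ℝ a b)) : segVar f a b = segVar g a b :=
  eVariationOn.eq_of_eqOn fun _ hs => h (lineMap_mem_seg a b hs)

theorem segVar_self [PseudoEMetricSpace T] (f : E → T) (a : E) : segVar f a a = 0 := by
  refine eVariationOn.constant_on ?_
  rintro _ ⟨s, -, rfl⟩ _ ⟨t, -, rfl⟩
  simp

/-- the variation on a subsegment is smaller -/
theorem segVar_mono [PseudoEMetricSpace T] (f : E → T) {a b c d : E} (hc : c ∈ segment ℝ a b)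
    (hd : d ∈ segment ℝ a b) : segVar f c d ≤ segVar f a b := by
  rw [segment_eq_image_lineMap] at hc hd
  obtain ⟨s, hs, rfl⟩ := hc
  obtain ⟨t, ht, rfl⟩ := hd
  have e : (fun u : ℝ => f (AffineMap.lineMap (AffineMap.lineMap a b s) (AffineMap.lineMap a b t) u))
      = (fun u : ℝ => f (AffineMap.lineMap a b u)) ∘ fun u : ℝ => s + u * (t - s) := by
    funext u
    simp only [Function.comp, AffineMap.lineMap_apply_module']
    congr 1
    module
  have hm : MapsTo (fun u : ℝ => s + u * (t - s)) (Icc 0 1) (Icc 0 1) := fun u hu =>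
    ⟨by nlinarith [hu.1, hu.2, hs.1, ht.1], by nlinarith [hu.1, hu.2, hs.2, ht.2]⟩
  unfold segVar
  rw [e]
  rcases le_total s t with h | h
  · exact eVariationOn.comp_le_of_monotoneOn _ _ (fun u _ v _ huv => by
      show s + u * (t - s) ≤ s + v * (t - s)
      nlinarith) hm
  · exact eVariationOn.comp_le_of_antitoneOn _ _ (fun u _ v _ huv => by
      show s + v * (t - s) ≤ s + u * (t - s)
      nlinarith) hm

theorem segVar_symm [PseudoEMetricSpace T] (f : E → T) (a b : E) : segVar f a b = segVar f b a :=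
  le_antisymm (segVar_mono f (right_mem_segment _ _ _) (left_mem_segment _ _ _))
    (segVar_mono f (right_mem_segment _ _ _) (left_mem_segment _ _ _))

theorem edist_le_segVar [PseudoEMetricSpace T] (f : E → T) {a b c d : E} (hc : c ∈ segment ℝ a b)
    (hd : d ∈ segment ℝ a b) : edist (f c) (f d) ≤ segVar f a b := by
  rw [segment_eq_image_lineMap] at hc hd
  obtain ⟨s, hs, rfl⟩ := hc
  obtain ⟨t, ht, rfl⟩ := hd
  exact eVariationOn.edist_le (fun u : ℝ => f (AffineMap.lineMap a b u)) hs ht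

theorem segVar_comp_le [PseudoEMetricSpace T] [PseudoEMetricSpace T'] {f : E → T} {L : T → T'}
    {W : Set T} {K : ℝ≥0} {a b : E} (hL : LipschitzOnWith K L W)
    (hm : MapsTo f (segment ℝ a b) W) : segVar (L ∘ f) a b ≤ K * segVar f a b :=
  hL.comp_eVariationOn_le (g := fun s : ℝ => f (AffineMap.lineMap a b s))
    fun _ hs => hm (lineMap_mem_seg a b hs)

/-- composition with a locally Lipschitz map preserves bounded variation on a segment -/
theorem segVar_comp_lt_top [PseudoMetricSpace T] [PseudoMetricSpace T'] {f : E → T} {L : T → T'}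
    {W : Set T} {a b : E} (hL : LocallyLipschitzOn W L) (hf : ContinuousOn f (segment ℝ a b))
    (hm : MapsTo f (segment ℝ a b) W) (h : segVar f a b < ⊤) : segVar (L ∘ f) a b < ⊤ := by
  have hc : IsCompact (segment ℝ a b) := by
    rw [segment_eq_image_lineMap]
    exact isCompact_Icc.image AffineMap.lineMap_continuous
  obtain ⟨K, hK⟩ := (hL.mono hm.image_subset).exists_lipschitzOnWith_of_compact
    (hc.image_of_continuousOn hf)
  exact (segVar_comp_le hK (mapsTo_image _ _)).trans_lt (ENNReal.mul_lt_top ENNReal.coe_lt_top h)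

end seg

theorem GenBV.mono {T : Type} [PseudoEMetricSpace T] {f : E3 → T} {U V : Set E3} (h : GenBV f U)
    (hV : V ⊆ U) : GenBV f V := fun x =>
  (h x).mono fun _ hy a ha b hb hx hs => hy a ha b hb hx (hs.trans hV)

theorem GenBV.congr {T : Type} [PseudoEMetricSpace T] {f g : E3 → T} {U : Set E3} (h : GenBV f U)
    (he : EqOn f g U) : GenBV g U := fun x =>
  (h x).mono fun _ hy a ha b hb hx hs => segVar_congr (he.mono hs) ▸ hy a ha b hb hx hs

/-- composition with a locally Lipschitz map -/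
theorem GenBV.comp {T T' : Type} [PseudoMetricSpace T] [PseudoMetricSpace T'] {f : E3 → T}
    {L : T → T'} {U V : Set E3} {W : Set T} (h : GenBV f U) (hV : V ⊆ U) (hf : ContinuousOn f V)
    (hm : MapsTo f V W) (hL : LocallyLipschitzOn W L) : GenBV (L ∘ f) V := fun x =>
  (h x).mono fun _ hy a ha b hb hx hs =>
    segVar_comp_lt_top hL (hf.mono hs) (hm.mono_left hs) (hy a ha b hb hx (hs.trans hV))

namespace GB

/-- the variation on a good segment is bounded by the integral of the derivative -/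
theorem var_le_of_good {E E' : Type} [NormedAddCommGroup E] [NormedSpace ℝ E]
    [NormedAddCommGroup E'] [NormedSpace ℝ E'] {f : E → E'} {F : E → (E →L[ℝ] E')} {z v : E}
    (h : GoodSeg f F z v) : eVariationOn (fun t : ℝ => f (z + t • v)) (Icc 0 1) ≤
      ∫⁻ t in Ioc (0:ℝ) 1, ‖F (z + t • v) v‖ₑ := by
  refine iSup_le ?_
  rintro ⟨n, u, hu, hm⟩
  have key : ∀ n, ∑ i ∈ Finset.range n, edist (f (z + u (i + 1) • v)) (f (z + u i • v)) ≤
      ∫⁻ t in Ioc (u 0) (u n), ‖F (z + t • v) v‖ₑ := by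
    intro n
    induction n with
    | zero => simp
    | succ n ih =>
      rw [Finset.sum_range_succ,
        ← Ioc_union_Ioc_eq_Ioc (hu (Nat.zero_le n)) (hu (Nat.le_succ n)),
        lintegral_union measurableSet_Ioc (Ioc_disjoint_Ioc_of_le le_rfl)]
      refine add_le_add ih ?_
      rw [edist_eq_enorm_sub, h.diff (hm n) (hm (n + 1)),
        intervalIntegral.integral_of_le (hu (Nat.le_succ n))]
      exact enorm_integral_le_lintegral_enorm _
  exact (key n).trans (lintegral_mono_set (Ioc_subset_Ioc (hm 0).1 (hm n).2))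

theorem hausdorff3 : (μH[((3 : ℕ) : ℝ)] : Measure E3) = volume := by
  have := hausdorffMeasure_pi_real (ι := Fin 3)
  rwa [Fintype.card_fin] at this

theorem lintegral_homothety (G : E3 → ℝ≥0∞) (x : E3) {δ : ℝ≥0} (hδ : 0 < δ) {s : ℝ}
    (hs : (δ : ℝ) ≤ s) : ∫⁻ y, G (x + s • (y - x)) ≤ ((δ⁻¹ : ℝ≥0) : ℝ≥0∞) ^ 3 * ∫⁻ z, G z := by
  have hδ' : (0:ℝ) < δ := hδ
  have hs0 : s ≠ 0 := (hδ'.trans_le hs).ne'
  have hL : LipschitzOnWith δ⁻¹ (fun z : E3 => x + s⁻¹ • (z - x)) univ := by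
    refine LipschitzOnWith.of_dist_le_mul fun z _ z' _ => ?_
    rw [dist_add_left, dist_smul₀, dist_sub_right, Real.norm_eq_abs,
      abs_of_pos (inv_pos.2 (hδ'.trans_le hs)), NNReal.coe_inv]
    gcongr
  have := EN.lintegral_le_of_lip (X := univ) (d := ((3:ℕ):ℝ)) (Nat.cast_nonneg 3)
    MeasurableSet.univ hL (fun y _ => ⟨x + s • (y - x), mem_univ _, by simp [smul_smul, hs0]⟩)
    (fun y => G (x + s • (y - x)))
  rw [hausdorff3, Measure.restrict_univ, ENNReal.rpow_natCast] at this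
  simpa [smul_smul, hs0] using this

theorem lintegral_reparam (g : ℝ → ℝ≥0∞) {s t : ℝ} (hst : s ≠ t) {I : Set ℝ}
    (hI : MeasurableSet I) (hsub : uIcc s t ⊆ I) :
    ∫⁻ u in Ioc (0:ℝ) 1, g (s + u * (t - s)) ≤ (‖(t - s)⁻¹‖₊ : ℝ≥0∞) * ∫⁻ u in I, g u := by
  have h0 : t - s ≠ 0 := sub_ne_zero.2 hst.symm
  have hL : LipschitzOnWith ‖(t - s)⁻¹‖₊ (fun z : ℝ => (t - s)⁻¹ • (z - s)) I := by
    refine LipschitzOnWith.of_dist_le_mul fun z _ z' _ => ?_
    rw [dist_smul₀, dist_sub_right, coe_nnnorm]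
  have := EN.lintegral_le_of_lip (X := Ioc (0:ℝ) 1) (d := 1) zero_le_one hI hL
    (fun u hu => ⟨s + u * (t - s), hsub ?_, by simp; field_simp⟩) (fun u => g (s + u * (t - s)))
  · rw [hausdorffMeasure_real, ENNReal.rpow_one] at this
    refine this.trans_eq ?_
    congr 2
    funext u
    congr 1
    simp only [smul_eq_mul]
    field_simp
    ring
  · rcases le_total s t with h | h
    · rw [uIcc_of_le h]
      exact ⟨by nlinarith [hu.1, hu.2], by nlinarith [hu.1, hu.2]⟩
    · rw [uIcc_of_ge h]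
      exact ⟨by nlinarith [hu.1, hu.2], by nlinarith [hu.1, hu.2]⟩

/-- probability measures concentrating at the origin -/
theorem exists_prob : ∃ ν : ℕ → Measure E3, ∀ n, IsProbabilityMeasure (ν n) ∧ ν n ≪ volume ∧
    ∀ᵐ w ∂(ν n), w ∈ ball (0 : E3) (1 / ((n:ℝ) + 1)) :=
  ⟨fun n => ProbabilityTheory.cond volume (ball (0 : E3) (1 / ((n:ℝ) + 1))), fun _ =>
    ⟨ProbabilityTheory.cond_isProbabilityMeasure_of_finite
      (measure_ball_pos _ _ Nat.one_div_pos_of_nat).ne' measure_ball_lt_top.ne,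
    ProbabilityTheory.cond_absolutelyContinuous,
    ProbabilityTheory.ae_cond_mem measurableSet_ball⟩⟩

/-- Fubini along the rays from `x`, and Fatou -/
theorem ae_liminf_lt_top {G : ℕ → E3 → ℝ≥0∞} (hG : ∀ n, Measurable (G n)) {C : ℝ≥0∞}
    (hC : C ≠ ⊤) (hGC : ∀ n, ∫⁻ z, G n z ≤ C) (x : E3) {δ : ℝ≥0} (hδ : 0 < δ) :
    ∀ᵐ y : E3, liminf (fun n => ∫⁻ s in Icc (δ:ℝ) 1, G n (x + s • (y - x))) atTop < ⊤ := by
  have hm : ∀ n, Measurable (Function.uncurry fun (y : E3) (s : ℝ) => G n (x + s • (y - x))) :=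
    fun n => (hG n).comp (by fun_prop : Continuous fun q : E3 × ℝ => x + q.2 • (q.1 - x)).measurable
  have hI : ∀ n, Measurable fun y : E3 => ∫⁻ s in Icc (δ:ℝ) 1, G n (x + s • (y - x)) :=
    fun n => (hm n).lintegral_prod_right
  refine ae_lt_top (Measurable.liminf hI) (ne_top_of_le_ne_top ?_ ((lintegral_liminf_le hI).trans
    (liminf_le_of_frequently_le' (x := ((δ⁻¹ : ℝ≥0) : ℝ≥0∞) ^ 3 * C * volume (Icc (δ:ℝ) 1))
      (Frequently.of_forall fun n => ?_))))
  · exact ENNReal.mul_ne_top (ENNReal.mul_ne_top (ENNReal.pow_ne_top ENNReal.coe_ne_top) hC)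
      measure_Icc_lt_top.ne
  · rw [lintegral_lintegral_swap (hm n).aemeasurable, ← setLIntegral_const]
    refine setLIntegral_mono' measurableSet_Icc fun s hs => ?_
    exact (lintegral_homothety (G n) x hδ hs.1).trans (mul_le_mul_right (hGC n) _)

/-- one segment: lower semicontinuity of the variation along good translates -/
theorem var_le {Ω K : Set E3} {f : E3 → E3} {F : E3 → (E3 →L[ℝ] E3)} (hΩ : IsOpen Ω)
    (hf : ContinuousOn f Ω) (hF : LocallyIntegrableOn F Ω volume) (hw : WeakDeriv volume Ω f F)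
    (hK : K ⊆ Ω) {k : E3 → ℝ≥0∞} (hk : Measurable k) (hFk : ∀ z ∈ K, ‖F z‖ₑ ≤ k z)
    {ν : ℕ → Measure E3} (hν : ∀ n, IsProbabilityMeasure (ν n) ∧ ν n ≪ volume ∧
      ∀ᵐ w ∂(ν n), w ∈ ball (0 : E3) (1 / ((n:ℝ) + 1)))
    {a v : E3} {r : ℝ} (hr : 0 < r) (hseg : ∀ t ∈ Icc (0:ℝ) 1, ball (a + t • v) r ⊆ K)
    {C : ℝ≥0∞} (hC : ∃ᶠ n in atTop, ∫⁻ t in Ioc (0:ℝ) 1, ∫⁻ w, k (a + t • v + w) ∂(ν n) ≤ C) :
    eVariationOn (fun t : ℝ => f (a + t • v)) (Icc 0 1) ≤ ‖v‖ₑ * C := by
  have hm : Measurable (Function.uncurry fun (w : E3) (t : ℝ) => k (a + t • v + w)) :=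
    hk.comp (by fun_prop : Continuous fun q : E3 × ℝ => a + q.2 • v + q.1).measurable
  have hex : ∀ n : ℕ, ∃ w ∈ ball (0 : E3) (1 / ((n:ℝ) + 1)),
      ((∀ s ∈ Icc (0:ℝ) 1, w + a + s • v ∈ Ω) → GoodSeg f F (w + a) v) ∧
      ∫⁻ t in Ioc (0:ℝ) 1, k (a + t • v + w) ≤
        ∫⁻ t in Ioc (0:ℝ) 1, ∫⁻ w, k (a + t • v + w) ∂(ν n) := by
    intro n
    obtain ⟨h1, h2, h3⟩ := hν n
    have h4 := h2.ae_le (ae_goodSeg_countable (μ := volume) hΩ hf hF hw (fun _ : Unit => a)
      (fun _ => v))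
    obtain ⟨w, hw1, hw2⟩ := exists_notMem_null_le_lintegral (μ := ν n)
      (f := fun w => ∫⁻ t in Ioc (0:ℝ) 1, k (a + t • v + w)) hm.lintegral_prod_right.aemeasurable
      (ae_iff.1 (h3.and h4))
    rw [mem_ofPred_eq, not_not] at hw1
    rw [lintegral_lintegral_swap hm.aemeasurable] at hw2
    exact ⟨w, hw1.1, hw1.2 (), hw2⟩
  choose w hw1 hw2 hw3 using hex
  have hw0 : Tendsto w atTop (𝓝 0) :=
    tendsto_zero_iff_norm_tendsto_zero.2 (squeeze_zero (fun _ => norm_nonneg _)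
      (fun n => (mem_ball_zero_iff.1 (hw1 n)).le) tendsto_one_div_add_atTop_nhds_zero_nat)
  by_contra hlt
  have h1 := eVariationOn.lowerSemicontinuous_aux (p := atTop)
    (F := fun n (t : ℝ) => f (w n + a + t • v)) (fun t ht => by
      have hc : ContinuousAt f (a + t • v) :=
        hf.continuousAt (hΩ.mem_nhds (hK (hseg t ht (mem_ball_self hr))))
      refine hc.tendsto.comp ?_
      have := (hw0.add_const a).add_const (t • v)
      rwa [zero_add] at this) (not_le.1 hlt)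
  obtain ⟨n, hn1, hn2, hn3⟩ := (hC.and_eventually (h1.and (hw0.eventually (ball_mem_nhds 0 hr)))).exists
  have hin : ∀ t ∈ Icc (0:ℝ) 1, w n + a + t • v ∈ K := fun t ht => hseg t ht (by
    rw [mem_ball, dist_eq_norm, add_assoc, add_sub_cancel_right]
    exact mem_ball_zero_iff.1 hn3)
  refine hn2.not_ge ((var_le_of_good (hw2 n fun t ht => hK (hin t ht))).trans ?_)
  refine le_trans ?_ (mul_le_mul_right ((hw3 n).trans hn1) _)
  rw [← lintegral_const_mul' _ _ enorm_ne_top]
  refine setLIntegral_mono' measurableSet_Ioc fun t ht => ?_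
  refine (ContinuousLinearMap.le_opENorm _ _).trans ?_
  rw [mul_comm, show a + t • v + w n = w n + a + t • v by abel]
  exact mul_le_mul_right (hFk _ (hin t (Ioc_subset_Icc_self ht))) _

theorem exists_major {K : Set E3} {F : E3 → (E3 →L[ℝ] E3)} (hK : MeasurableSet K)
    (hF : IntegrableOn F K) : ∃ k : E3 → ℝ≥0∞, Measurable k ∧ (∀ z ∈ K, ‖F z‖ₑ ≤ k z) ∧
      ∫⁻ z, k z ≠ ⊤ := by
  classical
  have h1 : AEMeasurable (K.indicator fun z => ‖F z‖ₑ) volume :=
    (aemeasurable_indicator_iff hK).2 hF.1.enorm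
  set N := toMeasurable volume {z | ¬ K.indicator (fun z => ‖F z‖ₑ) z = h1.mk _ z} with hN
  have hN0 : volume N = 0 := by
    rw [hN, measure_toMeasurable]; exact ae_iff.1 h1.ae_eq_mk
  refine ⟨N.piecewise (fun _ => ⊤) (h1.mk _), Measurable.piecewise (measurableSet_toMeasurable _ _)
    measurable_const h1.measurable_mk, fun z hz => ?_, ?_⟩
  · by_cases hzN : z ∈ N
    · rw [piecewise_eq_of_mem _ _ _ hzN]; exact le_top
    · rw [piecewise_eq_of_notMem _ _ _ hzN]
      have : K.indicator (fun z => ‖F z‖ₑ) z = h1.mk _ z := by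
        by_contra h
        exact hzN (subset_toMeasurable _ _ h)
      rw [← this, indicator_of_mem hz]
  · have : N.piecewise (fun _ => (⊤ : ℝ≥0∞)) (h1.mk _) =ᵐ[volume] K.indicator fun z => ‖F z‖ₑ := by
      filter_upwards [compl_mem_ae_iff.2 hN0, h1.ae_eq_mk] with z hz hz'
      rw [piecewise_eq_of_notMem _ _ _ hz, hz']
    rw [lintegral_congr_ae this, lintegral_indicator hK]
    exact hF.2.ne

theorem exists_exhaustion {Ω : Set E3} (hΩ : IsOpen Ω) : ∃ K : ℕ → Set E3,
    (∀ j, IsCompact (K j) ∧ K j ⊆ Ω) ∧ ∀ S, IsCompact S → S ⊆ Ω →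
      ∃ j, ∃ r > 0, ∀ z ∈ S, ball z r ⊆ K j := by
  refine ⟨fun j => closedBall 0 j ∩ (thickening (1 / ((j:ℝ) + 1)) Ωᶜ)ᶜ, fun j =>
    ⟨(isCompact_closedBall _ _).inter_right isOpen_thickening.isClosed_compl, fun z hz => ?_⟩,
    fun S hS hSΩ => ?_⟩
  · by_contra h
    exact hz.2 (self_subset_thickening Nat.one_div_pos_of_nat _ h)
  · obtain ⟨δ, hδ, hd⟩ := (disjoint_compl_right_iff_subset.2 hSΩ).exists_thickenings hS
      hΩ.isClosed_compl
    obtain ⟨R, hR⟩ := (hS.isBounded.thickening (δ := δ)).subset_closedBall 0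
    obtain ⟨j, hj1, hj2⟩ := ((tendsto_natCast_atTop_atTop.eventually_ge_atTop R).and
      (tendsto_one_div_add_atTop_nhds_zero_nat.eventually (gt_mem_nhds hδ))).exists
    refine ⟨j, δ, hδ, fun z hz y hy => ?_⟩
    have h1 : y ∈ thickening δ S := mem_thickening_iff.2 ⟨z, hz, hy⟩
    exact ⟨closedBall_subset_closedBall hj1 (hR h1), fun h =>
      disjoint_left.1 hd h1 (thickening_mono hj2.le _ h)⟩

end GB

theorem genbv : GENBV := by
  intro Ω f F hΩ hf hF hw x
  obtain ⟨ν, hν⟩ := GB.exists_prob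
  obtain ⟨K, hK, hKS⟩ := GB.exists_exhaustion hΩ
  choose k hk hFk hkt using fun j => GB.exists_major (hK j).1.measurableSet
    (hF.integrableOn_compact_subset (hK j).2 (hK j).1)
  have hae : ∀ᵐ y : E3, ∀ j m : ℕ, liminf (fun n => ∫⁻ s in Icc ((((m:ℝ≥0) + 1)⁻¹ : ℝ≥0):ℝ) 1,
      ∫⁻ w, k j (x + s • (y - x) + w) ∂(ν n)) atTop < ⊤ := by
    refine ae_all_iff.2 fun j => ae_all_iff.2 fun m => ?_
    have hm : Measurable (Function.uncurry fun (z w : E3) => k j (z + w)) :=
      (hk j).comp measurable_add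
    refine GB.ae_liminf_lt_top (G := fun n z => ∫⁻ w, k j (z + w) ∂(ν n)) (fun n => ?_) (hkt j)
      (fun n => ?_) x (by positivity)
    · have := (hν n).1
      exact hm.lintegral_prod_right
    · have := (hν n).1
      rw [lintegral_lintegral_swap hm.aemeasurable]
      simp only [lintegral_add_right_eq_self]
      simp
  filter_upwards [hae] with y hy a ha b hb hx hs
  rw [segment_eq_image'] at ha hb
  obtain ⟨s, hs1, rfl⟩ := ha
  obtain ⟨t, ht1, rfl⟩ := hb
  beta_reduce at hx hs ⊢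
  by_cases hst : s = t
  · rw [hst, segVar_self]; exact ENNReal.zero_lt_top
  have hs0 : 0 < s := hs1.1.lt_of_ne fun h => hx (by
    rw [← h, zero_smul, add_zero]; exact left_mem_segment _ _ _)
  have ht0 : 0 < t := ht1.1.lt_of_ne fun h => hx (by
    rw [← h, zero_smul, add_zero]; exact right_mem_segment _ _ _)
  obtain ⟨m, hm⟩ := exists_nat_one_div_lt (lt_min hs0 ht0)
  have hc : IsCompact (segment ℝ (x + s • (y - x)) (x + t • (y - x))) := by
    rw [segment_eq_image_lineMap]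
    exact isCompact_Icc.image AffineMap.lineMap_continuous
  obtain ⟨j, r, hr, hjr⟩ := hKS _ hc hs
  obtain ⟨C, hC1, hC2⟩ := exists_between (hy j m)
  have hfr := frequently_lt_of_liminf_lt (h := hC1)
  have e : ∀ u : ℝ, AffineMap.lineMap (x + s • (y - x)) (x + t • (y - x)) u =
      x + s • (y - x) + u • ((t - s) • (y - x)) := fun u => by
    rw [AffineMap.lineMap_apply_module']
    module
  have hsub : uIcc s t ⊆ Icc ((((m:ℝ≥0) + 1)⁻¹ : ℝ≥0):ℝ) 1 := by
    have : ((((m:ℝ≥0) + 1)⁻¹ : ℝ≥0):ℝ) = 1 / ((m:ℝ) + 1) := by simp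
    rw [this]
    exact uIcc_subset_Icc ⟨(hm.trans_le (min_le_left _ _)).le, hs1.2⟩
      ⟨(hm.trans_le (min_le_right _ _)).le, ht1.2⟩
  have := GB.var_le (a := x + s • (y - x)) (v := (t - s) • (y - x))
    (C := (‖(t - s)⁻¹‖₊ : ℝ≥0∞) * C) hΩ hf hF hw (hK j).2 (hk j) (hFk j) hν hr
    (fun u hu => hjr _ (e u ▸ lineMap_mem_seg _ _ hu)) (hfr.mono fun n hn => by
      refine le_trans (le_of_eq ?_) ((GB.lintegral_reparam
        (fun u => ∫⁻ w, k j (x + u • (y - x) + w) ∂(ν n)) hst measurableSet_Icc hsub).trans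
        (mul_le_mul_right hn.le _))
      congr 1
      funext u
      rw [show x + s • (y - x) + u • ((t - s) • (y - x)) = x + (s + u * (t - s)) • (y - x) by module])
  unfold segVar
  simp only [e]
  exact this.trans_lt (ENNReal.mul_lt_top enorm_lt_top (ENNReal.mul_lt_top ENNReal.coe_lt_top hC2))

end P073
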