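import Vale.Agent.P073Z.Sk3
import Vale.Agent.P073Z.GenBV
import Vale.Agent.P073Z.EN

/-!
# Averaging over shifts, variation on good segments, energy of subcomplexes
-/

open Set Metric Topology Filter MeasureTheory
open scoped ENNReal NNReal

namespace P073

open Vale.Agent.P073.HB

theorem avg : AVG := by
  intro k S g η D hη hD hS hg hSD
  set ν : Measure E3 := (μH[(k : ℝ)] : Measure E3).restrict S with hν
  have hb : ∀ y, ν (closedBall y η) ≤ D := fun y => by
    rw [hν, Measure.restrict_apply measurableSet_closedBall, inter_comm]; exact hSD y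
  have : IsLocallyFiniteMeasure ν :=
    ⟨fun y => ⟨closedBall y η, closedBall_mem_nhds y hη, (hb y).trans_lt hD.lt_top⟩⟩
  have hm : Measurable (Function.uncurry fun w x : E3 => g (w + x)) := hg.comp measurable_add
  refine ⟨hm.lintegral_prod_right, ?_⟩
  rw [lintegral_lintegral_swap hm.aemeasurable]
  have h1 : ∀ x : E3, ∫⁻ w in closedBall (0 : E3) η, g (w + x) =
      ∫⁻ y, (closedBall y η).indicator (fun _ => g y) x := by
    intro x
    rw [← lintegral_indicator measurableSet_closedBall,
      ← lintegral_add_right_eq_self (fun y => (closedBall y η).indicator (fun _ => g y) x) x]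
    refine lintegral_congr fun w => ?_
    have : x ∈ closedBall (w + x) η ↔ w ∈ closedBall (0 : E3) η := by
      simp [mem_closedBall]
    by_cases hw : w ∈ closedBall (0 : E3) η
    · rw [indicator_of_mem hw, indicator_of_mem (this.2 hw)]
    · rw [indicator_of_notMem hw, indicator_of_notMem fun h => hw (this.1 h)]
  simp only [h1]
  have hm2 : Measurable (Function.uncurry fun x y : E3 =>
      (closedBall y η).indicator (fun _ => g y) x) := by
    have : (Function.uncurry fun x y : E3 => (closedBall y η).indicator (fun _ => g y) x) =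
        {q : E3 × E3 | dist q.1 q.2 ≤ η}.indicator (fun q => g q.2) := by
      funext q
      rfl
    rw [this]
    exact (hg.comp measurable_snd).indicator
      (isClosed_le continuous_dist continuous_const).measurableSet
  rw [lintegral_lintegral_swap hm2.aemeasurable, ← lintegral_const_mul' _ _ hD]
  refine lintegral_mono fun y => ?_
  rw [lintegral_indicator measurableSet_closedBall, setLIntegral_const, mul_comm]
  exact mul_le_mul_left (hb y) _

namespace AV

variable {E E' : Type} [NormedAddCommGroup E] [NormedSpace ℝ E] [NormedAddCommGroup E']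
  [NormedSpace ℝ E']

/-- integration over a segment -/
theorem lintegral_segment [MeasurableSpace E] [BorelSpace E] (x y : E) {G : E → ℝ≥0∞}
    (hG : Measurable G) : ∫⁻ z in segment ℝ x y, G z ∂(μH[1]) =
      edist x y * ∫⁻ t in Ioc (0:ℝ) 1, G (x + t • (y - x)) := by
  have hc : Measurable fun t : ℝ => AffineMap.lineMap x y t :=
    AffineMap.lineMap_continuous.measurable
  have : (μH[1] : Measure E).restrict (segment ℝ x y) = edist x y •
      Measure.map (fun t : ℝ => AffineMap.lineMap x y t) (volume.restrict (Icc 0 1)) := by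
    ext A hA
    rw [Measure.restrict_apply hA, Measure.smul_apply, Measure.map_apply hc hA,
      Measure.restrict_apply (hc hA), segment_eq_image_lineMap, ← image_preimage_inter,
      hausdorffMeasure_lineMap_image, hausdorffMeasure_real, edist_nndist]
    rfl
  rw [this, lintegral_smul_measure, lintegral_map hG hc, smul_eq_mul,
    ← Measure.restrict_congr_set Ioc_ae_eq_Icc]
  simp only [AffineMap.lineMap_apply, vsub_eq_sub, vadd_eq_add, add_comm]

theorem var_le_of_integral {φ ψ : ℝ → E'} (hψ : IntervalIntegrable ψ volume 0 1)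
    (h : ∀ t ∈ Icc (0:ℝ) 1, φ t = φ 0 + ∫ s in (0:ℝ)..t, ψ s) :
    eVariationOn φ (Icc 0 1) ≤ ∫⁻ t in Ioc (0:ℝ) 1, ‖ψ t‖ₑ := by
  have := GB.var_le_of_good (f := φ) (F := fun t => ContinuousLinearMap.toSpanSingleton ℝ (ψ t))
    (z := 0) (v := 1) ⟨by simpa using hψ, by simpa using h⟩
  simpa using this

theorem lintegral_rpow_le {α : Type} [MeasurableSpace α] (μ : Measure α) {G : α → ℝ≥0∞}
    (hG : AEMeasurable G μ) {p : ℝ} (hp : 1 ≤ p) :
    (∫⁻ z, G z ∂μ) ^ p ≤ μ univ ^ (p - 1) * ∫⁻ z, G z ^ p ∂μ := by
  rcases eq_or_lt_of_le hp with rfl | hp1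
  · simp
  have hpq := Real.HolderConjugate.conjExponent hp1
  have h1 := ENNReal.lintegral_mul_le_Lp_mul_Lq μ hpq hG (aemeasurable_const (b := (1 : ℝ≥0∞)))
  simp only [Pi.mul_apply, mul_one, ENNReal.one_rpow, lintegral_const, one_mul] at h1
  refine (ENNReal.rpow_le_rpow h1 (by linarith)).trans (le_of_eq ?_)
  rw [ENNReal.mul_rpow_of_nonneg _ _ (by linarith), ← ENNReal.rpow_mul, ← ENNReal.rpow_mul,
    one_div_mul_cancel (by linarith), ENNReal.rpow_one, one_div_mul_eq_div,
    hpq.div_conj_eq_sub_one, mul_comm]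

end AV

theorem segv : SEGV := by
  intro f F x y A p hp _ hF hg
  have key : ∀ B : E3 →L[ℝ] E3, ∫⁻ t in Ioc (0:ℝ) 1, ‖(F (x + t • (y - x)) - B) (y - x)‖ₑ ≤
      ∫⁻ z in segment ℝ x y, ‖F z - B‖ₑ ∂(μH[1]) := by
    intro B
    rw [AV.lintegral_segment x y (hF.sub_const B).enorm,
      ← lintegral_const_mul' _ _ (edist_ne_top x y)]
    refine lintegral_mono fun t => ?_
    rw [edist_comm, edist_eq_enorm_sub, mul_comm]
    exact ContinuousLinearMap.le_opENorm _ _
  have e : ∀ t : ℝ, AffineMap.lineMap x y t = x + t • (y - x) := fun t => by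
    simp only [AffineMap.lineMap_apply, vsub_eq_sub, vadd_eq_add, add_comm]
  have h0 : segVar f x y ≤ ∫⁻ t in Ioc (0:ℝ) 1, ‖F (x + t • (y - x)) (y - x)‖ₑ := by
    have := GB.var_le_of_good hg
    simpa only [segVar, e] using this
  refine ⟨h0.trans (by simpa using key 0), fun hA => h0.trans (by simpa [hA] using key A), ?_,
    hausdorffMeasure_segment x y, ?_⟩
  · have hi := hg.1
    have h1 : f y - f x - A (y - x) =
        ∫ s in (0:ℝ)..1, (F (x + s • (y - x)) - A) (y - x) := by
      have := hg.2 1 ⟨zero_le_one, le_rfl⟩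
      rw [one_smul, add_sub_cancel] at this
      simp only [sub_apply]
      rw [intervalIntegral.integral_sub hi intervalIntegrable_const, this]
      simp
    have h2 : ‖f y - f x - A (y - x)‖ₑ ≤ ∫⁻ z in segment ℝ x y, ‖F z - A‖ₑ ∂(μH[1]) := by
      rw [h1, intervalIntegral.integral_of_le zero_le_one]
      exact (enorm_integral_le_lintegral_enorm _).trans (key A)
    refine (AV.var_le_of_integral (ψ := fun s => F (x + s • (y - x)) (y - x) - (f y - f x))
      (hi.sub intervalIntegrable_const) fun t ht => ?_).trans ?_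
    · have hi' : IntervalIntegrable (fun s : ℝ => F (x + s • (y - x)) (y - x)) volume 0 t :=
        hi.mono_set (by
          rw [uIcc_of_le ht.1, uIcc_of_le zero_le_one]; exact Icc_subset_Icc le_rfl ht.2)
      rw [intervalIntegral.integral_sub hi' intervalIntegrable_const, e, hg.2 t ht]
      simp only [AffineMap.lineMap_apply, vsub_eq_sub, vadd_eq_add, zero_smul, zero_add, sub_self,
        intervalIntegral.integral_const, sub_zero]
      abel
    · refine (lintegral_mono (g := fun t => ‖(F (x + t • (y - x)) - A) (y - x)‖ₑ +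
        ‖f y - f x - A (y - x)‖ₑ) fun t => ?_).trans ?_
      · refine le_trans (le_of_eq ?_) (enorm_sub_le (a := (F (x + t • (y - x)) - A) (y - x))
          (b := f y - f x - A (y - x)))
        congr 1
        simp only [sub_apply]
        abel
      · rw [lintegral_add_right _ measurable_const, setLIntegral_const, Real.volume_Ioc, sub_zero,
          ENNReal.ofReal_one, mul_one, two_mul]
        exact add_le_add (key A) h2
  · have := AV.lintegral_rpow_le ((μH[1] : Measure E3).restrict (segment ℝ x y))
      (hF.sub_const A).enorm.aemeasurable hp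
    rwa [Measure.restrict_apply_univ, hausdorffMeasure_segment] at this

theorem enu : ENU := by
  intro E F _ _ _ _ _ _ _ K k p h s X hp hX hc hd hs
  refine EN.en_le_sum hp s (g := fun _ => h) hc.measurableSet (fun _ _ _ _ => rfl) ?_
  have hfin : {j | K.cell j ⊆ X ∧ K.dim j < k}.Finite :=
    (K.finite_subset hc hX.subset_carrier).subset fun _ hj => hj.1
  have h0 : (μH[(k : ℝ)] : Measure E) (⋃ j ∈ {j | K.cell j ⊆ X ∧ K.dim j < k}, K.cell j) = 0 :=
    (measure_biUnion_null_iff hfin.countable).2 fun j hj => (K.ball j).hausdorff_zero hj.2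
  filter_upwards [compl_mem_ae_iff.2 h0] with x hx hxX
  obtain ⟨j, hj, hsub⟩ := hX.exists_ocell hxX
  have hjk : K.dim j = k := by
    by_contra hne
    exact hx (mem_iUnion₂.2 ⟨j, ⟨hsub, lt_of_le_of_ne (hd j hsub) hne⟩, hj.1⟩)
  exact ⟨j, (hs j).2 ⟨hsub, hjk⟩, hX.cell_mem_nhdsWithin hj fun l hl _ => hjk ▸ hd l hl⟩

end P073
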