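import Vale.Agent.P073Z.Sk3

/-!
# The Freudenthal-Kuhn triangulation
-/

open Set Metric Topology Filter

namespace P073

namespace Kuhn

theorem lip_hat : LipschitzWith 2 hat := by
  have h : ∀ i : Fin 3, LipschitzWith 1 (fun ζ : E3 => ζ i) := fun i => LipschitzWith.eval i
  have h1 := (((h 0).min ((h 1).min (h 2))).const_min 0)
  have h2 := (((h 0).max ((h 1).max (h 2))).const_max 0)
  have h3 := (((LipschitzWith.const (1:ℝ)).add h1).sub h2).const_max 0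
  refine h3.weaken (le_of_eq ?_)
  norm_num

theorem hat_nonneg (ζ : E3) : 0 ≤ hat ζ := le_max_left _ _

theorem hat_ne_zero_iff (ζ : E3) :
    hat ζ ≠ 0 ↔ (∀ i, |ζ i| < 1) ∧ ∀ i j, |ζ i - ζ j| < 1 := by
  have e : hat ζ ≠ 0 ↔ 0 < 1 + min 0 (min (ζ 0) (min (ζ 1) (ζ 2))) -
      max 0 (max (ζ 0) (max (ζ 1) (ζ 2))) := by
    unfold hat
    constructor
    · intro h
      by_contra hn
      exact h (max_eq_left (not_lt.1 hn))
    · intro h
      exact (lt_max_of_lt_right h).ne'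
  rw [e]
  constructor
  · intro h
    have hm : ∀ i, min 0 (min (ζ 0) (min (ζ 1) (ζ 2))) ≤ ζ i := by
      intro i
      fin_cases i <;> simp
    have hM : ∀ i, ζ i ≤ max 0 (max (ζ 0) (max (ζ 1) (ζ 2))) := by
      intro i
      fin_cases i <;> simp
    have hm0 := min_le_left 0 (min (ζ 0) (min (ζ 1) (ζ 2)))
    have hM0 := le_max_left 0 (max (ζ 0) (max (ζ 1) (ζ 2)))
    refine ⟨fun i => abs_lt.2 ⟨?_, ?_⟩, fun i j => abs_lt.2 ⟨?_, ?_⟩⟩
    · linarith [hm i]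
    · linarith [hM i]
    · linarith [hm i, hM j]
    · linarith [hm j, hM i]
  · rintro ⟨h1, h2⟩
    have a0 := abs_lt.1 (h1 0)
    have a1 := abs_lt.1 (h1 1)
    have a2 := abs_lt.1 (h1 2)
    have b0 := abs_lt.1 (h2 0 1)
    have b1 := abs_lt.1 (h2 0 2)
    have b2 := abs_lt.1 (h2 1 2)
    simp only [min_def, max_def]
    split_ifs <;> linarith [a0.1, a0.2, a1.1, a1.2, a2.1, a2.2, b0.1, b0.2, b1.1, b1.2, b2.1, b2.2]

theorem mem_kv {ζ v : E3} : v ∈ kv ζ ↔ (∀ i, ∃ k : ℤ, v i = k) ∧ (∀ i, |ζ i - v i| < 1) ∧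
    ∀ i j, |ζ i - v i - (ζ j - v j)| < 1 := by
  rw [kv, mem_ofPred_eq, hat_ne_zero_iff]
  rfl

theorem floor_mem_kv (ζ : E3) {θ : ℝ} (h0 : 0 ≤ θ) (h1 : θ < 1) :
    (fun i => (⌊ζ i + θ⌋ : ℝ)) ∈ kv ζ := by
  refine mem_kv.2 ⟨fun i => ⟨_, rfl⟩, fun i => abs_lt.2 ⟨?_, ?_⟩, fun i j => abs_lt.2 ⟨?_, ?_⟩⟩
  · linarith [Int.floor_le (ζ i + θ)]
  · linarith [Int.lt_floor_add_one (ζ i + θ)]
  · linarith [Int.floor_le (ζ i + θ), Int.lt_floor_add_one (ζ j + θ)]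
  · linarith [Int.floor_le (ζ j + θ), Int.lt_floor_add_one (ζ i + θ)]

theorem int_le_of_lt {k l : ℤ} (h : (k:ℝ) < l + 1) : (k:ℝ) ≤ l := by
  have : k < l + 1 := by exact_mod_cast h
  exact_mod_cast Int.lt_add_one_iff.1 this

theorem mem_kcell {ζ ζ₀ : E3} : ζ ∈ kcell ζ₀ ↔ (∀ (i : Fin 3) (k : ℤ),
    ((k:ℝ) ≤ ζ₀ i → (k:ℝ) ≤ ζ i) ∧ (ζ₀ i ≤ k → ζ i ≤ k)) ∧
    ∀ (i j : Fin 3) (k : ℤ), (k:ℝ) ≤ ζ₀ i - ζ₀ j → (k:ℝ) ≤ ζ i - ζ j := by
  refine ⟨fun h => ⟨h.1, fun i j k => (h.2 i j k).1⟩, fun h => ⟨h.1, fun i j k =>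
    ⟨h.2 i j k, fun h' => ?_⟩⟩⟩
  have := h.2 j i (-k) (by push_cast; linarith)
  push_cast at this
  linarith

theorem mem_kcell_iff {ζ ζ₀ : E3} : ζ ∈ kcell ζ₀ ↔ kv ζ ⊆ kv ζ₀ := by
  rw [mem_kcell]
  constructor
  · rintro ⟨h1, h2⟩ v hv
    obtain ⟨a, b, c⟩ := mem_kv.1 hv
    have key : ∀ i j, ζ₀ i - v i - (ζ₀ j - v j) < 1 := by
      intro i j
      obtain ⟨k, hk⟩ := a i
      obtain ⟨l, hl⟩ := a j
      by_contra hn
      have := h2 i j (k - l + 1) (by push_cast; linarith)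
      push_cast at this
      linarith [(abs_lt.1 (c i j)).2]
    refine mem_kv.2 ⟨a, fun i => ?_, fun i j => abs_lt.2 ⟨by linarith [key j i], key i j⟩⟩
    obtain ⟨k, hk⟩ := a i
    have hb := abs_lt.1 (b i)
    refine abs_lt.2 ⟨?_, ?_⟩
    · by_contra hn
      have := (h1 i (k - 1)).2 (by push_cast; linarith)
      push_cast at this
      linarith [hb.1]
    · by_contra hn
      have := (h1 i (k + 1)).1 (by push_cast; linarith)
      push_cast at this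
      linarith [hb.2]
  · intro h
    have hθ : ∀ j, 0 ≤ (⌈ζ j⌉ : ℝ) - ζ j ∧ (⌈ζ j⌉ : ℝ) - ζ j < 1 := fun j =>
      ⟨by linarith [Int.le_ceil (ζ j)], by linarith [Int.ceil_lt_add_one (ζ j)]⟩
    have hfl : ∀ j, ⌊ζ j + ((⌈ζ j⌉ : ℝ) - ζ j)⌋ = ⌈ζ j⌉ := fun j => by
      rw [add_sub_cancel, Int.floor_intCast]
    refine ⟨fun i k => ⟨fun hk => ?_, fun hk => ?_⟩, fun i j k hk => ?_⟩
    · have h1 := (abs_lt.1 ((mem_kv.1 (h (floor_mem_kv ζ le_rfl one_pos))).2.1 i)).2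
      simp only [add_zero] at h1
      have := int_le_of_lt (k := k) (l := ⌊ζ i⌋) (by linarith)
      linarith [Int.floor_le (ζ i)]
    · have h1 := (abs_lt.1 ((mem_kv.1 (h (floor_mem_kv ζ (hθ i).1 (hθ i).2))).2.1 i)).1
      simp only [hfl] at h1
      have := int_le_of_lt (k := ⌈ζ i⌉) (l := k) (by linarith)
      linarith [Int.le_ceil (ζ i)]
    · have h1 := (abs_lt.1 ((mem_kv.1 (h (floor_mem_kv ζ (hθ j).1 (hθ j).2))).2.2 i j)).2
      simp only [hfl] at h1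
      have := int_le_of_lt (k := k) (l := ⌊ζ i + ((⌈ζ j⌉ : ℝ) - ζ j)⌋ - ⌈ζ j⌉)
        (by push_cast; linarith)
      push_cast at this
      linarith [Int.floor_le (ζ i + ((⌈ζ j⌉ : ℝ) - ζ j))]

theorem self_mem_kcell (ζ : E3) : ζ ∈ kcell ζ := mem_kcell_iff.2 Subset.rfl

theorem kv_subset_kcell (ζ : E3) : kv ζ ⊆ kcell ζ := by
  intro v hv
  obtain ⟨a, b, c⟩ := mem_kv.1 hv
  refine mem_kcell.2 ⟨fun i k => ?_, fun i j k hk => ?_⟩
  · obtain ⟨l, hl⟩ := a i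
    have hb := abs_lt.1 (b i)
    rw [hl] at hb ⊢
    exact ⟨fun hk => int_le_of_lt (by linarith [hb.2]),
      fun hk => int_le_of_lt (by linarith [hb.1])⟩
  · obtain ⟨l, hl⟩ := a i
    obtain ⟨l', hl'⟩ := a j
    have hc := (abs_lt.1 (c i j)).2
    rw [hl, hl'] at hc ⊢
    have := int_le_of_lt (k := k) (l := l - l') (by push_cast; linarith)
    push_cast at this
    exact this

theorem convex_kcell (ζ : E3) : Convex ℝ (kcell ζ) := by
  intro x hx y hy a b ha hb hab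
  rw [mem_kcell] at hx hy ⊢
  simp only [Pi.add_apply, Pi.smul_apply, smul_eq_mul]
  have e : ∀ k : ℝ, k = a * k + b * k := fun k => by rw [← add_mul, hab, one_mul]
  refine ⟨fun i k => ⟨fun hk => ?_, fun hk => ?_⟩, fun i j k hk => ?_⟩
  · have h1 := mul_le_mul_of_nonneg_left ((hx.1 i k).1 hk) ha
    have h2 := mul_le_mul_of_nonneg_left ((hy.1 i k).1 hk) hb
    linarith [e k]
  · have h1 := mul_le_mul_of_nonneg_left ((hx.1 i k).2 hk) ha
    have h2 := mul_le_mul_of_nonneg_left ((hy.1 i k).2 hk) hb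
    linarith [e k]
  · have h1 := mul_le_mul_of_nonneg_left (hx.2 i j k hk) ha
    have h2 := mul_le_mul_of_nonneg_left (hy.2 i j k hk) hb
    linarith [e k]

theorem norm_sub_kv {ζ v w : E3} (hv : v ∈ kv ζ) (hw : w ∈ kv ζ) (h : v ≠ w) : ‖v - w‖ = 1 := by
  obtain ⟨a, b, -⟩ := mem_kv.1 hv
  obtain ⟨a', b', -⟩ := mem_kv.1 hw
  apply le_antisymm
  · refine (pi_norm_le_iff_of_nonneg zero_le_one).2 fun i => ?_
    obtain ⟨k, hk⟩ := a i
    obtain ⟨l, hl⟩ := a' i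
    have h1 := abs_lt.1 (b i)
    have h2 := abs_lt.1 (b' i)
    rw [Pi.sub_apply, Real.norm_eq_abs, abs_le, hk, hl]
    rw [hk] at h1
    rw [hl] at h2
    have h3 := int_le_of_lt (k := k) (l := l + 1) (by push_cast; linarith [h1.1, h2.2])
    have h4 := int_le_of_lt (k := l) (l := k + 1) (by push_cast; linarith [h1.2, h2.1])
    push_cast at h3 h4
    constructor <;> linarith
  · obtain ⟨i, hi⟩ := Function.ne_iff.1 h
    refine le_trans ?_ (norm_le_pi_norm _ i)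
    obtain ⟨k, hk⟩ := a i
    obtain ⟨l, hl⟩ := a' i
    rw [Pi.sub_apply, Real.norm_eq_abs, hk, hl]
    rw [hk, hl] at hi
    have : k - l ≠ 0 := fun e => hi (by rw [sub_eq_zero.1 e])
    exact_mod_cast Int.one_le_abs this

theorem exists_sorted (f : Fin 3 → ℝ) : ∃ i j k : Fin 3, i ≠ j ∧ i ≠ k ∧ j ≠ k ∧
    f j ≤ f i ∧ f k ≤ f j := by
  rcases le_total (f 0) (f 1) with a | a <;> rcases le_total (f 0) (f 2) with b | b <;>
    rcases le_total (f 1) (f 2) with c | c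
  · exact ⟨2, 1, 0, by decide, by decide, by decide, c, a⟩
  · exact ⟨1, 2, 0, by decide, by decide, by decide, c, b⟩
  · exact ⟨2, 1, 0, by decide, by decide, by decide, c, a⟩
  · exact ⟨1, 0, 2, by decide, by decide, by decide, a, b⟩
  · exact ⟨2, 0, 1, by decide, by decide, by decide, b, a⟩
  · exact ⟨2, 0, 1, by decide, by decide, by decide, b, a⟩
  · exact ⟨0, 2, 1, by decide, by decide, by decide, b, c⟩
  · exact ⟨0, 1, 2, by decide, by decide, by decide, a, c⟩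

theorem all3 {i j k : Fin 3} (h1 : i ≠ j) (h2 : i ≠ k) (h3 : j ≠ k) {p : Fin 3 → Prop} (a : p i)
    (b : p j) (c : p k) (l : Fin 3) : p l := by
  have : ∀ i j k l : Fin 3, i ≠ j → i ≠ k → j ≠ k → l = i ∨ l = j ∨ l = k := by decide
  rcases this i j k l h1 h2 h3 with rfl | rfl | rfl <;> assumption

theorem ext3 {i j k : Fin 3} (h1 : i ≠ j) (h2 : i ≠ k) (h3 : j ≠ k) {x y : E3} (a : x i = y i)
    (b : x j = y j) (c : x k = y k) : x = y :=
  funext (all3 h1 h2 h3 (p := fun l => x l = y l) a b c)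

theorem hat_eq (ζ : E3) {m M : ℝ} (hm0 : m ≤ 0) (hm : ∀ l, m ≤ ζ l)
    (hm' : m = 0 ∨ ∃ l, m = ζ l) (hM0 : 0 ≤ M) (hM : ∀ l, ζ l ≤ M) (hM' : M = 0 ∨ ∃ l, M = ζ l)
    (h : 0 ≤ 1 + m - M) : hat ζ = 1 + m - M := by
  have e1 : min 0 (min (ζ 0) (min (ζ 1) (ζ 2))) = m := by
    refine le_antisymm ?_ (le_min hm0 (le_min (hm 0) (le_min (hm 1) (hm 2))))
    rcases hm' with rfl | ⟨l, rfl⟩
    · exact min_le_left _ _
    · fin_cases l <;> simp
  have e2 : max 0 (max (ζ 0) (max (ζ 1) (ζ 2))) = M := by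
    refine le_antisymm (max_le hM0 (max_le (hM 0) (max_le (hM 1) (hM 2)))) ?_
    rcases hM' with rfl | ⟨l, rfl⟩
    · exact le_max_left _ _
    · fin_cases l <;> simp
  rw [hat, e1, e2, max_eq_right h]

theorem hat_val {i j k : Fin 3} (h1 : i ≠ j) (h2 : i ≠ k) (h3 : j ≠ k) (ζ : E3) {x y z : ℝ}
    (s0 : x < 1) (s1 : y ≤ x) (s2 : z ≤ y) (s3 : 0 ≤ z) :
    (ζ i = x → ζ j = y → ζ k = z → hat ζ = 1 - x) ∧
    (ζ i = x - 1 → ζ j = y → ζ k = z → hat ζ = x - y) ∧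
    (ζ i = x - 1 → ζ j = y - 1 → ζ k = z → hat ζ = y - z) ∧
    (ζ i = x - 1 → ζ j = y - 1 → ζ k = z - 1 → hat ζ = z) := by
  refine ⟨fun a b c => ?_, fun a b c => ?_, fun a b c => ?_, fun a b c => ?_⟩
  · rw [hat_eq ζ (m := 0) (M := x) le_rfl
      (all3 h1 h2 h3 (by linarith) (by linarith) (by linarith)) (Or.inl rfl) (by linarith)
      (all3 h1 h2 h3 (by linarith) (by linarith) (by linarith)) (Or.inr ⟨i, a.symm⟩) (by linarith)]
    ring
  · rw [hat_eq ζ (m := x - 1) (M := y) (by linarith)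
      (all3 h1 h2 h3 (by linarith) (by linarith) (by linarith)) (Or.inr ⟨i, a.symm⟩) (by linarith)
      (all3 h1 h2 h3 (by linarith) (by linarith) (by linarith)) (Or.inr ⟨j, b.symm⟩) (by linarith)]
    ring
  · rw [hat_eq ζ (m := y - 1) (M := z) (by linarith)
      (all3 h1 h2 h3 (by linarith) (by linarith) (by linarith)) (Or.inr ⟨j, b.symm⟩) (by linarith)
      (all3 h1 h2 h3 (by linarith) (by linarith) (by linarith)) (Or.inr ⟨k, c.symm⟩) (by linarith)]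
    ring
  · rw [hat_eq ζ (m := z - 1) (M := 0) (by linarith)
      (all3 h1 h2 h3 (by linarith) (by linarith) (by linarith)) (Or.inr ⟨k, c.symm⟩) le_rfl
      (all3 h1 h2 h3 (by linarith) (by linarith) (by linarith)) (Or.inl rfl) (by linarith)]
    ring

theorem exists_simplex (ζ : E3) : ∃ V : Fin 4 → E3, AffineIndependent ℝ V ∧
    (∀ n i, ∃ k : ℤ, V n i = k) ∧ kv ζ ⊆ range V ∧
    ∑ n, hat (ζ - V n) = 1 ∧ ∑ n, hat (ζ - V n) • V n = ζ := by
  obtain ⟨g, lo, hi⟩ : ∃ g : Fin 3 → ℤ, (∀ l, 0 ≤ ζ l - g l) ∧ ∀ l, ζ l - g l < 1 :=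
    ⟨fun l => ⌊ζ l⌋, fun l => by linarith [Int.floor_le (ζ l)],
      fun l => by linarith [Int.lt_floor_add_one (ζ l)]⟩
  obtain ⟨i, j, k, h1, h2, h3, s1, s2⟩ := exists_sorted fun l => ζ l - g l
  obtain ⟨V, Vl⟩ : ∃ V : Fin 4 → E3, ∀ n l, V n l =
      (g l : ℝ) + if (if l = i then 0 else if l = j then 1 else 2) < (n : ℕ) then 1 else 0 :=
    ⟨_, fun _ _ => rfl⟩
  have Vi : ∀ n : Fin 4, V n i = g i + if 0 < (n : ℕ) then 1 else 0 := fun n => by simp [Vl]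
  have Vj : ∀ n : Fin 4, V n j = g j + if 1 < (n : ℕ) then 1 else 0 := fun n => by
    simp [Vl, h1.symm]
  have Vk : ∀ n : Fin 4, V n k = g k + if 2 < (n : ℕ) then 1 else 0 := fun n => by
    simp [Vl, h2.symm, h3.symm]
  have li := lo i
  have lk := lo k
  have ui := hi i
  have uk := hi k
  have e0 : hat (ζ - V 0) = 1 - (ζ i - g i) := (hat_val h1 h2 h3 _ ui s1 s2 lk).1
    (by simp [Vi]) (by simp [Vj]) (by simp [Vk])
  have e1 : hat (ζ - V 1) = (ζ i - g i) - (ζ j - g j) := (hat_val h1 h2 h3 _ ui s1 s2 lk).2.1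
    (by simp [Vi, sub_sub]) (by simp [Vj]) (by simp [Vk])
  have e2 : hat (ζ - V 2) = (ζ j - g j) - (ζ k - g k) := (hat_val h1 h2 h3 _ ui s1 s2 lk).2.2.1
    (by simp [Vi, sub_sub]) (by simp [Vj, sub_sub]) (by simp [Vk])
  have e3 : hat (ζ - V 3) = ζ k - g k := (hat_val h1 h2 h3 _ ui s1 s2 lk).2.2.2
    (by simp [Vi, sub_sub]) (by simp [Vj, sub_sub]) (by simp [Vk, sub_sub])
  refine ⟨V, ?_, ?_, ?_, ?_, ?_⟩
  · rw [affineIndependent_iff_of_fintype]
    intro w hw hs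
    rw [Finset.weightedVSub_eq_linear_combination _ hw] at hs
    have ci := congrFun hs i
    have cj := congrFun hs j
    have ck := congrFun hs k
    simp only [Fin.sum_univ_four, Pi.add_apply, Pi.smul_apply, smul_eq_mul, Vi, Vj, Vk,
      Pi.zero_apply] at ci cj ck hw
    norm_num at ci cj ck
    have w3 : w 3 = 0 := by linear_combination ck - (g k : ℝ) * hw
    have w2 : w 2 = 0 := by linear_combination cj - (g j : ℝ) * hw - w3
    have w1 : w 1 = 0 := by linear_combination ci - (g i : ℝ) * hw - w3 - w2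
    have w0 : w 0 = 0 := by linear_combination hw - w1 - w2 - w3
    intro n
    fin_cases n <;> assumption
  · intro n l
    rw [Vl]
    split_ifs
    all_goals first
      | exact ⟨g l + 1, by push_cast; rfl⟩
      | exact ⟨g l, add_zero _⟩
  · intro v hv
    obtain ⟨a, b, c⟩ := mem_kv.1 hv
    obtain ⟨x, hx⟩ := a i
    obtain ⟨y, hy⟩ := a j
    obtain ⟨z, hz⟩ := a k
    have bi := abs_lt.1 (b i)
    have bk := abs_lt.1 (b k)
    have c1 := (abs_lt.1 (c i j)).2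
    have c2 := (abs_lt.1 (c j k)).2
    rw [hx] at bi c1
    rw [hy] at c1 c2
    rw [hz] at bk c2
    have p1 : x < g i + 2 := by
      have : (x:ℝ) < g i + 2 := by linarith [bi.1]
      exact_mod_cast this
    have p2 : y - g j < x - g i + 1 := by
      have : (y:ℝ) - g j < x - g i + 1 := by linarith
      exact_mod_cast this
    have p3 : z - g k < y - g j + 1 := by
      have : (z:ℝ) - g k < y - g j + 1 := by linarith
      exact_mod_cast this
    have p4 : g k < z + 1 := by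
      have : (g k : ℝ) < z + 1 := by linarith [bk.2]
      exact_mod_cast this
    have cases : (x = g i ∧ y = g j ∧ z = g k) ∨ (x = g i + 1 ∧ y = g j ∧ z = g k) ∨
        (x = g i + 1 ∧ y = g j + 1 ∧ z = g k) ∨
        (x = g i + 1 ∧ y = g j + 1 ∧ z = g k + 1) := by omega
    rcases cases with ⟨q1, q2, q3⟩ | ⟨q1, q2, q3⟩ | ⟨q1, q2, q3⟩ | ⟨q1, q2, q3⟩
    · exact ⟨0, ext3 h1 h2 h3 (by simp [Vi, hx, q1]) (by simp [Vj, hy, q2]) (by simp [Vk, hz, q3])⟩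
    · exact ⟨1, ext3 h1 h2 h3 (by simp [Vi, hx, q1]) (by simp [Vj, hy, q2]) (by simp [Vk, hz, q3])⟩
    · exact ⟨2, ext3 h1 h2 h3 (by simp [Vi, hx, q1]) (by simp [Vj, hy, q2]) (by simp [Vk, hz, q3])⟩
    · exact ⟨3, ext3 h1 h2 h3 (by simp [Vi, hx, q1]) (by simp [Vj, hy, q2]) (by simp [Vk, hz, q3])⟩
  · rw [Fin.sum_univ_four, e0, e1, e2, e3]
    ring
  · rw [Fin.sum_univ_four, e0, e1, e2, e3]
    refine ext3 h1 h2 h3 ?_ ?_ ?_
    · simp only [Pi.add_apply, Pi.smul_apply, smul_eq_mul, Vi]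
      norm_num
      ring
    · simp only [Pi.add_apply, Pi.smul_apply, smul_eq_mul, Vj]
      norm_num
      ring
    · simp only [Pi.add_apply, Pi.smul_apply, smul_eq_mul, Vk]
      norm_num
      ring

theorem exists_finset (ζ : E3) : ∃ t : Finset E3, (t : Set E3) = kv ζ ∧ t.card ≤ 4 ∧
    AffineIndependent ℝ ((↑) : t → E3) ∧ ∑ v ∈ t, hat (ζ - v) = 1 ∧
    ∑ v ∈ t, hat (ζ - v) • v = ζ := by
  classical
  obtain ⟨V, h1, h2, h3, h4, h5⟩ := exists_simplex ζ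
  have e : (((Finset.univ.image V).filter fun v => hat (ζ - v) ≠ 0 : Finset E3) : Set E3) =
      kv ζ := by
    ext v
    simp only [Finset.coe_filter, Finset.mem_image, Finset.mem_univ, true_and, mem_ofPred_eq]
    exact ⟨fun ⟨⟨n, hn⟩, h⟩ => ⟨hn ▸ h2 n, h⟩, fun h => ⟨h3 h, h.2⟩⟩
  refine ⟨_, e, (Finset.card_filter_le _ _).trans (Finset.card_image_le.trans (by simp)),
    h1.range.mono (e ▸ h3), ?_, ?_⟩
  · rw [Finset.sum_filter_ne_zero, Finset.sum_image h1.injective.injOn, h4]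
  · rw [Finset.sum_filter_of_ne, Finset.sum_image h1.injective.injOn, h5]
    intro v _ hv h0
    exact hv (by rw [h0, zero_smul])

end Kuhn

open Kuhn in
theorem kuhn : KUHN := by
  refine ⟨lip_hat, fun ζ₀ => ?_⟩
  obtain ⟨t, h1, h2, h3, -, -⟩ := exists_finset ζ₀
  have key : ∀ ζ ∈ kcell ζ₀, ∑ v ∈ t, hat (ζ - v) = 1 ∧ ∑ v ∈ t, hat (ζ - v) • v = ζ := by
    intro ζ hζ
    obtain ⟨t', k1, -, -, k4, k5⟩ := exists_finset ζ
    have hs : t' ⊆ t := by
      rw [← Finset.coe_subset, h1, k1]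
      exact mem_kcell_iff.1 hζ
    have hz : ∀ v ∈ t, v ∉ t' → hat (ζ - v) = 0 := by
      intro v hv hv'
      by_contra hn
      have hv1 : v ∈ kv ζ₀ := h1 ▸ Finset.mem_coe.2 hv
      exact hv' (Finset.mem_coe.1 (k1 ▸ (⟨hv1.1, hn⟩ : v ∈ kv ζ)))
    constructor
    · rw [← Finset.sum_subset hs hz, k4]
    · rw [← Finset.sum_subset hs fun v hv hv' => by rw [hz v hv hv', zero_smul], k5]
  refine ⟨t, h1, h2, h3, ?_, fun v hv w hw => norm_sub_kv (h1 ▸ Finset.mem_coe.2 hv)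
    (h1 ▸ Finset.mem_coe.2 hw), fun ζ => ⟨mem_kcell_iff, key ζ⟩⟩
  apply Subset.antisymm
  · intro ζ hζ
    obtain ⟨k1, k2⟩ := key ζ hζ
    rw [← k2]
    exact (convex_convexHull ℝ _).sum_mem (fun v _ => hat_nonneg _) k1
      fun v hv => subset_convexHull ℝ _ (Finset.mem_coe.2 hv)
  · exact convexHull_min (h1 ▸ kv_subset_kcell ζ₀) (convex_kcell ζ₀)

end P073
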