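import Vale.Agent.P073Z.Defs

/-!
# Foundation statements

Every statement is a `Prop`; each is proved in its own file.
-/

open Set Metric Topology Filter MeasureTheory
open scoped ENNReal NNReal ContDiff

namespace P073

/-! ### A1: structure of polyhedra -/

def ST : Prop := ∀ {E : Type} [NormedAddCommGroup E] [NormedSpace ℝ E] [FiniteDimensional ℝ E]
  {X : Set E}, IsCompact X → LocCone X → ∃ 𝒮 : Finset (Finset E),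
  (∀ s ∈ 𝒮, AffineIndependent ℝ ((↑) : s → E)) ∧ X = ⋃ s ∈ 𝒮, convexHull ℝ (s : Set E)

def STM : Prop := ∀ {E F : Type} [NormedAddCommGroup E] [NormedSpace ℝ E] [FiniteDimensional ℝ E]
  [NormedAddCommGroup F] [NormedSpace ℝ F] [FiniteDimensional ℝ F] {X : Set E} {h : E → F},
  IsCompact X → LocCone X → PLOn h X → ∃ 𝒮 : Finset (Finset E),
  (∀ s ∈ 𝒮, AffineIndependent ℝ ((↑) : s → E)) ∧ X = ⋃ s ∈ 𝒮, convexHull ℝ (s : Set E) ∧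
  ∀ s ∈ 𝒮, ∃ A : E →ᵃ[ℝ] F, EqOn h A (convexHull ℝ (s : Set E))

def POLY : Prop := ∀ {E : Type} [NormedAddCommGroup E] [NormedSpace ℝ E] [FiniteDimensional ℝ E]
  (s : Finset E), LocCone (convexHull ℝ (s : Set E))

def IMG : Prop := ∀ {E F : Type} [NormedAddCommGroup E] [NormedSpace ℝ E] [FiniteDimensional ℝ E]
  [NormedAddCommGroup F] [NormedSpace ℝ F] [FiniteDimensional ℝ F] {X : Set E} {h : E → F},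
  IsCompact X → LocCone X → PLOn h X → LocCone (h '' X)

def PRE : Prop := ∀ {E F : Type} [NormedAddCommGroup E] [NormedSpace ℝ E]
  [NormedAddCommGroup F] [NormedSpace ℝ F] {X : Set E} {Y : Set F} {h : E → F} {x : E},
  x ∈ X → LocConeAt X x → ContinuousWithinAt h X x → ConicalWithinAt h X x →
  LocConeAt Y (h x) → LocConeAt (X ∩ h ⁻¹' Y) x

def CMP : Prop := ∀ {E : Type} [NormedAddCommGroup E] [NormedSpace ℝ E] [FiniteDimensional ℝ E]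
  {X : Set E} {a b : E → ℝ}, IsCompact X → LocCone X → PLOn a X → PLOn b X →
  (∀ x ∈ X, 0 ≤ b x) → (∀ x ∈ X, b x = 0 → a x ≤ 0) → ∃ C : ℝ, 0 < C ∧ ∀ x ∈ X, a x ≤ C * b x

def LIP : Prop := ∀ {E F : Type} [NormedAddCommGroup E] [NormedSpace ℝ E] [FiniteDimensional ℝ E]
  [NormedAddCommGroup F] [NormedSpace ℝ F] [FiniteDimensional ℝ F] {X : Set E} {h : E → F},
  IsCompact X → LocCone X → PLOn h X → ∃ M : ℝ≥0, LipschitzOnWith M h X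

def AEAFF : Prop := ∀ {n : ℕ} {F : Type} [NormedAddCommGroup F] [NormedSpace ℝ F]
  [FiniteDimensional ℝ F] {U : Set (Fin n → ℝ)} {h : (Fin n → ℝ) → F}, IsOpen U → PLOn h U →
  LocallyLipschitzOn U h ∧
  ∀ᵐ x : Fin n → ℝ, x ∈ U → ∃ A : (Fin n → ℝ) →ᵃ[ℝ] F, h =ᶠ[𝓝 x] A

/-! ### A2: distance, extension, approximation, caps -/

def DIST : Prop := ∀ {n : ℕ} {K : Set (Fin n → ℝ)}, IsCompact K → LocCone K → K.Nonempty →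
  ConicalOn (fun x => infDist x K) univ

def EXTPL : Prop := ∀ {E F : Type} [NormedAddCommGroup E] [NormedSpace ℝ E]
  [FiniteDimensional ℝ E] [NormedAddCommGroup F] [NormedSpace ℝ F] [FiniteDimensional ℝ F]
  {X : Set E} {h : E → F}, IsCompact X → LocCone X → PLOn h X → ∃ g : E → F, PLOn g univ ∧ EqOn g h X

def APX : Prop := ∀ {E : Type} [NormedAddCommGroup E] [NormedSpace ℝ E] [FiniteDimensional ℝ E]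
  {X Y : Set E} {φ : E → ℝ} {ρ : ℝ}, IsCompact X → IsCompact Y → LocCone Y → Y ⊆ X →
  ContinuousOn φ X → ConicalOn φ Y → 0 < ρ →
  ∃ g : E → ℝ, PLOn g univ ∧ EqOn g φ Y ∧ ∀ x ∈ X, |g x - φ x| < ρ

/-- PL Urysohn function with compact support -/
def URY : Prop := ∀ {E : Type} [NormedAddCommGroup E] [NormedSpace ℝ E] [FiniteDimensional ℝ E]
  {K U : Set E}, IsCompact K → IsOpen U → K ⊆ U → ∃ g : E → ℝ, PLOn g univ ∧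
  (∀ x, g x ∈ Icc (0:ℝ) 1) ∧ (∀ x ∈ K, g x = 1) ∧ HasCompactSupport g ∧ tsupport g ⊆ U

/-- a PL gauge below a given gauge -/
def PLG : Prop := ∀ {E : Type} [NormedAddCommGroup E] [NormedSpace ℝ E] [FiniteDimensional ℝ E]
  {U : Set E} {r : E → ℝ}, IsOpen U → Gauge r U → ∃ g : E → ℝ, PLOn g U ∧
  ∀ x ∈ U, 0 < g x ∧ g x ≤ r x

/-- nested heights over a laminar family -/
def CAP : Prop := ∀ {E : Type} [NormedAddCommGroup E] [NormedSpace ℝ E] [FiniteDimensional ℝ E]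
  {ι : Type} (s : Finset ι) (Δ J : ι → Set E) {η : ℝ}, 0 < η →
  (∀ i ∈ s, IsCompact (Δ i) ∧ IsCompact (J i) ∧ LocCone (J i) ∧ (J i).Nonempty ∧ J i ⊆ Δ i) →
  ∃ h : ι → E → ℝ, (∀ i ∈ s, PLOn (h i) univ ∧ (∀ x, 0 ≤ h i x ∧ h i x ≤ η) ∧
    (∀ x, h i x = 0 ↔ x ∈ J i)) ∧
    ∀ i ∈ s, ∀ j ∈ s, Δ i ⊆ Δ j \ J j → ∀ x ∈ Δ i, h i x < h j x

/-- thin reparametrisation of the fibres -/
def THIN : Prop := ∀ {E : Type} [NormedAddCommGroup E] [NormedSpace ℝ E]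
  {X : Set E} {γ : E → ℝ}, PLOn γ X → (∀ x ∈ X, 0 < γ x ∧ γ x ≤ 1) →
  ∃ (m : E × ℝ → ℝ) (Φ : ConHomeo (X ×ˢ Icc (-1:ℝ) 1) {q : E × ℝ | q.1 ∈ X ∧ |q.2| ≤ γ q.1}),
    (∀ q, Φ.toFun q = (q.1, m q)) ∧ ∀ x ∈ X, StrictMonoOn (fun s => m (x, s)) (Icc (-1) 1) ∧
      m (x, 0) = 0 ∧ m (x, 1) = γ x ∧ m (x, -1) = -γ x

/-! ### A3: balls -/

def TWOG : Prop := ∀ {E : Type} [NormedAddCommGroup E] [NormedSpace ℝ E] [FiniteDimensional ℝ E]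
  {n : ℕ} {D B : Set E} {a b : E → ℝ}, ConBall n D B → PLOn a D → PLOn b D →
  (∀ x ∈ B, a x = b x) → (∀ x ∈ D \ B, a x < b x) →
  ConBall (n + 1) {q : E × ℝ | q.1 ∈ D ∧ a q.1 ≤ q.2 ∧ q.2 ≤ b q.1}
    {q : E × ℝ | q.1 ∈ D ∧ (q.2 = a q.1 ∨ q.2 = b q.1)}

def PROD : Prop := ∀ {E : Type} [NormedAddCommGroup E] [NormedSpace ℝ E]
  {n : ℕ} {D B : Set E} {a b : ℝ}, ConBall n D B → a < b →
  ConBall (n + 1) (D ×ˢ Icc a b) (B ×ˢ Icc a b ∪ D ×ˢ {a, b})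

def CVX : Prop := ∀ {E : Type} [NormedAddCommGroup E] [NormedSpace ℝ E] [FiniteDimensional ℝ E]
  {K : Set E}, IsCompact K → Convex ℝ K → LocCone K → K.Nonempty →
  ConBall (Module.finrank ℝ (vectorSpan ℝ K)) K (intrinsicFrontier ℝ K)

/-- cones over spheres and over balls -/
def CONEB : Prop := ∀ {E : Type} [NormedAddCommGroup E] [NormedSpace ℝ E] [FiniteDimensional ℝ E]
  {n : ℕ} {X B : Set E} {a : E}, RayBaseAt a X →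
  (ConSphere n X → ConBall (n + 1) (coneSetAt a X) X) ∧
  (ConBall (n + 1) X B → ConBall (n + 2) (coneSetAt a X) (X ∪ coneSetAt a B)) ∧
  (ConBall 0 X B → ConBall 1 (coneSetAt a X) (X ∪ {a}))

/-- the boundary of a convex body minus a convex piece -/
def FRC : Prop := ∀ {n : ℕ} {K C : Set (Fin (n + 2) → ℝ)}, IsCompact K → Convex ℝ K →
  (interior K).Nonempty → Convex ℝ C → IsClosed C → C ⊆ frontier K →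
  IsPreconnected (frontier K \ C) ∧ (frontier K \ C).Nonempty

/-! ### A4: star-shaped sets -/

def STAR : Prop := ∀ {E : Type} [NormedAddCommGroup E] [NormedSpace ℝ E] [FiniteDimensional ℝ E]
  {N₁ N₂ : E → ℝ} {ι : Type} [Finite ι] (K : ι → Set E), PLOn N₁ univ → PLOn N₂ univ →
  (∀ x, ∀ t : ℝ, 0 ≤ t → N₁ (t • x) = t * N₁ x ∧ N₂ (t • x) = t * N₂ x) →
  (∀ x, x ≠ 0 → 0 < N₁ x ∧ 0 < N₂ x) →
  (∀ i, LocCone (K i) ∧ ∀ x, ∀ t : ℝ, 0 < t → (t • x ∈ K i ↔ x ∈ K i)) →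
  ∃ Φ : ConHomeo (univ : Set E) (univ : Set E), (∀ x, N₂ (Φ.toFun x) = N₁ x) ∧
    (∀ x, ∀ t : ℝ, 0 ≤ t → Φ.toFun (t • x) = t • Φ.toFun x) ∧
    (∀ i x, Φ.toFun x ∈ K i ↔ x ∈ K i) ∧ ∀ x, N₁ x = N₂ x → Φ.toFun x = x

def STARB : Prop := ∀ {n : ℕ} {K : Set (Fin n → ℝ)} {a : Fin n → ℝ}, IsCompact K → LocCone K →
  K ∈ 𝓝 a → (∀ x ∈ K, ∀ s ∈ Ico (0:ℝ) 1, a + s • (x - a) ∈ interior K) →
  ConBall n K (frontier K)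

/-- uniform charts for cells cut out by integral forms -/
def SHAPE : Prop := ∀ {n : ℕ} (Λ₀ : Finset ((Fin n → ℝ) →ₗ[ℝ] ℝ)) (R : ℝ),
  (∀ ℓ ∈ Λ₀, ∀ i, ∃ m : ℤ, ℓ (Pi.single i 1) = m) → ∃ M : ℝ≥0, ∀ (a b : ((Fin n → ℝ) →ₗ[ℝ] ℝ) → ℤ)
  (C : Set (Fin n → ℝ)), C = {x | ∀ ℓ ∈ Λ₀, (a ℓ : ℝ) ≤ ℓ x ∧ ℓ x ≤ b ℓ} → C.Nonempty →
  (∀ x ∈ C, ∀ y ∈ C, dist x y ≤ R) →
  BiChart (Module.finrank ℝ (vectorSpan ℝ C)) C (intrinsicFrontier ℝ C) M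

/-! ### A5: pushes, shells, collars of balls -/

def NEARID : Prop := ∀ {E : Type} [NormedAddCommGroup E] [NormedSpace ℝ E] [FiniteDimensional ℝ E]
  {φ : E → E}, ConicalOn φ univ → LipschitzWith (1 / 2) φ →
  ∃ Φ : ConHomeo (univ : Set E) (univ : Set E), ∀ x, Φ.toFun x = x + φ x

def PUSH : Prop := ∀ {n : ℕ} (i : Fin n) {g : (Fin n → ℝ) → ℝ}, PLOn g univ →
  (∀ x, StrictMono (fun s => g (Function.update x i s))) →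
  (∀ x, Function.Surjective (fun s => g (Function.update x i s))) →
  ∃ Φ : ConHomeo (univ : Set (Fin n → ℝ)) (univ : Set (Fin n → ℝ)),
    ∀ x, Φ.toFun x = Function.update x i (g x)

def SHRINK : Prop := ∀ {E : Type} [NormedAddCommGroup E] [NormedSpace ℝ E]
  {n : ℕ} {C B K U : Set E} {q : E}, ConBall n C B → IsCompact K → K ⊆ C \ B → q ∈ C \ B →
  U ∈ 𝓝 q → ∃ (Φ : ConHomeo C C) (K' : Set E), IsCompact K' ∧ K' ⊆ C \ B ∧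
    (∀ x ∈ C \ K', Φ.toFun x = x) ∧ Φ.toFun '' K ⊆ U ∧ Φ.toFun q = q

def EMB : Prop := ∀ {E : Type} [NormedAddCommGroup E] [NormedSpace ℝ E]
  {n : ℕ} {C B U : Set E} {q : E}, ConBall n C B → q ∈ C \ B → U ∈ 𝓝 q →
  ∃ (Y : Set E) (σ : ConHomeo C Y), Y ⊆ C ∩ U ∧ ∀ᶠ x in 𝓝[C] q, σ.toFun x = x

def MOVE : Prop := ∀ {E : Type} [NormedAddCommGroup E] [NormedSpace ℝ E]
  {n : ℕ} {C B : Set E} {p q : E}, ConBall n C B → p ∈ C \ B → q ∈ C \ B →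
  ∃ (Φ : ConHomeo C C) (K' : Set E), IsCompact K' ∧ K' ⊆ C \ B ∧
    (∀ x ∈ C \ K', Φ.toFun x = x) ∧ Φ.toFun p = q

def SLIDE : Prop := ∀ {E : Type} [NormedAddCommGroup E] [NormedSpace ℝ E]
  {D B I O : Set E} {p q : E}, ConBall 2 D B → IsArc I p q → I ⊆ B → IsOpen O → I ⊆ O →
  ∃ Φ : ConHomeo D D, Φ.toFun p = q ∧ Φ.toFun '' B = B ∧ ∀ x ∈ D \ O, Φ.toFun x = x

def SHELL : Prop := ∀ n : ℕ, ∃ Q : ConHomeo (sphere (0 : Fin n → ℝ) 1 ×ˢ Icc (1 / 2 : ℝ) 1)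
    {x : Fin n → ℝ | 1 / 2 ≤ ‖x‖ ∧ ‖x‖ ≤ 1},
  ∀ x ∈ sphere (0 : Fin n → ℝ) 1, Q.toFun (x, 1) = x ∧ Q.toFun (x, 1 / 2) = (1 / 2 : ℝ) • x ∧
    ∀ s ∈ Icc (1 / 2 : ℝ) 1, ‖Q.toFun (x, s)‖ = s

def PUNCT : Prop := ∀ n : ℕ, ∃ R : ConHomeo (sphere (0 : Fin n → ℝ) 1 ×ˢ Ioc (0 : ℝ) 1)
    (closedBall (0 : Fin n → ℝ) 1 \ {0}),
  ∀ x ∈ sphere (0 : Fin n → ℝ) 1, R.toFun (x, 1) = x ∧ ∀ s ∈ Ioc (0 : ℝ) 1, ‖R.toFun (x, s)‖ = s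

/-- inner collar of the boundary of a ball -/
def COLI : Prop := ∀ {E : Type} [NormedAddCommGroup E] [NormedSpace ℝ E]
  {n : ℕ} {C B : Set E}, ConBall n C B → ∃ (Y : Set E) (κ : ConHomeo (B ×ˢ Icc (0:ℝ) 1) Y)
  (lam : E → ℝ), Y ⊆ C ∧ (∀ x ∈ B, κ.toFun (x, 0) = x) ∧ PLOn lam C ∧
    (∀ x ∈ B, ∀ s ∈ Icc (0:ℝ) 1, lam (κ.toFun (x, s)) = s) ∧ (∀ y ∈ C \ Y, lam y = 1) ∧
    ConBall n {y ∈ C | lam y = 1} (κ.toFun '' (B ×ˢ {1}))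

/-- a ball with an outer collar is a ball -/
def COLO : Prop := ∀ {E : Type} [NormedAddCommGroup E] [NormedSpace ℝ E]
  {n : ℕ} {C B Y : Set E} (κ : ConHomeo (B ×ˢ Icc (0:ℝ) 1) Y), ConBall n C B →
  (∀ x ∈ B, κ.toFun (x, 0) = x) → Y ∩ C ⊆ B → ConBall n (C ∪ Y) (κ.toFun '' (B ×ˢ {1}))

/-! ### A6: complexes -/

def ISO : Prop := ∀ {E F : Type} [NormedAddCommGroup E] [NormedSpace ℝ E]
  [NormedAddCommGroup F] [NormedSpace ℝ F] (K : RCx E) (k : ℕ) (R : K.ι → Set F),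
  Realiz K k R → ∃ ψ : ConHomeo (K.skel k) (K.rskel R k),
    ∀ i, K.dim i ≤ k → ψ.toFun '' K.cell i = R i

def GLUEK : Prop := ∀ {E F : Type} [NormedAddCommGroup E] [NormedSpace ℝ E]
  [NormedAddCommGroup F] [NormedSpace ℝ F] (K : RCx E) (k : ℕ) (R : K.ι → Set F)
  (φ : K.ι → E → F), Realiz K k R →
  (∀ i, K.dim i ≤ k → ∃ Φ : ConHomeo (K.cell i) (R i), EqOn Φ.toFun (φ i) (K.cell i)) →
  (∀ i j, K.dim i ≤ k → K.cell j ⊆ K.cell i → EqOn (φ i) (φ j) (K.cell j)) →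
  ∃ ψ : ConHomeo (K.skel k) (K.rskel R k), ∀ i, K.dim i ≤ k → EqOn ψ.toFun (φ i) (K.cell i)

def REAL : Prop := ∀ {E F : Type} [NormedAddCommGroup E] [NormedSpace ℝ E]
  [NormedAddCommGroup F] [NormedSpace ℝ F] (K : RCx E) (k : ℕ) {Y : Set F}
  (ψ : ConHomeo (K.skel k) Y), Realiz K k (fun i => ψ.toFun '' K.cell i)

/-- manifold properties of subcomplexes -/
def MAN : Prop := ∀ {E : Type} [NormedAddCommGroup E] [NormedSpace ℝ E] [FiniteDimensional ℝ E]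
  (K : RCx E) {n : ℕ} {X : Set E}, K.Sub X → PLMan (n + 1) X →
  (∀ i, K.cell i ⊆ X → K.dim i ≤ n + 1) ∧
  (∀ i, K.cell i ⊆ X → ∃ j, K.cell i ⊆ K.cell j ∧ K.cell j ⊆ X ∧ K.dim j = n + 1) ∧
  (∀ i, K.cell i ⊆ X → K.dim i = n + 1 → ∀ x ∈ K.ocell i, K.cell i ∈ 𝓝[X] x) ∧
  (∀ i, K.cell i ⊆ X → K.dim i = n → ∃ j₁ j₂, j₁ ≠ j₂ ∧ ∀ j,
    (K.cell i ⊆ K.cell j ∧ K.cell j ⊆ X ∧ K.dim j = n + 1) ↔ (j = j₁ ∨ j = j₂)) ∧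
  (∀ x ∈ X, ∀ c : K.ι → Prop,
    (∀ i j j', x ∈ K.cell i → K.dim i = n → K.cell i ⊆ K.cell j → K.cell i ⊆ K.cell j' →
      K.cell j ⊆ X → K.cell j' ⊆ X → K.dim j = n + 1 → K.dim j' = n + 1 → c j → c j') →
    ∀ j j', x ∈ K.cell j → x ∈ K.cell j' → K.cell j ⊆ X → K.cell j' ⊆ X →
      K.dim j = n + 1 → K.dim j' = n + 1 → c j → c j')

/-- examples of manifolds -/
def MANEX : Prop :=
  (∀ {n : ℕ} {U : Set (Fin n → ℝ)}, IsOpen U → PLMan n U) ∧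
  (∀ {E : Type} [NormedAddCommGroup E] [NormedSpace ℝ E] {n : ℕ} {S : Set E},
    ConSphere n S → PLMan n S) ∧
  (∀ {E : Type} [NormedAddCommGroup E] [NormedSpace ℝ E] {n : ℕ} {C B : Set E},
    ConBall n C B → PLMan n (C \ B)) ∧
  (∀ {E : Type} [NormedAddCommGroup E] [NormedSpace ℝ E] {n : ℕ} {X U : Set E},
    PLMan n X → IsOpen U → PLMan n (X ∩ U)) ∧
  (∀ {E F : Type} [NormedAddCommGroup E] [NormedSpace ℝ E] [NormedAddCommGroup F]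
    [NormedSpace ℝ F] {n : ℕ} {X : Set E} {Y : Set F}, PLMan n X → ConHomeo X Y → PLMan n Y) ∧
  (∀ {E : Type} [NormedAddCommGroup E] [NormedSpace ℝ E] {n : ℕ} {X C B : Set E},
    PLMan n X → ConBall n C B → C ⊆ X → ∀ x ∈ C, (C ∈ 𝓝[X] x ↔ x ∉ B))

/-! ### A7: constructions of complexes -/

def ARR : Prop := ∀ {E : Type} [NormedAddCommGroup E] [NormedSpace ℝ E] [FiniteDimensional ℝ E]
  {μ : Type} (C : μ → Set E) (G H : μ → Finset (E →ᵃ[ℝ] ℝ)),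
  (∀ m, C m = {x | ∀ ℓ ∈ G m, ℓ x ≤ 0}) → (∀ m, IsCompact (C m)) → LFIn C (⋃ m, C m) →
  (∀ m m', (C m ∩ C m').Nonempty → G m' ⊆ H m) →
  ∃ K : RCx E, K.Cvx ∧ K.carrier = ⋃ m, C m ∧ ∀ i, ∀ x ∈ K.ocell i,
    K.ocell i = {y | ∀ m, x ∈ C m → ∀ ℓ ∈ H m, SignType.sign (ℓ y) = SignType.sign (ℓ x)} ∧
    K.cell i = {y | ∀ m, x ∈ C m → ∀ ℓ ∈ H m, (0 ≤ ℓ x → 0 ≤ ℓ y) ∧ (ℓ x ≤ 0 → ℓ y ≤ 0)}

def TRI : Prop := ∀ {E F : Type} [NormedAddCommGroup E] [NormedSpace ℝ E] [FiniteDimensional ℝ E]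
  [NormedAddCommGroup F] [NormedSpace ℝ F] [FiniteDimensional ℝ F] {κ : Type}
  {U : Set E} (X : κ → Set E) (h : κ → E → F) {r : E → ℝ}, IsOpen U → Gauge r U → LFIn X U →
  (∀ k, X k ⊆ U ∧ ClosedIn (X k) U ∧ LocConeOn (X k) U ∧ PLOn (h k) (X k)) →
  ∃ K : RCx E, K.Cvx ∧ K.carrier = U ∧ (∀ i, Small r (K.cell i)) ∧
    ∀ k, K.Sub (X k) ∧ ∀ i, K.cell i ⊆ X k → ∃ A : E →ᵃ[ℝ] F, EqOn (h k) A (K.cell i)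

def DER : Prop := ∀ {E : Type} [NormedAddCommGroup E] [NormedSpace ℝ E] [FiniteDimensional ℝ E]
  (K : RCx E), K.Cvx → ∀ b : K.ι → E, (∀ i, b i ∈ K.ocell i) → ∃ d : Derived K, d.b = b

/-! ### A8: degree -/

def IOD : Prop := ∀ {n : ℕ} {U : Set (Fin n → ℝ)} {f : (Fin n → ℝ) → (Fin n → ℝ)}, IsOpen U →
  ContinuousOn f U → InjOn f U → IsOpen (f '' U)

def WIND : Prop := ∀ {n : ℕ} {G : (Fin n → ℝ) → (Fin n → ℝ)}, ContinuousOn G (closedBall 0 1) →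
  (∀ y, y ∉ G '' sphere 0 1 → ∃ m : ℤ, wind G y = m) ∧
  (∀ S : Set (Fin n → ℝ), IsPreconnected S → Disjoint S (G '' sphere 0 1) →
    ∀ y ∈ S, ∀ y' ∈ S, wind G y = wind G y') ∧
  (∀ (y : Fin n → ℝ) (G' : (Fin n → ℝ) → (Fin n → ℝ)) (H : ℝ × (Fin n → ℝ) → (Fin n → ℝ)),
    ContinuousOn G' (closedBall 0 1) → ContinuousOn H (Icc 0 1 ×ˢ sphere 0 1) →
    (∀ x ∈ sphere (0 : Fin n → ℝ) 1, H (0, x) = G x ∧ H (1, x) = G' x ∧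
      ∀ t ∈ Icc (0:ℝ) 1, H (t, x) ≠ y) → wind G y = wind G' y) ∧
  (∀ y, y ∉ G '' closedBall 0 1 → wind G y = 0)

def JMP : Prop := ∀ {n : ℕ} {G : (Fin n → ℝ) → (Fin n → ℝ)} (ℓ : (Fin n → ℝ) →ᵃ[ℝ] ℝ)
  {p : Fin n → ℝ} {r : ℝ}, ContinuousOn G (closedBall 0 1) → ℓ.linear ≠ 0 → ℓ p = 0 → 0 < r →
  InjOn G (sphere 0 1 ∩ G ⁻¹' ball p r) → ConicalOn G (sphere 0 1 ∩ G ⁻¹' ball p r) →
  G '' (sphere 0 1 ∩ G ⁻¹' ball p r) = ball p r ∩ {y | ℓ y = 0} →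
  ∀ y₁ ∈ ball p r, ∀ y₂ ∈ ball p r, 0 < ℓ y₁ → ℓ y₂ < 0 →
    wind G y₁ - wind G y₂ = 1 ∨ wind G y₁ - wind G y₂ = -1

/-- no retraction; spheres are not contractible -/
def NR : Prop := ∀ {E : Type} [NormedAddCommGroup E] [NormedSpace ℝ E] {n : ℕ},
  (∀ {C B : Set E} (ρ : E → E), ConBall n C B → ContinuousOn ρ C → MapsTo ρ C B →
    ¬ EqOn ρ id B) ∧
  (∀ {S : Set E} (H : ℝ × E → E) (c : E), ConSphere n S → ContinuousOn H (Icc 0 1 ×ˢ S) →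
    MapsTo H (Icc 0 1 ×ˢ S) S → (∀ x ∈ S, H (0, x) = x) → ¬ ∀ x ∈ S, H (1, x) = c)

/-- lifting circle valued maps -/
def IDX : Prop := ∀ {T E : Type} [TopologicalSpace T] [NormedAddCommGroup E] [NormedSpace ℝ E]
  {Y : Set T} {K : Set E} {f : T → E} {g : E → T} {θ : T → AddCircle (1:ℝ)},
  Convex ℝ K → HomeoOn f g Y K → ContinuousOn θ Y →
  ∃ lam : T → ℝ, ContinuousOn lam Y ∧ ∀ y ∈ Y, (lam y : AddCircle (1:ℝ)) = θ y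

/-! ### A9, A10, A11: surfaces in space -/

def LFL : Prop := ∀ {S C B : Set E3} {x : E3}, ConBall 2 C B → x ∈ C \ B → C ⊆ S → C ∈ 𝓝[S] x →
  ∃ Φ : ConHomeo (univ : Set E3) (univ : Set E3), Φ.toFun x = 0 ∧
    ∀ᶠ y in 𝓝 x, (y ∈ S ↔ Φ.toFun y 2 = 0)

def JB : Prop :=
  (∀ {S : Set E3}, ConSphere 2 S → IsOpen (Inside S) ∧ frontier (Inside S) = S ∧
    IsConnected (Inside S) ∧ IsConnected (S ∪ Inside S)ᶜ ∧ frontier (S ∪ Inside S)ᶜ = S ∧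
    IsCompact (S ∪ Inside S) ∧ Inside S ⊆ convexHull ℝ S) ∧
  ∀ {C B : Set E3}, ConBall 3 C B → Inside B = C \ B

def COL : Prop := ∀ {S U P M : Set E3} {ε : E3 → ℝ}, IsOpen U → S ⊆ U → ClosedIn S U →
  PLMan 2 S → IsOpen P → IsOpen M → Disjoint P M → P ∪ M = U \ S →
  S ⊆ closure P → S ⊆ closure M → Gauge ε S →
  ∃ (Y : Set E3) (κ : ConHomeo (S ×ˢ Icc (-1:ℝ) 1) Y) (lam : E3 → ℝ), Y ⊆ U ∧ ClosedIn Y U ∧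
    IsOpen (κ.toFun '' (S ×ˢ Ioo (-1) 1)) ∧ PLOn lam U ∧
    (∀ x ∈ S, κ.toFun (x, 0) = x ∧ ∀ s ∈ Icc (-1:ℝ) 1, lam (κ.toFun (x, s)) = s ∧
      dist (κ.toFun (x, s)) x < ε x) ∧
    (∀ y ∈ U \ Y, lam y = 1 ∨ lam y = -1) ∧ (∀ y ∈ U, (y ∈ P ↔ 0 < lam y) ∧ (y ∈ M ↔ lam y < 0))

def SCH3 : Prop := ∀ {E : Type} [NormedAddCommGroup E] [NormedSpace ℝ E] {C B : Set E}
  {S N : Set E3} (e : ConHomeo B S) {z : E}, ConBall 3 C B → z ∈ C \ B → IsClosed N →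
  interior N = ∅ → ∃ (h : E → E3) (g : E3 → E), HomeoOn h g C (S ∪ Inside S) ∧
    EqOn h e.toFun B ∧ ConicalOn h (C \ {z}) ∧ h z ∉ N

/-- the insides of the images of the boundaries of the tiles tile the target -/
def ASMT : Prop := ∀ {ι : Type} {V V' Y : Set E3} (T B O : ι → Set E3)
  (e : ConHomeo (⋃ i, B i) Y), IsOpen V → V.Nonempty → IsOpen V' → IsPreconnected V' →
  (∀ i, ConBall 3 (T i) (B i)) → ⋃ i, T i = V → LFIn T V →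
  (∀ i j, i ≠ j → Disjoint (T i \ B i) (T j) ∧ IsPreconnected (B j \ T i) ∧ (B j \ T i).Nonempty) →
  (∀ i, Convex ℝ (O i) ∧ e.toFun '' B i ⊆ O i ∧ O i ⊆ V') → LFIn O V' →
  (⋃ i, (e.toFun '' B i ∪ Inside (e.toFun '' B i))) = V' ∧
  (∀ i, Disjoint (Inside (e.toFun '' B i)) Y) ∧
  ∀ i j, i ≠ j → Disjoint (Inside (e.toFun '' B i)) (Inside (e.toFun '' B j))

/-- gluing the fillings -/
def ASMG : Prop := ∀ {ι : Type} {V V' Y : Set E3} (T B O : ι → Set E3)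
  (e : ConHomeo (⋃ i, B i) Y) (h g : ι → E3 → E3) (z : ι → E3),
  IsOpen V → V.Nonempty → IsOpen V' → IsPreconnected V' →
  (∀ i, ConBall 3 (T i) (B i)) → ⋃ i, T i = V → LFIn T V →
  (∀ i j, i ≠ j → Disjoint (T i \ B i) (T j) ∧ IsPreconnected (B j \ T i) ∧ (B j \ T i).Nonempty) →
  (∀ i, Convex ℝ (O i) ∧ e.toFun '' B i ⊆ O i ∧ O i ⊆ V') → LFIn O V' →
  (∀ i, z i ∈ T i \ B i ∧ HomeoOn (h i) (g i) (T i) (e.toFun '' B i ∪ Inside (e.toFun '' B i)) ∧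
    EqOn (h i) e.toFun (B i) ∧ ConicalOn (h i) (T i \ {z i})) →
  ∃ H G : E3 → E3, HomeoOn H G V V' ∧ (∀ i, EqOn H (h i) (T i)) ∧ DiscreteIn (range z) V ∧
    ConicalOn H (V \ range z) ∧ ∀ i, H '' T i ⊆ O i

/-! ### A12, A13, A14: plane topology -/

/-- small models -/
def MOD : Prop := ∀ {E : Type} [NormedAddCommGroup E] [NormedSpace ℝ E],
  (∀ {C B : Set E}, ConBall 0 C B ↔ (∃ a, C = {a}) ∧ B = ∅) ∧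
  (∀ {C B : Set E}, ConBall 1 C B ↔ ∃ p q, IsArc C p q ∧ B = {p, q}) ∧
  (∀ {J : Set E}, IsCircle J ↔ ConSphere 1 J) ∧
  (∀ {D B : Set E}, ConBall 2 D B ↔ B ⊆ D ∧
    ∃ φ : ConHomeo D (closedBall (0 : ℝ × ℝ) 1), φ.toFun '' B = sphere 0 1) ∧
  (∀ {D : Set (ℝ × ℝ)}, AmbDisc D → ConBall 2 D (frontier D)) ∧
  (∀ {D B : Set (ℝ × ℝ)}, ConBall 2 D B → AmbDisc D ∧ B = frontier D)

/-- arcs in arcs and circles -/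
def ARCS : Prop := ∀ {E : Type} [NormedAddCommGroup E] [NormedSpace ℝ E],
  (∀ {A : Set E} {p q a b : E}, IsArc A p q → a ∈ A → b ∈ A → a ≠ b →
    ∃! A', IsArc A' a b ∧ A' ⊆ A) ∧
  (∀ {A : Set E} {p q a : E}, IsArc A p q → a ∈ A → a ≠ p → a ≠ q →
    ∃ A₁ A₂, IsArc A₁ p a ∧ IsArc A₂ a q ∧ A₁ ∪ A₂ = A ∧ A₁ ∩ A₂ = {a}) ∧
  (∀ {J : Set E} {p q : E}, IsCircle J → p ∈ J → q ∈ J → p ≠ q →
    ∃ A₁ A₂, IsArc A₁ p q ∧ IsArc A₂ p q ∧ A₁ ∪ A₂ = J ∧ A₁ ∩ A₂ = {p, q} ∧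
      ∀ A, IsArc A p q → A ⊆ J → A = A₁ ∨ A = A₂) ∧
  (∀ {J J' : Set E}, IsCircle J → IsCircle J' → J ⊆ J' → J = J') ∧
  (∀ {J A : Set E} {p q : E}, IsCircle J → IsArc A p q → ¬ J ⊆ A) ∧
  (∀ {J : Set E} {p : E}, IsCircle J → IsConnected J ∧ IsPreconnected (J \ {p})) ∧
  (∀ {A K : Set E} {p q : E}, IsArc A p q → IsClosed K → p ∈ K → q ∉ K →
    ∃ a ∈ A ∩ K, ∃ A', IsArc A' a q ∧ A' ⊆ A ∧ A' ∩ K = {a})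

/-- a circle in a disc bounds a unique subdisc -/
def CID : Prop := ∀ {E : Type} [NormedAddCommGroup E] [NormedSpace ℝ E] {D B J : Set E},
  ConBall 2 D B → IsCircle J → J ⊆ D → ∃ Δ, Δ ⊆ D ∧ ConBall 2 Δ J ∧
    (∀ Δ', Δ' ⊆ D → ConBall 2 Δ' J → Δ' = Δ) ∧ Disjoint (Δ \ J) B ∧
    (∀ x ∈ Δ \ J, Δ ∈ 𝓝[D] x) ∧ (∀ x ∈ J \ B, x ∈ closure (D \ Δ)) ∧
    (Disjoint J B → IsPreconnected (D \ Δ))

/-- a cross-cut splits a disc -/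
def XC : Prop := ∀ {E : Type} [NormedAddCommGroup E] [NormedSpace ℝ E] {D B β B₁ B₂ : Set E}
  {p q : E}, ConBall 2 D B → IsArc β p q → β ⊆ D → β ∩ B = {p, q} →
  IsArc B₁ p q → IsArc B₂ p q → B₁ ∪ B₂ = B → B₁ ∩ B₂ = {p, q} →
  ∃ D₁ D₂, ConBall 2 D₁ (β ∪ B₁) ∧ ConBall 2 D₂ (β ∪ B₂) ∧ D₁ ∪ D₂ = D ∧ D₁ ∩ D₂ = β ∧
    D₁ ∩ B = B₁ ∧ D₂ ∩ B = B₂

/-- the union of two discs along an arc -/
def UNI : Prop := ∀ {E : Type} [NormedAddCommGroup E] [NormedSpace ℝ E]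
  {D₁ B₁ D₂ B₂ β : Set E} {p q : E}, ConBall 2 D₁ B₁ → ConBall 2 D₂ B₂ → IsArc β p q →
  D₁ ∩ D₂ = β → β ⊆ B₁ → β ⊆ B₂ → ConBall 2 (D₁ ∪ D₂) ((B₁ ∪ B₂) \ (β \ {p, q}))

/-- extension from a boundary arc -/
def EXA : Prop := ∀ {E F : Type} [NormedAddCommGroup E] [NormedSpace ℝ E]
  [NormedAddCommGroup F] [NormedSpace ℝ F] {D B β : Set E} {D' B' β' : Set F} {p q : E}
  (φ : ConHomeo β β'), ConBall 2 D B → ConBall 2 D' B' → IsArc β p q → β ⊆ B → β' ⊆ B' →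
  ∃ Φ : ConHomeo D D', EqOn Φ.toFun φ.toFun β ∧ Φ.toFun '' B = B'

/-- circles and discs on a sphere -/
def COS : Prop := ∀ {E : Type} [NormedAddCommGroup E] [NormedSpace ℝ E],
  (∀ {S J : Set E}, ConSphere 2 S → IsCircle J → J ⊆ S → ∃ Δ₁ Δ₂, ConBall 2 Δ₁ J ∧
    ConBall 2 Δ₂ J ∧ Δ₁ ∪ Δ₂ = S ∧ Δ₁ ∩ Δ₂ = J ∧
    ∀ Δ, Δ ⊆ S → ConBall 2 Δ J → Δ = Δ₁ ∨ Δ = Δ₂) ∧
  (∀ {Δ₁ Δ₂ J : Set E}, ConBall 2 Δ₁ J → ConBall 2 Δ₂ J → Δ₁ ∩ Δ₂ = J → ConSphere 2 (Δ₁ ∪ Δ₂)) ∧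
  (∀ {D B : Set E}, ConBall 2 D B → IsConnected (D \ B) ∧ D ⊆ closure (D \ B))

/-- PL arcs in connected open sets -/
def PATH : Prop := ∀ {E : Type} [NormedAddCommGroup E] [NormedSpace ℝ E],
  (∀ {n : ℕ} {X O : Set E} {p q : E}, PLMan n X → IsOpen O → IsPreconnected (X ∩ O) →
    p ∈ X ∩ O → q ∈ X ∩ O → p ≠ q → ∃ A, IsArc A p q ∧ A ⊆ X ∩ O) ∧
  (∀ {D B O : Set E} {p q : E}, ConBall 2 D B → IsOpen O → IsPreconnected (D ∩ O) →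
    p ∈ D ∩ O → q ∈ D ∩ O → p ≠ q → ∃ A, IsArc A p q ∧ A ⊆ D ∩ O ∧ A ∩ B ⊆ {p, q}) ∧
  (∀ {n : ℕ} {C B : Set E}, ConBall n C B → ∀ x ∈ C, ∀ U ∈ 𝓝[C] x, ∃ O, IsOpen O ∧ x ∈ O ∧
    C ∩ O ⊆ U ∧ IsPreconnected (C ∩ O) ∧ IsPreconnected ((C \ B) ∩ O))

/-- a disc minus disjoint subdiscs; replacing subdiscs by caps -/
def REPL : Prop := ∀ {E : Type} [NormedAddCommGroup E] [NormedSpace ℝ E] {ι : Type}
  (s : Finset ι) {D B : Set E} (Δ J A : ι → Set E), ConBall 2 D B →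
  (∀ i ∈ s, ConBall 2 (Δ i) (J i) ∧ Δ i ⊆ D ∧
    ((A i = J i ∧ Disjoint (J i) B) ∨ ∃ p q, IsArc (A i) p q ∧ A i ⊆ J i ∧ A i ∩ B = {p, q} ∧
      J i ⊆ A i ∪ B)) →
  (∀ i ∈ s, ∀ j ∈ s, i ≠ j → Disjoint (Δ i) (Δ j)) →
  IsPreconnected (D \ ⋃ i ∈ s, Δ i) ∧
  (D \ ⋃ i ∈ s, (Δ i \ A i)) ⊆ closure (D \ ⋃ i ∈ s, Δ i) ∧
  IsCompact (D \ ⋃ i ∈ s, (Δ i \ A i)) ∧
  ∀ (C L : ι → Set E), (∀ i ∈ s, ConBall 2 (C i) (L i) ∧ A i ⊆ L i ∧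
      C i ∩ (D \ ⋃ i ∈ s, (Δ i \ A i)) ⊆ A i) →
    (∀ i ∈ s, ∀ j ∈ s, i ≠ j → Disjoint (C i) (C j)) →
    ∃ Φ : ConHomeo D ((D \ ⋃ i ∈ s, (Δ i \ A i)) ∪ ⋃ i ∈ s, C i),
      (∀ x ∈ D \ ⋃ i ∈ s, (Δ i \ A i), Φ.toFun x = x) ∧
      ∀ i ∈ s, Φ.toFun '' Δ i = C i ∧ Φ.toFun '' J i = L i

/-- finite graphs with degrees one and two -/
def CYC : Prop := ∀ {E : Type} [NormedAddCommGroup E] [NormedSpace ℝ E] {ι : Type}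
  (s : Finset ι) (A : ι → Set E) (a b : ι → E), (∀ i ∈ s, IsArc (A i) (a i) (b i)) →
  (∀ i ∈ s, ∀ j ∈ s, i ≠ j → A i ∩ A j ⊆ {a i, b i} ∩ {a j, b j}) →
  (∀ x, {i | i ∈ s ∧ x ∈ A i}.ncard ≤ 2) →
  ∃ 𝒞 : Finset (Finset ι), (∀ c ∈ 𝒞, c ⊆ s) ∧ (∀ i ∈ s, ∃ c ∈ 𝒞, i ∈ c) ∧
    (∀ c ∈ 𝒞, ∀ c' ∈ 𝒞, c ≠ c' → Disjoint (⋃ i ∈ c, A i) (⋃ i ∈ c', A i)) ∧
    ∀ c ∈ 𝒞, (IsCircle (⋃ i ∈ c, A i) ∧ ∀ i ∈ c, ∀ x ∈ ({a i, b i} : Set E),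
        {j | j ∈ s ∧ x ∈ A j}.ncard = 2) ∨
      ∃ p q, IsArc (⋃ i ∈ c, A i) p q ∧ ∀ i ∈ c, ∀ x ∈ ({a i, b i} : Set E),
        ({j | j ∈ s ∧ x ∈ A j}.ncard = 1 ↔ (x = p ∨ x = q))

/-- generic levels of a PL function on a disc -/
def P4 : Prop := ∀ {E : Type} [NormedAddCommGroup E] [NormedSpace ℝ E] [FiniteDimensional ℝ E]
  {D B : Set E} {g : E → ℝ}, ConBall 2 D B → PLOn g D → ∃ T : Set ℝ, T.Finite ∧ ∀ t, t ∉ T →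
  (∃ 𝒞 : Finset (Set E), {x ∈ D | g x = t} = ⋃ c ∈ 𝒞, c ∧
    (∀ c ∈ 𝒞, ∀ c' ∈ 𝒞, c ≠ c' → Disjoint c c') ∧
    ∀ c ∈ 𝒞, (IsCircle c ∧ Disjoint c B) ∨ ∃ p q, IsArc c p q ∧ c ∩ B = {p, q}) ∧
  (∀ x ∈ D, g x = t → ∀ U ∈ 𝓝 x, ∃ O, IsOpen O ∧ x ∈ O ∧ O ⊆ U ∧
    IsPreconnected {y ∈ D ∩ O | t < g y} ∧ IsPreconnected {y ∈ D ∩ O | g y < t} ∧
    x ∈ closure {y ∈ D | t < g y} ∧ x ∈ closure {y ∈ D | g y < t}) ∧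
  (∀ x ∈ B, g x = t → x ∈ closure {y ∈ B | t < g y} ∧ x ∈ closure {y ∈ B | g y < t})

/-! ### A15: energy -/

def ENB : Prop := ∀ {S S' T : Type} [MetricSpace S] [MeasurableSpace S] [BorelSpace S]
  [MetricSpace S'] [MeasurableSpace S'] [BorelSpace S'] [PseudoEMetricSpace T]
  (k : ℕ) {p : ℝ}, 0 < p →
  (∀ {X : Set S} {Y : Set S'} {φ : S → S'} {ψ : S' → S} {h : S' → T} {K L : ℝ≥0},
    IsCompact X → MapsTo φ X Y → MapsTo ψ Y X → LeftInvOn ψ φ X → RightInvOn ψ φ Y →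
    LipschitzOnWith K φ X → LipschitzOnWith L ψ Y →
    En k p (h ∘ φ) X ≤ (K : ℝ≥0∞) ^ p * (L : ℝ≥0∞) ^ k * En k p h Y) ∧
  (∀ {X : Set S} {h : S → T} {K : ℝ≥0}, MeasurableSet X → LipschitzOnWith K h X →
    En k p h X ≤ (K : ℝ≥0∞) ^ p * μH[(k : ℝ)] X) ∧
  (∀ {X : Set S} {h h' : S → T}, MeasurableSet X → EqOn h h' X → En k p h X = En k p h' X)

def ENC : Prop := ∀ {E F : Type} [NormedAddCommGroup E] [NormedSpace ℝ E] [FiniteDimensional ℝ E]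
  [MeasurableSpace E] [BorelSpace E] [NormedAddCommGroup F] [NormedSpace ℝ F]
  (K : RCx E) (k : ℕ) {p : ℝ} (h : E → F) (s : Finset K.ι) (i : K.ι), 0 < p → K.dim i = k + 1 →
  (∀ j, j ∈ s ↔ K.cell j ⊆ K.bd i ∧ K.dim j = k) →
  En k p h (K.bd i) ≤ ∑ j ∈ s, En k p h (K.cell j)

def END : Prop := ∀ {n : ℕ} {F : Type} [NormedAddCommGroup F] [NormedSpace ℝ F]
  {X : Set (Fin n → ℝ)} {h : (Fin n → ℝ) → F} {p : ℝ}, 0 < p →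
  (∀ x ∈ interior X, ‖fderiv ℝ h x‖ₑ ≤ lipAt h X x) ∧
  ∫⁻ x in interior X, ‖fderiv ℝ h x‖ₑ ^ p ≤ En n p h X

def CONE2 : Prop := ∀ {p : ℝ}, 1 ≤ p → p < 2 → ∀ M : ℝ≥0, ∃ C : ℝ≥0,
  ∀ {D B : Set E3} {h : E3 → E3} {η : ℝ≥0∞}, BiChart 2 D B M → PLOn h D → 0 < η →
  ∃ Θ : ConHomeo D D, EqOn Θ.toFun id B ∧ En 2 p (h ∘ Θ.toFun) D ≤ C * En 1 p h B + η

def CONE3 : Prop := ∀ {p : ℝ}, 1 ≤ p → p < 3 → ∀ M : ℝ≥0, ∃ C : ℝ≥0,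
  ∀ {Q B : Set E3}, BiChart 3 Q B M → ∃ z ∈ Q \ B, ∀ {h : E3 → E3} {η : ℝ≥0∞},
  ContinuousOn h Q → ConicalOn h (Q \ {z}) → 0 < η →
  ∃ Θ Θ' : E3 → E3, HomeoOn Θ Θ' Q Q ∧ EqOn Θ id B ∧ Θ z = z ∧ ConicalOn Θ (Q \ {z}) ∧
    En 3 p (h ∘ Θ) Q ≤ C * En 2 p h B + η

/-! ### smoothing -/

def PLS : Prop := ∀ {U V : Set E3} (h : ConHomeo U V) {p : ℝ} {ε : ℝ≥0∞} {r : E3 → ℝ},
  IsOpen U → IsOpen V → 1 ≤ p → 0 < ε → Gauge r U →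
  ∃ (g g' : E3 → E3) (Z : Set E3), HomeoOn g g' U V ∧ DiscreteIn Z U ∧
    ContDiffOn ℝ ∞ g (U \ Z) ∧ (∀ x ∈ U \ Z, (fderiv ℝ g x).det ≠ 0) ∧
    LocallyLipschitzOn U g ∧ ∫⁻ x in U, ‖fderiv ℝ g x - fderiv ℝ h.toFun x‖ₑ ^ p < ε ∧
    ∀ x ∈ U, dist (h.invFun (g x)) x < r x

def RAY : Prop := ∀ {U V Z : Set E3} {g g' : E3 → E3} {p : ℝ} {ε : ℝ≥0∞},
  IsOpen U → IsOpen V → Bornology.IsBounded U → 1 ≤ p → p < 2 → 0 < ε →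
  HomeoOn g g' U V → DiscreteIn Z U → ContDiffOn ℝ ∞ g (U \ Z) →
  (∀ x ∈ U \ Z, (fderiv ℝ g x).det ≠ 0) →
  (∀ x ∈ U, ∃ W ∈ 𝓝 x, ∫⁻ y in W, ‖fderiv ℝ g y‖ₑ ^ p < ⊤) →
  ∃ k k' : E3 → E3, HomeoOn k k' U V ∧ ContDiffOn ℝ ∞ k U ∧ ContDiffOn ℝ ∞ k' V ∧
    ∫⁻ x in U, ‖fderiv ℝ k x - fderiv ℝ g x‖ₑ ^ p < ε ∧ volume {x ∈ U | k x ≠ g x} < ε ∧
    ∀ b ∈ frontier U, Tendsto (g' ∘ k) (𝓝[U] b) (𝓝 b)

/-- the PL approximation theorem -/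
def PLA : Prop := ∀ {Ω Λ : Set E3} {f f' : E3 → E3} {F : E3 → (E3 →L[ℝ] E3)} {p : ℝ} {ε : ℝ},
  IsOpen Ω → IsOpen Λ → IsConnected Ω → IsConnected Λ → Bornology.IsBounded Ω →
  Bornology.IsBounded Λ → 1 ≤ p → p < 2 → 0 < ε → HomeoOn f f' Ω Λ →
  AEStronglyMeasurable F (volume.restrict Ω) → ∫⁻ x in Ω, ‖F x‖ₑ ^ p < ⊤ →
  Vale.Agent.P073.HB.WeakDeriv volume Ω f F →
  ∃ (h h' : E3 → E3) (Z : Set E3), HomeoOn h h' Ω Λ ∧ DiscreteIn Z Ω ∧ ConicalOn h (Ω \ Z) ∧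
    (∀ x ∈ Ω, dist (h x) (f x) ≤ ε) ∧
    ∫⁻ x in Ω, ‖fderiv ℝ h x - F x‖ₑ ^ p < ENNReal.ofReal ε

end P073
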