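import Vale.Agent.P073Z.RCX
import Vale.Agent.P073Z.Sk1

/-!
# Regular PL cell complexes: subcomplexes, images, realisations, isomorphisms
-/

open Set Metric Topology Filter

namespace P073

variable {E F G : Type} [NormedAddCommGroup E] [NormedSpace ℝ E]
  [NormedAddCommGroup F] [NormedSpace ℝ F] [NormedAddCommGroup G] [NormedSpace ℝ G]

namespace RCx

variable (K : RCx E)

/-- a family of cells closed under faces -/
def FaceClosed (P : K.ι → Prop) : Prop := ∀ i j, P i → K.cell j ⊆ K.cell i → P j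

theorem faceClosed_dim (k : ℕ) : K.FaceClosed fun i => K.dim i ≤ k :=
  fun _ _ hi h => (K.dim_le h).trans hi

theorem faceClosed_subset (X : Set E) : K.FaceClosed fun i => K.cell i ⊆ X :=
  fun _ _ hi h => h.trans hi

theorem faceClosed_false : K.FaceClosed fun _ => False := fun _ _ hi _ => hi

theorem FaceClosed.or {K : RCx E} {P Q : K.ι → Prop} (hP : K.FaceClosed P)
    (hQ : K.FaceClosed Q) : K.FaceClosed fun i => P i ∨ Q i :=
  fun i j hi h => hi.imp (fun hi => hP i j hi h) (fun hi => hQ i j hi h)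

theorem FaceClosed.and {K : RCx E} {P Q : K.ι → Prop} (hP : K.FaceClosed P)
    (hQ : K.FaceClosed Q) : K.FaceClosed fun i => P i ∧ Q i :=
  fun i j hi h => ⟨hP i j hi.1 h, hQ i j hi.2 h⟩

/-- the subcomplex given by a family of cells closed under faces -/
def restrict (P : K.ι → Prop) (hP : K.FaceClosed P) : RCx E where
  ι := {i // P i}
  cell := fun i => K.cell i
  bd := fun i => K.bd i
  dim := fun i => K.dim i
  ball := fun i => K.ball i
  disj := fun i j h => K.disj i j fun e => h (Subtype.ext e)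
  bdry := fun i x hx =>
    let ⟨j, h1, h2, h3⟩ := K.bdry i x hx
    ⟨⟨j, hP i j i.2 (h2.trans (K.bd_subset i))⟩, h1, h2, h3⟩
  lf := (K.lfIn.comp_injective Subtype.val_injective).mono
    (iUnion_subset fun _ => K.cell_subset_carrier _)

theorem restrict_carrier (P : K.ι → Prop) (hP : K.FaceClosed P) :
    (K.restrict P hP).carrier = ⋃ i, ⋃ (_ : P i), K.cell i := by
  ext x
  simp only [mem_iUnion, carrier, exists_prop]
  exact ⟨fun ⟨i, hi⟩ => ⟨i.1, i.2, hi⟩, fun ⟨i, hi, hx⟩ => ⟨⟨i, hi⟩, hx⟩⟩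

theorem Cvx.restrict {K : RCx E} (h : K.Cvx) (P : K.ι → Prop) (hP : K.FaceClosed P) :
    (K.restrict P hP).Cvx := fun i => h i.1

/-- the subcomplex of the cells inside a set -/
def within (X : Set E) : RCx E := K.restrict (fun i => K.cell i ⊆ X) (K.faceClosed_subset X)

theorem Sub.within_carrier {K : RCx E} {X : Set E} (h : K.Sub X) : (K.within X).carrier = X :=
  (K.restrict_carrier _ _).trans h.eq_iUnion.symm

theorem Sub.restrict {K : RCx E} {X : Set E} (h : K.Sub X) {P : K.ι → Prop}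
    (hP : K.FaceClosed P) (hX : X ⊆ (K.restrict P hP).carrier) : (K.restrict P hP).Sub X := by
  intro x hx
  obtain ⟨j, hj, hs⟩ := h.exists_ocell hx
  obtain ⟨i, hi⟩ := (K.restrict P hP).mem_carrier.1 (hX hx)
  exact ⟨⟨j, hP i.1 j i.2 (K.cell_subset_of_mem hj hi)⟩, hj.1, hs⟩

theorem Sub.of_restrict {K : RCx E} {X : Set E} {P : K.ι → Prop} {hP : K.FaceClosed P}
    (h : (K.restrict P hP).Sub X) : K.Sub X := fun x hx =>
  let ⟨i, hi, hs⟩ := h x hx; ⟨i.1, hi, hs⟩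

theorem Sub.finite_within {K : RCx E} {X : Set E} (h : K.Sub X) (hc : IsCompact X) :
    Finite (K.within X).ι := K.finite_subset hc h.subset_carrier

/-- the image of a complex under a PL homeomorphism -/
def image {X : Set E} {Y : Set F} (ψ : ConHomeo X Y) (hX : K.carrier ⊆ X) : RCx F where
  ι := K.ι
  cell := fun i => ψ.toFun '' K.cell i
  bd := fun i => ψ.toFun '' K.bd i
  dim := K.dim
  ball := fun i => (K.ball i).image ψ ((K.cell_subset_carrier i).trans hX)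
  disj := fun i j h => by
    rw [Set.disjoint_left]
    rintro _ ⟨⟨x, hx, rfl⟩, hb⟩ ⟨⟨y, hy, hyx⟩, hb'⟩
    have e : y = x := ψ.injOn (hX (K.cell_subset_carrier j hy)) (hX (K.cell_subset_carrier i hx)) hyx
    subst e
    exact h (K.ocell_unique ⟨hx, fun hh => hb ⟨y, hh, rfl⟩⟩ ⟨hy, fun hh => hb' ⟨y, hh, rfl⟩⟩)
  bdry := by
    rintro i _ ⟨x, hx, rfl⟩
    obtain ⟨j, h1, h2, h3⟩ := K.bdry i x hx
    refine ⟨j, ⟨⟨x, h1.1, rfl⟩, ?_⟩, image_mono h2, h3⟩
    rintro ⟨y, hy, hyx⟩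
    have e : y = x := ψ.injOn (hX (K.cell_subset_carrier j (K.bd_subset j hy)))
      (hX (K.cell_subset_carrier j h1.1)) hyx
    exact h1.2 (e ▸ hy)
  lf := by
    rw [← image_iUnion]
    exact K.lfIn.image hX (fun i => (K.cell_subset_carrier i).trans hX) ψ.mapsTo ψ.left_inv
      ψ.cont_inv

section image

variable {X : Set E} {Y : Set F} (ψ : ConHomeo X Y) (hX : K.carrier ⊆ X)

theorem image_carrier : (K.image ψ hX).carrier = ψ.toFun '' K.carrier := image_iUnion.symm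

theorem image_skel (k : ℕ) : (K.image ψ hX).skel k = ψ.toFun '' K.skel k := by
  simp only [skel, image_iUnion]
  rfl

theorem image_ocell (i : K.ι) : (K.image ψ hX).ocell i = ψ.toFun '' K.ocell i :=
  ((ψ.injOn.mono ((K.cell_subset_carrier i).trans hX)).image_sdiff_subset (K.bd_subset i)).symm

theorem image_subset_iff {i : K.ι} {Z : Set E} (hZ : Z ⊆ X) :
    (K.image ψ hX).cell i ⊆ ψ.toFun '' Z ↔ K.cell i ⊆ Z :=
  ψ.injOn.image_subset_image_iff ((K.cell_subset_carrier i).trans hX) hZ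

theorem Sub.image {K : RCx E} {Z : Set E} (h : K.Sub Z) (hX : K.carrier ⊆ X) :
    (K.image ψ hX).Sub (ψ.toFun '' Z) := by
  rintro _ ⟨x, hx, rfl⟩
  obtain ⟨i, hi, hs⟩ := h x hx
  exact ⟨i, ⟨x, hi, rfl⟩, image_mono hs⟩

end image

theorem realiz_cell (k : ℕ) : Realiz K k K.cell where
  ball := fun i _ => by rw [K.rbd_cell]; exact K.ball i
  disj := fun i j _ _ h => by rw [K.rbd_cell, K.rbd_cell]; exact K.disj i j h
  lf := fun y hy => by
    obtain ⟨U, hU, hfin⟩ := K.lf y (K.skel_subset_carrier k hy)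
    exact ⟨U, hU, hfin.subset fun i hi => hi.2⟩

end RCx

namespace Realiz

variable {K : RCx E} {k : ℕ} {R : K.ι → Set F} {i j : K.ι} {y : F}

theorem mono_dim (h : Realiz K k R) {l : ℕ} (hl : l ≤ k) : Realiz K l R where
  ball := fun i hi => h.ball i (hi.trans hl)
  disj := fun i j hi hj => h.disj i j (hi.trans hl) (hj.trans hl)
  lf := fun y hy => by
    obtain ⟨U, hU, hfin⟩ := h.lf y (K.rskel_mono R hl hy)
    exact ⟨U, hU, hfin.subset fun i hi => ⟨hi.1.trans hl, hi.2⟩⟩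

theorem congr (h : Realiz K k R) {R' : K.ι → Set F} (he : ∀ i, K.dim i ≤ k → R' i = R i) :
    Realiz K k R' := by
  have hb : ∀ i, K.dim i ≤ k → K.rbd R' i = K.rbd R i := fun i hi =>
    iUnion₂_congr fun j hj => he j ((K.dim_lt hj).le.trans hi)
  have hs : K.rskel R' k = K.rskel R k := iUnion₂_congr he
  refine ⟨fun i hi => ?_, fun i j hi hj hne => ?_, fun y hy => ?_⟩
  · rw [hb i hi, he i hi]; exact h.ball i hi
  · rw [hb i hi, he i hi, hb j hj, he j hj]; exact h.disj i j hi hj hne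
  · obtain ⟨U, hU, hfin⟩ := h.lf y (hs ▸ hy)
    exact ⟨U, hU, hfin.subset fun i hi => ⟨hi.1, he i hi.1 ▸ hi.2⟩⟩

theorem rbd_subset (h : Realiz K k R) (hi : K.dim i ≤ k) : K.rbd R i ⊆ R i := (h.ball i hi).1
theorem isCompact (h : Realiz K k R) (hi : K.dim i ≤ k) : IsCompact (R i) :=
  (h.ball i hi).isCompact
theorem isClosed (h : Realiz K k R) (hi : K.dim i ≤ k) : IsClosed (R i) := (h.ball i hi).isClosed
theorem open_nonempty (h : Realiz K k R) (hi : K.dim i ≤ k) : (R i \ K.rbd R i).Nonempty :=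
  (h.ball i hi).diff_nonempty

theorem open_unique (h : Realiz K k R) (hi : K.dim i ≤ k) (hj : K.dim j ≤ k)
    (h1 : y ∈ R i \ K.rbd R i) (h2 : y ∈ R j \ K.rbd R j) : i = j := by
  by_contra hne
  exact Set.disjoint_left.1 (h.disj i j hi hj hne) h1 h2

theorem mono (h : Realiz K k R) (hi : K.dim i ≤ k) (hs : K.cell j ⊆ K.cell i) : R j ⊆ R i := by
  rcases K.eq_or_subset_bd hs with e | hb
  · rw [e]
  · exact (K.subset_rbd R hb).trans (h.rbd_subset hi)

omit [NormedAddCommGroup F] [NormedSpace ℝ F] in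
theorem rbd_mono (hs : K.cell j ⊆ K.cell i) : K.rbd R j ⊆ K.rbd R i := by
  intro y hy
  obtain ⟨m, hm, hy⟩ := K.mem_rbd.1 hy
  refine K.mem_rbd.2 ⟨m, K.subset_bd_of_dim_lt ((hm.trans (K.bd_subset j)).trans hs)
    ((K.dim_lt hm).trans_le (K.dim_le hs)), hy⟩

omit [NormedAddCommGroup F] [NormedSpace ℝ F] in
/-- a point of a member lies in the open part of a face -/
theorem exists_face (R : K.ι → Set F) (hy : y ∈ R i) :
    ∃ m, K.cell m ⊆ K.cell i ∧ y ∈ R m \ K.rbd R m := by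
  induction hn : K.dim i using Nat.strong_induction_on generalizing i with
  | _ n ih =>
    by_cases hb : y ∈ K.rbd R i
    · obtain ⟨j, hj, hyj⟩ := K.mem_rbd.1 hb
      obtain ⟨m, hm, hy⟩ := ih _ (hn ▸ K.dim_lt hj) hyj rfl
      exact ⟨m, hm.trans (hj.trans (K.bd_subset i)), hy⟩
    · exact ⟨i, Subset.rfl, hy, hb⟩

omit [NormedAddCommGroup F] [NormedSpace ℝ F] in
theorem exists_face_rbd (R : K.ι → Set F) (hy : y ∈ K.rbd R i) :
    ∃ m, K.cell m ⊆ K.bd i ∧ y ∈ R m \ K.rbd R m := by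
  obtain ⟨j, hj, hyj⟩ := K.mem_rbd.1 hy
  obtain ⟨m, hm, hy⟩ := exists_face R hyj
  exact ⟨m, hm.trans hj, hy⟩

theorem face_of_mem (h : Realiz K k R) (hi : K.dim i ≤ k) (hj : K.dim j ≤ k)
    (h1 : y ∈ R j \ K.rbd R j) (h2 : y ∈ R i) : K.cell j ⊆ K.cell i := by
  obtain ⟨m, hm, hy⟩ := exists_face R h2
  rwa [h.open_unique hj ((K.dim_le hm).trans hi) h1 hy]

theorem exists_common_face (h : Realiz K k R) (hi : K.dim i ≤ k) (hj : K.dim j ≤ k)
    (h1 : y ∈ R i) (h2 : y ∈ R j) :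
    ∃ m, K.cell m ⊆ K.cell i ∧ K.cell m ⊆ K.cell j ∧ y ∈ R m \ K.rbd R m := by
  obtain ⟨m, hm, hy⟩ := exists_face R h1
  exact ⟨m, hm, h.face_of_mem hj ((K.dim_le hm).trans hi) hy h2, hy⟩

theorem inter_eq (h : Realiz K k R) (hi : K.dim i ≤ k) (hj : K.dim j ≤ k) :
    R i ∩ R j = ⋃ m, ⋃ (_ : K.cell m ⊆ K.cell i ∩ K.cell j), R m := by
  apply Subset.antisymm
  · rintro y ⟨h1, h2⟩
    obtain ⟨m, a, b, c⟩ := h.exists_common_face hi hj h1 h2
    exact mem_iUnion₂.2 ⟨m, subset_inter a b, c.1⟩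
  · exact iUnion₂_subset fun m hm => subset_inter (h.mono hi (hm.trans inter_subset_left))
      (h.mono hj (hm.trans inter_subset_right))

theorem subset_iff (h : Realiz K k R) (hi : K.dim i ≤ k) (hj : K.dim j ≤ k) :
    R j ⊆ R i ↔ K.cell j ⊆ K.cell i :=
  ⟨fun hs => let ⟨_, hy⟩ := h.open_nonempty hj; h.face_of_mem hi hj hy (hs hy.1), h.mono hi⟩

theorem subset_rbd_iff (h : Realiz K k R) (hi : K.dim i ≤ k) (hj : K.dim j ≤ k) :
    R j ⊆ K.rbd R i ↔ K.cell j ⊆ K.bd i := by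
  refine ⟨fun hs => ?_, K.subset_rbd R⟩
  obtain ⟨y, hy⟩ := h.open_nonempty hj
  obtain ⟨m, hm, hym⟩ := K.mem_rbd.1 (hs hy.1)
  exact (h.face_of_mem ((K.dim_lt hm).le.trans hi) hj hy hym).trans hm

theorem disjoint_iff (h : Realiz K k R) (hi : K.dim i ≤ k) (hj : K.dim j ≤ k) :
    Disjoint (R i) (R j) ↔ Disjoint (K.cell i) (K.cell j) := by
  rw [← not_iff_not, not_disjoint_iff, not_disjoint_iff]
  constructor
  · rintro ⟨y, h1, h2⟩
    obtain ⟨m, a, b, -⟩ := h.exists_common_face hi hj h1 h2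
    obtain ⟨x, hx⟩ := K.cell_nonempty m
    exact ⟨x, a hx, b hx⟩
  · rintro ⟨x, h1, h2⟩
    obtain ⟨m, -, a, b⟩ := K.exists_common_face h1 h2
    obtain ⟨y, hy⟩ := h.open_nonempty ((K.dim_le a).trans hi)
    exact ⟨y, h.mono hi a hy.1, h.mono hj b hy.1⟩

theorem inter_subset_rbd (h : Realiz K k R) (hi : K.dim i ≤ k) (hne : i ≠ j)
    (hd : K.dim j ≤ K.dim i) : R i ∩ R j ⊆ K.rbd R i := by
  rintro y ⟨h1, h2⟩
  by_contra hb
  exact hne (K.eq_of_subset_of_dim_le (h.face_of_mem (hd.trans hi) hi ⟨h1, hb⟩ h2) hd)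

theorem lfIn (h : Realiz K k R) :
    LFIn (fun i : {i // K.dim i ≤ k} => R i) (K.rskel R k) := by
  intro y hy
  obtain ⟨U, hU, hfin⟩ := h.lf y hy
  exact ⟨U, hU, (Finite.preimage (f := Subtype.val) Subtype.val_injective.injOn hfin).subset
    fun i hi => ⟨i.2, hi⟩⟩

/-- a realisation is a complex -/
def toRCx (h : Realiz K k R) : RCx F where
  ι := {i // K.dim i ≤ k}
  cell := fun i => R i
  bd := fun i => K.rbd R i
  dim := fun i => K.dim i
  ball := fun i => h.ball i i.2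
  disj := fun i j hne => h.disj i j i.2 j.2 fun e => hne (Subtype.ext e)
  bdry := fun i _ hy =>
    let ⟨m, hm, hy⟩ := exists_face_rbd R hy
    ⟨⟨m, (K.dim_lt hm).le.trans i.2⟩, hy, K.subset_rbd R hm, K.dim_lt hm⟩
  lf := h.lfIn.mono (iUnion_subset fun i => K.subset_rskel R i.2)

theorem toRCx_carrier (h : Realiz K k R) : h.toRCx.carrier = K.rskel R k := by
  ext y
  rw [RCx.mem_carrier, RCx.mem_rskel]
  exact ⟨fun ⟨i, hi⟩ => ⟨i.1, i.2, hi⟩, fun ⟨i, hi, hy⟩ => ⟨⟨i, hi⟩, hy⟩⟩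

theorem toRCx_skel (h : Realiz K k R) {l : ℕ} (hl : l ≤ k) : h.toRCx.skel l = K.rskel R l := by
  ext y
  rw [RCx.mem_skel, RCx.mem_rskel]
  exact ⟨fun ⟨i, hi, hy⟩ => ⟨i.1, hi, hy⟩, fun ⟨i, hi, hy⟩ => ⟨⟨i, hi.trans hl⟩, hi, hy⟩⟩

theorem toRCx_sub (h : Realiz K k R) {P : K.ι → Prop} (hP : ∀ i, P i → K.dim i ≤ k) :
    h.toRCx.Sub (⋃ i, ⋃ (_ : P i), R i) := by
  intro y hy
  obtain ⟨i, hi, hy⟩ := mem_iUnion₂.1 hy
  exact ⟨⟨i, hP i hi⟩, hy, subset_iUnion₂ (s := fun i (_ : P i) => R i) i hi⟩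

theorem closedIn (h : Realiz K k R) {P : K.ι → Prop} (hP : ∀ i, P i → K.dim i ≤ k) :
    ClosedIn (⋃ i, ⋃ (_ : P i), R i) (K.rskel R k) :=
  h.toRCx_carrier ▸ (h.toRCx_sub hP).closedIn

theorem closedIn_rskel (h : Realiz K k R) {l : ℕ} (hl : l ≤ k) :
    ClosedIn (K.rskel R l) (K.rskel R k) := h.closedIn fun _ hi => hi.trans hl

theorem locConeAt (h : Realiz K k R) {P : K.ι → Prop} (hP : ∀ i, P i → K.dim i ≤ k)
    (hy : y ∈ K.rskel R k) : LocConeAt (⋃ i, ⋃ (_ : P i), R i) y :=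
  (h.toRCx_sub hP).locConeAt (h.toRCx_carrier ▸ hy)

theorem conicalSet (h : Realiz K k R) {P : K.ι → Prop} (hP : ∀ i, P i → K.dim i ≤ k) :
    ConicalSet (⋃ i, ⋃ (_ : P i), R i) := (h.toRCx_sub hP).conicalSet

theorem conicalSet_rskel (h : Realiz K k R) : ConicalSet (K.rskel R k) :=
  h.conicalSet fun _ hi => hi

theorem eventually_star (h : Realiz K k R) (hy : y ∈ K.rskel R k) :
    ∀ᶠ z in 𝓝 y, ∀ i, K.dim i ≤ k → z ∈ R i → y ∈ R i :=
  (h.lfIn.eventually (fun i => h.isClosed i.2) hy).mono fun _ hz i hi => hz ⟨i, hi⟩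

theorem finite_meet (h : Realiz K k R) {C : Set F} (hC : IsCompact C) (hs : C ⊆ K.rskel R k) :
    {i | K.dim i ≤ k ∧ (R i ∩ C).Nonempty}.Finite :=
  ((h.lfIn.finite_meet hC hs).image Subtype.val).subset fun i hi => ⟨⟨i, hi.1⟩, hi.2, rfl⟩

theorem relLF (h : Realiz K k R) {P : K.ι → Prop} (hP : ∀ i, P i → K.dim i ≤ k) :
    RelLF (fun i : {i // P i} => R i) where
  fin := fun z hz => by
    obtain ⟨i, hi⟩ := mem_iUnion.1 hz
    obtain ⟨U, hU, hfin⟩ := h.lf z (K.subset_rskel R (hP i i.2) hi)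
    exact ⟨U, hU, (Finite.preimage (f := Subtype.val) Subtype.val_injective.injOn hfin).subset
      fun i hi => ⟨hP i i.2, hi⟩⟩
  closed := fun i z _ hz => (h.isClosed (hP i i.2)).closure_eq ▸ hz

/-- the image of a realisation under a PL homeomorphism -/
theorem image (h : Realiz K k R) {X : Set F} {Y : Set G} (ψ : ConHomeo X Y)
    (hX : K.rskel R k ⊆ X) : Realiz K k fun i => ψ.toFun '' R i := by
  have hb : ∀ i, K.rbd (fun i => ψ.toFun '' R i) i = ψ.toFun '' K.rbd R i := fun i => by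
    simp only [RCx.rbd, image_iUnion]
  have hs : K.rskel (fun i => ψ.toFun '' R i) k = ψ.toFun '' K.rskel R k := by
    simp only [RCx.rskel, image_iUnion]
  refine ⟨fun i hi => ?_, fun i j hi hj hne => ?_, fun y hy => ?_⟩
  · rw [hb]; exact (h.ball i hi).image ψ ((K.subset_rskel R hi).trans hX)
  · rw [hb, hb]
    exact (h.toRCx.image ψ (h.toRCx_carrier ▸ hX)).disj ⟨i, hi⟩ ⟨j, hj⟩
      fun e => hne (congrArg Subtype.val e)
  · rw [hs] at hy
    obtain ⟨U, hU, hfin⟩ := h.lfIn.image hX (fun i => (K.subset_rskel R i.2).trans hX)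
      ψ.mapsTo ψ.left_inv ψ.cont_inv y hy
    exact ⟨U, hU, (hfin.image Subtype.val).subset fun i hi => ⟨⟨i, hi.1⟩, hi.2, rfl⟩⟩

/-! ### attaching the cells of one dimension -/

section step

variable {P : K.ι → Prop} {n : ℕ}

theorem step_inter (h : Realiz K k R) (hP : K.FaceClosed P) (hPk : ∀ i, P i → K.dim i ≤ k)
    (hlow : ∀ i, K.dim i < n → P i) (hn : n ≤ k) (hi : ¬ P i) (hd : K.dim i = n) :
    R i ∩ (⋃ j, ⋃ (_ : P j), R j) = K.rbd R i := by
  apply Subset.antisymm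
  · rintro y ⟨h1, h2⟩
    obtain ⟨j, hj, hy⟩ := mem_iUnion₂.1 h2
    by_contra hb
    exact hi (hP j i hj (h.face_of_mem (hPk j hj) (hd ▸ hn) ⟨h1, hb⟩ hy))
  · intro y hy
    refine ⟨h.rbd_subset (hd ▸ hn) hy, ?_⟩
    obtain ⟨j, hj, hy⟩ := K.mem_rbd.1 hy
    exact mem_iUnion₂.2 ⟨j, hlow j (hd ▸ K.dim_lt hj), hy⟩

omit [NormedAddCommGroup F] [NormedSpace ℝ F] in
theorem step_union (R : K.ι → Set F) (P : K.ι → Prop) (n : ℕ) :
    (⋃ j, ⋃ (_ : P j), R j) ∪ (⋃ i : {i // ¬ P i ∧ K.dim i = n}, R i) =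
      ⋃ j, ⋃ (_ : P j ∨ K.dim j = n), R j := by
  apply Subset.antisymm
  · rintro y (hy | hy)
    · obtain ⟨j, hj, hy⟩ := mem_iUnion₂.1 hy
      exact mem_iUnion₂.2 ⟨j, Or.inl hj, hy⟩
    · obtain ⟨j, hy⟩ := mem_iUnion.1 hy
      exact mem_iUnion₂.2 ⟨j, Or.inr j.2.2, hy⟩
  · intro y hy
    obtain ⟨j, hj, hy⟩ := mem_iUnion₂.1 hy
    by_cases hp : P j
    · exact Or.inl (mem_iUnion₂.2 ⟨j, hp, hy⟩)
    · exact Or.inr (mem_iUnion.2 ⟨⟨j, hp, hj.resolve_left hp⟩, hy⟩)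

omit [NormedAddCommGroup F] [NormedSpace ℝ F] in
theorem step_subset (R : K.ι → Set F) (hPk : ∀ i, P i → K.dim i ≤ k) (hn : n ≤ k) :
    (⋃ j, ⋃ (_ : P j), R j) ∪ (⋃ i : {i // ¬ P i ∧ K.dim i = n}, R i) ⊆ K.rskel R k := by
  rw [step_union]
  exact iUnion₂_subset fun j hj => K.subset_rskel R (hj.elim (hPk j) fun e => e ▸ hn)

theorem step {R' : K.ι → Set G} (h : Realiz K k R) (h' : Realiz K k R') (hP : K.FaceClosed P)
    (hPk : ∀ i, P i → K.dim i ≤ k) (hlow : ∀ i, K.dim i < n → P i) (hn : n ≤ k)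
    (φ : ConHomeo (⋃ j, ⋃ (_ : P j), R j) (⋃ j, ⋃ (_ : P j), R' j))
    (hφ : ∀ i, P i → φ.toFun '' R i = R' i) :
    ∃ Φ : ConHomeo (⋃ j, ⋃ (_ : P j ∨ K.dim j = n), R j) (⋃ j, ⋃ (_ : P j ∨ K.dim j = n), R' j),
      EqOn Φ.toFun φ.toFun (⋃ j, ⋃ (_ : P j), R j) ∧
      ∀ i, P i ∨ K.dim i = n → Φ.toFun '' R i = R' i := by
  have hdk : ∀ i : {i // ¬ P i ∧ K.dim i = n}, K.dim i ≤ k := fun i => i.2.2.le.trans hn
  obtain ⟨Φ, h1, h2⟩ := φ.exists_extend_cells (ι := {i // ¬ P i ∧ K.dim i = n})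
    (fun i => K.dim i) (fun i => R i) (fun i => K.rbd R i) (fun i => R' i) (fun i => K.rbd R' i)
    (fun i => h.ball i (hdk i)) (fun i => h'.ball i (hdk i))
    (fun i => by
      simp only [RCx.rbd, image_iUnion]
      exact iUnion₂_congr fun j hj => hφ j (hlow j (i.2.2 ▸ K.dim_lt hj)))
    (fun i => h.step_inter hP hPk hlow hn i.2.1 i.2.2)
    (fun i => h'.step_inter hP hPk hlow hn i.2.1 i.2.2)
    (fun i j hne => (h.inter_subset_rbd (hdk i) (fun e => hne (Subtype.ext e))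
      (j.2.2.trans i.2.2.symm).le).trans
      ((h.step_inter hP hPk hlow hn i.2.1 i.2.2).symm.le.trans inter_subset_right))
    (fun i j hne => (h'.inter_subset_rbd (hdk i) (fun e => hne (Subtype.ext e))
      (j.2.2.trans i.2.2.symm).le).trans
      ((h'.step_inter hP hPk hlow hn i.2.1 i.2.2).symm.le.trans inter_subset_right))
    (fun z hz => h.closedIn hPk z (step_subset R hPk hn hz))
    (fun z hz => h'.closedIn hPk z (step_subset R' hPk hn hz))
    (fun z hz => by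
      obtain ⟨U, hU, hfin⟩ := h.lf z (step_subset R hPk hn hz)
      exact ⟨U, hU, (Finite.preimage (f := Subtype.val) Subtype.val_injective.injOn hfin).subset
        fun i hi => ⟨hdk i, hi⟩⟩)
    (fun z hz => by
      obtain ⟨U, hU, hfin⟩ := h'.lf z (step_subset R' hPk hn hz)
      exact ⟨U, hU, (Finite.preimage (f := Subtype.val) Subtype.val_injective.injOn hfin).subset
        fun i hi => ⟨hdk i, hi⟩⟩)
  refine ⟨Φ.cast (step_union R P n) (step_union R' P n), h1, fun i hi => ?_⟩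
  by_cases hp : P i
  · rw [← hφ i hp]
    exact (h1.mono (subset_iUnion₂ (s := fun j (_ : P j) => R j) i hp)).image_eq
  · exact h2 ⟨i, hp, hi.resolve_left hp⟩

end step

/-- **Relative isomorphism theorem**: a PL homeomorphism between the parts of two realisations
over a subcomplex extends to the whole realisations. -/
theorem exists_extend {R' : K.ι → Set G} (h : Realiz K k R) (h' : Realiz K k R')
    {P : K.ι → Prop} (hP : K.FaceClosed P) (hPk : ∀ i, P i → K.dim i ≤ k)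
    (φ : ConHomeo (⋃ j, ⋃ (_ : P j), R j) (⋃ j, ⋃ (_ : P j), R' j))
    (hφ : ∀ i, P i → φ.toFun '' R i = R' i) :
    ∃ Φ : ConHomeo (K.rskel R k) (K.rskel R' k),
      EqOn Φ.toFun φ.toFun (⋃ j, ⋃ (_ : P j), R j) ∧
      ∀ i, K.dim i ≤ k → Φ.toFun '' R i = R' i := by
  have key : ∀ n, n ≤ k + 1 → ∃ Φ : ConHomeo (⋃ j, ⋃ (_ : P j ∨ K.dim j < n), R j)
      (⋃ j, ⋃ (_ : P j ∨ K.dim j < n), R' j), EqOn Φ.toFun φ.toFun (⋃ j, ⋃ (_ : P j), R j) ∧
      ∀ i, P i ∨ K.dim i < n → Φ.toFun '' R i = R' i := by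
    intro n
    induction n with
    | zero =>
      intro _
      refine ⟨φ.cast (by simp) (by simp), fun _ _ => rfl, fun i hi => hφ i (by simpa using hi)⟩
    | succ n ih =>
      intro hn
      obtain ⟨Φ, h1, h2⟩ := ih (by omega)
      obtain ⟨Ψ, k1, k2⟩ := step (P := fun j => P j ∨ K.dim j < n) (n := n) h h'
        (hP.or fun i j hi hs => (K.dim_le hs).trans_lt hi)
        (fun i hi => hi.elim (hPk i) fun e => by omega) (fun i hi => Or.inr hi) (by omega) Φ h2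
      have e : ∀ j, ((P j ∨ K.dim j < n) ∨ K.dim j = n) ↔ (P j ∨ K.dim j < n + 1) := fun j => by
        rw [or_assoc, ← le_iff_lt_or_eq, Nat.lt_succ_iff]
      refine ⟨Ψ.cast (by simp only [e]) (by simp only [e]), fun x hx => ?_,
        fun i hi => k2 i ((e i).2 hi)⟩
      rw [← h1 hx]
      apply k1
      obtain ⟨j, hj, hx⟩ := mem_iUnion₂.1 hx
      exact mem_iUnion₂.2 ⟨j, Or.inl hj, hx⟩
  obtain ⟨Φ, h1, h2⟩ := key (k + 1) le_rfl
  have e : ∀ j, (P j ∨ K.dim j < k + 1) ↔ K.dim j ≤ k := fun j =>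
    ⟨fun hj => hj.elim (hPk j) Nat.lt_succ_iff.1, fun hj => Or.inr (Nat.lt_succ_iff.2 hj)⟩
  exact ⟨Φ.cast (by simp only [e]; rfl) (by simp only [e]; rfl), h1, fun i hi => h2 i ((e i).2 hi)⟩

/-- extension from a skeleton -/
theorem exists_extend_skel {R' : K.ι → Set G} (h : Realiz K k R) (h' : Realiz K k R') {l : ℕ}
    (hl : l ≤ k) (φ : ConHomeo (K.rskel R l) (K.rskel R' l))
    (hφ : ∀ i, K.dim i ≤ l → φ.toFun '' R i = R' i) :
    ∃ Φ : ConHomeo (K.rskel R k) (K.rskel R' k), EqOn Φ.toFun φ.toFun (K.rskel R l) ∧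
      ∀ i, K.dim i ≤ k → Φ.toFun '' R i = R' i :=
  h.exists_extend h' (K.faceClosed_dim l) (fun _ hi => hi.trans hl) φ hφ

end Realiz

/-- the empty homeomorphism -/
def ConHomeo.empty : ConHomeo (∅ : Set E) (∅ : Set F) where
  toFun := fun _ => 0
  invFun := fun _ => 0
  mapsTo := fun _ h => h.elim
  mapsTo_inv := fun _ h => h.elim
  left_inv := fun _ h => h.elim
  right_inv := fun _ h => h.elim
  cont := continuousOn_empty _
  cont_inv := continuousOn_empty _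
  conical := fun _ h => h.elim

/-- two realisations of the same complex are isomorphic -/
theorem Realiz.exists_iso {K : RCx E} {k : ℕ} {R : K.ι → Set F} {R' : K.ι → Set G}
    (h : Realiz K k R) (h' : Realiz K k R') : ∃ Φ : ConHomeo (K.rskel R k) (K.rskel R' k),
      ∀ i, K.dim i ≤ k → Φ.toFun '' R i = R' i := by
  obtain ⟨Φ, -, h2⟩ := h.exists_extend h' K.faceClosed_false (fun _ h => h.elim)
    (ConHomeo.empty.cast (by simp) (by simp)) (fun _ h => h.elim)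
  exact ⟨Φ, h2⟩

theorem iso : ISO := fun K k _ h => (K.realiz_cell k).exists_iso h

/-- relative form of `ISO` for skeleta -/
theorem iso_rel {K : RCx E} {k l : ℕ} {R : K.ι → Set F} (h : Realiz K k R) (hl : l ≤ k)
    (φ : ConHomeo (K.skel l) (K.rskel R l)) (hφ : ∀ i, K.dim i ≤ l → φ.toFun '' K.cell i = R i) :
    ∃ ψ : ConHomeo (K.skel k) (K.rskel R k), EqOn ψ.toFun φ.toFun (K.skel l) ∧
      ∀ i, K.dim i ≤ k → ψ.toFun '' K.cell i = R i :=
  (K.realiz_cell k).exists_extend_skel h hl φ hφ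

/-- gluing of compatible homeomorphisms of the members of two realisations -/
theorem Realiz.exists_glue {K : RCx E} {k : ℕ} {R : K.ι → Set F} {R' : K.ι → Set G}
    (h : Realiz K k R) (h' : Realiz K k R') {P : K.ι → Prop} (hP : K.FaceClosed P)
    (hPk : ∀ i, P i → K.dim i ≤ k) (φ : K.ι → F → G)
    (hφ : ∀ i, P i → ∃ Φ : ConHomeo (R i) (R' i), EqOn Φ.toFun (φ i) (R i))
    (hc : ∀ i j, P i → K.cell j ⊆ K.cell i → EqOn (φ i) (φ j) (R j)) :
    ∃ ψ : ConHomeo (⋃ j, ⋃ (_ : P j), R j) (⋃ j, ⋃ (_ : P j), R' j),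
      ∀ i, P i → EqOn ψ.toFun (φ i) (R i) ∧ ψ.toFun '' R i = R' i := by
  choose Φ hΦ using hφ
  obtain ⟨Ψ, hΨ⟩ := ConHomeo.exists_glue_family (h.relLF hPk) (h'.relLF hPk)
    (fun i => Φ i.1 i.2)
    (fun i j x hx => by
      obtain ⟨m, a, b, c⟩ := h.exists_common_face (hPk _ i.2) (hPk _ j.2) hx.1 hx.2
      rw [hΦ _ i.2 hx.1, hΦ _ j.2 hx.2, hc _ m i.2 a c.1, hc _ m j.2 b c.1])
    (fun i j y hy => by
      obtain ⟨m, a, b, c⟩ := h'.exists_common_face (hPk _ i.2) (hPk _ j.2) hy.1 hy.2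
      have hm : P m := hP _ m i.2 a
      have hx := (Φ m hm).mapsTo_inv c.1
      refine ⟨(Φ m hm).invFun y, ⟨h.mono (hPk _ i.2) a hx, h.mono (hPk _ j.2) b hx⟩, ?_⟩
      rw [hΦ _ i.2 (h.mono (hPk _ i.2) a hx), hc _ m i.2 a hx, ← hΦ m hm hx,
        (Φ m hm).right_inv c.1])
  refine ⟨Ψ.cast (iUnion_subtype _ _) (iUnion_subtype _ _), fun i hi => ⟨fun x hx => ?_, ?_⟩⟩
  · rw [← hΦ i hi hx]
    exact (hΨ ⟨i, hi⟩).1 hx
  · rw [← (Φ i hi).image_eq]
    exact (hΨ ⟨i, hi⟩).1.image_eq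

theorem gluek : GLUEK := fun K k _ φ h hφ hc =>
  let ⟨ψ, hψ⟩ := (K.realiz_cell k).exists_glue h (K.faceClosed_dim k) (fun _ hi => hi) φ hφ hc
  ⟨ψ, fun i hi => (hψ i hi).1⟩

theorem real : REAL := fun K k _ ψ => (K.realiz_cell k).image ψ Subset.rfl

end P073
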