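import Vale.Agent.P073Z.Sk1

/-!
# Structure of polyhedra: PRE, POLY, STM, ST, IMG
-/

open Set Metric Topology Filter

namespace P073

theorem pre : PRE := by
  intro E F _ _ _ _ X Y h x _ hX hc hh hY
  obtain ⟨r₀, hr₀, H₀⟩ := hX
  obtain ⟨r₁, hr₁, H₁⟩ := hh
  obtain ⟨r₂, hr₂, H₂⟩ := hY
  have : ∀ᶠ y in 𝓝[X] x, h y ∈ closedBall (h x) r₂ := hc (closedBall_mem_nhds _ hr₂)
  obtain ⟨ρ, hρ, hb⟩ := exists_radius_of_nhdsWithin this
  refine ⟨min r₀ (min r₁ ρ), by positivity, fun v hv t ht => ?_⟩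
  obtain ⟨v0, hv⟩ := le_min_iff.1 hv
  obtain ⟨v1, v2⟩ := le_min_iff.1 hv
  have key : x + v ∈ X → (h (x + t • v) ∈ Y ↔ h (x + v) ∈ Y) := fun hxv => by
    have h2 := hb v v2 hxv
    rw [mem_closedBall, dist_eq_norm] at h2
    rw [(H₁ v v1 hxv t ⟨ht.1.le, ht.2⟩).2, H₂ _ h2 t ht, add_sub_cancel]
  exact ⟨fun H => ⟨(H₀ v v0 t ht).1 H.1, (key ((H₀ v v0 t ht).1 H.1)).1 H.2⟩,
    fun H => ⟨(H₀ v v0 t ht).2 H.1, (key H.1).2 H.2⟩⟩

namespace A1

variable {E F : Type} [NormedAddCommGroup E] [NormedSpace ℝ E]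
  [NormedAddCommGroup F] [NormedSpace ℝ F]

theorem locCone_stdSimplex (ι : Type) [Fintype ι] : LocCone (stdSimplex ℝ ι) := by
  rw [stdSimplex_eq_inter]
  refine (LocCone.iInter_finite fun i => locCone_setOf_ge (continuous_apply i)
    (conicalOn_clm (ContinuousLinearMap.proj (R := ℝ) (φ := fun _ : ι => ℝ) i)) 0).inter
    (locCone_setOf_eq (by fun_prop) ?_ 1)
  refine (conicalOn_linear (∑ i, LinearMap.proj (R := ℝ) (φ := fun _ : ι => ℝ) i)
    locCone_univ.conicalSet).congr fun x _ => ?_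
  simp

theorem locCone_simplex {t : Finset E} (ht : AffineIndependent ℝ ((↑) : t → E)) :
    LocCone (convexHull ℝ (t : Set E)) := by
  let L : (t → ℝ) →ₗ[ℝ] E := ∑ x : t, (LinearMap.proj (R := ℝ) x).smulRight x.1
  have hL : ∀ w, L w = ∑ x : t, w x • x.1 := fun w => by simp [L]
  have e : L '' stdSimplex ℝ t = convexHull ℝ (t : Set E) := by
    classical
    rw [← convexHull_basis_eq_stdSimplex, LinearMap.image_convexHull, ← Set.range_comp]
    congr 1
    ext y
    simp [hL]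
  refine LocCone.of_conHomeo (isCompact_stdSimplex ℝ t) (locCone_stdSimplex t)
    (ConHomeo.ofCompact (isCompact_stdSimplex ℝ t) L
      L.continuous_of_finiteDimensional.continuousOn (fun w hw w' hw' h => ?_)
      (conicalOn_linear L (locCone_stdSimplex t).conicalSet) e)
  rw [hL, hL] at h
  exact funext fun i => ht.eq_of_sum_eq_sum (hw.2.trans hw'.2.symm) h i (Finset.mem_univ i)

theorem locCone_biUnion {ι : Type} {I : Set ι} (hI : I.Finite) {X : ι → Set E}
    (h : ∀ i ∈ I, LocCone (X i)) : LocCone (⋃ i ∈ I, X i) := by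
  have := hI.to_subtype
  rw [biUnion_eq_iUnion]
  exact LocCone.iUnion_finite fun i => h i i.2

/-- the convex hull of a finite set is a polyhedron, in any normed space -/
theorem locCone_hull (s : Finset E) : LocCone (convexHull ℝ (s : Set E)) := by
  have e : convexHull ℝ (s : Set E) =
      ⋃ t ∈ {t : Finset E | t ⊆ s ∧ AffineIndependent ℝ ((↑) : t → E)},
        convexHull ℝ (t : Set E) := by
    rw [convexHull_eq_union]
    simp only [Finset.coe_subset, mem_ofPred_eq, iUnion_and]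
  rw [e]
  refine locCone_biUnion ((Finset.finite_toSet s.powerset).subset fun t ht => ?_)
    fun t ht => locCone_simplex ht.2
  exact Finset.mem_coe.2 (Finset.mem_powerset.2 ht.1)

theorem indep_insert [DecidableEq E] {s : Finset E} (hs : AffineIndependent ℝ ((↑) : s → E))
    {x : E} (ℓ : E →ₗ[ℝ] ℝ) {ρ : ℝ} (hρ : ρ ≠ 0) (h : ∀ y ∈ s, ℓ (y - x) = ρ) :
    AffineIndependent ℝ ((↑) : ↥(insert x s : Finset E) → E) := by
  refine AffineIndependent.affineIndependent_of_notMem_span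
    (i := ⟨x, Finset.mem_insert_self x s⟩) ?_ fun hmem => ?_
  · exact hs.comp_embedding ⟨fun y : {y : ↥(insert x s : Finset E) //
      y ≠ ⟨x, Finset.mem_insert_self x s⟩} => (⟨y.1.1, (Finset.mem_insert.1 y.1.2).resolve_left
        fun h => y.2 (Subtype.ext h)⟩ : s),
      fun a b h => Subtype.ext (Subtype.ext (congrArg (fun y : s => y.1) h))⟩
  · have : ℓ (x - x) = ρ := by
      refine affineSpan_induction (p := fun y => ℓ (y - x) = ρ) hmem ?_ fun c u v w hu hv hw => ?_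
      · rintro _ ⟨y, hy, rfl⟩
        exact h _ ((Finset.mem_insert.1 y.2).resolve_left fun h => hy (Subtype.ext h))
      · have e : (c • (u -ᵥ v) +ᵥ w) - x = c • ((u - x) - (v - x)) + (w - x) := by
          simp only [vsub_eq_sub, vadd_eq_add]
          module
        rw [e, map_add, map_smul, map_sub, hu, hv, hw]
        simp
    rw [sub_self, map_zero] at this
    exact hρ this.symm

theorem mem_hull_insert {s : Set E} {x z : E} (hz : z ∈ convexHull ℝ (insert x s)) :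
    z = x ∨ ∃ y ∈ convexHull ℝ s, ∃ t ∈ Icc (0 : ℝ) 1, z = x + t • (y - x) := by
  rcases s.eq_empty_or_nonempty with rfl | hs
  · left
    simpa using hz
  · rw [convexHull_insert hs, mem_convexJoin] at hz
    obtain ⟨a, rfl, y, hy, hz⟩ := hz
    rw [segment_eq_image'] at hz
    obtain ⟨t, ht, rfl⟩ := hz
    exact Or.inr ⟨y, hy, t, ht, rfl⟩

/-- a simplex in `X` on which `h` is affine -/
def Good (X : Set E) (h : E → F) (s : Finset E) : Prop :=
  AffineIndependent ℝ ((↑) : s → E) ∧ convexHull ℝ (s : Set E) ⊆ X ∧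
    ∃ A : E →ᵃ[ℝ] F, EqOn h A (convexHull ℝ (s : Set E))

/-- `K` is covered by finitely many good simplices -/
def Cov (X : Set E) (h : E → F) (K : Set E) : Prop :=
  ∃ 𝒮 : Set (Finset E), 𝒮.Finite ∧ (∀ s ∈ 𝒮, Good X h s) ∧ K ⊆ ⋃ s ∈ 𝒮, convexHull ℝ (s : Set E)

theorem Cov.mono {X : Set E} {h : E → F} {K K' : Set E} (H : Cov X h K) (hK : K' ⊆ K) :
    Cov X h K' := by
  obtain ⟨𝒮, h1, h2, h3⟩ := H
  exact ⟨𝒮, h1, h2, hK.trans h3⟩

theorem Cov.iUnion {X : Set E} {h : E → F} {ι : Type} [Finite ι] {K : ι → Set E}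
    (H : ∀ i, Cov X h (K i)) : Cov X h (⋃ i, K i) := by
  choose 𝒮 h1 h2 h3 using H
  refine ⟨⋃ i, 𝒮 i, finite_iUnion h1, fun s hs => ?_, iUnion_subset fun i => (h3 i).trans ?_⟩
  · obtain ⟨i, hi⟩ := mem_iUnion.1 hs
    exact h2 i s hi
  · exact biUnion_subset_biUnion_left (subset_iUnion 𝒮 i)

theorem Cov.union {X : Set E} {h : E → F} {K K' : Set E} (H : Cov X h K) (H' : Cov X h K') :
    Cov X h (K ∪ K') := by
  rw [union_eq_iUnion]
  exact Cov.iUnion fun b => by cases b <;> assumption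

theorem cov_singleton {X : Set E} (h : E → F) {x : E} (hx : x ∈ X) : Cov X h {x} := by
  refine ⟨{{x}}, finite_singleton _, ?_, by simp⟩
  rintro _ rfl
  refine ⟨affineIndependent_of_subsingleton _ _, by simpa using hx,
    AffineMap.const ℝ E (h x), ?_⟩
  simp

/-- the cone over a covered piece of a hyperplane -/
theorem Cov.cone {X X' : Set E} {h : E → F} {x : E} (ℓ : E →ₗ[ℝ] ℝ) {ρ : ℝ} (hρ : ρ ≠ 0)
    (hx : x ∈ X) (hℓ : ∀ y ∈ X', ℓ (y - x) = ρ)
    (hc : ∀ y ∈ X', ∀ t ∈ Icc (0 : ℝ) 1,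
      x + t • (y - x) ∈ X ∧ h (x + t • (y - x)) = h x + t • (h y - h x))
    (H : Cov X' h X') : Cov X h {z | ∃ y ∈ X', ∃ t ∈ Icc (0 : ℝ) 1, z = x + t • (y - x)} := by
  classical
  obtain ⟨𝒮, h1, h2, h3⟩ := H
  refine ⟨insert x '' 𝒮, h1.image _, ?_, ?_⟩
  · rintro _ ⟨s, hs, rfl⟩
    obtain ⟨k1, k2, A, hA⟩ := h2 s hs
    refine ⟨indep_insert k1 ℓ hρ fun y hy => hℓ y (k2 (subset_convexHull ℝ _ hy)), ?_,
      A + AffineMap.const ℝ E ((1 + ρ⁻¹ * ℓ x) • (h x - A x)) -
        (ℓ.smulRight (ρ⁻¹ • (h x - A x))).toAffineMap, ?_⟩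
    · intro z hz
      rw [Finset.coe_insert] at hz
      rcases mem_hull_insert hz with rfl | ⟨y, hy, t, ht, rfl⟩
      · exact hx
      · exact (hc y (k2 hy) t ht).1
    · intro z hz
      rw [Finset.coe_insert] at hz
      simp only [AffineMap.coe_sub, AffineMap.coe_add, Pi.sub_apply, Pi.add_apply,
        AffineMap.const_apply, LinearMap.coe_toAffineMap, LinearMap.smulRight_apply]
      rcases mem_hull_insert hz with rfl | ⟨y, hy, t, ht, rfl⟩
      · module
      · have e1 : A (x + t • (y - x)) = A x + t • (A y - A x) := by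
          rw [add_comm x, ← vadd_eq_add, A.map_vadd, vadd_eq_add, add_comm, map_smul,
            ← vsub_eq_sub, A.linearMap_vsub, vsub_eq_sub]
        rw [(hc y (k2 hy) t ht).2, hA hy, e1, map_add, map_smul, hℓ y (k2 hy), smul_eq_mul,
          smul_smul, show (ℓ x + t * ρ) * ρ⁻¹ = ρ⁻¹ * ℓ x + t by field_simp]
        module
  · rintro _ ⟨y, hy, t, ht, rfl⟩
    obtain ⟨s, hs, hys⟩ := mem_iUnion₂.1 (h3 hy)
    refine mem_iUnion₂.2 ⟨_, ⟨s, hs, rfl⟩, ?_⟩
    rw [Finset.coe_insert]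
    exact (convex_convexHull ℝ _).add_smul_sub_mem (subset_convexHull ℝ _ (mem_insert _ _))
      (convexHull_mono (subset_insert _ _) hys) ht

theorem exists_sign {n : ℕ} {u : Fin n → ℝ} (hu : u ≠ 0) :
    ∃ (i : Fin n) (σ : Bool), (if σ then u i else -u i) = ‖u‖ := by
  have : Nonempty (Fin n) := by
    by_contra h
    exact hu (funext fun i => absurd ⟨i⟩ h)
  obtain ⟨i, hi⟩ := Finite.exists_max fun i => |u i|
  have e : ‖u‖ = |u i| := le_antisymm ((pi_norm_le_iff_of_nonneg (abs_nonneg _)).2 hi)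
    (norm_le_pi_norm u i)
  rcases le_total 0 (u i) with h | h
  · exact ⟨i, true, by rw [e, abs_of_nonneg h]; rfl⟩
  · exact ⟨i, false, by rw [e, abs_of_nonpos h]; rfl⟩

theorem cov_of_dim [FiniteDimensional ℝ E] {h : E → F} (d : ℕ) : ∀ (W : Submodule ℝ E)
    (X : Set E), Module.finrank ℝ W < d → (∀ y ∈ X, ∀ z ∈ X, y - z ∈ W) → IsCompact X →
    LocCone X → ConicalOn h X → Cov X h X := by
  induction d with
  | zero => intro W X hW; omega
  | succ d ih =>
    intro W X hW hXW hX hc hh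
    refine hX.induction_on (p := Cov X h) ⟨∅, finite_empty, by simp, empty_subset _⟩
      (fun s t hst ht => ht.mono hst) (fun s t => Cov.union) fun x hx => ?_
    let e : E ≃L[ℝ] (Fin (Module.finrank ℝ E) → ℝ) := ContinuousLinearEquiv.ofFinrankEq (by simp)
    obtain ⟨r₀, hr₀, H₀⟩ := hc x
    obtain ⟨r₁, hr₁, H₁⟩ := hh x hx
    obtain ⟨ρ, hρ, hb⟩ : ∃ ρ > 0, ∀ v : E, ‖e v‖ ≤ ρ → ‖v‖ ≤ min r₀ r₁ := by
      have : ∀ᶠ u in 𝓝 (0 : Fin (Module.finrank ℝ E) → ℝ),
          e.symm u ∈ closedBall (e.symm 0) (min r₀ r₁) :=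
        e.symm.continuous.continuousAt (closedBall_mem_nhds _ (lt_min hr₀ hr₁))
      obtain ⟨ρ, hρ, hb⟩ := Metric.nhds_basis_closedBall.mem_iff.1 this
      exact ⟨ρ, hρ, fun v hv => by simpa using hb (mem_closedBall_zero_iff.2 hv)⟩
    let ℓ : Fin (Module.finrank ℝ E) × Bool → E →ₗ[ℝ] ℝ := fun j =>
      if j.2 then (LinearMap.proj j.1).comp e.toLinearMap
      else -(LinearMap.proj j.1).comp e.toLinearMap
    have hℓ : ∀ j v, ℓ j v = if j.2 then e v j.1 else -e v j.1 := fun j v => by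
      simp only [ℓ]
      split_ifs <;> rfl
    let Q : Set E := (fun y => e (y - x)) ⁻¹' closedBall 0 ρ
    have ce : Continuous fun y => e (y - x) := by fun_prop
    have Qc : LocCone Q := fun y => by
      have := pre (X := univ) (Y := closedBall 0 ρ) (h := fun y => e (y - x)) (mem_univ y)
        (locConeAt_univ y) ce.continuousWithinAt
        (((conicalOn_id locCone_univ.conicalSet).sub
          (conicalOn_const x locCone_univ.conicalSet)).linear_comp e.toLinearMap y (mem_univ y))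
        (locCone_closedBall_pi _ ρ _)
      rwa [univ_inter] at this
    let X' : Fin (Module.finrank ℝ E) × Bool → Set E := fun j =>
      X ∩ (Q ∩ {y | ℓ j (y - x) = ρ})
    have cl : ∀ j, Continuous fun y => ℓ j (y - x) := fun j =>
      (ℓ j).continuous_of_finiteDimensional.comp (by fun_prop)
    have hX' : ∀ j, Cov (X' j) h (X' j) := fun j => by
      rcases (X' j).eq_empty_or_nonempty with h0 | ⟨y, hy⟩
      · exact ⟨∅, finite_empty, by simp, h0 ▸ empty_subset _⟩
      have k : LocCone (X' j) := hc.inter (Qc.inter (locCone_setOf_eq (cl j)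
        (((conicalOn_id locCone_univ.conicalSet).sub
          (conicalOn_const x locCone_univ.conicalSet)).linear_comp (ℓ j)) ρ))
      refine ih (W ⊓ LinearMap.ker (ℓ j)) _ ?_ (fun a ha b hb => ⟨hXW a ha.1 b hb.1, ?_⟩)
        (hX.inter_right ((isClosed_closedBall.preimage ce).inter
          (isClosed_eq (cl j) continuous_const))) k (hh.mono k.conicalSet inter_subset_left)
      · refine lt_of_lt_of_le (Submodule.finrank_lt_finrank_of_lt
          (lt_of_le_of_ne inf_le_left fun hEq => ?_)) (Nat.lt_succ_iff.1 hW)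
        have h1 : y - x ∈ W ⊓ LinearMap.ker (ℓ j) := hEq.symm ▸ hXW y hy.1 x hx
        exact hρ.ne' (hy.2.2.symm.trans h1.2)
      · have e1 : a - b = (a - x) - (b - x) := by abel
        change ℓ j (a - b) = 0
        rw [e1, map_sub, ha.2.2, hb.2.2, sub_self]
    refine ⟨X ∩ Q, inter_mem_nhdsWithin _ (ce.continuousAt (by
      simpa using closedBall_mem_nhds _ hρ)), ?_⟩
    refine ((cov_singleton h hx).union (Cov.iUnion fun j => Cov.cone (ℓ j) hρ.ne' hx
      (fun y hy => hy.2.2) (fun y hy t ht => ?_) (hX' j))).mono fun z hz => ?_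
    · have := H₁ (y - x) ((hb _ (mem_closedBall_zero_iff.1 hy.2.1)).trans (min_le_right _ _))
        (by simpa using hy.1) t ht
      simpa using this
    · by_cases hzx : z = x
      · exact Or.inl hzx
      have u0 : e (z - x) ≠ 0 := by simpa [sub_eq_zero] using hzx
      have n0 : 0 < ‖e (z - x)‖ := norm_pos_iff.2 u0
      have n1 : ‖e (z - x)‖ ≤ ρ := mem_closedBall_zero_iff.1 hz.2
      obtain ⟨i, σ, hi⟩ := exists_sign u0
      have ht : ‖e (z - x)‖ / ρ ∈ Ioc (0 : ℝ) 1 := ⟨by positivity, (div_le_one hρ).2 n1⟩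
      have e1 : x + (‖e (z - x)‖ / ρ) • (ρ / ‖e (z - x)‖) • (z - x) = z := by
        rw [smul_smul, show ‖e (z - x)‖ / ρ * (ρ / ‖e (z - x)‖) = 1 by field_simp]
        simp
      have e2 : ‖e ((ρ / ‖e (z - x)‖) • (z - x))‖ = ρ := by
        rw [map_smul, norm_smul, Real.norm_of_nonneg (by positivity)]
        field_simp
      refine Or.inr (mem_iUnion.2 ⟨(i, σ), x + (ρ / ‖e (z - x)‖) • (z - x), ⟨?_, ?_, ?_⟩,
        ‖e (z - x)‖ / ρ, ⟨ht.1.le, ht.2⟩, ?_⟩)
      · rw [← H₀ _ ((hb _ e2.le).trans (min_le_left _ _)) _ ht, e1]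
        exact hz.1
      · simp only [Q, mem_preimage, add_sub_cancel_left, mem_closedBall_zero_iff, e2, le_refl]
      · change ℓ (i, σ) _ = ρ
        rw [add_sub_cancel_left, map_smul, hℓ, hi, smul_eq_mul]
        field_simp
      · rw [add_sub_cancel_left, e1]

/-- the structure theorem; the target space is arbitrary and continuity is not needed -/
theorem exists_simplices [FiniteDimensional ℝ E] {X : Set E} {h : E → F} (hX : IsCompact X)
    (hc : LocCone X) (hh : ConicalOn h X) : ∃ 𝒮 : Finset (Finset E),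
    (∀ s ∈ 𝒮, AffineIndependent ℝ ((↑) : s → E)) ∧ X = ⋃ s ∈ 𝒮, convexHull ℝ (s : Set E) ∧
    ∀ s ∈ 𝒮, ∃ A : E →ᵃ[ℝ] F, EqOn h A (convexHull ℝ (s : Set E)) := by
  obtain ⟨𝒮, h1, h2, h3⟩ := cov_of_dim _ ⊤ X (Nat.lt_succ_self _) (fun _ _ _ _ => trivial) hX hc hh
  refine ⟨h1.toFinset, fun s hs => (h2 s (h1.mem_toFinset.1 hs)).1, ?_,
    fun s hs => (h2 s (h1.mem_toFinset.1 hs)).2.2⟩
  simp only [Finite.mem_toFinset]
  exact h3.antisymm (iUnion₂_subset fun s hs => (h2 s hs).2.1)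

end A1

open A1

theorem poly : POLY := fun s => locCone_hull s

theorem stm : STM := fun hX hc hh => exists_simplices hX hc hh.2

theorem st : ST := fun hX hc => by
  obtain ⟨𝒮, h1, h2, -⟩ := exists_simplices hX hc hc.conicalOn_id
  exact ⟨𝒮, h1, h2⟩

theorem img : IMG := by
  intro E F _ _ _ _ _ _ X h hX hc hh
  classical
  obtain ⟨𝒮, -, h2, h3⟩ := exists_simplices hX hc hh.2
  rw [h2, image_iUnion₂]
  refine locCone_biUnion (Finset.finite_toSet 𝒮) fun s hs => ?_
  obtain ⟨A, hA⟩ := h3 s hs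
  rw [hA.image_eq, AffineMap.image_convexHull, ← Finset.coe_image]
  exact locCone_hull _

end P073
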