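import Vale.Agent.P073Z.SHELL.A

/-!
# Shells and collars of balls
-/

open Set Metric Topology Filter

namespace P073

open Sh

theorem shell : SHELL := fun n => by
  obtain ⟨Q, hQ⟩ := exists_shell n (a := 1 / 2) (b := 1) (by norm_num) (by norm_num)
  refine ⟨Q, fun x hx => ⟨?_, (hQ x hx).2⟩⟩
  rw [(hQ x hx).1, one_smul]

namespace Sh

theorem exists_dyadic {s : ℝ} (hs : s ∈ Ioc (0 : ℝ) 1) :
    ∃ k : ℕ, s ∈ Icc ((1 / 2 : ℝ) ^ (k + 1)) ((1 / 2) ^ k) := by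
  obtain ⟨k, h1, h2⟩ := exists_nat_pow_near_of_lt_one hs.1 hs.2 (show (0 : ℝ) < 1 / 2 by norm_num)
    (by norm_num)
  exact ⟨k, h1.le, h2⟩

theorem dyadic_sub (k : ℕ) : Icc ((1 / 2 : ℝ) ^ (k + 1)) ((1 / 2) ^ k) ⊆ Ioc 0 1 :=
  fun _ hs => ⟨lt_of_lt_of_le (by positivity) hs.1,
    hs.2.trans (pow_le_one₀ (by norm_num) (by norm_num))⟩

theorem dyadic_lt {i j : ℕ} (h : i < j) {s : ℝ} (hi : s ∈ Icc ((1 / 2 : ℝ) ^ (i + 1)) ((1 / 2) ^ i))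
    (hj : s ∈ Icc ((1 / 2 : ℝ) ^ (j + 1)) ((1 / 2) ^ j)) :
    s = (1 / 2) ^ (i + 1) ∧ s = (1 / 2) ^ j := by
  have h1 : (1 / 2 : ℝ) ^ j ≤ (1 / 2) ^ (i + 1) :=
    pow_le_pow_of_le_one (by norm_num) (by norm_num) h
  exact ⟨le_antisymm (hj.2.trans h1) hi.1, le_antisymm hj.2 (h1.trans hi.1)⟩

/-- a family of sets cut out by dyadic intervals is locally finite -/
theorem relLF_dyadic {T : Type*} [TopologicalSpace T] {X : ℕ → Set T} {g : T → ℝ}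
    (hg : Continuous g) (hc : ∀ k, IsClosed (X k))
    (h : ∀ k, ∀ x ∈ X k, g x ∈ Icc ((1 / 2 : ℝ) ^ (k + 1)) ((1 / 2) ^ k)) : RelLF X where
  fin := fun z hz => by
    obtain ⟨k, hk⟩ := mem_iUnion.1 hz
    have h1 : (1 / 2 : ℝ) ^ (k + 2) < g z :=
      lt_of_lt_of_le (pow_lt_pow_right_of_lt_one₀ (by norm_num) (by norm_num) (by omega))
        (h k z hk).1
    refine ⟨{x | (1 / 2 : ℝ) ^ (k + 2) < g x}, (isOpen_lt continuous_const hg).mem_nhds h1,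
      (finite_lt_nat (k + 2)).subset ?_⟩
    rintro i ⟨x, h2, h3⟩
    have h4 : (1 / 2 : ℝ) ^ (k + 2) < (1 / 2) ^ i := lt_of_lt_of_le h3 (h i x h2).2
    exact (pow_lt_pow_iff_right_of_lt_one₀ (by norm_num) (by norm_num)).1 h4
  closed := fun i z _ hz => by rwa [(hc i).closure_eq] at hz

end Sh

theorem punct : PUNCT := fun n => by
  have hle : ∀ k : ℕ, (1 / 2 : ℝ) ^ (k + 1) ≤ (1 / 2) ^ k := fun k =>
    pow_le_pow_of_le_one (by norm_num) (by norm_num) (Nat.le_succ k)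
  choose Q hQ using fun k : ℕ => exists_shell n (a := (1 / 2) ^ (k + 1)) (b := (1 / 2) ^ k)
    (by positivity) (hle k)
  have hlt : ∀ i j, i < j → ∀ z ∈ (sphere (0 : Fin n → ℝ) 1 ×ˢ
      Icc ((1 / 2 : ℝ) ^ (i + 1)) ((1 / 2) ^ i)) ∩ (sphere (0 : Fin n → ℝ) 1 ×ˢ
      Icc ((1 / 2 : ℝ) ^ (j + 1)) ((1 / 2) ^ j)), (Q i).toFun z = (Q j).toFun z := by
    rintro i j h ⟨x, s⟩ ⟨h1, h2⟩
    obtain ⟨h3, h4⟩ := dyadic_lt h h1.2 h2.2
    have h5 : (Q i).toFun (x, s) = s • x := by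
      have h3' : s = (1 / 2) ^ (i + 1) := h3
      rw [h3']
      exact (hQ i x h1.1).2.1
    have h6 : (Q j).toFun (x, s) = s • x := by
      have h4' : s = (1 / 2) ^ j := h4
      rw [h4']
      exact (hQ j x h1.1).1
    rw [h5, h6]
  have hX : RelLF fun k : ℕ => sphere (0 : Fin n → ℝ) 1 ×ˢ
      Icc ((1 / 2 : ℝ) ^ (k + 1)) ((1 / 2) ^ k) :=
    relLF_dyadic continuous_snd (fun k => isClosed_sphere.prod isClosed_Icc) fun k x hx => hx.2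
  have hY : RelLF fun k : ℕ =>
      {x : Fin n → ℝ | (1 / 2 : ℝ) ^ (k + 1) ≤ ‖x‖ ∧ ‖x‖ ≤ (1 / 2) ^ k} :=
    relLF_dyadic continuous_norm
      (fun k => (isClosed_le continuous_const continuous_norm).inter
        (isClosed_le continuous_norm continuous_const)) fun k x hx => hx
  obtain ⟨Φ, hΦ⟩ := ConHomeo.exists_glue_family hX hY Q
    (fun i j z hz => by
      rcases lt_trichotomy i j with h | rfl | h
      · exact hlt i j h z hz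
      · rfl
      · exact (hlt j i h z ⟨hz.2, hz.1⟩).symm)
    (fun i j y hy => by
      obtain ⟨z, hz, rfl⟩ : y ∈ (Q i).toFun '' _ := by
        rw [(Q i).image_eq]
        exact hy.1
      refine ⟨z, ⟨hz, hz.1, ?_⟩, rfl⟩
      rw [← (hQ i z.1 hz.1).2.2 z.2 hz.2]
      exact hy.2)
  have e1 : (⋃ k : ℕ, sphere (0 : Fin n → ℝ) 1 ×ˢ Icc ((1 / 2 : ℝ) ^ (k + 1)) ((1 / 2) ^ k)) =
      sphere (0 : Fin n → ℝ) 1 ×ˢ Ioc (0 : ℝ) 1 := by
    ext z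
    rw [mem_iUnion]
    constructor
    · rintro ⟨k, hk⟩
      exact ⟨hk.1, dyadic_sub k hk.2⟩
    · intro hz
      obtain ⟨k, hk⟩ := exists_dyadic hz.2
      exact ⟨k, hz.1, hk⟩
  have e2 : (⋃ k : ℕ, {x : Fin n → ℝ | (1 / 2 : ℝ) ^ (k + 1) ≤ ‖x‖ ∧ ‖x‖ ≤ (1 / 2) ^ k}) =
      closedBall (0 : Fin n → ℝ) 1 \ {0} := by
    ext z
    rw [mem_iUnion, Set.mem_sdiff, mem_closedBall_zero_iff, mem_singleton_iff, ← ne_eq,
      ← norm_pos_iff]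
    constructor
    · rintro ⟨k, hk⟩
      exact (dyadic_sub k hk).symm
    · intro hz
      exact exists_dyadic hz.symm
  refine ⟨Φ.cast e1 e2, fun x hx => ⟨?_, fun s hs => ?_⟩⟩
  · have h1 : (1 : ℝ) ∈ Icc ((1 / 2 : ℝ) ^ (0 + 1)) ((1 / 2) ^ 0) := by norm_num
    have h3 : ∀ s : ℝ, s = (1 / 2) ^ 0 → (Q 0).toFun (x, s) = s • x := by
      rintro _ rfl
      exact (hQ 0 x hx).1
    have h2 := h3 1 (pow_zero _).symm
    rw [one_smul] at h2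
    exact ((hΦ 0).1 (x := (x, 1)) ⟨hx, h1⟩).trans h2
  · obtain ⟨k, hk⟩ := exists_dyadic hs
    have h1 : Φ.toFun (x, s) = (Q k).toFun (x, s) := (hΦ k).1 ⟨hx, hk⟩
    change ‖Φ.toFun (x, s)‖ = s
    rw [h1]
    exact (hQ k x hx).2.2 s hk

namespace Sh

/-- the affine map `s ↦ c + d s` between intervals -/
theorem exists_aff {a b a' b' c d : ℝ} (hd : d ≠ 0)
    (h1 : ∀ s ∈ Icc a b, c + d * s ∈ Icc a' b') (h2 : ∀ s ∈ Icc a' b', d⁻¹ * (s - c) ∈ Icc a b) :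
    ∃ ψ : ConHomeo (Icc a b) (Icc a' b'), (∀ s, ψ.toFun s = c + d * s) ∧
      ∀ s, ψ.invFun s = d⁻¹ * (s - c) := by
  have hc : ConicalSet (Icc a b) := Convex.conicalSet (convex_Icc a b)
  exact ⟨⟨fun s => c + d * s, fun s => d⁻¹ * (s - c), h1, h2,
    fun s _ => by field_simp; ring, fun s _ => by field_simp; ring, by fun_prop, by fun_prop,
    (conicalOn_const c hc).add ((conicalOn_id hc).const_smul d)⟩, fun _ => rfl, fun _ => rfl⟩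

end Sh

theorem coli : COLI := by
  intro E _ _ n C B h
  have hB := h.conicalSet_bdry
  obtain ⟨hBC, φ, hφ⟩ := h
  obtain ⟨Q, hQ⟩ := shell n
  obtain ⟨ψ, hψ, -⟩ := exists_aff (a := 0) (b := 1) (a' := 1 / 2) (b' := 1) (c := 1) (d := -1 / 2)
    (by norm_num) (fun s hs => ⟨by linarith [hs.2], by linarith [hs.1]⟩)
    (fun s hs => ⟨by linarith [hs.2], by linarith [hs.1]⟩)
  have hsub : {x : Fin n → ℝ | 1 / 2 ≤ ‖x‖ ∧ ‖x‖ ≤ 1} ⊆ closedBall 0 1 := fun x hx =>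
    mem_closedBall_zero_iff.2 hx.2
  let α : ConHomeo B (sphere (0 : Fin n → ℝ) 1) := (φ.restr hB hBC).cast rfl hφ
  let κ := ((prod α ψ).trans Q).trans (φ.symm.restr Q.conicalSet_right hsub)
  have hκ : ∀ x s, κ.toFun (x, s) = φ.invFun (Q.toFun (φ.toFun x, 1 + -1 / 2 * s)) :=
    fun x s => by rw [← hψ]; rfl
  have hs : ∀ x ∈ B, φ.toFun x ∈ sphere (0 : Fin n → ℝ) 1 := fun x hx => α.mapsTo hx
  have hn : ∀ x ∈ B, ∀ s ∈ Icc (0 : ℝ) 1, ‖φ.toFun (κ.toFun (x, s))‖ = 1 + -1 / 2 * s := by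
    intro x hx s h1
    have h2 : 1 + -1 / 2 * s ∈ Icc (1 / 2 : ℝ) 1 := hψ s ▸ ψ.mapsTo h1
    rw [hκ, φ.right_inv (hsub (Q.mapsTo (x := (φ.toFun x, 1 + -1 / 2 * s)) ⟨hs x hx, h2⟩))]
    exact (hQ _ (hs x hx)).2.2 _ h2
  have hc : ContinuousOn (fun y => 2 * (1 - ‖φ.toFun y‖)) C :=
    continuousOn_const.mul (continuousOn_const.sub φ.cont.norm)
  have hk : ConicalOn (fun y => 2 * (1 - ‖φ.toFun y‖)) C :=
    ((conicalOn_const (1 : ℝ) φ.conicalSet_left).sub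
      (conicalOn_norm_pi.comp φ.conical (mapsTo_univ _ _) φ.cont)).const_smul (2 : ℝ)
  have hsub2 : closedBall (0 : Fin n → ℝ) (1 / 2) ⊆ closedBall 0 1 :=
    closedBall_subset_closedBall (by norm_num)
  refine ⟨_, κ, fun y => min 1 (2 * (1 - ‖φ.toFun y‖)), ?_, fun x hx => ?_,
    ⟨continuousOn_const.inf hc, (conicalOn_const (1 : ℝ) φ.conicalSet_left).rmin hk
      continuousOn_const hc⟩, fun x hx s h1 => ?_, fun y hy => ?_, ?_⟩
  · rintro _ ⟨z, hz, rfl⟩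
    exact φ.mapsTo_inv (hsub hz)
  · rw [hκ, mul_zero, add_zero, (hQ _ (hs x hx)).1, φ.left_inv (hBC hx)]
  · beta_reduce
    rw [hn x hx s h1, min_eq_right (by linarith [h1.2])]
    ring
  · refine min_eq_left ?_
    by_contra h1
    refine hy.2 ⟨φ.toFun y, ⟨by linarith, mem_closedBall_zero_iff.1 (φ.mapsTo hy.1)⟩,
      φ.left_inv hy.1⟩
  · have h1 := (conBall_cube n (c := 1 / 2) (by norm_num)).image φ.symm hsub2
    have e1 : φ.symm.toFun '' closedBall (0 : Fin n → ℝ) (1 / 2) =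
        {y ∈ C | min 1 (2 * (1 - ‖φ.toFun y‖)) = 1} := by
      ext y
      constructor
      · rintro ⟨z, hz, rfl⟩
        refine ⟨φ.mapsTo_inv (hsub2 hz), min_eq_left ?_⟩
        have h2 : φ.toFun (φ.symm.toFun z) = z := φ.right_inv (hsub2 hz)
        rw [h2]
        linarith [mem_closedBall_zero_iff.1 hz]
      · rintro ⟨h2, h3⟩
        refine ⟨φ.toFun y, mem_closedBall_zero_iff.2 ?_, φ.left_inv h2⟩
        linarith [min_eq_left_iff.1 h3]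
    have hh : ∀ x ∈ B, κ.toFun (x, 1) = φ.invFun ((1 / 2 : ℝ) • φ.toFun x) := fun x hx => by
      rw [hκ, ← (hQ _ (hs x hx)).2.1]
      norm_num
    have e2 : φ.symm.toFun '' sphere (0 : Fin n → ℝ) (1 / 2) = κ.toFun '' (B ×ˢ {1}) := by
      rw [← image_smul_sphere (c := 1 / 2) (by norm_num), ← hφ]
      ext y
      constructor
      · rintro ⟨_, ⟨_, ⟨x, hx, rfl⟩, rfl⟩, rfl⟩
        exact ⟨(x, 1), ⟨hx, rfl⟩, hh x hx⟩
      · rintro ⟨⟨x, s⟩, ⟨hx, h2⟩, rfl⟩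
        obtain rfl : s = 1 := h2
        exact ⟨_, ⟨_, ⟨x, hx, rfl⟩, rfl⟩, (hh x hx).symm⟩
    rwa [e1, e2] at h1

theorem colo : COLO := by
  intro E _ _ n C B Y κ h h0 hY
  have hB := h.conicalSet_bdry
  have hCc := h.isCompact
  have hYc : IsCompact Y := κ.isCompact_right (h.isCompact_bdry.prod isCompact_Icc)
  obtain ⟨hBC, φ, hφ⟩ := h
  obtain ⟨Q, hQ⟩ := shell n
  obtain ⟨ψ, hψ, -⟩ := exists_aff (a := 0) (b := 1) (a' := 1 / 2) (b' := 1) (c := 1 / 2)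
    (d := 1 / 2) (by norm_num) (fun s hs => ⟨by linarith [hs.1], by linarith [hs.2]⟩)
    (fun s hs => ⟨by linarith [hs.1], by linarith [hs.2]⟩)
  let α : ConHomeo B (sphere (0 : Fin n → ℝ) 1) := (φ.restr hB hBC).cast rfl hφ
  let h₁ := φ.trans (scaleBall n (c := 1 / 2) (by norm_num))
  let h₂ := (κ.symm.trans (prod α ψ)).trans Q
  have hs : ∀ x ∈ B, φ.toFun x ∈ sphere (0 : Fin n → ℝ) 1 := fun x hx => α.mapsTo hx
  have k2 : ∀ x ∈ B, ∀ s ∈ Icc (0 : ℝ) 1, h₂.toFun (κ.toFun (x, s)) =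
      Q.toFun (φ.toFun x, 1 / 2 + 1 / 2 * s) := fun x hx s h1 => by
    have h2 : κ.invFun (κ.toFun (x, s)) = (x, s) := κ.left_inv ⟨hx, h1⟩
    change Q.toFun (φ.toFun (κ.invFun (κ.toFun (x, s))).1,
      ψ.toFun (κ.invFun (κ.toFun (x, s))).2) = _
    rw [h2, hψ]
  have hBY : B ⊆ Y := fun x hx => h0 x hx ▸ κ.mapsTo (x := (x, 0)) ⟨hx, left_mem_Icc.2 zero_le_one⟩
  have hag : EqOn h₁.toFun h₂.toFun (C ∩ Y) := fun x hx => by
    have h1 : x ∈ B := hY ⟨hx.2, hx.1⟩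
    have h2 := k2 x h1 0 (left_mem_Icc.2 zero_le_one)
    rw [h0 x h1, mul_zero, add_zero, (hQ _ (hs x h1)).2.1] at h2
    exact h2.symm
  have him : closedBall (0 : Fin n → ℝ) (1 / 2) ∩ {x : Fin n → ℝ | 1 / 2 ≤ ‖x‖ ∧ ‖x‖ ≤ 1} ⊆
      h₁.toFun '' (C ∩ Y) := fun y hy => by
    have h1 : y ∈ sphere (0 : Fin n → ℝ) (1 / 2) :=
      mem_sphere_zero_iff_norm.2 (le_antisymm (mem_closedBall_zero_iff.1 hy.1) hy.2.1)
    rw [← image_smul_sphere (c := 1 / 2) (by norm_num), ← hφ] at h1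
    obtain ⟨_, ⟨x, hx, rfl⟩, rfl⟩ := h1
    exact ⟨x, ⟨hBC hx, hBY hx⟩, rfl⟩
  have hcl : IsClosed {x : Fin n → ℝ | 1 / 2 ≤ ‖x‖ ∧ ‖x‖ ≤ 1} :=
    (isClosed_le continuous_const continuous_norm).inter
      (isClosed_le continuous_norm continuous_const)
  have e1 : closedBall (0 : Fin n → ℝ) (1 / 2) ∪ {x : Fin n → ℝ | 1 / 2 ≤ ‖x‖ ∧ ‖x‖ ≤ 1} =
      closedBall 0 1 := by
    ext y
    simp only [mem_union, mem_closedBall_zero_iff, mem_ofPred_eq]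
    constructor
    · rintro (h1 | h1)
      · linarith
      · exact h1.2
    · intro h1
      exact (le_total ‖y‖ (1 / 2)).imp id fun h2 => ⟨h2, h1⟩
  have hr := ConHomeo.glue_right h₁ h₂ hCc.isClosed hYc.isClosed isClosed_closedBall hcl hag him
  have hsub : κ.toFun '' (B ×ˢ {1}) ⊆ Y := by
    rintro _ ⟨⟨x, s⟩, ⟨hx, h2⟩, rfl⟩
    obtain rfl : s = 1 := h2
    exact κ.mapsTo ⟨hx, right_mem_Icc.2 zero_le_one⟩
  refine ⟨hsub.trans subset_union_right, (ConHomeo.glue h₁ h₂ hCc.isClosed hYc.isClosed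
    isClosed_closedBall hcl hag him).cast rfl e1, ?_⟩
  rw [ConHomeo.cast_toFun, (hr.mono hsub).image_eq, ← hφ]
  have k3 : ∀ x ∈ B, h₂.toFun (κ.toFun (x, 1)) = φ.toFun x := fun x hx => by
    rw [k2 x hx 1 (right_mem_Icc.2 zero_le_one), mul_one, add_halves, (hQ _ (hs x hx)).1]
  ext y
  constructor
  · rintro ⟨_, ⟨⟨x, s⟩, ⟨hx, h2⟩, rfl⟩, rfl⟩
    obtain rfl : s = 1 := h2
    exact ⟨x, hx, (k3 x hx).symm⟩
  · rintro ⟨x, hx, rfl⟩
    exact ⟨_, ⟨(x, 1), ⟨hx, rfl⟩, rfl⟩, k3 x hx⟩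

end P073
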