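import Vale.Agent.P073Z.MAN.Ex
import Vale.Agent.P073Z.RCX
import Vale.Agent.P073Z.A1
import Vale.Agent.P073Z.SHELL

/-!
# Manifold properties of subcomplexes
-/

open Set Metric Topology Filter MeasureTheory

namespace P073

variable {E F : Type} [NormedAddCommGroup E] [NormedSpace ℝ E]
  [NormedAddCommGroup F] [NormedSpace ℝ F]

namespace Man

/-- no embedding into a space of smaller dimension -/
theorem le_of_injOn {m d : ℕ} {V : Set (Fin d → ℝ)} {f : (Fin d → ℝ) → (Fin m → ℝ)}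
    {v : Fin d → ℝ} (hV : V ∈ 𝓝 v) (hc : ContinuousOn f V) (hi : InjOn f V) : d ≤ m := by
  by_contra hlt
  push Not at hlt
  let e : (Fin m → ℝ) → (Fin d → ℝ) := fun y k => if h : k.1 < m then y ⟨k.1, h⟩ else 0
  have he : Continuous e := continuous_pi fun k => by
    by_cases h : k.1 < m
    · simp only [e, dif_pos h]; exact continuous_apply _
    · simp only [e, dif_neg h]; exact continuous_const
  have hei : Function.Injective e := fun y y' h => funext fun k => by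
    have := congrFun h ⟨k.1, k.2.trans hlt⟩
    simpa only [e, dif_pos k.2] using this
  have h0 : ∀ y, e y ⟨m, hlt⟩ = 0 := fun y => dif_neg (lt_irrefl m)
  have h1 := (plMan_open isOpen_univ).iod (f := e ∘ f) hV (he.comp_continuousOn hc)
    (hei.comp_injOn hi) (mapsTo_univ _ _)
  rw [nhdsWithin_univ] at h1
  obtain ⟨r, hr, hb⟩ := nhds_basis_closedBall.mem_iff.1 h1
  have h2 : (e ∘ f) v + (fun _ => r) ∈ closedBall ((e ∘ f) v) r := by
    rw [mem_closedBall, dist_eq_norm, add_sub_cancel_left]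
    exact (pi_norm_le_iff_of_nonneg hr.le).2 fun _ => (Real.norm_of_nonneg hr.le).le
  obtain ⟨y, -, hy⟩ := hb h2
  have h3 := congrFun hy ⟨m, hlt⟩
  simp only [Function.comp, Pi.add_apply, h0] at h3
  linarith

end Man

/-- invariance of dimension: a manifold does not embed locally in one of smaller dimension -/
theorem PLMan.dim_le {d m : ℕ} {X : Set E} {Y N : Set F} (hY : PLMan d Y) (hX : PLMan m X)
    {f : F → E} {y : F} (hy : y ∈ Y) (hN : N ∈ 𝓝[Y] y) (hc : ContinuousOn f (Y ∩ N))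
    (hi : InjOn f (Y ∩ N)) (hm : MapsTo f (Y ∩ N) X) : d ≤ m := by
  have hyN : y ∈ Y ∩ N := ⟨hy, mem_of_mem_nhdsWithin hy hN⟩
  obtain ⟨O, W, φ, hO, hyO, hW⟩ := hY.chart hy
  obtain ⟨O', W', ψ, hO', hyO', -⟩ := hX.chart (hm hyN)
  have h0 : f ⁻¹' O' ∈ 𝓝[Y] y :=
    nhdsWithin_le_of_mem (inter_mem self_mem_nhdsWithin hN) (hc y hyN (hO'.mem_nhds hyO'))
  have h1 := φ.image_mem_nhdsWithin (C := Y ∩ O ∩ (N ∩ f ⁻¹' O')) ⟨hy, hyO⟩
    (inter_mem self_mem_nhdsWithin (nhdsWithin_mono y inter_subset_left (inter_mem hN h0)))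
  rw [hW.nhdsWithin_eq (φ.mapsTo ⟨hy, hyO⟩)] at h1
  have hs : φ.toFun '' (Y ∩ O ∩ (N ∩ f ⁻¹' O')) ⊆ W :=
    (image_mono inter_subset_left).trans φ.mapsTo.image_subset
  have hm₁ : MapsTo φ.invFun (φ.toFun '' (Y ∩ O ∩ (N ∩ f ⁻¹' O'))) (Y ∩ N) := by
    rintro _ ⟨z, hz, rfl⟩
    rw [φ.left_inv hz.1]
    exact ⟨hz.1.1, hz.2.1⟩
  have hm₂ : MapsTo (f ∘ φ.invFun) (φ.toFun '' (Y ∩ O ∩ (N ∩ f ⁻¹' O'))) (X ∩ O') := by
    rintro _ ⟨z, hz, rfl⟩
    rw [Function.comp, φ.left_inv hz.1]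
    exact ⟨hm ⟨hz.1.1, hz.2.1⟩, hz.2.2⟩
  exact Man.le_of_injOn (f := ψ.toFun ∘ f ∘ φ.invFun) h1
    (ψ.cont.comp (hc.comp (φ.cont_inv.mono hs) hm₁) hm₂)
    (ψ.injOn.comp (hi.comp (φ.symm.injOn.mono hs) hm₁) hm₂)

/-- a ball in a manifold has at most the dimension of the manifold -/
theorem PLMan.ball_dim_le {d m : ℕ} {X C B : Set E} (hX : PLMan m X) (hC : ConBall d C B)
    (hCX : C ⊆ X) : d ≤ m :=
  let ⟨_, hy⟩ := hC.diff_nonempty
  hC.plMan.dim_le hX (f := id) (N := univ) hy univ_mem continuousOn_id (injOn_id _)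
    fun _ hz => hCX hz.1.1

/-- a ball which is a neighbourhood in a manifold has at least the dimension of the manifold -/
theorem PLMan.le_ball_dim {d m : ℕ} {X C B : Set E} {x : E} (hX : PLMan m X) (hC : ConBall d C B)
    (hx : x ∈ X) (hn : C ∈ 𝓝[X] x) : m ≤ d :=
  let ⟨_, φ, _⟩ := hC
  hX.dim_le (plMan_open isOpen_univ) (f := φ.toFun) hx hn (φ.cont.mono inter_subset_right)
    (φ.injOn.mono inter_subset_right) (mapsTo_univ _ _)

/-- two pages along a common face fill a neighbourhood -/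
theorem PLMan.two_pages {n : ℕ} {X D B C₁ B₁ C₂ B₂ : Set E} {x : E} (hX : PLMan (n + 1) X)
    (hD : ConBall n D B) (h₁ : ConBall (n + 1) C₁ B₁) (h₂ : ConBall (n + 1) C₂ B₂)
    (hD₁ : D ⊆ B₁) (hD₂ : D ⊆ B₂) (hC₁ : C₁ ⊆ X) (hC₂ : C₂ ⊆ X) (hi₁ : C₁ ∩ C₂ ⊆ B₁)
    (hx : x ∈ D \ B) : C₁ ∪ C₂ ∈ 𝓝[X] x := by
  classical
  obtain ⟨ψ, hψ⟩ := hD.chart
  obtain ⟨Y₁, κ₁, -, hY₁, hκ₁, -⟩ := coli h₁
  obtain ⟨Y₂, κ₂, -, hY₂, hκ₂, -⟩ := coli h₂
  let V : Set (Fin (n + 1) → ℝ) := closedBall 0 1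
  let a : (Fin (n + 1) → ℝ) → E := fun y => ψ.invFun (Fin.tail y)
  have htail : MapsTo (Fin.tail : (Fin (n + 1) → ℝ) → Fin n → ℝ) V (closedBall 0 1) := by
    intro y hy
    rw [mem_closedBall_zero_iff] at hy ⊢
    exact (pi_norm_le_iff_of_nonneg zero_le_one).2 fun j => (norm_le_pi_norm y _).trans hy
  have hcoord : ∀ y ∈ V, |y 0| ≤ 1 := fun y hy =>
    (norm_le_pi_norm y 0).trans (mem_closedBall_zero_iff.1 hy)
  have ha : MapsTo a V D := ψ.mapsTo_inv.comp htail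
  have hac : ContinuousOn a V :=
    ψ.cont_inv.comp (continuous_pi fun j => continuous_apply _).continuousOn htail
  have hai : ∀ y ∈ V, ∀ y' ∈ V, a y = a y' → y 0 = y' 0 → y = y' := by
    intro y hy y' hy' e e0
    have := ψ.symm.injOn (htail hy) (htail hy') e
    rw [← Fin.cons_self_tail y, ← Fin.cons_self_tail y', this, e0]
  have m₁ : MapsTo (fun y => (a y, y 0)) (V ∩ {y | 0 ≤ y 0}) (B₁ ×ˢ Icc (0:ℝ) 1) :=
    fun y hy => ⟨hD₁ (ha hy.1), hy.2, (abs_le.1 (hcoord y hy.1)).2⟩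
  have m₂ : MapsTo (fun y => (a y, -y 0)) (V ∩ {y | y 0 ≤ 0}) (B₂ ×ˢ Icc (0:ℝ) 1) :=
    fun y hy => ⟨hD₂ (ha hy.1), neg_nonneg.2 hy.2, neg_le.1 (abs_le.1 (hcoord y hy.1)).1⟩
  let h : (Fin (n + 1) → ℝ) → E := fun y =>
    if 0 ≤ y 0 then κ₁.toFun (a y, y 0) else κ₂.toFun (a y, -y 0)
  have e₁ : ∀ y ∈ V ∩ {y | 0 ≤ y 0}, h y = κ₁.toFun (a y, y 0) := fun y hy => if_pos hy.2
  have e₂ : ∀ y ∈ V ∩ {y | y 0 ≤ 0}, h y = κ₂.toFun (a y, -y 0) := by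
    intro y hy
    by_cases h0 : 0 ≤ y 0
    · have h1 : y 0 = 0 := le_antisymm hy.2 h0
      rw [e₁ y ⟨hy.1, h0⟩, h1, neg_zero, hκ₁ _ (hD₁ (ha hy.1)), hκ₂ _ (hD₂ (ha hy.1))]
    · exact if_neg h0
  have hV : V = V ∩ {y | 0 ≤ y 0} ∪ V ∩ {y | y 0 ≤ 0} := by
    rw [← inter_union_distrib_left]
    exact (inter_eq_left.2 fun y _ => le_total 0 (y 0)).symm
  have hc : ContinuousOn h V := by
    rw [hV]
    refine ContinuousOn.union_of_isClosed ?_ ?_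
      (isClosed_closedBall.inter (isClosed_le continuous_const (continuous_apply 0)))
      (isClosed_closedBall.inter (isClosed_le (continuous_apply 0) continuous_const))
    · exact (κ₁.cont.comp ((hac.mono inter_subset_left).prodMk
        (continuous_apply 0).continuousOn) m₁).congr e₁
    · exact (κ₂.cont.comp ((hac.mono inter_subset_left).prodMk
        (continuous_apply 0).neg.continuousOn) m₂).congr e₂
  have c₁ : ∀ y ∈ V ∩ {y | 0 ≤ y 0}, h y ∈ C₁ := fun y hy => e₁ y hy ▸ hY₁ (κ₁.mapsTo (m₁ hy))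
  have c₂ : ∀ y ∈ V ∩ {y | y 0 ≤ 0}, h y ∈ C₂ := fun y hy => e₂ y hy ▸ hY₂ (κ₂.mapsTo (m₂ hy))
  have hmaps : MapsTo h V (C₁ ∪ C₂) := fun y hy =>
    (le_total 0 (y 0)).imp (fun h0 => c₁ y ⟨hy, h0⟩) fun h0 => c₂ y ⟨hy, h0⟩
  have i₁ : InjOn h (V ∩ {y | 0 ≤ y 0}) := by
    intro y hy y' hy' e
    rw [e₁ y hy, e₁ y' hy'] at e
    have := κ₁.injOn (m₁ hy) (m₁ hy') e
    exact hai y hy.1 y' hy'.1 (congrArg Prod.fst this) (congrArg Prod.snd this)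
  have i₂ : InjOn h (V ∩ {y | y 0 ≤ 0}) := by
    intro y hy y' hy' e
    rw [e₂ y hy, e₂ y' hy'] at e
    have := κ₂.injOn (m₂ hy) (m₂ hy') e
    exact hai y hy.1 y' hy'.1 (congrArg Prod.fst this) (neg_injective (congrArg Prod.snd this))
  have mix : ∀ y ∈ V ∩ {y | 0 ≤ y 0}, ∀ y' ∈ V ∩ {y | y 0 ≤ 0}, h y = h y' → y = y' := by
    intro y hy y' hy' e
    have hb : h y ∈ B₁ := hi₁ ⟨c₁ y hy, e ▸ c₂ y' hy'⟩
    have h1 : κ₁.toFun (a y, y 0) = κ₁.toFun (h y, 0) := by rw [hκ₁ _ hb, e₁ y hy]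
    have h2 : y 0 = 0 :=
      congrArg Prod.snd (κ₁.injOn (m₁ hy) ⟨hb, le_rfl, zero_le_one⟩ h1)
    exact i₂ ⟨hy.1, h2.le⟩ hy' e
  have hi : InjOn h V := by
    intro y hy y' hy' e
    rcases le_total 0 (y 0) with h0 | h0 <;> rcases le_total 0 (y' 0) with h0' | h0'
    · exact i₁ ⟨hy, h0⟩ ⟨hy', h0'⟩ e
    · exact mix y ⟨hy, h0⟩ y' ⟨hy', h0'⟩ e
    · exact (mix y' ⟨hy', h0'⟩ y ⟨hy, h0⟩ e.symm).symm
    · exact i₂ ⟨hy, h0⟩ ⟨hy', h0'⟩ e
  have hv : (Fin.cons 0 (ψ.toFun x) : Fin (n + 1) → ℝ) ∈ ball 0 1 := by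
    have h1 := (hψ x hx.1).1 hx.2
    rw [mem_ball_zero_iff] at h1 ⊢
    refine (pi_norm_lt_iff one_pos).2 fun j => Fin.cases ?_ (fun j => ?_) j
    · simp
    · exact (norm_le_pi_norm (ψ.toFun x) j).trans_lt h1
  have h1 := hX.iod (f := h) (mem_of_superset (isOpen_ball.mem_nhds hv) ball_subset_closedBall)
    hc hi (hmaps.mono_right (union_subset hC₁ hC₂))
  have h2 : h (Fin.cons 0 (ψ.toFun x)) = x := by
    rw [e₁ _ ⟨ball_subset_closedBall hv, show (0:ℝ) ≤ 0 from le_rfl⟩]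
    show κ₁.toFun (ψ.invFun (ψ.toFun x), 0) = x
    rw [ψ.left_inv hx.1, hκ₁ _ (hD₁ hx.1)]
  rw [h2] at h1
  exact mem_of_superset h1 hmaps.image_subset

namespace Man

/-- the shadow of the set seen from any point is null -/
def Thin {m : ℕ} (Z : Set (Fin m → ℝ)) : Prop :=
  ∀ a, volume {y | ∃ s ∈ Ioc (0:ℝ) 1, a + s • (y - a) ∈ Z} = 0

theorem Thin.mono {m : ℕ} {Z Z' : Set (Fin m → ℝ)} (h : Thin Z) (hZ : Z' ⊆ Z) : Thin Z' :=
  fun a => measure_mono_null (fun _ hy => hy.imp fun _ hs => ⟨hs.1, hZ hs.2⟩) (h a)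

theorem thin_biUnion {m : ℕ} {ι : Type} {I : Set ι} (hI : I.Countable)
    {Z : ι → Set (Fin m → ℝ)} (h : ∀ i ∈ I, Thin (Z i)) : Thin (⋃ i ∈ I, Z i) := by
  intro a
  refine measure_mono_null ?_ ((measure_biUnion_null_iff hI).2 fun i hi => h i hi a)
  rintro y ⟨s, hs, hy⟩
  obtain ⟨i, hi, hy⟩ := mem_iUnion₂.1 hy
  exact mem_iUnion₂.2 ⟨i, hi, s, hs, hy⟩

theorem thin_range {m d : ℕ} (A : (Fin d → ℝ) →ᵃ[ℝ] (Fin m → ℝ)) (h : d + 1 < m) :
    Thin (range A) := by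
  intro a
  let L : ((Fin d → ℝ) × ℝ) →ₗ[ℝ] (Fin m → ℝ) :=
    A.linear.coprod (LinearMap.toSpanSingleton ℝ _ (A 0 - a))
  have hL : LinearMap.range L ≠ ⊤ := by
    intro e
    have h1 := LinearMap.finrank_range_le L
    rw [e] at h1
    simp at h1
    omega
  have h2 : AffineSubspace.mk' a (LinearMap.range L) ≠ ⊤ := by
    intro e
    have h3 := congrArg AffineSubspace.direction e
    rw [AffineSubspace.direction_mk', AffineSubspace.direction_top] at h3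
    exact hL h3
  refine measure_mono_null ?_ (Measure.addHaar_affineSubspace volume _ h2)
  rintro y ⟨s, hs, u, hu⟩
  rw [SetLike.mem_coe, AffineSubspace.mem_mk', vsub_eq_sub]
  have h4 : A u = A.linear u + A 0 := by
    have := A.map_vadd 0 u
    simpa using this
  refine ⟨s⁻¹ • (u, 1), ?_⟩
  have h5 : L (u, 1) = s • (y - a) := by
    show A.linear u + (1:ℝ) • (A 0 - a) = _
    rw [one_smul, ← add_sub_assoc, ← h4, hu, add_sub_cancel_left]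
  rw [map_smul, h5, inv_smul_smul₀ hs.1.ne']

/-- a thin set does not separate a convex open set -/
theorem Thin.preconn {m : ℕ} {Z W : Set (Fin m → ℝ)} (h : Thin Z) (hW : IsOpen W)
    (hc : Convex ℝ W) : IsPreconnected (W \ Z) := by
  refine isPreconnected_of_forall_pair fun a ha b hb => ?_
  obtain ⟨y, hyW, hy⟩ : ∃ y ∈ W, y ∉ {y | ∃ s ∈ Ioc (0:ℝ) 1, a + s • (y - a) ∈ Z} ∪
      {y | ∃ s ∈ Ioc (0:ℝ) 1, b + s • (y - b) ∈ Z} := by
    by_contra hn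
    push Not at hn
    exact (hW.measure_pos volume ⟨a, ha.1⟩).ne'
      (measure_mono_null hn (measure_union_null (h a) (h b)))
  have key : ∀ c ∈ W \ Z, y ∉ {y | ∃ s ∈ Ioc (0:ℝ) 1, c + s • (y - c) ∈ Z} →
      segment ℝ c y ⊆ W \ Z := by
    intro c hc' hy z hz
    refine ⟨hc.segment_subset hc'.1 hyW hz, fun hzZ => ?_⟩
    rw [segment_eq_image'] at hz
    obtain ⟨s, hs, rfl⟩ := hz
    rcases hs.1.eq_or_lt with h0 | h0
    · apply hc'.2
      simpa [← h0] using hzZ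
    · exact hy ⟨s, ⟨h0, hs.2⟩, hzZ⟩
  refine ⟨segment ℝ a y ∪ segment ℝ b y, union_subset (key a ha fun h => hy (Or.inl h))
    (key b hb fun h => hy (Or.inr h)), Or.inl (left_mem_segment _ _ _),
    Or.inr (left_mem_segment _ _ _), ?_⟩
  exact IsPreconnected.union y (right_mem_segment _ _ _) (right_mem_segment _ _ _)
    (convex_segment _ _).isPreconnected (convex_segment _ _).isPreconnected

/-- a ball of codimension two is thin in a chart -/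
theorem thin_image {m d : ℕ} {C D B : Set E} {Q : Set (Fin m → ℝ)} (χ : ConHomeo C Q)
    (hC : IsCompact C) (hc : LocCone C) (hD : ConBall d D B) (h : d + 1 < m) :
    Thin (χ.toFun '' (D ∩ C)) := by
  have hN : IsCompact (D ∩ C) := hD.isCompact.inter hC
  have hNc : LocCone (D ∩ C) := hD.locCone.inter hc
  obtain ⟨-, ψ, -⟩ := hD
  let ψ' := ψ.restr hNc.conicalSet inter_subset_left
  let g := ψ'.symm.trans (χ.restr hNc.conicalSet inter_subset_right)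
  obtain ⟨𝒮, -, h2, h3⟩ := A1.exists_simplices (ψ'.isCompact_right hN)
    (LocCone.of_conHomeo hN hNc ψ') g.conical
  choose! A hA using h3
  refine (thin_biUnion (Finset.countable_toSet 𝒮) fun s _ => thin_range (A s) h).mono ?_
  rw [← g.image_eq]
  rintro _ ⟨u, hu, rfl⟩
  rw [h2] at hu
  obtain ⟨s, hs, hu⟩ := mem_iUnion₂.1 hu
  exact mem_iUnion₂.2 ⟨s, hs, u, (hA s hs hu).symm⟩

variable {K : RCx E} {n : ℕ} {X : Set E}

theorem exists_top (hK : K.Sub X) (hX : PLMan n X) {i : K.ι} (hi : K.cell i ⊆ X) :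
    ∃ j, K.cell i ⊆ K.cell j ∧ K.cell j ⊆ X ∧ K.dim j = n := by
  obtain ⟨j, hj, hmax⟩ := exists_max_image {j | K.cell i ⊆ K.cell j ∧ K.cell j ⊆ X} K.dim
    ((K.finite_cofaces i).subset fun _ h => h.1) ⟨i, Subset.rfl, hi⟩
  obtain ⟨y, hy⟩ := K.ocell_nonempty j
  refine ⟨j, hj.1, hj.2, le_antisymm (hX.ball_dim_le (K.ball j) hj.2) ?_⟩
  exact hX.le_ball_dim (K.ball j) (hj.2 hy.1)
    (hK.cell_mem_nhdsWithin hy fun k hk hjk => hmax k ⟨hj.1.trans hjk, hk⟩)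

theorem two_top (hK : K.Sub X) (hX : PLMan (n + 1) X) {i : K.ι} (hi : K.cell i ⊆ X)
    (hd : K.dim i = n) : ∃ j₁ j₂, j₁ ≠ j₂ ∧ ∀ j,
    (K.cell i ⊆ K.cell j ∧ K.cell j ⊆ X ∧ K.dim j = n + 1) ↔ (j = j₁ ∨ j = j₂) := by
  obtain ⟨x, hx⟩ := K.ocell_nonempty i
  obtain ⟨j₁, h₁, h₁X, hd₁⟩ := exists_top hK hX hi
  have hb₁ : K.cell i ⊆ K.bd j₁ := K.subset_bd_of_dim_lt h₁ (by omega)
  obtain ⟨j₂, hne, h₂, h₂X, hd₂⟩ : ∃ j₂, j₁ ≠ j₂ ∧ K.cell i ⊆ K.cell j₂ ∧ K.cell j₂ ⊆ X ∧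
      K.dim j₂ = n + 1 := by
    by_contra hn
    push Not at hn
    refine (hX.ball_nhds_iff (hd₁ ▸ K.ball j₁) h₁X (h₁ hx.1)).1 ?_ (hb₁ hx.1)
    filter_upwards [mem_nhdsWithin_of_mem_nhds (K.eventually_coface hx), self_mem_nhdsWithin]
      with y hy hyX
    obtain ⟨k, hk, hkX⟩ := hK y hyX
    obtain ⟨l, hl, hlX, hdl⟩ := exists_top hK hX hkX
    by_cases e : j₁ = l
    · rw [e]; exact hl hk
    · exact absurd hdl (hn l e ((hy k hk).trans hl) hlX)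
  have hb₂ : K.cell i ⊆ K.bd j₂ := K.subset_bd_of_dim_lt h₂ (by omega)
  refine ⟨j₁, j₂, hne, fun j => ⟨fun ⟨hj, hjX, hdj⟩ => ?_, ?_⟩⟩
  · have h1 := hX.two_pages (hd ▸ K.ball i) (hd₁ ▸ K.ball j₁) (hd₂ ▸ K.ball j₂) hb₁ hb₂ h₁X h₂X
      (K.inter_subset_bd hne (by omega)) hx
    have h2 : x ∈ closure (K.ocell j) := (K.ball j).subset_closure_int (hj hx.1)
    obtain ⟨y, hy1, hy2⟩ := (mem_closure_iff_nhdsWithin_neBot.1 h2).nonempty_of_mem
      (inter_mem (nhdsWithin_mono x ((K.ocell_subset j).trans hjX) h1) self_mem_nhdsWithin)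
    exact hy1.imp (fun h => K.eq_of_subset_of_dim_le (K.cell_subset_of_mem hy2 h) (by omega))
      fun h => K.eq_of_subset_of_dim_le (K.cell_subset_of_mem hy2 h) (by omega)
  · rintro (rfl | rfl)
    exacts [⟨h₁, h₁X, hd₁⟩, ⟨h₂, h₂X, hd₂⟩]

/-- small neighbourhoods minus the cells of codimension two are connected -/
theorem exists_preconn (hX : PLMan (n + 1) X) (hK : K.Sub X) {x : E} (hx : x ∈ X) {U : Set E}
    (hU : U ∈ 𝓝[X] x) : ∃ N ∈ 𝓝[X] x, N ⊆ X ∩ U ∧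
      IsPreconnected {y ∈ N | ∀ k, y ∈ K.cell k → n ≤ K.dim k} := by
  obtain ⟨C, B, hC, hxC, hCX, hn⟩ := hX.small hx hU
  obtain ⟨χ, hχ⟩ := hC.chart
  have hfin := K.finite_meet hC.isCompact
    (hCX.trans (inter_subset_left.trans hK.subset_carrier))
  have hZ : Thin (⋃ k ∈ {k | (K.cell k ∩ C).Nonempty ∧ K.dim k < n}, χ.toFun '' (K.cell k ∩ C)) :=
    thin_biUnion (hfin.subset fun _ h => h.1).countable fun k hk =>
      thin_image χ hC.isCompact hC.locCone (K.ball k) (Nat.succ_lt_succ hk.2)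
  have h1 := (hZ.preconn isOpen_ball (convex_ball 0 1)).image χ.invFun
    (χ.cont_inv.mono (sdiff_subset.trans ball_subset_closedBall))
  refine ⟨C \ B, inter_mem hn ?_, sdiff_subset.trans hCX, ?_⟩
  · exact mem_nhdsWithin_of_mem_nhds (hC.isCompact_bdry.isClosed.isOpen_compl.mem_nhds hxC.2)
  · rw [sdiff_eq, ConBall.int_eq χ hχ] at h1
    refine Eq.mp (congrArg IsPreconnected ?_) h1
    ext y
    refine and_congr_right fun hy => ⟨fun h k hk => ?_, fun h hy' => ?_⟩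
    · by_contra hlt
      exact h (mem_iUnion₂.2 ⟨k, ⟨⟨y, hk, hy.1⟩, not_le.1 hlt⟩, y, ⟨hk, hy.1⟩, rfl⟩)
    · obtain ⟨k, hk, z, hz, e⟩ := mem_iUnion₂.1 hy'
      rw [χ.injOn hz.2 hy.1 e] at hz
      exact absurd (h k hz.1) (not_le.2 hk.2)

theorem dual_conn (hK : K.Sub X) (hX : PLMan (n + 1) X) {x : E} (hx : x ∈ X) (c : K.ι → Prop)
    (hc : ∀ i j j', x ∈ K.cell i → K.dim i = n → K.cell i ⊆ K.cell j → K.cell i ⊆ K.cell j' →
      K.cell j ⊆ X → K.cell j' ⊆ X → K.dim j = n + 1 → K.dim j' = n + 1 → c j → c j')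
    {j j' : K.ι} (hj : x ∈ K.cell j) (hj' : x ∈ K.cell j') (hjX : K.cell j ⊆ X)
    (hjX' : K.cell j' ⊆ X) (hd : K.dim j = n + 1) (hd' : K.dim j' = n + 1) (h : c j) : c j' := by
  by_contra h'
  obtain ⟨N, hN, hNU, hP⟩ := exists_preconn hX hK hx
    (mem_nhdsWithin_of_mem_nhds (K.eventually_star (hK.subset_carrier hx)))
  have hcl : ∀ q : K.ι → Prop, IsClosed (⋃ l ∈ {l | x ∈ K.cell l ∧ K.cell l ⊆ X ∧
      K.dim l = n + 1 ∧ q l}, K.cell l) := fun q =>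
    ((K.finite_mem (hK.subset_carrier hx)).subset fun _ h => h.1).isClosed_biUnion
      fun l _ => K.isClosed_cell l
  have hne : ∀ q : K.ι → Prop, ∀ l, x ∈ K.cell l → K.cell l ⊆ X → K.dim l = n + 1 → q l →
      ({y ∈ N | ∀ k, y ∈ K.cell k → n ≤ K.dim k} ∩ ⋃ l ∈ {l | x ∈ K.cell l ∧ K.cell l ⊆ X ∧
      K.dim l = n + 1 ∧ q l}, K.cell l).Nonempty := by
    intro q l h1 h2 h3 h4
    obtain ⟨y, hy1, hy2⟩ := (mem_closure_iff_nhdsWithin_neBot.1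
      ((K.ball l).subset_closure_int h1)).nonempty_of_mem
      (inter_mem (nhdsWithin_mono x ((K.ocell_subset l).trans h2) hN) self_mem_nhdsWithin)
    refine ⟨y, ⟨hy1, fun k hk => ?_⟩, mem_iUnion₂.2 ⟨l, ⟨h1, h2, h3, h4⟩, hy2.1⟩⟩
    have := K.dim_le (K.cell_subset_of_mem hy2 hk)
    omega
  obtain ⟨y, hy, hy1, hy2⟩ := isPreconnected_closed_iff.1 hP _ _ (hcl c) (hcl fun l => ¬ c l)
    (by
      intro y hy
      obtain ⟨k, hk, hkX⟩ := hK y (hNU hy.1).1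
      obtain ⟨l, hl, hlX, hdl⟩ := exists_top hK hX hkX
      have hxl : x ∈ K.cell l := (hNU hy.1).2 l (hl hk)
      by_cases hcl : c l
      · exact Or.inl (mem_iUnion₂.2 ⟨l, ⟨hxl, hlX, hdl, hcl⟩, hl hk⟩)
      · exact Or.inr (mem_iUnion₂.2 ⟨l, ⟨hxl, hlX, hdl, hcl⟩, hl hk⟩))
    (hne c j hj hjX hd h) (hne _ j' hj' hjX' hd' h')
  obtain ⟨l, hl, hyl⟩ := mem_iUnion₂.1 hy1
  obtain ⟨l', hl', hyl'⟩ := mem_iUnion₂.1 hy2
  obtain ⟨i, hi, hil, hil'⟩ := K.exists_common_face hyl hyl'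
  have h1 := hy.2 i hi.1
  have h2 := K.dim_le hil
  rcases h1.eq_or_lt with h3 | h3
  · exact hl'.2.2.2 (hc i l l' ((hNU hy.1).2 i hi.1) h3.symm hil hil' hl.2.1 hl'.2.1 hl.2.2.1
      hl'.2.2.1 hl.2.2.2)
  · have e1 := K.eq_of_subset_of_dim_le hil (by have := hl.2.2.1; omega)
    have e2 := K.eq_of_subset_of_dim_le hil' (by have := hl'.2.2.1; omega)
    exact hl'.2.2.2 (e2 ▸ e1 ▸ hl.2.2.2)

end Man

theorem man : MAN := fun K _ _ hK hX =>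
  ⟨fun i hi => hX.ball_dim_le (K.ball i) hi, fun _ hi => Man.exists_top hK hX hi,
    fun _ _ hd _ hx => hK.cell_mem_nhdsWithin hx fun k hk _ =>
      hd ▸ hX.ball_dim_le (K.ball k) hk,
    fun _ hi hd => Man.two_top hK hX hi hd,
    fun _ hx c hc _ _ hj hj' hjX hjX' hd hd' h =>
      Man.dual_conn hK hX hx c hc hj hj' hjX hjX' hd hd' h⟩

end P073
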