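import Vale.Agent.P073Z.Sk2

/-!
# Statements for the selection block
-/

open Set Metric Topology Filter MeasureTheory
open scoped ENNReal NNReal ContDiff

namespace P073

/-- an admissible type: a matrix `A` of rank `r` whose kernel is spanned by the last columns of
the rational matrix `L` -/
structure Ty where
  /-- rank -/
  r : ℕ
  /-- bound -/
  b : ℕ
  /-- lattice basis -/
  L : E3 ≃L[ℝ] E3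
  /-- the matrix -/
  A : E3 →L[ℝ] E3
  r_pos : 1 ≤ r
  r_le : r ≤ 3
  b_pos : 1 ≤ b
  rat : ∀ i k : Fin 3, (∃ q : ℚ, L (Pi.single i 1) k = q) ∧ ∃ q : ℚ, L.symm (Pi.single i 1) k = q
  normL : ‖(L : E3 →L[ℝ] E3)‖ ≤ b
  normLi : ‖(L.symm : E3 →L[ℝ] E3)‖ ≤ b
  normA : ‖A‖ ≤ b
  ker : ∀ i : Fin 3, r ≤ (i : ℕ) → A (L (Pi.single i 1)) = 0
  low : ∀ u : E3, (∀ i : Fin 3, r ≤ (i : ℕ) → u i = 0) → ‖u‖ ≤ b * ‖A (L u)‖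

def TYPE : Prop := ∀ τ : ℕ → ℝ, (∀ b, 0 < τ b) → ∀ B : E3 →L[ℝ] E3, B ≠ 0 →
  ∃ T : Ty, ‖T.A - B‖ < τ T.b

/-- the averages of `‖F - A‖` over the balls around `x` of radius at most `r` are at most `τ` -/
def MaxLe (F : E3 → (E3 →L[ℝ] E3)) (A : E3 →L[ℝ] E3) (x : E3) (r τ : ℝ) : Prop :=
  ∀ ρ ∈ Ioc (0:ℝ) r, ∫⁻ y in ball x ρ, ‖F y - A‖ₑ ≤ ENNReal.ofReal τ * volume (ball x ρ)

def HAJ : Prop := ∃ C : ℝ, 0 < C ∧ ∀ {Ω : Set E3} {f : E3 → E3} {F : E3 → (E3 →L[ℝ] E3)}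
  (A : E3 →L[ℝ] E3) {x y : E3} {r τ : ℝ}, IsOpen Ω → ContinuousOn f Ω →
  LocallyIntegrableOn F Ω volume → Vale.Agent.P073.HB.WeakDeriv volume Ω f F → 0 ≤ τ →
  ball x (3 * r) ⊆ Ω → ball y (3 * r) ⊆ Ω → MaxLe F A x (3 * r) τ → MaxLe F A y (3 * r) τ →
  dist x y ≤ r → ‖f y - f x - A (y - x)‖ ≤ C * τ * ‖y - x‖

def KSEL : Prop := ∀ {Ω : Set E3} {F : E3 → (E3 →L[ℝ] E3)} {p τ₀ : ℝ} {δ : ℝ≥0∞} (τ : ℕ → ℝ),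
  IsOpen Ω → Bornology.IsBounded Ω → 1 ≤ p → AEStronglyMeasurable F (volume.restrict Ω) →
  ∫⁻ x in Ω, ‖F x‖ₑ ^ p < ⊤ → 0 < τ₀ → 0 < δ → (∀ b, 0 < τ b) →
  ∃ (N : ℕ) (T : Fin N → Ty) (K : Fin N → Set E3) (r₁ : ℝ), 0 < r₁ ∧
    (∀ j, IsCompact (K j) ∧ cthickening r₁ (K j) ⊆ Ω ∧
      ∀ x ∈ K j, ‖F x - (T j).A‖ ≤ τ (T j).b ∧ MaxLe F (T j).A x r₁ (τ (T j).b)) ∧
    (∀ j j', j ≠ j' → ∀ x ∈ K j, ∀ y ∈ K j', r₁ ≤ dist x y) ∧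
    ∫⁻ x in Ω \ ⋃ j, K j, ‖F x‖ₑ ^ p ≤ ENNReal.ofReal τ₀ ^ p * volume Ω + δ

/-- averaging over a random shift -/
def AVG : Prop := ∀ (k : ℕ) {S : Set E3} {g : E3 → ℝ≥0∞} {η : ℝ} {D : ℝ≥0∞}, 0 < η → D ≠ ⊤ →
  MeasurableSet S → Measurable g → (∀ y, μH[(k : ℝ)] (S ∩ closedBall y η) ≤ D) →
  Measurable (fun w : E3 => ∫⁻ x in S, g (w + x) ∂(μH[(k : ℝ)])) ∧
  ∫⁻ w in closedBall (0 : E3) η, ∫⁻ x in S, g (w + x) ∂(μH[(k : ℝ)]) ≤ D * ∫⁻ y, g y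

/-- variation on good segments -/
def SEGV : Prop := ∀ {f : E3 → E3} {F : E3 → (E3 →L[ℝ] E3)} {x y : E3} (A : E3 →L[ℝ] E3)
  {p : ℝ}, 1 ≤ p → x ≠ y → Measurable F → Vale.Agent.P073.HB.GoodSeg f F x (y - x) →
  segVar f x y ≤ ∫⁻ z in segment ℝ x y, ‖F z‖ₑ ∂(μH[1]) ∧
  (A (y - x) = 0 → segVar f x y ≤ ∫⁻ z in segment ℝ x y, ‖F z - A‖ₑ ∂(μH[1])) ∧
  eVariationOn (fun t : ℝ => f (AffineMap.lineMap x y t) - AffineMap.lineMap (f x) (f y) t)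
    (Icc 0 1) ≤ 2 * ∫⁻ z in segment ℝ x y, ‖F z - A‖ₑ ∂(μH[1]) ∧
  μH[1] (segment ℝ x y) = edist x y ∧
  (∫⁻ z in segment ℝ x y, ‖F z - A‖ₑ ∂(μH[1])) ^ p ≤
    edist x y ^ (p - 1) * ∫⁻ z in segment ℝ x y, ‖F z - A‖ₑ ^ p ∂(μH[1])

/-- the hat function of the Freudenthal-Kuhn triangulation -/
noncomputable def hat (ζ : E3) : ℝ :=
  max 0 (1 + min 0 (min (ζ 0) (min (ζ 1) (ζ 2))) - max 0 (max (ζ 0) (max (ζ 1) (ζ 2))))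

/-- the vertices of the Kuhn simplex carrying `ζ` -/
def kv (ζ : E3) : Set E3 := {v | (∀ i, ∃ k : ℤ, v i = k) ∧ hat (ζ - v) ≠ 0}

/-- the closed Kuhn cell of `ζ₀` -/
def kcell (ζ₀ : E3) : Set E3 := {ζ | (∀ (i : Fin 3) (k : ℤ), ((k:ℝ) ≤ ζ₀ i → (k:ℝ) ≤ ζ i) ∧
    (ζ₀ i ≤ k → ζ i ≤ k)) ∧ ∀ (i j : Fin 3) (k : ℤ),
    ((k:ℝ) ≤ ζ₀ i - ζ₀ j → (k:ℝ) ≤ ζ i - ζ j) ∧ (ζ₀ i - ζ₀ j ≤ k → ζ i - ζ j ≤ k)}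

def KUHN : Prop := LipschitzWith 2 hat ∧ ∀ ζ₀ : E3, ∃ t : Finset E3, (t : Set E3) = kv ζ₀ ∧
  t.card ≤ 4 ∧ AffineIndependent ℝ ((↑) : t → E3) ∧ kcell ζ₀ = convexHull ℝ (t : Set E3) ∧
  (∀ v ∈ t, ∀ w ∈ t, v ≠ w → ‖v - w‖ = 1) ∧
  ∀ ζ, (ζ ∈ kcell ζ₀ ↔ kv ζ ⊆ kv ζ₀) ∧ (ζ ∈ kcell ζ₀ →
    ∑ v ∈ t, hat (ζ - v) = 1 ∧ ∑ v ∈ t, hat (ζ - v) • v = ζ)

/-- energy of a compact subcomplex -/
def ENU : Prop := ∀ {E F : Type} [NormedAddCommGroup E] [NormedSpace ℝ E] [FiniteDimensional ℝ E]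
  [MeasurableSpace E] [BorelSpace E] [NormedAddCommGroup F] [NormedSpace ℝ F]
  (K : RCx E) (k : ℕ) {p : ℝ} (h : E → F) (s : Finset K.ι) {X : Set E}, 0 < p → K.Sub X →
  IsCompact X → (∀ j, K.cell j ⊆ X → K.dim j ≤ k) → (∀ j, j ∈ s ↔ K.cell j ⊆ X ∧ K.dim j = k) →
  En k p h X ≤ ∑ j ∈ s, En k p h (K.cell j)

/-- the unit lattice cube -/
def ucube (z : Fin 3 → ℤ) : Set E3 := Icc (fun i => (z i : ℝ)) (fun i => (z i : ℝ) + 1)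

/-- its lower face in the directions `J` -/
def uface (z : Fin 3 → ℤ) (J : Finset (Fin 3)) : Set E3 := {ξ ∈ ucube z | ∀ i ∈ J, ξ i = z i}

/-- the diagonal matrix with entries `s` on `I` and one elsewhere -/
noncomputable def dgs (I : Finset (Fin 3)) (s : ℝ) : E3 →L[ℝ] E3 :=
  ContinuousLinearMap.pi fun i => (if i ∈ I then s else 1) • ContinuousLinearMap.proj i

def STAIR : Prop := ∀ {p s : ℝ}, 1 ≤ p → 0 < s → s < 1 → ∃ C : ℝ≥0,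
  ∀ {W Z : Set E3} {H : E3 → E3} (I : Finset (Fin 3)) (B : E3 →L[ℝ] E3)
    (𝓘 : Finset (Fin 3 → ℤ)) {ε : ℝ≥0∞}, IsOpen W → ContinuousOn H W → DiscreteIn Z W →
  ConicalOn H (W \ Z) → cthickening 3 (⋃ z ∈ 𝓘, ucube z) ⊆ W →
  (∀ ξ ∈ Z ∩ cthickening 3 (⋃ z ∈ 𝓘, ucube z), ∀ (i : Fin 3) (k : ℤ), ξ i ≠ k) →
  (∀ i ∈ I, B (Pi.single i 1) = 0) → 0 < ε →
  ∃ Θ : ConHomeo (univ : Set E3) (univ : Set E3),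
    (∀ ξ, ξ ∉ thickening 2 (⋃ z ∈ 𝓘, ucube z) → Θ.toFun ξ = ξ) ∧
    (∀ z, Θ.toFun '' ucube z = ucube z) ∧
    (∀ z ∈ 𝓘, ∫⁻ ξ in ucube z, ‖(fderiv ℝ (H ∘ Θ.toFun) ξ - B).comp (dgs I s)‖ₑ ^ p ≤
      2 ^ p * ∑ J ∈ I.powerset, ENNReal.ofReal s ^ (I.card - J.card) *
        En (3 - J.card) p (fun ξ => H ξ - B ξ) (uface z J) + ε) ∧
    ∀ z, ucube z ⊆ cthickening 3 (⋃ z ∈ 𝓘, ucube z) →
      ∫⁻ ξ in ucube z, ‖fderiv ℝ (H ∘ Θ.toFun) ξ‖ₑ ^ p ≤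
        C * ∑ J ∈ I.powerset, En (3 - J.card) p H (uface z J) + ε

/-! ### the source mesh -/

/-- the lines of the integer lattice -/
def gridLines : Set E3 := {x | ∃ i : Fin 3, ∀ j, j ≠ i → ∃ k : ℤ, x j = k}

/-- a face of a unit lattice cube -/
def IsBox (X : Set E3) : Prop := ∃ lo hi : Fin 3 → ℤ, (∀ i, hi i = lo i ∨ hi i = lo i + 1) ∧
  X = Icc (fun i => (lo i : ℝ)) (fun i => (hi i : ℝ))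

/-- the kernel directions -/
def Ty.I (T : Ty) : Finset (Fin 3) := Finset.univ.filter fun i => T.r ≤ (i : ℕ)

/-- the parameters of the mesh -/
structure Par where
  /-- number of types -/
  N : ℕ
  /-- the types -/
  T : Fin N → Ty
  /-- anisotropy -/
  m : Fin N → ℕ
  /-- the compact sets -/
  K : Fin N → Set E3
  /-- the outer scale function -/
  ς : E3 → ℝ
  /-- base scale exponent -/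
  k₀ : ℕ
  /-- fine subdivision -/
  n : ℕ
  /-- the shift -/
  w : E3

namespace Par

variable (P : Par)

/-- base scale -/
noncomputable def η : ℝ := (2:ℝ)⁻¹ ^ P.k₀

/-- normalised coordinates of type `j` -/
noncomputable def nu (j : Fin P.N) (x : E3) : E3 := fun i =>
  (P.T j).L.symm (x - P.w) i / (if (i : ℕ) < (P.T j).r then P.η / P.m j else P.η)

/-- fine scale -/
noncomputable def ρ (j : Fin P.N) : ℝ := P.η / (P.m j * P.n)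

/-- inner cubes -/
def Inner (j : Fin P.N) : Set (Fin 3 → ℤ) := {z | ∃ x ∈ P.K j, P.nu j x ∈ ucube z}

/-- buffer cubes -/
def Buf (j : Fin P.N) : Set (Fin 3 → ℤ) :=
  {z | ucube z ⊆ cthickening 3 (⋃ z' ∈ P.Inner j, ucube z')}

/-- the union of the buffer cells -/
def BufSet (j : Fin P.N) : Set E3 := {x | ∃ z ∈ P.Buf j, P.nu j x ∈ ucube z}

/-- the union of the finely subdivided pieces -/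
def Fine (j : Fin P.N) : Set E3 := {x | ∃ z ∈ P.Inner j, P.nu j x ∈ uface z (P.T j).I}

/-- the neighbourhood of `K j` containing all special cells -/
def U (j : Fin P.N) : Set E3 := thickening (20 * (P.T j).b * P.η) (P.K j)

/-- admissible parameters -/
structure Ok (Ω : Set E3) : Prop where
  m_pos : ∀ j, 1 ≤ P.m j
  n_pos : 1 ≤ P.n
  compact : ∀ j, IsCompact (P.K j)
  lip : LipschitzWith (1 / 10) P.ς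
  pos : ∀ x ∈ Ω, 0 < P.ς x ∧ closedBall x (P.ς x) ⊆ Ω
  big : ∀ j, ∀ x ∈ cthickening (100 * (P.T j).b * P.η) (P.K j),
    x ∈ Ω ∧ 10 * (P.T j).b * P.η ≤ P.ς x
  sep : ∀ j j', j ≠ j' → ∀ x ∈ P.K j, ∀ y ∈ P.K j',
    200 * ((P.T j).b + (P.T j').b) * P.η ≤ dist x y

end Par

/-- the source complex -/
structure Mesh (Ω : Set E3) (P : Par) (M₀ : ℝ≥0) (Mt : Ty → ℕ → ℝ≥0)
    (S : Ty → ℕ → Set E3) where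
  /-- the complex -/
  Q : RCx E3
  cvx : Q.Cvx
  carrier : Q.carrier = Ω
  small : ∀ i, ∀ x ∈ Q.cell i, ∀ y ∈ Q.cell i, dist x y ≤ 2 * P.ς x
  rat : ∀ i, Q.dim i = 0 → ∀ x ∈ Q.cell i, ∀ k, ∃ q : ℚ, x k = P.w k + q
  /-- normalised coordinates as affine equivalences -/
  ν : Fin P.N → E3 ≃ᴬ[ℝ] E3
  ν_eq : ∀ j x, ν j x = P.nu j x
  sub_box : ∀ j, ∀ z ∈ P.Buf j, ∀ X, IsBox X → X ⊆ ucube z → Q.Sub (P.nu j ⁻¹' X)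
  fine : ∀ j i, Q.cell i ⊆ P.Fine j → ∀ x ∈ Q.ocell i,
    Q.cell i = (fun y => (P.n : ℝ) • P.nu j y) ⁻¹' kcell ((P.n : ℝ) • P.nu j x)
  coarse : ∀ j i, Q.cell i ⊆ P.BufSet j → ¬ Q.cell i ⊆ P.Fine j →
    ∃ X, IsBox X ∧ Q.cell i = P.nu j ⁻¹' X
  /-- normalising maps -/
  nm : Q.ι → E3 ≃ᴬ[ℝ] E3
  /-- chart constants -/
  M : Q.ι → ℝ≥0
  chart : ∀ i, 2 ≤ Q.dim i → BiChart (Q.dim i) (nm i '' Q.cell i) (nm i '' Q.bd i) (M i)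
  /-- far cells -/
  far : Q.ι → Prop
  /-- their scales -/
  kf : Q.ι → ℕ
  far_face : ∀ i j, far i → Q.cell j ⊆ Q.cell i → far j ∧ kf j ≤ kf i + 1 ∧ kf i ≤ kf j + 1
  far_chart : ∀ i, far i → (∀ x, nm i x = (2:ℝ) ^ kf i • x) ∧ M i = M₀
  far_zone : ∀ i, far i → P.k₀ ≤ kf i ∧ ∀ x ∈ Q.cell i, (2:ℝ)⁻¹ ^ kf i / 4 ≤ P.ς x ∧
    (P.k₀ < kf i → P.ς x ≤ 4 * (2:ℝ)⁻¹ ^ kf i)
  far_wire : ∀ i, far i → Q.dim i = 1 → ∀ x ∈ Q.cell i,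
    (2:ℝ) ^ (kf i + 2) • (x - P.w) ∈ gridLines
  far_K : ∀ i j, far i → Disjoint (Q.cell i) (P.BufSet j)
  far_near : ∀ i j, far i → (Q.cell i ∩ P.U j).Nonempty → kf i = P.k₀
  near : ∀ i, ¬ far i → ∃ j, Q.cell i ⊆ P.U j ∧ (Q.cell i ⊆ P.BufSet j ∨
    ((∀ x, nm i x = P.η⁻¹ • x) ∧ M i = Mt (P.T j) (P.m j)))
  buf_chart : ∀ i j, Q.cell i ⊆ P.BufSet j → M i = M₀ ∧
    (Q.cell i ⊆ P.Fine j → ∀ x, nm i x = (P.n : ℝ) • P.nu j x) ∧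
    (¬ Q.cell i ⊆ P.Fine j → ∀ x, nm i x = P.nu j x)
  wire_near : ∀ φ e j, Q.dim φ = 2 → Q.dim e = 1 → Q.cell e ⊆ Q.cell φ →
    Q.cell φ ⊆ P.U j → ¬ Q.cell φ ⊆ P.Fine j → ∀ x ∈ Q.cell e,
    P.η⁻¹ • (x - P.w) ∈ S (P.T j) (P.m j)
  mult_far : ∀ x, (({i | Q.dim i = 3 ∧ far i ∧ x ∈ Q.cell i}.ncard : ℕ) : ℝ) ≤ M₀
  mult_near : ∀ j, ∀ x ∈ P.U j,
    (({i | Q.dim i = 3 ∧ x ∈ Q.cell i}.ncard : ℕ) : ℝ) ≤ Mt (P.T j) (P.m j)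
  mult_fine : ∀ j, ∀ x ∈ P.Fine j, (({i | x ∈ Q.cell i}.ncard : ℕ) : ℝ) ≤ M₀

def MESH : Prop := ∃ (M₀ : ℝ≥0) (Mt : Ty → ℕ → ℝ≥0) (S : Ty → ℕ → Set E3),
  (∀ T m, MeasurableSet (S T m) ∧ ∀ y, μH[1] (S T m ∩ closedBall y 1) ≤ Mt T m) ∧
  ∀ {Ω : Set E3} (P : Par), IsOpen Ω → P.Ok Ω → Nonempty (Mesh Ω P M₀ Mt S)

/-- selection of the good simplices and count of the bad ones -/
def GOOD : Prop := ∀ κ₀ : ℝ → ℝ, (∀ M, 0 < κ₀ M) → ∃ (τ₁ τ' : ℕ → ℝ) (Cg : ℕ → ℝ),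
  (∀ b, 0 < τ₁ b ∧ 0 < τ' b ∧ 1 ≤ Cg b) ∧
  ∀ {Ω : Set E3} {f : E3 → E3} {F : E3 → (E3 →L[ℝ] E3)} (P : Par) {M₀ : ℝ≥0}
    {Mt : Ty → ℕ → ℝ≥0} {S : Ty → ℕ → Set E3} (𝓜 : Mesh Ω P M₀ Mt S) (τ : Fin P.N → ℝ)
    {β d : ℝ}, IsOpen Ω → P.Ok Ω → ContinuousOn f Ω → Measurable F → 0 < β →
  (∀ j, 0 ≤ τ j ∧ τ j ≤ τ₁ (P.T j).b ∧ ∀ x ∈ P.K j, ∀ y ∈ P.K j, dist x y ≤ P.η →
    ‖f y - f x - (P.T j).A (y - x)‖ ≤ τ j * ‖y - x‖) →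
  (∀ j, ∀ x ∈ P.U j, ∀ y ∈ Ω, dist (f x) (f y) ≤ 20 * β → dist x y ≤ d) →
  (∀ j, 10 * (P.T j).b * P.m j * d ≤ P.η ∧ Cg (P.T j).b * P.ρ j ≤ β) →
  (∀ e x y, 𝓜.Q.dim e = 1 → 𝓜.Q.cell e = segment ℝ x y →
    Vale.Agent.P073.HB.GoodSeg f F x (y - x)) →
  ∃ γ : Good 𝓜.Q f κ₀ β,
    (∀ i ∈ γ.G, ∃ j, 𝓜.Q.cell i ⊆ P.Fine j ∧ ∀ x ∈ 𝓜.Q.cell i, ∀ y ∈ 𝓜.Q.cell i,
      ‖γ.A i y - γ.A i x - (P.T j).A (y - x)‖ ≤ Cg (P.T j).b * τ j * ‖y - x‖) ∧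
    ∀ j, ({i | 𝓜.Q.cell i ⊆ P.Fine j ∧ i ∉ γ.G}.encard : ℝ≥0∞) ≤
      ENNReal.ofReal (Cg (P.T j).b) *
        (({x ∈ P.U j \ P.K j | (∀ i, ∃ k : ℤ, (P.n : ℝ) * P.nu j x i = k) ∧
            ∀ i ∈ (P.T j).I, ∃ k : ℤ, P.nu j x i = k}.encard : ℝ≥0∞) +
          ENNReal.ofReal ((τ' (P.T j).b * P.ρ j)⁻¹) *
            (∫⁻ x in 𝓜.Q.skel 1 ∩ P.Fine j, ‖F x - (P.T j).A‖ₑ ∂(μH[1])) +
          ENNReal.ofReal ((P.ρ j)⁻¹) *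
            (∫⁻ x in {x ∈ P.U j | P.nu j x ∈ gridLines ∧ ∃ z : Fin 3 → ℤ,
              dist (P.nu j x) (fun i => (z i : ℝ)) ≤ (P.T j).b * P.m j * d / P.η},
              ‖F x‖ₑ ∂(μH[1])) +
          ((P.Inner j).encard : ℝ≥0∞))

end P073
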