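import Vale.Agent.P073Z.Sk3

/-!
# The pointwise inequality from the maximal function bound
-/

open Set Metric Topology Filter MeasureTheory
open scoped ENNReal NNReal ContDiff

namespace P073

namespace Haj

theorem vol_ball (x : E3) {ρ : ℝ} (hρ : 0 < ρ) :
    volume (ball x ρ) = ENNReal.ofReal ((2 * ρ) ^ 3) := by
  have := Real.volume_pi_ball x hρ
  simpa using this

theorem vol_two (x y : E3) {ρ : ℝ} (hρ : 0 < ρ) :
    volume (ball x (2 * ρ)) = 8 * volume (ball y ρ) := by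
  rw [vol_ball x (by positivity), vol_ball y hρ]
  have : (2 * (2 * ρ)) ^ 3 = 8 * (2 * ρ) ^ 3 := by ring
  rw [this, ENNReal.ofReal_mul (by norm_num)]
  simp

theorem vol_ne_zero (x : E3) {ρ : ℝ} (hρ : 0 < ρ) : volume (ball x ρ) ≠ 0 :=
  (measure_ball_pos volume x hρ).ne'

theorem vol_ne_top (x : E3) (ρ : ℝ) : volume (ball x ρ) ≠ ⊤ := measure_ball_lt_top.ne

variable {Ω : Set E3} {f : E3 → E3} {F : E3 → (E3 →L[ℝ] E3)} {A : E3 →L[ℝ] E3}

/-- the double integral over a ball -/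
theorem double (hΩ : IsOpen Ω) (hf : ContinuousOn f Ω) (hF : LocallyIntegrableOn F Ω volume)
    (hw : Vale.Agent.P073.HB.WeakDeriv volume Ω f F) {x : E3} {R τ ρ : ℝ}
    (hB : ball x R ⊆ Ω) (hM : MaxLe F A x R τ) (hρ : ρ ∈ Ioc (0:ℝ) R) :
    ∫⁻ v in ball x ρ, ∫⁻ u in ball x ρ, ‖f u - f v - A (u - v)‖ₑ ≤
      ENNReal.ofReal (16 * ρ * τ) * volume (ball x ρ) * volume (ball x ρ) := by
  have h := Vale.Agent.P073.HB.poincare (μ := volume) hΩ hf hF hw A (B := ball x ρ) isOpen_ball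
    (convex_ball x ρ) ((ball_subset_ball hρ.2).trans hB) (r := 2 * ρ) (by
      intro u hu v hv
      rw [← dist_eq_norm]
      have := dist_triangle v x u
      rw [mem_ball] at hu hv
      rw [dist_comm x u] at this
      linarith)
  refine h.trans ?_
  rw [vol_two 0 x hρ.1]
  have h2 : ENNReal.ofReal (16 * ρ * τ) = ENNReal.ofReal (2 * ρ) * 8 * ENNReal.ofReal τ := by
    have : 16 * ρ * τ = (2 * ρ) * 8 * τ := by ring
    have h0 : 0 ≤ 2 * ρ := by linarith [hρ.1]
    rw [this, ENNReal.ofReal_mul (by positivity), ENNReal.ofReal_mul h0]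
    simp
  rw [h2]
  calc ENNReal.ofReal (2 * ρ) * (8 * volume (ball x ρ)) * ∫⁻ z in ball x ρ, ‖F z - A‖ₑ
      ≤ ENNReal.ofReal (2 * ρ) * (8 * volume (ball x ρ)) *
          (ENNReal.ofReal τ * volume (ball x ρ)) := by
        gcongr
        exact hM ρ hρ
    _ = _ := by ring

theorem tri (f : E3 → E3) (A : E3 →L[ℝ] E3) (x u v : E3) :
    ‖f u - f x - A (u - x)‖ₑ ≤ ‖f u - f v - A (u - v)‖ₑ + ‖f v - f x - A (v - x)‖ₑ := by
  have : f u - f x - A (u - x) = (f u - f v - A (u - v)) + (f v - f x - A (v - x)) := by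
    simp only [map_sub]
    abel
  rw [this]
  exact enorm_add_le _ _

theorem aemeas (hf : ContinuousOn f Ω) {x y : E3} {ρ : ℝ} (hB : ball y ρ ⊆ Ω) :
    AEMeasurable (fun v => ‖f v - f x - A (v - x)‖ₑ) (volume.restrict (ball y ρ)) := by
  have h : ContinuousOn (fun v => f v - f x - A (v - x)) (ball y ρ) :=
    ((hf.mono hB).sub continuousOn_const).sub
      (A.continuous.comp (continuous_id.sub continuous_const)).continuousOn
  exact (h.aestronglyMeasurable measurableSet_ball).enorm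

/-- one halving step -/
theorem step (hΩ : IsOpen Ω) (hf : ContinuousOn f Ω) (hF : LocallyIntegrableOn F Ω volume)
    (hw : Vale.Agent.P073.HB.WeakDeriv volume Ω f F) {x : E3} {R τ ρ c : ℝ} (hτ : 0 ≤ τ)
    (hc : 0 ≤ c) (hB : ball x R ⊆ Ω) (hM : MaxLe F A x R τ) (hρ : ρ ∈ Ioc (0:ℝ) R)
    (h : ∫⁻ u in ball x (ρ / 2), ‖f u - f x - A (u - x)‖ₑ ≤
      ENNReal.ofReal c * volume (ball x (ρ / 2))) :
    ∫⁻ u in ball x ρ, ‖f u - f x - A (u - x)‖ₑ ≤
      ENNReal.ofReal (c + 128 * ρ * τ) * volume (ball x ρ) := by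
  have hρ2 : 0 < ρ / 2 := by linarith [hρ.1]
  have hsub : ball x (ρ / 2) ⊆ ball x ρ := ball_subset_ball (by linarith [hρ.1])
  have hV : volume (ball x ρ) = 8 * volume (ball x (ρ / 2)) := by
    rw [← vol_two x x hρ2]
    congr 2
    ring
  set I := ∫⁻ u in ball x ρ, ‖f u - f x - A (u - x)‖ₑ with hI
  have h1 : I * volume (ball x (ρ / 2)) ≤
      ENNReal.ofReal (16 * ρ * τ) * volume (ball x ρ) * volume (ball x ρ) +
        volume (ball x ρ) * (ENNReal.ofReal c * volume (ball x (ρ / 2))) := by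
    calc I * volume (ball x (ρ / 2)) = ∫⁻ _ in ball x (ρ / 2), I := by
          rw [setLIntegral_const]
      _ ≤ ∫⁻ v in ball x (ρ / 2), ((∫⁻ u in ball x ρ, ‖f u - f v - A (u - v)‖ₑ) +
            volume (ball x ρ) * ‖f v - f x - A (v - x)‖ₑ) := by
          refine lintegral_mono fun v => ?_
          calc I ≤ ∫⁻ u in ball x ρ, (‖f u - f v - A (u - v)‖ₑ + ‖f v - f x - A (v - x)‖ₑ) :=
                lintegral_mono fun u => tri f A x u v
            _ = _ := by
                rw [lintegral_add_right _ measurable_const, setLIntegral_const, mul_comm]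
      _ = (∫⁻ v in ball x (ρ / 2), ∫⁻ u in ball x ρ, ‖f u - f v - A (u - v)‖ₑ) +
            volume (ball x ρ) * ∫⁻ v in ball x (ρ / 2), ‖f v - f x - A (v - x)‖ₑ := by
          rw [lintegral_add_right' _ ((aemeas hf (hsub.trans
            ((ball_subset_ball hρ.2).trans hB))).const_mul _),
            lintegral_const_mul' _ _ (vol_ne_top x ρ)]
      _ ≤ _ := by
          gcongr
          exact (lintegral_mono_set hsub).trans (double hΩ hf hF hw hB hM hρ)
  have h2 : ENNReal.ofReal (16 * ρ * τ) * volume (ball x ρ) * volume (ball x ρ) +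
        volume (ball x ρ) * (ENNReal.ofReal c * volume (ball x (ρ / 2))) =
      (ENNReal.ofReal (c + 128 * ρ * τ) * volume (ball x ρ)) * volume (ball x (ρ / 2)) := by
    have h0 : 0 ≤ 16 * ρ * τ := by have := hρ.1; positivity
    have e : c + 128 * ρ * τ = c + 8 * (16 * ρ * τ) := by ring
    rw [e, ENNReal.ofReal_add hc (by positivity),
      ENNReal.ofReal_mul (p := 8) (q := 16 * ρ * τ) (by norm_num)]
    nth_rewrite 2 [hV]
    simp only [ENNReal.ofReal_ofNat]
    ring
  rw [h2] at h1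
  exact (ENNReal.mul_le_mul_iff_left (vol_ne_zero x hρ2) (vol_ne_top x _)).1 h1

theorem chain (hΩ : IsOpen Ω) (hf : ContinuousOn f Ω) (hF : LocallyIntegrableOn F Ω volume)
    (hw : Vale.Agent.P073.HB.WeakDeriv volume Ω f F) {x : E3} {R τ c : ℝ} (hτ : 0 ≤ τ)
    (hc : 0 ≤ c) (hB : ball x R ⊆ Ω) (hM : MaxLe F A x R τ) (k : ℕ) :
    ∀ ρ ∈ Ioc (0:ℝ) R, ∫⁻ u in ball x (ρ / 2 ^ k), ‖f u - f x - A (u - x)‖ₑ ≤
      ENNReal.ofReal c * volume (ball x (ρ / 2 ^ k)) →
    ∫⁻ u in ball x ρ, ‖f u - f x - A (u - x)‖ₑ ≤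
      ENNReal.ofReal (c + 256 * ρ * τ) * volume (ball x ρ) := by
  induction k with
  | zero =>
    intro ρ hρ h
    simp only [pow_zero, div_one] at h
    refine h.trans ?_
    gcongr
    have : 0 ≤ 256 * ρ * τ := by have := hρ.1; positivity
    linarith
  | succ k ih =>
    intro ρ hρ h
    have hρ2 : ρ / 2 ∈ Ioc (0:ℝ) R := ⟨by linarith [hρ.1], by linarith [hρ.1, hρ.2]⟩
    have e : ρ / 2 ^ (k + 1) = ρ / 2 / 2 ^ k := by
      rw [pow_succ]
      field_simp
    rw [e] at h
    have h1 := ih _ hρ2 h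
    have h0 : 0 ≤ 256 * (ρ / 2) * τ := by have := hρ.1; positivity
    have h2 := step hΩ hf hF hw hτ (add_nonneg hc h0) hB hM hρ h1
    have e2 : c + 256 * (ρ / 2) * τ + 128 * ρ * τ = c + 256 * ρ * τ := by ring
    rwa [e2] at h2

theorem avg (hΩ : IsOpen Ω) (hf : ContinuousOn f Ω) (hF : LocallyIntegrableOn F Ω volume)
    (hw : Vale.Agent.P073.HB.WeakDeriv volume Ω f F) {x : E3} {R τ ε ρ : ℝ} (hτ : 0 ≤ τ)
    (hε : 0 < ε) (hB : ball x R ⊆ Ω) (hM : MaxLe F A x R τ) (hρ : ρ ∈ Ioc (0:ℝ) R) :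
    ∫⁻ u in ball x ρ, ‖f u - f x - A (u - x)‖ₑ ≤
      ENNReal.ofReal (ε + 256 * ρ * τ) * volume (ball x ρ) := by
  have hx : x ∈ Ω := hB (mem_ball_self (hρ.1.trans_le hρ.2))
  have hc : ContinuousAt (fun u => f u - f x - A (u - x)) x :=
    ((hf.continuousAt (hΩ.mem_nhds hx)).sub continuousAt_const).sub
      (A.continuous.comp (continuous_id.sub continuous_const)).continuousAt
  obtain ⟨δ, hδ, hd⟩ := Metric.continuousAt_iff.1 hc ε hε
  obtain ⟨k, hk⟩ := pow_unbounded_of_one_lt (ρ / δ) (one_lt_two (α := ℝ))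
  have hk2 : ρ / 2 ^ k ≤ δ := by
    rw [div_le_iff₀ (by positivity)]
    rw [div_lt_iff₀ hδ] at hk
    linarith
  refine chain hΩ hf hF hw hτ hε.le hB hM k ρ hρ ?_
  rw [← setLIntegral_const]
  refine setLIntegral_mono' measurableSet_ball fun u hu => ?_
  have := hd (x := u) ((mem_ball.1 hu).trans_le hk2)
  simp only [sub_self, map_zero, dist_zero_right] at this
  rw [← ofReal_norm]
  exact ENNReal.ofReal_le_ofReal this.le

end Haj

theorem haj : HAJ := by
  refine ⟨4352, by norm_num, ?_⟩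
  intro Ω f F A x y r τ hΩ hf hF hw hτ hx hy hMx hMy hd
  rcases eq_or_ne y x with rfl | hne
  · simp
  set s := dist x y with hs
  have hs0 : 0 < s := dist_pos.2 hne.symm
  have hn : ‖y - x‖ = s := by rw [hs, dist_comm, dist_eq_norm]
  rw [hn]
  refine le_of_forall_pos_le_add fun ε hε => ?_
  have hε9 : 0 < ε / 9 := by positivity
  have h1 := Haj.avg (A := A) hΩ hf hF hw hτ hε9 hy hMy (ρ := s) ⟨hs0, by linarith⟩
  have h2 := Haj.avg (A := A) hΩ hf hF hw hτ hε9 hx hMx (ρ := 2 * s) ⟨by linarith, by linarith⟩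
  have hsub : ball y s ⊆ ball x (2 * s) := by
    intro u hu
    rw [mem_ball] at hu ⊢
    have := dist_triangle u y x
    rw [dist_comm y x] at this
    linarith
  have hyB : ball y s ⊆ Ω := (ball_subset_ball (by linarith)).trans hy
  rw [Haj.vol_two x y hs0] at h2
  have h3 : ‖f y - f x - A (y - x)‖ₑ * volume (ball y s) ≤
      ENNReal.ofReal (4352 * τ * s + ε) * volume (ball y s) := by
    calc ‖f y - f x - A (y - x)‖ₑ * volume (ball y s)
        = ∫⁻ _ in ball y s, ‖f y - f x - A (y - x)‖ₑ := by rw [setLIntegral_const]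
      _ ≤ ∫⁻ u in ball y s, (‖f u - f y - A (u - y)‖ₑ + ‖f u - f x - A (u - x)‖ₑ) := by
          refine lintegral_mono fun u => ?_
          refine (Haj.tri f A x y u).trans (le_of_eq ?_)
          congr 1
          have : f y - f u - A (y - u) = -(f u - f y - A (u - y)) := by
            simp only [map_sub]
            abel
          rw [this, enorm_neg]
      _ = (∫⁻ u in ball y s, ‖f u - f y - A (u - y)‖ₑ) +
            ∫⁻ u in ball y s, ‖f u - f x - A (u - x)‖ₑ :=
          lintegral_add_right' _ (Haj.aemeas hf hyB)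
      _ ≤ ENNReal.ofReal (ε / 9 + 256 * s * τ) * volume (ball y s) +
            ENNReal.ofReal (ε / 9 + 256 * (2 * s) * τ) * (8 * volume (ball y s)) :=
          add_le_add h1 ((lintegral_mono_set hsub).trans h2)
      _ = _ := by
          have e : 4352 * τ * s + ε =
              (ε / 9 + 256 * s * τ) + (ε / 9 + 256 * (2 * s) * τ) * 8 := by ring
          rw [e, ENNReal.ofReal_add (p := ε / 9 + 256 * s * τ) (by positivity) (by positivity),
            ENNReal.ofReal_mul (q := 8) (by positivity)]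
          simp only [ENNReal.ofReal_ofNat]
          ring
  have h4 := (ENNReal.mul_le_mul_iff_left (Haj.vol_ne_zero y hs0) (Haj.vol_ne_top y _)).1 h3
  rw [← ofReal_norm] at h4
  exact (ENNReal.ofReal_le_ofReal_iff (by positivity)).1 h4

end P073
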