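import Vale.Agent.P073Z.A3.Two
import Vale.Agent.P073Z.A3.Frc
import Vale.Agent.P073Z.A1b

/-!
# Two graphs, products, convex cells, cones
-/

open Set Metric Topology Filter Module

namespace P073

namespace A3

variable {E F : Type} [NormedAddCommGroup E] [NormedSpace ℝ E]
  [NormedAddCommGroup F] [NormedSpace ℝ F]

/-- a convex body without vertical faces is the region between two graphs -/
theorem graphs [FiniteDimensional ℝ E] {K : Set (E × ℝ)} (hK : IsCompact K) (hc : Convex ℝ K)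
    (hL : LocCone K) (hi : (interior K).Nonempty)
    (hv : ∀ x s t u, (x, s) ∈ K → (x, t) ∈ K → s < u → u < t → (x, u) ∈ interior K) :
    ∃ a b : E → ℝ, PLOn a (Prod.fst '' K) ∧ PLOn b (Prod.fst '' K) ∧
      (∀ x ∈ frontier (Prod.fst '' K), a x = b x) ∧
      (∀ x ∈ Prod.fst '' K \ frontier (Prod.fst '' K), a x < b x) ∧
      K = Rg (Prod.fst '' K) a b ∧ frontier K = Gr (Prod.fst '' K) a b := by
  obtain ⟨a, ha, ha'⟩ := top hK hc hL hv (Or.inr rfl)
  obtain ⟨b, hb, hb'⟩ := top hK hc hL hv (Or.inl rfl)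
  have hD : IsClosed (Prod.fst '' K) := (hK.image continuous_fst).isClosed
  have lo : ∀ q ∈ K, a q.1 ≤ q.2 := fun q hq => by
    have := (ha' q.1 ⟨q, hq, rfl⟩).2 q.2 hq
    linarith
  have up : ∀ q ∈ K, q.2 ≤ b q.1 := fun q hq => by
    have := (hb' q.1 ⟨q, hq, rfl⟩).2 q.2 hq
    linarith
  have hin : ∀ q ∈ interior K, a q.1 < q.2 ∧ q.2 < b q.1 := fun q hq => by
    have hn : ∀ᶠ t in 𝓝 q.2, (q.1, t) ∈ K :=
      (Continuous.prodMk_right q.1).continuousAt.eventually (mem_interior_iff_mem_nhds.1 hq)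
    obtain ⟨s, hs1, hs2⟩ := (hn.filter_mono nhdsWithin_le_nhds |>.and
      (self_mem_nhdsWithin (s := Iio q.2))).exists
    obtain ⟨t, ht1, ht2⟩ := (hn.filter_mono nhdsWithin_le_nhds |>.and
      (self_mem_nhdsWithin (s := Ioi q.2))).exists
    exact ⟨(lo _ hs1).trans_lt hs2, ht2.trans_le (up _ ht1)⟩
  have hin' : ∀ q : E × ℝ, q.1 ∈ Prod.fst '' K → a q.1 < q.2 → q.2 < b q.1 → q ∈ interior K :=
    fun q hq h1 h2 => hv _ _ _ _ (ha' _ hq).1 (hb' _ hq).1 h1 h2
  refine ⟨a, b, ha, hb, fun x hx => ?_, fun x hx => ?_, ?_, ?_⟩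
  · have hx1 := hD.frontier_subset hx
    by_contra h
    have h1 := lt_of_le_of_ne (up _ (ha' x hx1).1) h
    exact hx.2 (interior_maximal (image_mono interior_subset) (isOpenMap_fst _ isOpen_interior)
      ⟨(x, (a x + b x) / 2), hin' _ hx1 (by simp only; linarith) (by simp only; linarith), rfl⟩)
  · have hx1 : x ∈ interior (Prod.fst '' K) := by
      by_contra h
      exact hx.2 ⟨subset_closure hx.1, h⟩
    obtain ⟨p, hp⟩ := hi
    have hn : ∀ᶠ ε in 𝓝 (0 : ℝ), x + ε • (x - p.1) ∈ Prod.fst '' K :=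
      (show ContinuousAt (fun ε : ℝ => x + ε • (x - p.1)) 0 by fun_prop).eventually
        (by simp only [zero_smul, add_zero]; exact mem_interior_iff_mem_nhds.1 hx1)
    obtain ⟨ε, ⟨q, hq, e⟩, hε⟩ := (hn.filter_mono nhdsWithin_le_nhds |>.and
      (self_mem_nhdsWithin (s := Ioi (0 : ℝ)))).exists
    have hε0 : 0 < ε := hε
    have h1 := hin _ (hc.combo_interior_self_mem_interior hp hq (a := ε / (1 + ε)) (b := 1 / (1 + ε))
      (by positivity) (by positivity) (by field_simp; ring))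
    have e2 : ((ε / (1 + ε)) • p + (1 / (1 + ε)) • q).1 = x := by
      simp only [Prod.fst_add, Prod.smul_fst, e]
      match_scalars <;> field_simp <;> ring
    rw [e2] at h1
    exact h1.1.trans h1.2
  · ext q
    refine ⟨fun hq => ⟨⟨q, hq, rfl⟩, lo q hq, up q hq⟩, fun hq => ?_⟩
    rcases hq.2.1.eq_or_lt with h | h
    · have := (ha' _ hq.1).1
      rwa [h] at this
    rcases hq.2.2.eq_or_lt with h' | h'
    · have := (hb' _ hq.1).1
      rwa [← h'] at this
    · exact interior_subset (hin' q hq.1 h h')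
  · ext q
    rw [hK.isClosed.frontier_eq]
    constructor
    · rintro ⟨hq, h⟩
      refine ⟨⟨q, hq, rfl⟩, ?_⟩
      by_contra h'
      rw [not_or] at h'
      exact h (hin' q ⟨q, hq, rfl⟩ (lt_of_le_of_ne (lo q hq) (Ne.symm h'.1))
        (lt_of_le_of_ne (up q hq) h'.2))
    · rintro ⟨hq, h | h⟩
      · exact ⟨by have := (ha' _ hq).1; rwa [← h] at this, fun h' => (hin q h').1.ne' h⟩
      · exact ⟨by have := (hb' _ hq).1; rwa [← h] at this, fun h' => (hin q h').2.ne h⟩

/-- a generic direction -/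
theorem generic [FiniteDimensional ℝ E] {K : Set E} (hK : IsCompact K) (hc : Convex ℝ K)
    (hL : LocCone K) {W : Submodule ℝ E} (hW : W ≠ ⊤) : ∃ v, v ∉ W ∧ ∀ p, ∀ s t u : ℝ,
      p + s • v ∈ K → p + t • v ∈ K → s < u → u < t → p + u • v ∈ interior K := by
  obtain ⟨𝒮, -, h𝒮⟩ := st (hK.of_isClosed_subset isClosed_frontier hK.isClosed.frontier_subset)
    hL.frontier
  obtain ⟨v, hv⟩ := Submodule.exists_forall_notMem_of_forall_ne_top (ι := Option 𝒮)
    (fun o => o.elim W fun s => vectorSpan ℝ (convexHull ℝ (s.1 : Set E))) (by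
      rintro (_ | s)
      · exact hW
      intro h
      have hsub : convexHull ℝ (s.1 : Set E) ⊆ frontier K := by
        rw [h𝒮]
        exact subset_biUnion_of_mem (u := fun s : Finset E => convexHull ℝ (s : Set E)) s.2
      have h1 : (interior (convexHull ℝ (s.1 : Set E))).Nonempty → False := fun ⟨x, hx⟩ => by
        have := interior_mono hsub hx
        rw [interior_frontier hK.isClosed] at this
        exact this
      rcases (convexHull ℝ (s.1 : Set E)).eq_empty_or_nonempty with h0 | h0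
      · simp only [Option.elim_some, h0, vectorSpan_empty] at h
        exact hW (top_unique (h ▸ bot_le))
      · exact h1 ((convex_convexHull ℝ _).interior_nonempty_iff_affineSpan_eq_top.2
          ((AffineSubspace.affineSpan_eq_top_iff_vectorSpan_eq_top_of_nonempty ℝ E E h0).2 h)))
  refine ⟨v, hv none, fun p s t u hs ht h1 h2 => ?_⟩
  have hseg : ∀ w ∈ Ioo s t, p + w • v ∈ K := fun w hw => by
    have := hc.add_smul_sub_mem hs ht (t := (w - s) / (t - s))
      ⟨div_nonneg (by linarith [hw.1]) (by linarith), (div_le_one (by linarith)).2 (by linarith [hw.2])⟩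
    convert this using 1
    have : t - s ≠ 0 := by linarith
    match_scalars <;> field_simp <;> ring
  obtain ⟨w, hw, hwi⟩ : ∃ w ∈ Ioo s t, p + w • v ∈ interior K := by
    by_contra h
    push Not at h
    have h3 : ∀ w : Ioo s t, ∃ σ : 𝒮, p + w.1 • v ∈ convexHull ℝ (σ.1 : Set E) := fun w => by
      have : p + w.1 • v ∈ frontier K := ⟨subset_closure (hseg w w.2), h w w.2⟩
      rw [h𝒮, mem_iUnion₂] at this
      obtain ⟨σ, hσ, h4⟩ := this
      exact ⟨⟨σ, hσ⟩, h4⟩
    choose σ hσ using h3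
    have := (Ioo_infinite (h1.trans h2)).to_subtype
    obtain ⟨w, w', hne, e⟩ := Finite.exists_ne_map_eq_of_infinite σ
    have h4 := vsub_mem_vectorSpan ℝ (hσ w) (e ▸ hσ w')
    rw [vsub_eq_sub, add_sub_add_left_eq_sub, ← sub_smul] at h4
    exact hv (some (σ w)) ((Submodule.smul_mem_iff _
      (sub_ne_zero.2 fun h => hne (Subtype.ext h))).1 h4)
  rcases le_total u w with h | h
  · have := hc.add_smul_sub_mem_interior hs hwi (t := (u - s) / (w - s))
      ⟨div_pos (by linarith) (by linarith [hw.1]), (div_le_one (by linarith [hw.1])).2 (by linarith)⟩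
    convert this using 1
    have : w - s ≠ 0 := by linarith [hw.1]
    match_scalars <;> field_simp <;> ring
  · have := hc.add_smul_sub_mem_interior ht hwi (t := (t - u) / (t - w))
      ⟨div_pos (by linarith) (by linarith [hw.2]), (div_le_one (by linarith [hw.2])).2 (by linarith)⟩
    convert this using 1
    have : t - w ≠ 0 := by linarith [hw.2]
    match_scalars <;> field_simp <;> ring

/-- all convex polyhedra with interior in dimension `n` are balls -/
def Body (n : ℕ) : Prop := ∀ (E : Type) [NormedAddCommGroup E] [NormedSpace ℝ E]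
  [FiniteDimensional ℝ E] (K : Set E), finrank ℝ E = n → IsCompact K → Convex ℝ K → LocCone K →
  (interior K).Nonempty → ConBall n K (frontier K)

theorem pyr (hC : CMP) {n : ℕ} (ih : Body n) [FiniteDimensional ℝ E] {K : Set E}
    (hE : finrank ℝ E = n + 1) (hK : IsCompact K) (hc : Convex ℝ K) (hL : LocCone K)
    (hi : (interior K).Nonempty) :
    PH K (frontier K) (Rg (closedBall (0 : Fin n → ℝ) 1) (fun _ => 0) fun y => 1 - ‖y‖)
      (Gr (closedBall (0 : Fin n → ℝ) 1) (fun _ => 0) fun y => 1 - ‖y‖) := by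
  let e : E ≃L[ℝ] (Fin n → ℝ) × ℝ := ContinuousLinearEquiv.ofFinrankEq (by simp [hE])
  obtain ⟨v, hv, H⟩ := generic hK hc hL
    (W := LinearMap.ker ((LinearMap.snd ℝ _ ℝ).comp e.toLinearEquiv.toLinearMap)) (fun h => by
      have : e.symm (0, 1) ∈ LinearMap.ker ((LinearMap.snd ℝ _ ℝ).comp e.toLinearEquiv.toLinearMap) :=
        h ▸ Submodule.mem_top
      simp at this)
  have hv2 : (e v).2 ≠ 0 := by simpa using hv
  let S : ((Fin n → ℝ) × ℝ) →ₗ[ℝ] E := (e.symm.toLinearEquiv.toLinearMap.comp (LinearMap.inl ℝ _ ℝ)).coprod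
    (LinearMap.toSpanSingleton ℝ E v)
  have hS : ∀ q, S q = e.symm (q.1, 0) + q.2 • v := fun q => rfl
  have hinj : Function.Injective S := by
    rw [injective_iff_map_eq_zero]
    intro q hq
    have h1 := congrArg e hq
    rw [hS, map_add, map_smul, e.apply_symm_apply, map_zero] at h1
    have h2 : q.2 = 0 := by simpa [hv2] using congrArg Prod.snd h1
    rw [h2, zero_smul, add_zero] at h1
    exact Prod.ext (Prod.ext_iff.1 h1).1 h2
  let L : ((Fin n → ℝ) × ℝ) ≃L[ℝ] E :=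
    (LinearMap.linearEquivOfInjective S hinj (by simp [hE])).toContinuousLinearEquiv
  have hLq : ∀ q, L q = e.symm (q.1, 0) + q.2 • v := fun q => rfl
  obtain ⟨φ, hφ⟩ := Sh.exists_ofCompact hK L.symm L.symm.continuous.continuousOn
    L.symm.injective.injOn (conicalOn_linear L.symm.toLinearEquiv.toLinearMap hL.conicalSet)
    (L.image_symm_eq_preimage K)
  have hK' : IsCompact (L ⁻¹' K) := φ.isCompact_right hK
  have hc' : Convex ℝ (L ⁻¹' K) := hc.linear_preimage L.toLinearEquiv.toLinearMap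
  have hL' : LocCone (L ⁻¹' K) := hL.of_conHomeo hK φ
  have hint : interior (L ⁻¹' K) = L ⁻¹' interior K := (L.toHomeomorph.preimage_interior K).symm
  have hi' : (interior (L ⁻¹' K)).Nonempty := hint ▸ hi.preimage L.surjective
  obtain ⟨a, b, ha, hb, h1, h2, h3, h4⟩ := graphs hK' hc' hL' hi' fun x s t u hs ht k1 k2 => by
    rw [hint]
    exact H _ s t u hs ht k1 k2
  have hD := ih _ (Prod.fst '' (L ⁻¹' K)) (by simp) (hK'.image continuous_fst)
    (hc'.linear_image (LinearMap.fst ℝ _ ℝ))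
    (img hK' hL' ⟨continuousOn_fst, Sh.conicalOn_fst hL'.conicalSet⟩)
    ((hi'.image _).mono (interior_maximal (image_mono interior_subset)
      (isOpenMap_fst _ isOpen_interior)))
  have h5 := two0 hC hD ha hb h1 h2
  rw [← h3, ← h4] at h5
  refine PH.trans ⟨hK.isClosed.frontier_subset, φ, ?_⟩ h5
  rw [hφ, L.image_symm_eq_preimage]
  exact L.toHomeomorph.preimage_frontier K

theorem pyr_ball (hC : CMP) {n : ℕ} (ih : Body n) :
    ConBall (n + 1) (Rg (closedBall (0 : Fin n → ℝ) 1) (fun _ => 0) fun y => 1 - ‖y‖)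
      (Gr (closedBall (0 : Fin n → ℝ) 1) (fun _ => 0) fun y => 1 - ‖y‖) := by
  have h := pyr hC ih (K := closedBall (0 : Fin (n + 1) → ℝ) 1) (by simp) (isCompact_closedBall _ _)
    (convex_closedBall _ _) (locCone_closedBall_pi _ _)
    ⟨0, mem_interior_iff_mem_nhds.2 (closedBall_mem_nhds _ one_pos)⟩
  rw [frontier_closedBall _ one_ne_zero] at h
  exact h.symm

theorem body (hC : CMP) (n : ℕ) : Body n := by
  induction n with
  | zero =>
    intro E _ _ _ K hE hK hc hL hi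
    have : Subsingleton E := finrank_zero_iff.1 hE
    obtain ⟨x, hx⟩ := hi.mono interior_subset
    have hu : K = univ := eq_univ_of_forall fun y => Subsingleton.elim x y ▸ hx
    obtain ⟨φ, -⟩ := Sh.exists_ofCompact hK (fun _ => (0 : Fin 0 → ℝ)) continuousOn_const
      (fun _ _ _ _ _ => Subsingleton.elim _ _) (conicalOn_const _ hL.conicalSet)
      (Y := closedBall 0 1) (by
        ext y
        exact ⟨fun _ => by simp [Subsingleton.elim y 0], fun _ => ⟨x, hx, Subsingleton.elim _ _⟩⟩)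
    refine ⟨hK.isClosed.frontier_subset, φ, ?_⟩
    have : frontier K = ∅ := by rw [hu, frontier_univ]
    rw [this, image_empty]
    ext y
    rw [Subsingleton.elim y 0, mem_sphere_zero_iff_norm, norm_zero]
    simp
  | succ n ih =>
    intro E _ _ _ K hE hK hc hL hi
    exact (pyr hC ih hE hK hc hL hi).ball (pyr_ball hC ih)

end A3

open A3

theorem twog_of (hC : CMP) : TWOG := fun hD ha hb h1 h2 =>
  (two0 hC hD ha hb h1 h2).ball (pyr_ball hC (body hC _))

theorem prod_of (hC : CMP) : PROD := by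
  intro E _ _ n D B a b ⟨hBD, φ, hφ⟩ hab
  have h := body hC (n + 1) _ (closedBall (0 : Fin n → ℝ) 1 ×ˢ Icc a b) (by simp)
    ((isCompact_closedBall _ _).prod isCompact_Icc) ((convex_closedBall _ _).prod (convex_Icc a b))
    (locCone_prod (locCone_closedBall_pi _ _) (locCone_Icc a b)) (by
      rw [interior_prod_eq, interior_Icc]
      exact Nonempty.prod ⟨0, mem_interior_iff_mem_nhds.2 (closedBall_mem_nhds _ one_pos)⟩
        (nonempty_Ioo.2 hab))
  rw [frontier_prod_eq, frontier_closedBall _ one_ne_zero, frontier_Icc hab.le, closure_Icc,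
    closure_closedBall] at h
  refine PH.ball ⟨union_subset (prod_mono hBD Subset.rfl) (prod_mono Subset.rfl ?_),
    Sh.prod φ (ConHomeo.refl (locCone_Icc a b).conicalSet), ?_⟩ h
  · rintro _ (rfl | rfl)
    exacts [left_mem_Icc.2 hab.le, right_mem_Icc.2 hab.le]
  have e : ∀ (X : Set E) (Y : Set ℝ),
      (Sh.prod φ (ConHomeo.refl (locCone_Icc a b).conicalSet)).toFun '' X ×ˢ Y = (φ.toFun '' X) ×ˢ Y :=
    fun X Y => (prodMap_image_prod φ.toFun id X Y).trans (by rw [image_id])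
  rw [image_union, e, e, hφ, φ.image_eq, union_comm]

theorem cvx_of (hC : CMP) : CVX := by
  intro E _ _ _ K hK hc hL hne
  have := hne.coe_sort
  obtain ⟨p, hp⟩ := hne
  let p' : affineSpan ℝ K := ⟨p, subset_affineSpan _ _ hp⟩
  let τ := (AffineIsometryEquiv.constVSub ℝ p').symm
  let ι : (affineSpan ℝ K).direction →ᵃⁱ[ℝ] E := (affineSpan ℝ K).subtypeₐᵢ.comp τ.toAffineIsometry
  have him : ι '' (ι ⁻¹' K) = K := image_preimage_eq_of_subset fun x hx =>
    ⟨τ.symm ⟨x, subset_affineSpan _ _ hx⟩, congrArg Subtype.val (τ.apply_symm_apply _)⟩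
  have hK' : IsCompact (ι ⁻¹' K) := ι.isometry.isClosedEmbedding.isCompact_preimage hK
  have hL' : LocCone (ι ⁻¹' K) := fun x => by
    obtain ⟨r, hr, H⟩ := hL (ι x)
    have e : ∀ w, ι (x + w) = ι x + ι.linearIsometry w := fun w => by
      rw [add_comm, ← vadd_eq_add, ι.map_vadd, vadd_eq_add, add_comm]
    refine ⟨r, hr, fun v hv t ht => ?_⟩
    rw [mem_preimage, mem_preimage, e, e, map_smul]
    exact H _ (by rwa [ι.linearIsometry.norm_map]) t ht
  have hpre : ι ⁻¹' K = τ.toHomeomorph ⁻¹' ((↑) ⁻¹' K : Set (affineSpan ℝ K)) := rfl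
  have h := body hC _ _ (ι ⁻¹' K) rfl hK' (hc.affine_preimage ι.toAffineMap) hL' (by
    obtain ⟨_, x, hx, -⟩ := Set.Nonempty.intrinsicInterior hc ⟨p, hp⟩
    rw [hpre, ← τ.toHomeomorph.preimage_interior]
    exact Nonempty.preimage ⟨x, hx⟩ τ.surjective)
  obtain ⟨φ, hφ⟩ := Sh.exists_ofCompact hK' ι ι.continuous.continuousOn ι.injective.injOn
    (conicalOn_of_affine ι.toAffineMap hL'.conicalSet) him
  rw [← direction_affineSpan]
  refine PH.ball (PH.symm ⟨hK'.isClosed.frontier_subset, φ, ?_⟩) h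
  rw [hφ, hpre, ← τ.toHomeomorph.preimage_frontier, intrinsicFrontier]
  ext y
  constructor
  · rintro ⟨x, hx, rfl⟩
    exact ⟨τ x, hx, rfl⟩
  · rintro ⟨x, hx, rfl⟩
    exact ⟨τ.symm x, by simpa using hx, congrArg Subtype.val (τ.apply_symm_apply _)⟩

theorem A3.cone_ball (hC : CMP) {E : Type} [NormedAddCommGroup E] [NormedSpace ℝ E] {m : ℕ}
    {X B : Set E} {a : E} (ha : RayBaseAt a X) (h : ConBall m X B) :
    ConBall (m + 1) (coneSetAt a X) (X ∪ coneSetAt a B ∪ {a}) := by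
  obtain ⟨hBX, φ, hφ⟩ := h
  have hQ := locCone_closedBall_pi m 1
  obtain ⟨ψ, hψ⟩ := Sh.exists_ofCompact (isCompact_closedBall (0 : Fin m → ℝ) 1) (fun y => (y, (1 : ℝ)))
    (by fun_prop) (fun _ _ _ _ e => (Prod.ext_iff.1 e).1)
    ((conicalOn_id hQ.conicalSet).prodMk (conicalOn_const 1 hQ.conicalSet)) rfl
  have hY : RayBaseAt (0 : (Fin m → ℝ) × ℝ) ((fun y => (y, (1 : ℝ))) '' closedBall 0 1) := by
    refine rayBaseAt_iff.2 ⟨ψ.isCompact_right (isCompact_closedBall _ _), ?_, ?_⟩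
    · rintro ⟨y, -, e⟩
      exact one_ne_zero (Prod.ext_iff.1 e).2
    · rintro _ ⟨y, -, rfl⟩ s - ⟨z, -, e⟩
      simpa using (Prod.ext_iff.1 e).2.symm
  have hΦ : ∀ s ∈ Icc (0 : ℝ) 1, ∀ x ∈ X, (ConHomeo.coneAt ha hY (φ.trans ψ)).toFun (a + s • (x - a))
      = (s • φ.toFun x, s) := fun s hs x hx => by
    rw [ConHomeo.coneAt_apply ha hY _ hs hx, ConHomeo.trans_toFun, hψ]
    simp
  have hx0 := φ.mapsTo_inv (mem_closedBall_self (x := (0 : Fin m → ℝ)) zero_le_one)
  have hT := twog_of hC (Sh.conBall_unit m) (a := fun y => ‖y‖) (b := fun _ => 1)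
    ⟨continuous_norm.continuousOn, Sh.conicalOn_norm_pi.mono hQ.conicalSet (subset_univ _)⟩
    ⟨continuousOn_const, conicalOn_const 1 hQ.conicalSet⟩ (fun y hy => mem_sphere_zero_iff_norm.1 hy)
    fun y hy => lt_of_le_of_ne (mem_closedBall_zero_iff.1 hy.1) fun e =>
      hy.2 (mem_sphere_zero_iff_norm.2 e)
  have nrm : ∀ s : ℝ, 0 ≤ s → ∀ y : Fin m → ℝ, ‖s • y‖ = s * ‖y‖ := fun s hs y => by
    rw [norm_smul, Real.norm_of_nonneg hs]
  have div : ∀ (y : Fin m → ℝ) (s : ℝ), 0 < s → s • s⁻¹ • y = y := fun y s hs => by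
    rw [smul_smul, mul_inv_cancel₀ hs.ne', one_smul]
  have hsub : coneSetAt a B ⊆ coneSetAt a X := fun _ ⟨s, hs, x, hx, e⟩ => ⟨s, hs, x, hBX hx, e⟩
  have ha0 : a = a + (0 : ℝ) • (φ.invFun 0 - a) := by simp
  have h1 : ∀ x, x = a + (1 : ℝ) • (x - a) := fun x => by simp
  have i0 : (0 : ℝ) ∈ Icc (0 : ℝ) 1 := ⟨le_rfl, zero_le_one⟩
  have i1 : (1 : ℝ) ∈ Icc (0 : ℝ) 1 := ⟨zero_le_one, le_rfl⟩
  refine PH.ball ⟨union_subset (union_subset (fun x hx => ⟨1, i1, x, hx, h1 x⟩) hsub)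
    (singleton_subset_iff.2 ⟨0, i0, _, hx0, ha0⟩), (ConHomeo.coneAt ha hY (φ.trans ψ)).cast rfl ?_, ?_⟩ hT
  · ext ⟨y, t⟩
    constructor
    · rintro ⟨s, hs, _, ⟨z, hz, rfl⟩, e⟩
      have hz' := mem_closedBall_zero_iff.1 hz
      have e1 : y = s • z := by simpa using (Prod.ext_iff.1 e).1
      have e2 : t = s := by simpa using (Prod.ext_iff.1 e).2
      have : ‖y‖ ≤ t := by
        rw [e1, e2, nrm s hs.1]
        exact mul_le_of_le_one_right hs.1 hz'
      exact ⟨mem_closedBall_zero_iff.2 (this.trans (e2 ▸ hs.2)), this, e2 ▸ hs.2⟩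
    · rintro ⟨-, k1, k2⟩
      have k1' : ‖y‖ ≤ t := k1
      rcases ((norm_nonneg y).trans k1').eq_or_lt with h | h
      · refine ⟨0, i0, _, ⟨0, mem_closedBall_self zero_le_one, rfl⟩, ?_⟩
        rw [← h] at k1' ⊢
        simp [norm_le_zero_iff.1 k1', Prod.ext_iff]
      · refine ⟨t, ⟨h.le, k2⟩, _, ⟨t⁻¹ • y, mem_closedBall_zero_iff.2 ?_, rfl⟩, by simp [div y t h]⟩
        rw [nrm _ (inv_pos.2 h).le, inv_mul_le_iff₀ h, mul_one]
        exact k1'
  rw [ConHomeo.cast_toFun]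
  ext ⟨y, t⟩
  constructor
  · rintro ⟨x, (hx | ⟨s, hs, z, hz, rfl⟩) | rfl, e⟩
    · rw [h1 x, hΦ 1 i1 x hx, one_smul] at e
      rw [← e]
      exact ⟨φ.mapsTo hx, Or.inr rfl⟩
    · rw [hΦ s hs z (hBX hz)] at e
      have hz' : ‖φ.toFun z‖ = 1 := mem_sphere_zero_iff_norm.1 (hφ ▸ mem_image_of_mem _ hz)
      have : ‖s • φ.toFun z‖ = s := by rw [nrm s hs.1, hz', mul_one]
      rw [← e]
      exact ⟨mem_closedBall_zero_iff.2 (this.le.trans hs.2), Or.inl this.symm⟩
    · have := hΦ 0 i0 _ hx0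
      rw [← ha0] at this
      rw [← e, this]
      exact ⟨by simp, Or.inl (by simp)⟩
  · rintro ⟨hy, k | k⟩
    · have k' : t = ‖y‖ := k
      rcases (norm_nonneg y).eq_or_lt with h | h
      · refine ⟨a, Or.inr rfl, ?_⟩
        have := hΦ 0 i0 _ hx0
        rw [← ha0] at this
        rw [this, k', ← h, norm_eq_zero.1 h.symm, zero_smul]
      · obtain ⟨z, hz, e⟩ : ‖y‖⁻¹ • y ∈ φ.toFun '' B := by
          rw [hφ, mem_sphere_zero_iff_norm, nrm _ (inv_pos.2 h).le, inv_mul_cancel₀ h.ne']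
        have hs : ‖y‖ ∈ Icc (0 : ℝ) 1 := ⟨h.le, mem_closedBall_zero_iff.1 hy⟩
        exact ⟨_, Or.inl (Or.inr ⟨_, hs, z, hz, rfl⟩), by rw [hΦ _ hs z (hBX hz), e, div y _ h, k']⟩
    · have k' : t = 1 := k
      refine ⟨φ.invFun y, Or.inl (Or.inl (φ.mapsTo_inv hy)), ?_⟩
      rw [h1 (φ.invFun y), hΦ 1 i1 _ (φ.mapsTo_inv hy), one_smul, φ.right_inv hy, k']

theorem coneb_of (hC : CMP) : CONEB := by
  intro E _ _ _ n X B a ha
  refine ⟨fun ⟨φ⟩ => ?_, fun h => ?_, fun h => ?_⟩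
  · have e : sphere (0 : Fin (n + 1) → ℝ) 1 = frontier (closedBall 0 1) :=
      (frontier_closedBall _ one_ne_zero).symm
    have hn := closedBall_mem_nhds (0 : Fin (n + 1) → ℝ) one_pos
    have hY : RayBaseAt 0 (sphere (0 : Fin (n + 1) → ℝ) 1) :=
      e ▸ rayBaseAt_frontier (isCompact_closedBall _ _) (convex_closedBall _ _) hn
    refine ⟨fun x hx => ⟨1, ⟨zero_le_one, le_rfl⟩, x, hx, by simp⟩, (ConHomeo.coneAt ha hY φ).cast rfl
      (e ▸ coneSetAt_frontier (isCompact_closedBall _ _) (convex_closedBall _ _) hn), ?_⟩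
    rw [ConHomeo.cast_toFun, image_congr (ConHomeo.coneAt_eqOn ha hY φ), φ.image_eq]
  · have h1 := cone_ball hC ha h
    obtain ⟨-, φ, hφ⟩ := h
    obtain ⟨x, hx⟩ : B.Nonempty := by
      refine Nonempty.of_image (f := φ.toFun) ?_
      rw [hφ]
      exact NormedSpace.sphere_nonempty.2 zero_le_one
    have ha' : a ∈ X ∪ coneSetAt a B := Or.inr ⟨0, ⟨le_rfl, zero_le_one⟩, x, hx, by simp⟩
    rwa [union_eq_self_of_subset_right (singleton_subset_iff.2 ha')] at h1
  · have h1 := cone_ball hC ha h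
    obtain ⟨-, φ, hφ⟩ := h
    have : coneSetAt a B = ∅ := eq_empty_of_forall_notMem fun _ ⟨_, _, x, hx, _⟩ => by
      have : φ.toFun x ∈ sphere (0 : Fin 0 → ℝ) 1 := hφ ▸ mem_image_of_mem _ hx
      rw [Subsingleton.elim (φ.toFun x) 0, mem_sphere_zero_iff_norm, norm_zero] at this
      exact zero_ne_one this
    rwa [this, union_empty] at h1

theorem twog : TWOG := twog_of cmp_thm

theorem prod_thm : PROD := prod_of cmp_thm

theorem cvx : CVX := cvx_of cmp_thm

theorem coneb : CONEB := coneb_of cmp_thm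

end P073
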