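import Vale.Agent.P073Z.Sk1
import Vale.Agent.P073Z.A7a.Sgn

/-!
# Arrangement complexes
-/

open Set Metric Topology Filter

namespace P073

namespace Arr

variable {E : Type} [NormedAddCommGroup E] [NormedSpace ℝ E] {μ : Type}

/-- the functions which are relevant at a point -/
def fn (C : μ → Set E) (H : μ → Finset (E →ᵃ[ℝ] ℝ)) (x : E) : Set (E →ᵃ[ℝ] ℝ) :=
  {ℓ | ∃ m, x ∈ C m ∧ ℓ ∈ H m}

/-- the hypotheses -/
structure Dat (C : μ → Set E) (G H : μ → Finset (E →ᵃ[ℝ] ℝ)) : Prop where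
  eq : ∀ m, C m = {x | ∀ ℓ ∈ G m, ℓ x ≤ 0}
  cpt : ∀ m, IsCompact (C m)
  lf : LFIn C (⋃ m, C m)
  sub : ∀ m m', (C m ∩ C m').Nonempty → G m' ⊆ H m

variable {C : μ → Set E} {G H : μ → Finset (E →ᵃ[ℝ] ℝ)} {x y : E}

theorem Dat.subset (h : Dat C G H) {m : μ} (hx : x ∈ C m) : sgnC (fn C H x) x ⊆ C m := by
  intro y hy
  have h1 := hx
  rw [h.eq m] at h1 ⊢
  exact fun ℓ hl => (hy ℓ ⟨m, hx, h.sub m m ⟨x, hx, hx⟩ hl⟩).2 (h1 ℓ hl)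

theorem Dat.fn_mono (h : Dat C G H) (hy : y ∈ sgnC (fn C H x) x) : fn C H x ⊆ fn C H y :=
  fun _ ⟨m, h1, h2⟩ => ⟨m, h.subset h1 hy, h2⟩

theorem Dat.cell_mono (h : Dat C G H) (hy : y ∈ sgnC (fn C H x) x) :
    sgnC (fn C H y) y ⊆ sgnC (fn C H x) x := fun _ hz ℓ hl =>
  ⟨fun h1 => (hz ℓ (h.fn_mono hy hl)).1 ((hy ℓ hl).1 h1),
    fun h1 => (hz ℓ (h.fn_mono hy hl)).2 ((hy ℓ hl).2 h1)⟩

theorem Dat.fn_eq (h : Dat C G H) (hx : x ∈ ⋃ m, C m) (hy : y ∈ sgnO (fn C H x) x) :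
    fn C H y = fn C H x := by
  refine Subset.antisymm (fun _ ⟨m, h1, h2⟩ => ⟨m, ?_, h2⟩) (h.fn_mono (sgnO_subset hy))
  obtain ⟨n, hn⟩ := mem_iUnion.1 hx
  have h3 := h.sub n m ⟨y, h.subset hn (sgnO_subset hy), h1⟩
  rw [h.eq m] at h1 ⊢
  exact fun ℓ hl => (sign_eq_iff.1 (hy ℓ ⟨n, hn, h3 hl⟩)).2.1 (h1 ℓ hl)

theorem Dat.eqO (h : Dat C G H) (hx : x ∈ ⋃ m, C m) (hy : y ∈ sgnO (fn C H x) x) :
    sgnO (fn C H y) y = sgnO (fn C H x) x := by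
  rw [h.fn_eq hx hy]
  ext z
  exact forall₂_congr fun ℓ hl => by rw [hy ℓ hl]

theorem Dat.eqC (h : Dat C G H) (hx : x ∈ ⋃ m, C m) (hy : y ∈ sgnO (fn C H x) x) :
    sgnC (fn C H y) y = sgnC (fn C H x) x := by
  rw [h.fn_eq hx hy]
  ext z
  exact forall₂_congr fun ℓ hl => by
    rw [(sign_eq_iff.1 (hy ℓ hl)).1, (sign_eq_iff.1 (hy ℓ hl)).2]

theorem Dat.finite (h : Dat C G H) (hx : x ∈ ⋃ m, C m) : (fn C H x).Finite := by
  obtain ⟨U, hU, hf⟩ := h.lf x hx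
  refine (hf.biUnion fun m _ => (H m).finite_toSet).subset fun ℓ ⟨m, h1, h2⟩ => ?_
  exact mem_biUnion (t := fun m => (H m : Set (E →ᵃ[ℝ] ℝ))) ⟨x, h1, mem_of_mem_nhds hU⟩ h2

variable [FiniteDimensional ℝ E]

theorem Dat.isCompact (h : Dat C G H) (hx : x ∈ ⋃ m, C m) : IsCompact (sgnC (fn C H x) x) := by
  obtain ⟨n, hn⟩ := mem_iUnion.1 hx
  exact (h.cpt n).of_isClosed_subset isClosed_sgnC (h.subset hn)

theorem Dat.diff (h : Dat C G H) (hx : x ∈ ⋃ m, C m) :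
    sgnC (fn C H x) x \ intrinsicFrontier ℝ (sgnC (fn C H x) x) = sgnO (fn C H x) x := by
  rw [diff_intrinsicFrontier isClosed_sgnC, intrinsicInterior_sgnC (h.finite hx)]

theorem Dat.bdry (h : Dat C G H) (hx : x ∈ ⋃ m, C m)
    (hy : y ∈ intrinsicFrontier ℝ (sgnC (fn C H x) x)) :
    sgnC (fn C H y) y ⊆ intrinsicFrontier ℝ (sgnC (fn C H x) x) ∧
      Module.finrank ℝ (vectorSpan ℝ (sgnC (fn C H y) y)) <
        Module.finrank ℝ (vectorSpan ℝ (sgnC (fn C H x) x)) := by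
  rw [intrinsicFrontier_eq isClosed_sgnC, intrinsicInterior_sgnC (h.finite hx)] at hy ⊢
  obtain ⟨hy, hn⟩ := hy
  obtain ⟨ℓ, hl, h1⟩ : ∃ ℓ ∈ fn C H x, SignType.sign (ℓ y) ≠ SignType.sign (ℓ x) := by
    by_contra h2
    push Not at h2
    exact hn h2
  have h2 : ℓ y = 0 := by
    by_contra h3
    refine h1 (sign_eq_iff.2 ⟨⟨fun h4 => ?_, (hy ℓ hl).1⟩, fun h4 => ?_, (hy ℓ hl).2⟩)
    · by_contra h5
      exact h3 (le_antisymm ((hy ℓ hl).2 (not_le.1 h5).le) h4)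
    · by_contra h5
      exact h3 (le_antisymm h4 ((hy ℓ hl).1 (not_le.1 h5).le))
  have h3 : ∀ z ∈ sgnC (fn C H y) y, ℓ z = 0 := fun z hz =>
    le_antisymm ((hz ℓ (h.fn_mono hy hl)).2 h2.le) ((hz ℓ (h.fn_mono hy hl)).1 h2.ge)
  refine ⟨fun z hz => ⟨h.cell_mono hy hz, fun h4 => h1 (by rw [← h4 ℓ hl, h2, h3 z hz])⟩,
    Submodule.finrank_lt_finrank_of_lt (lt_of_le_of_ne (vectorSpan_mono ℝ (h.cell_mono hy))
      fun h4 => ?_)⟩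
  have h5 : vectorSpan ℝ (sgnC (fn C H y) y) ≤ LinearMap.ker ℓ.linear := by
    rw [vectorSpan_def, Submodule.span_le]
    rintro _ ⟨a, ha, b, hb, rfl⟩
    change ℓ.linear (a -ᵥ b) = 0
    rw [ℓ.linearMap_vsub, h3 a ha, h3 b hb, vsub_self]
  have h6 : ℓ.linear (x -ᵥ y) = 0 :=
    h5 (h4 ▸ vsub_mem_vectorSpan ℝ (sgnO_subset mem_sgnO_self) hy)
  rw [ℓ.linearMap_vsub, vsub_eq_zero_iff_eq] at h6
  exact h1 (by rw [h6])

end Arr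

open Arr in
theorem arr_of (hcvx : CVX) : ARR := by
  intro E _ _ _ μ C G H h1 h2 h3 h4
  have h : Dat C G H := ⟨h1, h2, h3, h4⟩
  let ι := {s : Set E // ∃ x ∈ ⋃ m, C m, s = sgnO (fn C H x) x}
  choose p hp hq using fun i : ι => i.2
  have hex : ∀ x ∈ ⋃ m, C m, ∃ i, x ∈ sgnO (fn C H (p i)) (p i) := fun x hx =>
    ⟨⟨_, x, hx, rfl⟩, hq _ ▸ mem_sgnO_self⟩
  have hsub : ∀ i, sgnC (fn C H (p i)) (p i) ⊆ ⋃ m, C m := fun i => by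
    obtain ⟨m, hm⟩ := mem_iUnion.1 (hp i)
    exact (h.subset hm).trans (subset_iUnion C m)
  have hcar : ⋃ i, sgnC (fn C H (p i)) (p i) = ⋃ m, C m :=
    Subset.antisymm (iUnion_subset hsub) fun x hx =>
      mem_iUnion.2 ((hex x hx).imp fun _ h5 => sgnO_subset h5)
  refine ⟨⟨ι, fun i => sgnC (fn C H (p i)) (p i), fun i => intrinsicFrontier ℝ _,
    fun i => Module.finrank ℝ (vectorSpan ℝ _), fun i => hcvx (h.isCompact (hp i)) convex_sgnC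
      (locCone_sgnC (h.finite (hp i))) ⟨_, sgnO_subset mem_sgnO_self⟩, fun i j hij => ?_,
    fun i x hx => ?_, fun x hx => ?_⟩, fun i => ⟨convex_sgnC, rfl, rfl⟩, hcar, fun i x hx => ?_⟩
  · rw [h.diff (hp i), h.diff (hp j), disjoint_left]
    intro x hi hj
    exact hij (Subtype.ext (by rw [hq i, hq j, ← h.eqO (hp i) hi, h.eqO (hp j) hj]))
  · obtain ⟨j, hj⟩ := hex x (hsub i (intrinsicFrontier_subset isClosed_sgnC hx))
    refine ⟨j, by rwa [h.diff (hp j)], ?_⟩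
    rw [← h.eqC (hp j) hj]
    exact h.bdry (hp i) hx
  · rw [hcar] at hx
    obtain ⟨U, hU, hf⟩ := h3 x hx
    have hΛ := hf.biUnion fun m _ => (H m).finite_toSet
    have := hf.to_subtype
    have := hΛ.to_subtype
    refine ⟨U, hU, Finite.of_finite_image (f := fun i : ι =>
      ((fun m : {m | (C m ∩ U).Nonempty} => p i ∈ C m.1),
        fun ℓ : (⋃ m ∈ {m | (C m ∩ U).Nonempty}, (H m : Set (E →ᵃ[ℝ] ℝ))) =>
          SignType.sign (ℓ.1 (p i)))) (toFinite _) fun i hi j hj hij => ?_⟩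
    have h5 : p j ∈ sgnO (fn C H (p i)) (p i) := by
      rintro ℓ ⟨m, h6, h7⟩
      obtain ⟨z, hz, hzU⟩ := hi
      exact (congrFun (congrArg Prod.snd hij) ⟨ℓ, mem_biUnion
        (t := fun m => (H m : Set (E →ᵃ[ℝ] ℝ))) ⟨z, h.subset h6 hz, hzU⟩ h7⟩).symm
    exact Subtype.ext (by rw [hq i, hq j, h.eqO (hp i) h5])
  · have h5 : x ∈ sgnO (fn C H (p i)) (p i) := by rwa [← h.diff (hp i)]
    refine ⟨(h.diff (hp i)).trans ((h.eqO (hp i) h5).symm.trans ?_),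
      (h.eqC (hp i) h5).symm.trans ?_⟩
    · ext y
      exact ⟨fun h6 m h7 ℓ h8 => h6 ℓ ⟨m, h7, h8⟩, fun h6 ℓ ⟨m, h7, h8⟩ => h6 m h7 ℓ h8⟩
    · ext y
      exact ⟨fun h6 m h7 ℓ h8 => h6 ℓ ⟨m, h7, h8⟩, fun h6 ℓ ⟨m, h7, h8⟩ => h6 m h7 ℓ h8⟩

end P073
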