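import Vale.Agent.P073Z.Sk1

/-!
# Triangulation of open sets adapted to a locally finite family of piecewise linear maps
-/

open Set Metric Topology Filter

namespace P073

namespace Tri

variable {E : Type} [NormedAddCommGroup E] [NormedSpace ℝ E]

theorem nonempty_ocell {n : ℕ} {C B : Set E} (h : ConBall n C B) : (C \ B).Nonempty := by
  obtain ⟨hB, φ, hφ⟩ := h
  have h0 : (0 : Fin n → ℝ) ∈ closedBall (0 : Fin n → ℝ) 1 := mem_closedBall_self zero_le_one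
  refine ⟨φ.invFun 0, φ.mapsTo_inv h0, fun hb => ?_⟩
  have h1 : φ.toFun (φ.invFun 0) ∈ sphere (0 : Fin n → ℝ) 1 := hφ ▸ mem_image_of_mem _ hb
  rw [φ.right_inv h0, mem_sphere, dist_self] at h1
  exact zero_ne_one h1

theorem exists_ocell (K : RCx E) {x : E} (hx : x ∈ K.carrier) : ∃ i, x ∈ K.ocell i := by
  obtain ⟨i, hi⟩ := mem_iUnion.mp hx
  by_cases hb : x ∈ K.bd i
  · obtain ⟨j, hj, _⟩ := K.bdry i x hb
    exact ⟨j, hj⟩
  · exact ⟨i, hi, hb⟩

variable [FiniteDimensional ℝ E]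

/-- a finite intersection of half-spaces is polyhedral -/
theorem locCone_forms (T : Finset (E →ᵃ[ℝ] ℝ)) : LocCone {x | ∀ ℓ ∈ T, ℓ x ≤ 0} := by
  have h : {x | ∀ ℓ ∈ T, ℓ x ≤ 0} = ⋂ ℓ : T, {x | (ℓ : E →ᵃ[ℝ] ℝ) x ≤ 0} := by
    ext x
    simp only [mem_ofPred_eq, mem_iInter, Subtype.forall]
  rw [h]
  exact LocCone.iInter_finite fun ℓ => locCone_setOf_le
    (ℓ : E →ᵃ[ℝ] ℝ).continuous_of_finiteDimensional
    (conicalOn_of_affine _ locCone_univ.conicalSet) 0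

/-- a simplex is a finite intersection of half-spaces -/
theorem simplex_forms (s : Finset E) (hs : AffineIndependent ℝ ((↑) : s → E)) :
    ∃ T : Finset (E →ᵃ[ℝ] ℝ), convexHull ℝ (s : Set E) = {x | ∀ ℓ ∈ T, ℓ x ≤ 0} := by
  classical
  rcases s.eq_empty_or_nonempty with rfl | ⟨p, hp⟩
  · refine ⟨{AffineMap.const ℝ E (1 : ℝ)}, ?_⟩
    rw [Finset.coe_empty, convexHull_empty]
    ext x
    simp only [mem_empty_iff_false, Finset.mem_singleton, forall_eq, mem_ofPred_eq,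
      AffineMap.const_apply, false_iff, not_le]
    exact one_pos
  obtain ⟨t, hst, ht, htop⟩ :=
    exists_subset_affineIndependent_affineSpan_eq_top (k := ℝ) (s := (s : Set E)) hs
  have hfin : t.Finite := finite_set_of_fin_dim_affineIndependent ℝ ht
  have : Fintype t := hfin.fintype
  let b : AffineBasis t ℝ E := ⟨Subtype.val, ht, by rwa [Subtype.range_coe]⟩
  have hb : ∀ i, b i = (i : E) := fun _ => rfl
  refine ⟨Finset.univ.image (fun i : t => -b.coord i) ∪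
    (Finset.univ.filter fun i : t => (i : E) ∉ s).image b.coord, ?_⟩
  have h1 : ∀ x : E, (∀ ℓ ∈ Finset.univ.image (fun i : t => -b.coord i) ∪
      (Finset.univ.filter fun i : t => (i : E) ∉ s).image b.coord, ℓ x ≤ 0) ↔
      (∀ i, 0 ≤ b.coord i x) ∧ ∀ i : t, (i : E) ∉ s → b.coord i x ≤ 0 := by
    intro x
    simp only [Finset.mem_union, Finset.mem_image, Finset.mem_univ, true_and, Finset.mem_filter]
    constructor
    · intro h
      refine ⟨fun i => ?_, fun i hi => h _ (Or.inr ⟨i, hi, rfl⟩)⟩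
      have h2 : -b.coord i x ≤ 0 := h _ (Or.inl ⟨i, rfl⟩)
      linarith
    · rintro ⟨h2, h3⟩ ℓ (⟨i, rfl⟩ | ⟨i, hi, rfl⟩)
      · change -b.coord i x ≤ 0
        linarith [h2 i]
      · exact h3 i hi
  apply Subset.antisymm
  · refine convexHull_min (fun y hy => (h1 y).mpr ?_) ?_
    · have h2 : ∀ i, b.coord i y = if i = ⟨y, hst hy⟩ then 1 else 0 := fun i =>
        b.coord_apply i ⟨y, hst hy⟩
      refine ⟨fun i => ?_, fun i hi => ?_⟩
      · rw [h2]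
        split_ifs
        · exact zero_le_one
        · exact le_rfl
      · rw [h2, if_neg]
        rintro rfl
        exact hi hy
    · intro x hx y hy a c ha hc hac ℓ hℓ
      rw [Convex.combo_affine_apply hac, smul_eq_mul, smul_eq_mul]
      nlinarith [hx ℓ hℓ, hy ℓ hℓ]
  · intro x hx
    obtain ⟨h2, h3⟩ := (h1 x).mp hx
    refine mem_convexHull_of_exists_fintype (fun i : t => b.coord i x)
      (fun i => if (i : E) ∈ s then (i : E) else p) h2 (b.sum_coord_apply_eq_one x)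
      (fun i => ?_) ?_
    · split_ifs with hi
      · exact hi
      · exact hp
    · rw [← b.linear_combination_coord_eq_self x]
      refine Finset.sum_congr rfl fun i _ => ?_
      rw [b.linear_combination_coord_eq_self x]
      split_ifs with hi
      · rfl
      · rw [le_antisymm (h3 i hi) (h2 i), zero_smul, zero_smul]

omit [FiniteDimensional ℝ E] in
/-- cubes in coordinates -/
theorem cube_forms {n : ℕ} (e : E ≃L[ℝ] (Fin n → ℝ)) (c : Fin n → ℝ) {ε : ℝ} (hε : 0 ≤ ε) :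
    ∃ T : Finset (E →ᵃ[ℝ] ℝ), e ⁻¹' closedBall c ε = {x | ∀ ℓ ∈ T, ℓ x ≤ 0} := by
  classical
  let f : Fin n → E →ᵃ[ℝ] ℝ := fun i =>
    ((LinearMap.proj i : (Fin n → ℝ) →ₗ[ℝ] ℝ).comp (e : E →ₗ[ℝ] (Fin n → ℝ))).toAffineMap
  have hf : ∀ i x, f i x = e x i := fun _ _ => rfl
  refine ⟨Finset.univ.image (fun i => f i - AffineMap.const ℝ E (c i + ε)) ∪
    Finset.univ.image (fun i => AffineMap.const ℝ E (c i - ε) - f i), ?_⟩
  ext x
  rw [mem_preimage, mem_closedBall, dist_pi_le_iff hε]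
  simp only [mem_ofPred_eq, Finset.mem_union, Finset.mem_image, Finset.mem_univ, true_and]
  constructor
  · rintro h ℓ (⟨i, rfl⟩ | ⟨i, rfl⟩)
    · have h1 := h i
      rw [Real.dist_eq, abs_le] at h1
      change e x i - (c i + ε) ≤ 0
      linarith [h1.2]
    · have h1 := h i
      rw [Real.dist_eq, abs_le] at h1
      change c i - ε - e x i ≤ 0
      linarith [h1.1]
  · intro h i
    have h1 : e x i - (c i + ε) ≤ 0 := h _ (Or.inl ⟨i, rfl⟩)
    have h2 : c i - ε - e x i ≤ 0 := h _ (Or.inr ⟨i, rfl⟩)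
    rw [Real.dist_eq, abs_le]
    constructor <;> linarith

omit [NormedSpace ℝ E] [FiniteDimensional ℝ E] in
theorem small_nhds {U : Set E} {r : E → ℝ} (hU : IsOpen U) (hr : Gauge r U) {x : E} (hx : x ∈ U) :
    ∃ W ∈ 𝓝 x, W ⊆ U ∧ Small r W := by
  have h0 := hr.2 x hx
  have h1 : ∀ᶠ y in 𝓝 x, r x / 2 < r y :=
    (hr.1.continuousAt (hU.mem_nhds hx)).eventually (lt_mem_nhds (half_lt_self h0))
  refine ⟨U ∩ {y | r x / 2 < r y} ∩ ball x (r x / 4),
    inter_mem (inter_mem (hU.mem_nhds hx) h1) (ball_mem_nhds x (by positivity)),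
    fun y hy => hy.1.1, fun y hy z hz => ?_⟩
  have h2 : r x / 2 < r y := hy.1.2
  have h3 := dist_triangle_right y z x
  have h4 : dist y x < r x / 4 := hy.2
  have h5 : dist z x < r x / 4 := hz.2
  linarith

/-- a locally finite cover by small compact cubes -/
theorem exists_cover {U : Set E} {r : E → ℝ} (hU : IsOpen U) (hr : Gauge r U) :
    ∃ (μ : Type) (C : μ → Set E) (G : μ → Finset (E →ᵃ[ℝ] ℝ)),
      (∀ m, C m = {x | ∀ ℓ ∈ G m, ℓ x ≤ 0}) ∧ (∀ m, IsCompact (C m)) ∧ (∀ m, Small r (C m)) ∧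
      ⋃ m, C m = U ∧ LFIn C U := by
  let e : E ≃L[ℝ] (Fin (Module.finrank ℝ E) → ℝ) :=
    ContinuousLinearEquiv.ofFinrankEq (Module.finrank_fin_fun ℝ).symm
  have : ProperSpace E := FiniteDimensional.proper_real E
  have : LocallyCompactSpace U := hU.locallyCompactSpace
  have hB : ∀ x : U, (𝓝 x).HasBasis
      (fun ε : ℝ => 0 < ε ∧ e ⁻¹' closedBall (e x) ε ⊆ U ∧ Small r (e ⁻¹' closedBall (e x) ε))
      fun ε => Subtype.val ⁻¹' (e ⁻¹' closedBall (e x) ε) := by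
    intro x
    have h1 : (𝓝 (x : E)).HasBasis (fun ε : ℝ => 0 < ε) fun ε => e ⁻¹' closedBall (e x) ε := by
      rw [e.toHomeomorph.isInducing.nhds_eq_comap]
      exact nhds_basis_closedBall.comap _
    obtain ⟨W, hW, hWU, hWr⟩ := small_nhds hU hr x.2
    have h2 : (𝓝 (x : E)).HasBasis
        (fun ε : ℝ => 0 < ε ∧ e ⁻¹' closedBall (e x) ε ⊆ U ∧ Small r (e ⁻¹' closedBall (e x) ε))
        fun ε => e ⁻¹' closedBall (e x) ε := by
      refine h1.restrict fun ε hε => ?_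
      obtain ⟨δ, hδ, hδW⟩ := h1.mem_iff.mp (inter_mem hW (h1.mem_of_mem hε))
      exact ⟨δ, hδ, ⟨fun y hy => hWU (hδW hy).1, fun y hy z hz => hWr y (hδW hy).1 z (hδW hz).1⟩,
        fun y hy => (hδW hy).2⟩
    rw [nhds_subtype_eq_comap]
    exact h2.comap _
  obtain ⟨μ, c, ε, hp, hcov, hlf⟩ := refinement_of_locallyCompact_sigmaCompact_of_nhds_basis hB
  choose G hG using fun m => cube_forms e (e (c m)) (hp m).1.le
  refine ⟨μ, fun m => e ⁻¹' closedBall (e (c m)) (ε m), G, hG, fun m => ?_, fun m => (hp m).2.2,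
    ?_, fun x hx => ?_⟩
  · exact e.toHomeomorph.isCompact_preimage.mpr (isCompact_closedBall _ _)
  · refine Subset.antisymm (iUnion_subset fun m => (hp m).2.1) fun x hx => ?_
    have h1 : (⟨x, hx⟩ : U) ∈ ⋃ m, Subtype.val ⁻¹' (e ⁻¹' closedBall (e (c m)) (ε m)) :=
      hcov ▸ mem_univ _
    obtain ⟨m, hm⟩ := mem_iUnion.mp h1
    exact mem_iUnion.mpr ⟨m, hm⟩
  · obtain ⟨W, hW, hfin⟩ := hlf ⟨x, hx⟩
    refine ⟨Subtype.val '' W, hU.isOpenMap_subtype_val.image_mem_nhds hW, hfin.subset ?_⟩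
    rintro m ⟨_, hy, y, hyW, rfl⟩
    exact ⟨y, hy, hyW⟩

omit [NormedSpace ℝ E] [FiniteDimensional ℝ E] in
/-- a compact set meets finitely many members of a locally finite family -/
theorem finite_meet {ι : Type} {X : ι → Set E} {U K : Set E} (h : LFIn X U) (hK : IsCompact K)
    (hKU : K ⊆ U) : {i | (X i ∩ K).Nonempty}.Finite := by
  choose! W hW hfin using h
  obtain ⟨t, ht, hcov⟩ := hK.elim_nhds_subcover W fun x hx => hW x (hKU hx)
  refine (t.finite_toSet.biUnion fun x hx => hfin x (hKU (ht x hx))).subset ?_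
  rintro i ⟨y, hy, hyK⟩
  obtain ⟨x, hx, hyx⟩ := mem_iUnion₂.mp (hcov hyK)
  exact mem_iUnion₂.mpr ⟨x, hx, y, hy, hyx⟩

end Tri

theorem tri_of (harr : ARR) (hstm : STM) : TRI := by
  intro E F _ _ _ _ _ _ κ U X h r hU hr hlf hX
  classical
  obtain ⟨μ, C, G, hG, hC, hsm, hCU, hClf⟩ := Tri.exists_cover hU hr
  have hsub : ∀ m, C m ⊆ U := fun m => hCU ▸ subset_iUnion C m
  have hst : ∀ m k, ∃ 𝒯 : Finset (Finset (E →ᵃ[ℝ] ℝ)), ∀ x ∈ X k ∩ C m, ∃ T ∈ 𝒯,
      (∀ ℓ ∈ T, ℓ x ≤ 0) ∧ {y | ∀ ℓ ∈ T, ℓ y ≤ 0} ⊆ X k ∧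
        ∃ A : E →ᵃ[ℝ] F, EqOn (h k) A {y | ∀ ℓ ∈ T, ℓ y ≤ 0} := by
    intro m k
    obtain ⟨_, h2, h3, h4⟩ := hX k
    have hcl : IsClosed (X k ∩ C m) := by
      refine isClosed_of_closure_subset fun x hx => ?_
      have h5 : x ∈ C m := (hC m).isClosed.closure_subset (closure_mono inter_subset_right hx)
      exact ⟨h2 x (hsub m h5) (closure_mono inter_subset_left hx), h5⟩
    have hco : LocCone (C m) := hG m ▸ Tri.locCone_forms (G m)
    have hlc : LocCone (X k ∩ C m) := by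
      intro x
      by_cases hx : x ∈ C m
      · exact (h3 x (hsub m hx)).inter (hco x)
      · refine (locConeAt_congr ?_).mp (locCone_empty x)
        filter_upwards [(hC m).isClosed.isOpen_compl.mem_nhds hx] with y hy
        exact iff_of_false (notMem_empty y) fun h5 => hy h5.2
    obtain ⟨𝒮, h5, h6, h7⟩ := hstm ((hC m).of_isClosed_subset hcl inter_subset_right) hlc
      ⟨h4.1.mono inter_subset_left, h4.2.mono hlc.conicalSet inter_subset_left⟩
    choose! T hT using fun s (hs : s ∈ 𝒮) => Tri.simplex_forms s (h5 s hs)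
    refine ⟨𝒮.image T, fun x hx => ?_⟩
    rw [h6] at hx
    obtain ⟨s, hs, hxs⟩ := mem_iUnion₂.mp hx
    refine ⟨T s, Finset.mem_image_of_mem _ hs, ?_, ?_, ?_⟩
    · rwa [hT s hs] at hxs
    · rw [← hT s hs]
      intro y hy
      have h8 : y ∈ X k ∩ C m := h6 ▸ mem_iUnion₂.mpr ⟨s, hs, hy⟩
      exact h8.1
    · rw [← hT s hs]
      exact h7 s hs
  choose 𝒯 h𝒯 using hst
  have hf1 : ∀ m, {m' | (C m' ∩ C m).Nonempty}.Finite := fun m =>
    Tri.finite_meet hClf (hC m) (hsub m)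
  have hf2 : ∀ m, {k | (X k ∩ C m).Nonempty}.Finite := fun m =>
    Tri.finite_meet hlf (hC m) (hsub m)
  let H : μ → Finset (E →ᵃ[ℝ] ℝ) := fun m =>
    (hf1 m).toFinset.biUnion G ∪ (hf2 m).toFinset.biUnion fun k => (𝒯 m k).biUnion id
  have hGH : ∀ m m', (C m ∩ C m').Nonempty → G m' ⊆ H m := fun m m' hm ℓ hℓ =>
    Finset.mem_union_left _ (Finset.mem_biUnion.mpr
      ⟨m', (hf1 m).mem_toFinset.mpr (hm.mono (inter_comm (C m) (C m')).subset), hℓ⟩)
  obtain ⟨K, hK, hcar, hcell⟩ := harr C G H hG hC (hCU ▸ hClf) hGH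
  rw [hCU] at hcar
  have hin : ∀ i, ∀ x ∈ K.ocell i, ∀ m, x ∈ C m → ∀ T : Finset (E →ᵃ[ℝ] ℝ), T ⊆ H m →
      (∀ ℓ ∈ T, ℓ x ≤ 0) → K.cell i ⊆ {y | ∀ ℓ ∈ T, ℓ y ≤ 0} := by
    intro i x hx m hm T hT h0 y hy ℓ hℓ
    rw [(hcell i x hx).2] at hy
    exact (hy m hm ℓ (hT hℓ)).2 (h0 ℓ hℓ)
  have hm : ∀ i, ∀ x ∈ K.ocell i, ∃ m, x ∈ C m := by
    intro i x hx
    have h1 : x ∈ K.carrier := mem_iUnion.mpr ⟨i, hx.1⟩
    rw [hcar, ← hCU] at h1
    exact mem_iUnion.mp h1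
  have hk : ∀ k i, ∀ x ∈ K.ocell i, x ∈ X k →
      K.cell i ⊆ X k ∧ ∃ A : E →ᵃ[ℝ] F, EqOn (h k) A (K.cell i) := by
    intro k i x hx hxk
    obtain ⟨m, hxm⟩ := hm i x hx
    obtain ⟨T, hT, h1, h2, A, hA⟩ := h𝒯 m k x ⟨hxk, hxm⟩
    have h3 := hin i x hx m hxm T (fun ℓ hℓ => Finset.mem_union_right _ (Finset.mem_biUnion.mpr
      ⟨k, (hf2 m).mem_toFinset.mpr ⟨x, hxk, hxm⟩, Finset.mem_biUnion.mpr ⟨T, hT, hℓ⟩⟩)) h1
    exact ⟨h3.trans h2, A, hA.mono h3⟩
  refine ⟨K, hK, hcar, fun i => ?_, fun k => ⟨fun x hx => ?_, fun i hi => ?_⟩⟩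
  · obtain ⟨x, hx⟩ := Tri.nonempty_ocell (K.ball i)
    obtain ⟨m, hxm⟩ := hm i x hx
    have h1 : K.cell i ⊆ C m := by
      have h2 := hin i x hx m hxm (G m) (hGH m m ⟨x, hxm, hxm⟩) (by rwa [hG m] at hxm)
      rwa [← hG m] at h2
    exact fun y hy z hz => hsm m y (h1 hy) z (h1 hz)
  · obtain ⟨i, hi⟩ := Tri.exists_ocell K (hcar ▸ (hX k).1 hx)
    exact ⟨i, hi.1, (hk k i x hi hx).1⟩
  · obtain ⟨x, hx⟩ := Tri.nonempty_ocell (K.ball i)
    exact (hk k i x hx (hi hx.1)).2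

end P073
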