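import Vale.Agent.P073Z.A14.Plane
import Vale.Agent.P073Z.A12.Mod
import Vale.Agent.P073Z.A3
import Vale.Agent.P073Z.ARR
import Vale.Agent.P073Z.TRI

/-!
# Generic levels of a PL function on a disc
-/

open Set Metric Topology Filter

namespace P073

namespace A14

/-- the level set in a convex plane body -/
theorem Gen.level {K : RCx (ℝ × ℝ)} {Q : Set (ℝ × ℝ)} {g : ℝ × ℝ → ℝ} {t : ℝ} (h : Gen K Q g t)
    (hK : IsCompact Q) (hQ : Convex ℝ Q) (hi : (interior Q).Nonempty) :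
    ∃ 𝒞 : Finset (Set (ℝ × ℝ)), {x ∈ Q | g x = t} = ⋃ c ∈ 𝒞, c ∧
      (∀ c ∈ 𝒞, ∀ c' ∈ 𝒞, c ≠ c' → Disjoint c c') ∧
      ∀ c ∈ 𝒞, (IsCircle c ∧ c ⊆ interior Q) ∨ ∃ p q, IsArc c p q ∧ c \ interior Q = {p, q} := by
  classical
  have hf : {i | Fat K Q i ∧ ∃ x ∈ K.cell i, g x = t}.Finite :=
    (K.finite_subset hK h.sub.subset_carrier).subset fun i hi => hi.1.1
  have hcut : ∀ i, Fat K Q i ∧ (∃ x ∈ K.cell i, g x = t) → ∃ p q, p ≠ q ∧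
      {y ∈ K.cell i | g y = t} = segment ℝ p q ∧
      ∀ y ∈ segment ℝ p q, (y ∉ interior (K.cell i) ↔ (y = p ∨ y = q)) := by
    rintro i ⟨hF, x, hx, hxt⟩
    obtain ⟨A, hA⟩ := h.aff i hF.1
    obtain ⟨c, hc, hci⟩ := K.exists_face hx
    obtain ⟨⟨v, hv, hvt⟩, u, hu, hut⟩ := h.near hc (hci.trans hF.1) hxt univ_mem
    obtain ⟨p, q, h1, h2, h3⟩ := cut (K.isCompact_cell i) (h.cvx i).1 hF.2 A (hci hu.1) (hci hv.1)
      (hA (hci hu.1) ▸ hut) (hA (hci hv.1) ▸ hvt)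
    refine ⟨p, q, h1, ?_, h3⟩
    rw [← h2]
    ext y
    exact and_congr_right fun hy => by rw [hA hy]
  choose! a b hab hseg hend using hcut
  let A : K.ι → Set (ℝ × ℝ) := fun i => {y ∈ K.cell i | g y = t}
  have hs : ∀ i, i ∈ hf.toFinset ↔ Fat K Q i ∧ ∃ x ∈ K.cell i, g x = t := fun i => hf.mem_toFinset
  generalize hf.toFinset = s at hs
  have hend' : ∀ i ∈ s, ∀ y ∈ A i, (y ∉ interior (K.cell i) ↔ y ∈ ({a i, b i} : Set (ℝ × ℝ))) :=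
    fun i hi y hy => hend i ((hs i).1 hi) y (hseg i ((hs i).1 hi) ▸ hy)
  have harc : ∀ i ∈ s, IsArc (A i) (a i) (b i) := fun i hi => by
    have := isArc_segment (hab i ((hs i).1 hi))
    rwa [← hseg i ((hs i).1 hi)] at this
  have hmem : ∀ i ∈ s, ∀ y ∈ ({a i, b i} : Set (ℝ × ℝ)), y ∈ A i := by
    rintro i hi y (rfl | rfl)
    exacts [(harc i hi).left_mem, (harc i hi).right_mem]
  have hdeg : ∀ x, g x = t → deg s A x = {i | Fat K Q i ∧ x ∈ K.cell i}.ncard := by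
    intro x hx
    have : {j | j ∈ s ∧ x ∈ A j} = {i | Fat K Q i ∧ x ∈ K.cell i} := by
      ext j
      exact ⟨fun hj => ⟨((hs j).1 hj.1).1, hj.2.1⟩,
        fun hj => ⟨(hs j).2 ⟨hj.1, x, hj.2, hx⟩, hj.2, hx⟩⟩
    rw [deg, this]
  have hone : ∀ i ∈ s, ∀ y ∈ A i, y ∉ interior Q → deg s A y = 1 := by
    intro i hi y hy hyQ
    rcases h.fat hQ ‹_› (((hs i).1 hi).1.1 hy.1) hy.2 with ⟨j, hj, -⟩ | ⟨h1, -⟩
    · rw [hdeg y hy.2, hj, ncard_singleton]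
    · exact absurd h1 hyQ
  have htwo : ∀ i ∈ s, ∀ y ∈ ({a i, b i} : Set (ℝ × ℝ)), y ∈ interior Q → deg s A y = 2 := by
    intro i hi y hy hyQ
    have hy' := hmem i hi y hy
    rcases h.fat hQ ‹_› (((hs i).1 hi).1.1 hy'.1) hy'.2 with ⟨j, hj, h1⟩ | ⟨-, j, j', h1, hj⟩
    · have e : i = j := hj.subset ⟨((hs i).1 hi).1, hy'.1⟩
      exact absurd (e ▸ h1.resolve_left (not_not.2 hyQ)) ((hend' i hi y hy').2 hy)
    · rw [hdeg y hy'.2, hj, ncard_pair h1]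
  have hbd : ∀ i ∈ s, ∀ y ∈ A i, y ∉ interior Q → y ∈ ({a i, b i} : Set (ℝ × ℝ)) :=
    fun i hi y hy hyQ => (hend' i hi y hy).1 fun h' => hyQ (interior_mono ((hs i).1 hi).1.1 h')
  obtain ⟨𝒞, c1, c2, c3, c4⟩ := exists_comps s A a b harc (fun i hi j hj hne y hy =>
    ⟨(hend' i hi y hy.1).1 fun h' =>
        hne (((hs i).1 hi).1.eq h.cvx ((hs j).1 hj).1 h' hy.2.1).symm,
      (hend' j hj y hy.2).1 fun h' => hne (((hs j).1 hj).1.eq h.cvx ((hs i).1 hi).1 h' hy.1.1)⟩)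
    (fun x => by
      by_cases hx : ∃ j ∈ s, x ∈ A j
      · obtain ⟨i, hi, hx⟩ := hx
        rw [hdeg x hx.2]
        rcases h.fat hQ ‹_› (((hs i).1 hi).1.1 hx.1) hx.2 with ⟨j, hj, -⟩ | ⟨-, j, j', h1, hj⟩
        · rw [hj, ncard_singleton]
          omega
        · rw [hj, ncard_pair h1]
      · rw [deg_zero fun j hj hxj => hx ⟨j, hj, hxj⟩]
        omega)
  refine ⟨𝒞.image fun c => ⋃ i ∈ c, A i, Subset.antisymm (fun x hx => ?_) ?_, ?_, ?_⟩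
  · obtain ⟨j, hj⟩ : {i | Fat K Q i ∧ x ∈ K.cell i}.Nonempty := by
      rcases h.fat hQ hi hx.1 hx.2 with ⟨j, hj, -⟩ | ⟨-, j, j', -, hj⟩
      · exact hj ▸ singleton_nonempty j
      · exact hj ▸ insert_nonempty j _
    obtain ⟨c, hc, hjc⟩ := c2 j ((hs j).2 ⟨hj.1, x, hj.2, hx.2⟩)
    exact mem_iUnion₂.2 ⟨_, Finset.mem_image_of_mem _ hc, mem_iUnion₂.2 ⟨j, hjc, hj.2, hx.2⟩⟩
  · refine iUnion₂_subset fun X hX => ?_
    obtain ⟨c, hc, rfl⟩ := Finset.mem_image.1 hX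
    exact iUnion₂_subset fun i hi y hy => ⟨((hs i).1 (c1 c hc hi)).1.1 hy.1, hy.2⟩
  · intro X hX X' hX' hne
    obtain ⟨c, hc, rfl⟩ := Finset.mem_image.1 hX
    obtain ⟨c', hc', rfl⟩ := Finset.mem_image.1 hX'
    exact c3 c hc c' hc' fun e => hne (e ▸ rfl)
  · intro X hX
    obtain ⟨c, hc, rfl⟩ := Finset.mem_image.1 hX
    rcases c4 c hc with ⟨h1, h2⟩ | ⟨p, q, h1, ⟨i, hi, hp⟩, ⟨j, hj, hq⟩, h2⟩
    · refine Or.inl ⟨h1, iUnion₂_subset fun i hi y hy => ?_⟩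
      by_contra hyQ
      have e1 := h2 i hi y (hbd i (c1 c hc hi) y hy hyQ)
      have e2 := hone i (c1 c hc hi) y hy hyQ
      omega
    · refine Or.inr ⟨p, q, h1, Subset.antisymm (fun y hy => ?_) ?_⟩
      · obtain ⟨k, hk, hyk⟩ := mem_iUnion₂.1 hy.1
        exact (h2 k hk y (hbd k (c1 c hc hk) y hyk hy.2)).1 (hone k (c1 c hc hk) y hyk hy.2)
      · rintro y (rfl | rfl)
        · refine ⟨h1.left_mem, fun hy => ?_⟩
          have e1 := (h2 i hi y hp).2 (Or.inl rfl)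
          have e2 := htwo i (c1 c hc hi) y hp hy
          omega
        · refine ⟨h1.right_mem, fun hy => ?_⟩
          have e1 := (h2 j hj y hq).2 (Or.inr rfl)
          have e2 := htwo j (c1 c hc hj) y hq hy
          omega

variable {E : Type} [NormedAddCommGroup E] [NormedSpace ℝ E]

/-- the level set in a disc -/
theorem exists_levels (hT : TRI) {D B : Set E} {g : E → ℝ} (hD : ConBall 2 D B) (hg : PLOn g D) :
    ∃ T : Set ℝ, T.Finite ∧ ∀ t, t ∉ T →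
      ∃ 𝒞 : Finset (Set E), {x ∈ D | g x = t} = ⋃ c ∈ 𝒞, c ∧
        (∀ c ∈ 𝒞, ∀ c' ∈ 𝒞, c ≠ c' → Disjoint c c') ∧
        ∀ c ∈ 𝒞, (IsCircle c ∧ Disjoint c B) ∨ ∃ p q, IsArc c p q ∧ c ∩ B = {p, q} := by
  classical
  obtain ⟨hBD, φ, hφ⟩ := A12.conBall_two_iff.1 hD
  have hK := isCompact_closedBall (0 : ℝ × ℝ) 1
  obtain ⟨K, -, T, hT, h⟩ := exists_gen hT (g := g ∘ φ.invFun) hK (locCone_closedBall_prod 1)
    isClosed_empty locCone_empty (empty_subset _)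
    ⟨hg.1.comp φ.cont_inv φ.mapsTo_inv, hg.2.comp φ.conical_inv φ.mapsTo_inv φ.cont_inv⟩
  have hi : interior (closedBall (0 : ℝ × ℝ) 1) = ball 0 1 := interior_closedBall _ one_ne_zero
  refine ⟨T, hT, fun t ht => ?_⟩
  obtain ⟨𝒞, h1, h2, h3⟩ := (h t ht).level hK (convex_closedBall _ _)
    (hi ▸ nonempty_ball.2 one_pos)
  have hsub : ∀ c ∈ 𝒞, c ⊆ closedBall (0 : ℝ × ℝ) 1 := fun c hc y hy =>
    (h1.ge (mem_iUnion₂.2 ⟨c, hc, hy⟩)).1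
  have hB : ∀ y ∈ closedBall (0 : ℝ × ℝ) 1, φ.invFun y ∈ B ↔ y ∉ ball (0 : ℝ × ℝ) 1 := by
    intro y hy
    rw [← φ.memImgD hBD (φ.mapsTo_inv hy), φ.right_inv hy, hφ, mem_sphere, mem_ball, not_lt]
    exact ⟨fun e => e.ge, fun e => le_antisymm hy e⟩
  rw [hi] at h3
  refine ⟨𝒞.image fun c => φ.invFun '' c, Subset.antisymm (fun x hx => ?_) ?_, ?_, ?_⟩
  · have : φ.toFun x ∈ ⋃ c ∈ 𝒞, c := h1.le ⟨φ.mapsTo hx.1, by
      rw [Function.comp_apply, φ.left_inv hx.1]; exact hx.2⟩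
    obtain ⟨c, hc, hxc⟩ := mem_iUnion₂.1 this
    exact mem_iUnion₂.2 ⟨_, Finset.mem_image_of_mem _ hc, _, hxc, φ.left_inv hx.1⟩
  · refine iUnion₂_subset fun X hX => ?_
    obtain ⟨c, hc, rfl⟩ := Finset.mem_image.1 hX
    rintro _ ⟨y, hy, rfl⟩
    exact ⟨φ.mapsTo_inv (hsub c hc hy), (h1.ge (mem_iUnion₂.2 ⟨c, hc, hy⟩)).2⟩
  · intro X hX X' hX' hne
    obtain ⟨c, hc, rfl⟩ := Finset.mem_image.1 hX
    obtain ⟨c', hc', rfl⟩ := Finset.mem_image.1 hX'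
    exact (h2 c hc c' hc' fun e => hne (e ▸ rfl)).image φ.symm.injOn (hsub c hc) (hsub c' hc')
  · intro X hX
    obtain ⟨c, hc, rfl⟩ := Finset.mem_image.1 hX
    rcases h3 c hc with ⟨k1, k2⟩ | ⟨p, q, k1, k2⟩
    · refine Or.inl ⟨?_, Set.disjoint_left.2 ?_⟩
      · have hc' := k1.locCone.conicalSet
        obtain ⟨ψ⟩ := k1
        exact ⟨ψ.trans (φ.symm.restr hc' (hsub c hc))⟩
      · rintro _ ⟨y, hy, rfl⟩ hyB
        exact (hB y (hsub c hc hy)).1 hyB (k2 hy)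
    · refine Or.inr ⟨_, _, k1.image φ.symm (hsub c hc), ?_⟩
      rw [← image_pair, ← k2]
      ext x
      constructor
      · rintro ⟨⟨y, hy, rfl⟩, hyB⟩
        exact ⟨y, ⟨hy, (hB y (hsub c hc hy)).1 hyB⟩, rfl⟩
      · rintro ⟨y, hy, rfl⟩
        exact ⟨⟨y, hy.1, rfl⟩, (hB y (hsub c hc hy.1)).2 hy.2⟩

end A14

theorem p4_of (hT : TRI) : P4 := by
  intro E _ _ _ D B g hD hg
  obtain ⟨T, hT1, h1⟩ := A14.exists_levels hT hD hg
  obtain ⟨K, hB, T', hT2, h2⟩ := A14.exists_gen hT hD.isCompact hD.locCone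
    hD.isCompact_bdry.isClosed hD.locCone_bdry hD.1 hg
  refine ⟨T ∪ T', hT1.union hT2, fun t ht => ⟨h1 t fun h => ht (Or.inl h), fun x hx hxt U hU => ?_,
    fun x hx hxt => (h2 t fun h => ht (Or.inr h)).closure hB hD.1 hx hxt⟩⟩
  have h := h2 t fun h => ht (Or.inr h)
  obtain ⟨O, o1, o2, o3, o4, o5⟩ := h.local hx hxt hU
  exact ⟨O, o1, o2, o3, o4, o5, h.closure h.sub Subset.rfl hx hxt⟩

theorem p4 : P4 := p4_of (tri_of (arr_of cvx) stm)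

end P073
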