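import Vale.Agent.P073Z.Sk1

/-!
# Invariance of domain, no retraction, lifting of circle valued maps
-/

open Set Metric Topology Filter MeasureTheory

namespace P073

namespace A8a

open Vale.Agent.P251.G Vale.Agent.P205.TI.Deg

variable {n : ℕ}

/-- a map of the cube which is close to the identity on the boundary has a zero -/
theorem exists_zero {G : (Fin n → ℝ) → (Fin n → ℝ)} (hG : ContinuousOn G (closedBall 0 1))
    (h : ∀ x ∈ sphere (0 : Fin n → ℝ) 1, ‖G x - x‖ < 1) : ∃ x ∈ closedBall 0 1, G x = 0 := by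
  by_contra h0
  push Not at h0
  have hc : closure (ball (0 : Fin n → ℝ) 1) = closedBall 0 1 := closure_ball 0 one_ne_zero
  have h1 := degR_id_sub (W := ball (0 : Fin n → ℝ) 1) isBounded_ball isOpen_ball
    (mem_ball_self one_pos)
  have h2 := degR_empty_zero (W := ball (0 : Fin n → ℝ) 1) isBounded_ball isOpen_ball
    (hc ▸ hG) (hc ▸ h0)
  have h3 := degR_homotopy (f₀ := fun x => x - 0) (f₁ := G) (W := ball (0 : Fin n → ℝ) 1)
    isOpen_ball isBounded_ball (by fun_prop) (hc ▸ hG) (by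
      intro x hx t ht e
      rw [frontier_ball 0 one_ne_zero] at hx
      have h4 : x = -(t • (G x - x)) := by
        rw [eq_neg_iff_add_eq_zero, ← e]
        module
      have h5 : ‖x‖ = t * ‖G x - x‖ := by
        conv_lhs => rw [h4]
        rw [norm_neg, norm_smul, Real.norm_of_nonneg ht.1]
      rw [mem_sphere_zero_iff_norm.1 hx] at h5
      nlinarith [h x hx, ht.1, ht.2, norm_nonneg (G x - x)])
  rw [h1, h2] at h3
  exact one_ne_zero h3

/-- the inverse of a continuous injection of a compact set is continuous -/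
theorem continuousOn_invFunOn {X Y : Type} [TopologicalSpace X] [TopologicalSpace Y] [T2Space Y]
    [Nonempty X] {F : X → Y} {K : Set X} (hK : IsCompact K) (hc : ContinuousOn F K)
    (hi : InjOn F K) : ContinuousOn (Function.invFunOn F K) (F '' K) := by
  rw [continuousOn_iff_isClosed]
  intro t ht
  refine ⟨F '' (K ∩ t), ((hK.inter_right ht).image_of_continuousOn
    (hc.mono inter_subset_left)).isClosed, ?_⟩
  ext y
  constructor
  · rintro ⟨h1, x, hx, rfl⟩
    rw [mem_preimage, hi.leftInvOn_invFunOn hx] at h1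
    exact ⟨⟨x, ⟨hx, h1⟩, rfl⟩, x, hx, rfl⟩
  · rintro ⟨⟨x, hx, rfl⟩, h2⟩
    refine ⟨?_, h2⟩
    rw [mem_preimage, hi.leftInvOn_invFunOn hx.1]
    exact hx.2

theorem core {F : (Fin n → ℝ) → (Fin n → ℝ)} (hc : ContinuousOn F (closedBall 0 1))
    (hi : InjOn F (closedBall 0 1)) : F '' closedBall 0 1 ∈ 𝓝 (F 0) := by
  by_contra hn
  have h0 : (0 : Fin n → ℝ) ∈ closedBall (0 : Fin n → ℝ) 1 := mem_closedBall_self zero_le_one
  obtain ⟨m, hm, hmb⟩ := exists_pos_lower_bound (isCompact_sphere (0 : Fin n → ℝ) 1)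
    (f := fun x => F x - F 0) ((hc.mono sphere_subset_closedBall).sub continuousOn_const) (by
      intro x hx e
      have := hi (sphere_subset_closedBall hx) h0 (sub_eq_zero.1 e)
      rw [this] at hx
      simp at hx)
  set ε := m / 2 with hε
  have hε0 : 0 < ε := by positivity
  obtain ⟨c, hc1, hc2⟩ : ∃ c ∈ ball (F 0) ε, c ∉ F '' closedBall 0 1 := by
    by_contra h
    push Not at h
    exact hn (mem_of_superset (ball_mem_nhds _ hε0) h)
  rw [mem_ball, dist_eq_norm] at hc1
  have hK : IsCompact (F '' closedBall 0 1 ∩ {y | ε ≤ ‖y - c‖}) :=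
    ((isCompact_closedBall 0 1).image_of_continuousOn hc).inter_right
      (isClosed_le continuous_const (by fun_prop))
  set G := Function.invFunOn F (closedBall 0 1) with hG
  have hGc : ContinuousOn G (F '' closedBall 0 1 ∩ {y | ε ≤ ‖y - c‖}) :=
    (continuousOn_invFunOn (isCompact_closedBall 0 1) hc hi).mono inter_subset_left
  have hGF : ∀ x ∈ closedBall (0 : Fin n → ℝ) 1, G (F x) = x :=
    fun x hx => hi.leftInvOn_invFunOn hx
  obtain ⟨δ, hδ, hδb⟩ := exists_pos_lower_bound hK hGc (by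
    rintro _ ⟨⟨x, hx, rfl⟩, h1⟩ e
    rw [hGF x hx] at e
    rw [e, mem_ofPred_eq, norm_sub_rev] at h1
    exact lt_irrefl _ (h1.trans_lt hc1))
  have hδ' : 0 < min δ 1 / 2 := by positivity
  obtain ⟨P, hP, hPG⟩ := exists_smooth_approx hK hGc hδ'
  obtain ⟨a, ha1, ha2⟩ : ∃ a ∈ ball (0 : Fin n → ℝ) (min δ 1 / 2), a ∉ P '' sphere c ε := by
    by_contra h
    push Not at h
    have h1 : volume (P '' sphere c ε) = 0 :=
      addHaar_image_eq_zero_of_differentiableOn_of_addHaar_eq_zero volume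
        (hP.differentiable (by simp)).differentiableOn
        (Measure.addHaar_sphere_of_ne_zero volume c hε0.ne')
    exact (measure_ball_pos volume _ hδ').ne' (measure_mono_null h h1)
  rw [mem_ball_zero_iff] at ha1
  have hne : ∀ x ∈ closedBall (0 : Fin n → ℝ) 1, 0 < ‖F x - c‖ := by
    intro x hx
    rw [norm_pos_iff, sub_ne_zero]
    exact fun e => hc2 ⟨x, hx, e⟩
  have hfar : ∀ x ∈ closedBall (0 : Fin n → ℝ) 1, ε ≤ ‖F x - c‖ →
      ‖P (c + max (ε / ‖F x - c‖) 1 • (F x - c)) - a - x‖ < min δ 1 := by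
    intro x hx h
    rw [max_eq_right ((div_le_one (hne x hx)).2 h), one_smul, add_sub_cancel]
    have h1 := hPG (F x) ⟨⟨x, hx, rfl⟩, h⟩
    rw [hGF x hx] at h1
    have h2 : P (F x) - a - x = (P (F x) - x) - a := by abel
    rw [h2]
    linarith [norm_sub_le (P (F x) - x) a]
  obtain ⟨x, hx, hx0⟩ := exists_zero
    (G := fun x => P (c + max (ε / ‖F x - c‖) 1 • (F x - c)) - a) (by
      have h1 : ContinuousOn (fun x => F x - c) (closedBall 0 1) := hc.sub continuousOn_const
      have h2 : ContinuousOn (fun x => max (ε / ‖F x - c‖) 1) (closedBall 0 1) :=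
        (continuousOn_const.div h1.norm fun x hx => (hne x hx).ne').sup continuousOn_const
      exact (hP.continuous.comp_continuousOn (continuousOn_const.add (h2.smul h1))).sub
        continuousOn_const)
    (by
      intro x hx
      refine (hfar x (sphere_subset_closedBall hx) ?_).trans_le (min_le_right _ _)
      have h1 := hmb x hx
      have h2 : F x - F 0 = (F x - c) + (c - F 0) := by abel
      rw [h2] at h1
      linarith [norm_add_le (F x - c) (c - F 0)])
  by_cases h : ε ≤ ‖F x - c‖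
  · have h1 := hfar x hx h
    have h2 := hδb (F x) ⟨⟨x, hx, rfl⟩, h⟩
    rw [hGF x hx] at h2
    rw [hx0, zero_sub, norm_neg] at h1
    linarith [min_le_left δ 1]
  · refine ha2 ⟨_, ?_, sub_eq_zero.1 hx0⟩
    rw [mem_sphere_iff_norm, add_sub_cancel_left,
      max_eq_left ((one_le_div (hne x hx)).2 (not_le.1 h).le), norm_smul,
      Real.norm_of_nonneg (div_nonneg hε0.le (norm_nonneg _)), div_mul_cancel₀ _ (hne x hx).ne']

/-- there is no retraction of the cube onto its boundary -/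
theorem no_retr {G : (Fin n → ℝ) → (Fin n → ℝ)} (hG : ContinuousOn G (closedBall 0 1))
    (h : ∀ x ∈ closedBall (0 : Fin n → ℝ) 1, G x ∈ sphere (0 : Fin n → ℝ) 1)
    (h' : ∀ x ∈ sphere (0 : Fin n → ℝ) 1, G x = x) : False := by
  obtain ⟨x, hx, h0⟩ := exists_zero hG fun x hx => by simp [h' x hx]
  have := h x hx
  rw [h0] at this
  simp at this

end A8a

open A8a

theorem iod : IOD := by
  intro n U f hU hc hi
  rw [isOpen_iff_mem_nhds]
  rintro _ ⟨x₀, hx₀, rfl⟩
  obtain ⟨r, hr, hb⟩ := nhds_basis_closedBall.mem_iff.1 (hU.mem_nhds hx₀)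
  have hm : MapsTo (fun x : Fin n → ℝ => x₀ + r • x) (closedBall 0 1) U := by
    intro x hx
    refine hb ?_
    rw [mem_closedBall_zero_iff] at hx
    rw [mem_closedBall, dist_eq_norm, add_sub_cancel_left, norm_smul, Real.norm_of_nonneg hr.le]
    nlinarith
  have := core (F := fun x => f (x₀ + r • x)) (hc.comp (by fun_prop) hm) (by
    intro x hx y hy e
    exact smul_right_injective _ hr.ne' (add_left_cancel (hi (hm hx) (hm hy) e)))
  simp only [smul_zero, add_zero] at this
  refine mem_of_superset this ?_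
  rintro _ ⟨x, hx, rfl⟩
  exact ⟨_, hm hx, rfl⟩

theorem nr : NR := by
  intro E _ _ n
  constructor
  · rintro C B ρ ⟨hBC, φ, hφ⟩ hρ hm he
    refine no_retr (G := fun x => φ.toFun (ρ (φ.invFun x)))
      (φ.cont.comp (hρ.comp φ.cont_inv φ.mapsTo_inv) fun x hx => hBC (hm (φ.mapsTo_inv hx)))
      (fun x hx => hφ ▸ mem_image_of_mem _ (hm (φ.mapsTo_inv hx))) ?_
    intro x hx
    rw [← hφ] at hx
    obtain ⟨b, hb, rfl⟩ := hx
    rw [φ.left_inv (hBC hb), he hb, id]
  · rintro S H c ⟨φ⟩ hH hm h0 h1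
    obtain ⟨p, hp⟩ : (sphere (0 : Fin (n + 1) → ℝ) 1).Nonempty :=
      NormedSpace.sphere_nonempty.2 zero_le_one
    have hc : c ∈ S := by
      rw [← h1 _ (φ.mapsTo_inv hp)]
      exact hm ⟨right_mem_Icc.2 zero_le_one, φ.mapsTo_inv hp⟩
    have hA : ∀ x : Fin (n + 1) → ℝ, 1 / 2 ≤ ‖x‖ → ‖x‖⁻¹ • x ∈ sphere (0 : Fin (n + 1) → ℝ) 1 := by
      intro x hx
      rw [mem_sphere_zero_iff_norm, norm_smul, norm_inv, norm_norm, inv_mul_cancel₀ (by linarith)]
    have hB : MapsTo (fun x : Fin (n + 1) → ℝ => (2 - 2 * ‖x‖, φ.invFun (‖x‖⁻¹ • x)))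
        {x | 1 / 2 ≤ ‖x‖ ∧ ‖x‖ ≤ 1} (Icc 0 1 ×ˢ S) :=
      fun x hx => ⟨⟨by linarith [hx.2], by linarith [hx.1]⟩, φ.mapsTo_inv (hA x hx.1)⟩
    have hK : ContinuousOn
        (fun x : Fin (n + 1) → ℝ => φ.toFun (H (2 - 2 * ‖x‖, φ.invFun (‖x‖⁻¹ • x))))
        {x | 1 / 2 ≤ ‖x‖ ∧ ‖x‖ ≤ 1} := by
      refine φ.cont.comp (hH.comp (ContinuousOn.prodMk (by fun_prop) ?_) hB) (hm.comp hB)
      have h2 : ContinuousOn (fun x : Fin (n + 1) → ℝ => ‖x‖⁻¹) {x | 1 / 2 ≤ ‖x‖ ∧ ‖x‖ ≤ 1} :=
        continuous_norm.continuousOn.inv₀ fun x hx => by linarith [hx.1]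
      exact φ.cont_inv.comp (h2.smul continuousOn_id) fun x hx => hA x hx.1
    refine no_retr (G := fun x => if ‖x‖ ≤ 1 / 2 then φ.toFun c else
      φ.toFun (H (2 - 2 * ‖x‖, φ.invFun (‖x‖⁻¹ • x)))) ?_ ?_ ?_
    · refine ContinuousOn.mono (ContinuousOn.union_of_isClosed (s := {x | ‖x‖ ≤ 1 / 2})
        (t := {x | 1 / 2 ≤ ‖x‖ ∧ ‖x‖ ≤ 1}) ?_ ?_ (isClosed_le continuous_norm continuous_const)
        ((isClosed_le continuous_const continuous_norm).inter
          (isClosed_le continuous_norm continuous_const))) ?_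
      · exact continuousOn_const.congr fun x hx => if_pos hx
      · refine hK.congr fun x hx => ?_
        by_cases h : ‖x‖ ≤ 1 / 2
        · have e : 2 - 2 * ‖x‖ = 1 := by linarith [hx.1]
          simp only [if_pos h, e, h1 _ (φ.mapsTo_inv (hA x hx.1))]
        · exact if_neg h
      · intro x hx
        rcases le_total ‖x‖ (1 / 2) with h | h
        · exact Or.inl h
        · exact Or.inr ⟨h, mem_closedBall_zero_iff.1 hx⟩
    · intro x hx
      split_ifs with h
      · exact φ.mapsTo hc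
      · exact φ.mapsTo (hm (hB ⟨(not_le.1 h).le, mem_closedBall_zero_iff.1 hx⟩))
    · intro x hx
      have e := mem_sphere_zero_iff_norm.1 hx
      rw [if_neg (by linarith), e, inv_one, one_smul, mul_one, sub_self, h0 _ (φ.mapsTo_inv hx),
        φ.right_inv hx]

theorem idx : IDX := by
  intro T E _ _ _ Y K f g θ hK h hθ
  rcases Y.eq_empty_or_nonempty with rfl | ⟨y₀, hy₀⟩
  · exact ⟨fun _ => 0, continuousOn_empty _, fun _ hy => hy.elim⟩
  have : ContractibleSpace K := hK.contractibleSpace ⟨_, h.mapsTo hy₀⟩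
  have : LocallyPathConnectedSpace K := hK.locallyPathConnectedSpace
  have hc : Continuous fun k : K => θ (g k) :=
    continuousOn_iff_continuous_domRestrict.1 (hθ.comp h.cont_inv h.mapsTo_inv)
  obtain ⟨e₀, he₀⟩ := QuotientAddGroup.mk_surjective (θ (g (f y₀)))
  obtain ⟨L, ⟨-, hL⟩, -⟩ := (AddCircle.isCoveringMap_coe (1 : ℝ)).existsUnique_continuousMap_lifts
    ⟨_, hc⟩ ⟨f y₀, h.mapsTo hy₀⟩ e₀ he₀
  classical
  refine ⟨fun y => if hy : y ∈ Y then L ⟨f y, h.mapsTo hy⟩ else 0, ?_, fun y hy => ?_⟩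
  · rw [continuousOn_iff_continuous_domRestrict]
    have h1 : Continuous fun y : Y => L ⟨f y, h.mapsTo y.2⟩ :=
      L.continuous.comp ((continuousOn_iff_continuous_domRestrict.1 h.cont).subtype_mk _)
    refine h1.congr fun y => ?_
    simp only [domRestrict_apply, dif_pos y.2]
  · simp only [dif_pos hy]
    have := congrFun hL ⟨f y, h.mapsTo hy⟩
    simp only [Function.comp_apply, ContinuousMap.coe_mk, h.left_inv hy] at this
    exact this

end P073
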