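import Vale.Agent.P073Z.A12.Xc
import Vale.Agent.P073Z.A8a

/-!
# Plane topology, first part: unconditional statements
-/

namespace P073

theorem mod_thm : MOD := mod_of iod

theorem cid : CID := cid_of iod

end P073
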