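import Vale.Agent.P073Z.DISC2
import Vale.Agent.P073Z.A3
import Vale.Agent.P073Z.PUSH.B

/-!
# Circles on spheres: the unconditional statement
-/

namespace P073

theorem cos_thm : COS := cos_of (mod_of iod) arcs (cid_of iod) twog shrink_thm

end P073
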