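import Vale.Agent.P073Z.APX2.One

/-!
# Approximating surfaces are homeomorphic to the base
-/

open Set Metric Topology Filter

namespace P073

namespace Apx2

variable {E : Type} [NormedAddCommGroup E] [NormedSpace ℝ E]

theorem circle_bd (K : RCx E) {i : K.ι} (hi : K.dim i = 2) : IsCircle (K.bd i) :=
  mod_thm.circle (hi ▸ K.ball i)

theorem circle_conn {J : Set E} (h : IsCircle J) : IsConnected J :=
  (arcs.2.2.2.2.2.1 (p := 0) h).1

theorem bd_not_subset {K : RCx E} (hK : K.Cvx) {i j : K.ι} (hi : K.dim i = 2) (hj : K.dim j = 2)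
    (hne : i ≠ j) : ¬ K.bd i ⊆ K.cell j := by
  intro h
  have h1 : K.bd i = K.cell i ∩ K.cell j :=
    Subset.antisymm (subset_inter (K.bd_subset i) h) (K.inter_subset_bd hne (by omega))
  refine not_convex (mod_thm.2.2.1.mp (circle_bd K hi)) (circle_conn (circle_bd K hi)).nonempty ?_
  rw [h1]
  exact (hK i).1.inter (hK j).1

/-- no part of the one-skeleton lies inside the disc of a face -/
theorem no_inside {K : RCx E} (hK : K.Cvx)
    (hup : ∀ i, ∃ j, K.cell i ⊆ K.cell j ∧ K.dim j = 2) {S Y Δ : Set E3} (hS : PLMan 2 S)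
    (ψ : ConHomeo (K.skel 1) Y) (hY : Y ⊆ S) {φ : K.ι} (hφ : K.dim φ = 2)
    (hΔ : ConBall 2 Δ (ψ.toFun '' K.bd φ)) (hΔS : Δ ⊆ S) {D B : Set E} (hD : ConBall 2 D B)
    (hDG : D ⊆ K.carrier) (h0 : K.cell φ ⊆ D \ B)
    (hin : ∀ j, ∀ z ∈ K.cell j, z ∈ K.skel 1 → ψ.toFun z ∈ Δ → K.cell j ⊆ D \ B)
    {x : E} (hx : x ∈ K.skel 1) (hxΔ : ψ.toFun x ∈ Δ) : x ∈ K.bd φ := by
  let In : K.ι → Prop := fun j => K.dim j = 2 ∧ ∃ z ∈ K.bd j \ K.cell φ, ψ.toFun z ∈ Δ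
  have hsk : ∀ j, K.dim j = 2 → K.bd j ⊆ K.skel 1 := fun j hj => K.bd_subset_skel hj.le
  have ha : ∀ j, In j → ∀ z ∈ K.bd j \ K.cell φ, ψ.toFun z ∈ Δ := by
    rintro j ⟨hj, z₀, hz₀, hz₀'⟩ z hz
    have hne : j ≠ φ := fun h => hz₀.2 (h ▸ K.bd_subset j hz₀.1)
    have h1 : IsPreconnected (K.bd j \ K.cell φ) := by
      have h2 := circle_diff (circle_bd K hj) ((hK j).1.inter (hK φ).1).isPreconnected
        (K.inter_subset_bd hne (by omega))
      have h3 : K.bd j \ (K.cell j ∩ K.cell φ) = K.bd j \ K.cell φ := by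
        ext y
        exact ⟨fun h => ⟨h.1, fun h' => h.2 ⟨K.bd_subset j h.1, h'⟩⟩,
          fun h => ⟨h.1, fun h' => h.2 h'.2⟩⟩
      rwa [h3] at h2
    refine subset_of_clopen' (S := S) ?_ (fun _ _ h => hΔ.isClosed.closure_subset h)
      (h1.image _ (ψ.cont.mono (sdiff_subset.trans (hsk j hj)))) ?_
      ⟨_, mem_image_of_mem _ hz₀, hz₀'⟩ (mem_image_of_mem _ hz)
    · rintro _ h2 ⟨y, hy, rfl⟩
      refine (hS.ball_nhds_iff hΔ hΔS h2).mpr ?_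
      rintro ⟨y', hy', he⟩
      exact hy.2 (ψ.injOn (hsk φ hφ hy') (hsk j hj hy.1) he ▸ K.bd_subset φ hy')
    · rintro _ ⟨y, hy, rfl⟩
      exact hY (ψ.mapsTo (hsk j hj hy.1))
  have hb : ∀ j, In j → K.cell j ⊆ D \ B := by
    rintro j ⟨hj, z, hz, hz'⟩
    exact hin j z (K.bd_subset j hz.1) (hsk j hj hz.1) hz'
  have hT : IsPreconnected (D \ K.cell φ) := by
    obtain ⟨Δ', _, _, h1, _, _, _, h2⟩ := cid hD (circle_bd K hφ)
      ((K.bd_subset φ).trans (h0.trans sdiff_subset))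
    rw [h1 (K.cell φ) (h0.trans sdiff_subset) (hφ ▸ K.ball φ)]
    exact h2 (disjoint_left.mpr fun y hy => (h0 (K.bd_subset φ hy)).2)
  by_contra hcon
  have hxφ : x ∉ K.cell φ := fun h => hcon (K.cell_inter_skel (k := 1) hφ ▸ ⟨h, hx⟩)
  obtain ⟨i, _, hi⟩ := K.mem_skel.mp hx
  obtain ⟨j, hij, hj⟩ := hup i
  have hjn : In j := ⟨hj, x, ⟨K.cell_inter_skel (k := 1) hj ▸ ⟨hij hi, hx⟩, hxφ⟩, hxΔ⟩
  have h1 : D \ K.cell φ ⊆ ⋃ j, ⋃ (_ : In j), K.cell j := by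
    refine subset_of_clopen' (S := K.carrier) ?_
      (fun y hy => (K.sub_biUnion In).closedIn y (hDG hy.1)) hT (sdiff_subset.trans hDG)
      ⟨x, ⟨(hb j hjn (hij hi)).1, hxφ⟩, mem_iUnion₂.mpr ⟨j, hjn, hij hi⟩⟩
    intro y hy hyT
    obtain ⟨l, hl, hyl⟩ := mem_iUnion₂.mp hy
    filter_upwards [mem_nhdsWithin_of_mem_nhds (K.eventually_star (hDG hyT.1)),
      self_mem_nhdsWithin] with z hz hzG
    obtain ⟨m, hm⟩ := K.mem_carrier.mp hzG
    obtain ⟨m', hmm, hm'⟩ := hup m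
    have h2 := hz m' (hmm hm)
    refine mem_iUnion₂.mpr ⟨m', ?_, hmm hm⟩
    by_cases h3 : m' = l
    · exact h3 ▸ hl
    · have h4 := hl.1
      exact ⟨hm', y, ⟨K.inter_subset_bd h3 (by omega) ⟨h2, hyl⟩, hyT.2⟩,
        ha l hl y ⟨K.inter_subset_bd (Ne.symm h3) (by omega) ⟨hyl, h2⟩, hyT.2⟩⟩
  obtain ⟨b, hb'⟩ := (circle_conn (mod_thm.circle hD)).nonempty
  obtain ⟨l, hl, hbl⟩ := mem_iUnion₂.mp (h1 ⟨hD.1 hb', fun h => (h0 h).2 hb'⟩)
  exact (hb l hl hbl).2 hb'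

theorem faces {K : RCx E} (hK : K.Cvx) (hG : PLMan 2 K.carrier) (hdim : ∀ i, K.dim i ≤ 2)
    (hup : ∀ i, ∃ j, K.cell i ⊆ K.cell j ∧ K.dim j = 2) {S : Set E3} {π : E3 → E}
    (hS : PLMan 2 S) (hπ : ContinuousOn π S) (hm : MapsTo π S K.carrier) {ε r₄ θ r₃ : E → ℝ}
    (hε : ∀ x ∈ K.carrier, ∃ D B, ConBall 2 D B ∧ D ⊆ K.carrier ∧
      K.carrier ∩ ball x (ε x) ⊆ D \ B)
    (f₄ : Fine r₄ ε K.carrier) (hA : Approx K.carrier S π θ r₄) (f₃ : Fine r₃ θ K.carrier)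
    (f₃' : Fine r₃ r₄ K.carrier) (hsm : ∀ i, Small r₃ (K.cell i)) {R : K.ι → Set E3}
    (hR : Realiz K 1 R)
    (hn : ∀ i, K.dim i ≤ 1 → ∀ y ∈ R i, y ∈ S ∧ ∃ a ∈ K.cell i, dist (π y) a < r₃ a) :
    ∃ Φ : ConHomeo K.carrier S, ∀ u ∈ K.carrier, dist (π (Φ.toFun u)) u < ε u := by
  classical
  obtain ⟨ψ, hψ⟩ := iso K 1 R hR
  have hsk : ∀ j, K.dim j = 2 → K.bd j ⊆ K.skel 1 := fun j hj => K.bd_subset_skel hj.le
  have hYS : K.rskel R 1 ⊆ S := fun y hy => by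
    obtain ⟨i, hi, h⟩ := K.mem_rskel.mp hy
    exact (hn i hi y h).1
  have hlow : ∀ i j, K.cell j ⊆ K.bd i → K.dim j ≤ 1 := fun i j h => by
    have h1 := K.dim_lt h
    have h2 := hdim i
    omega
  have hrbd : ∀ i, K.rbd R i = ψ.toFun '' K.bd i := by
    intro i
    rw [← K.rbd_cell i]
    ext y
    constructor
    · intro hy
      obtain ⟨j, hj, h⟩ := K.mem_rbd.mp hy
      rw [← hψ j (hlow i j hj)] at h
      exact image_mono (K.subset_rbd K.cell hj) h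
    · rintro ⟨x, hx, rfl⟩
      obtain ⟨j, hj, h⟩ := K.mem_rbd.mp hx
      exact K.mem_rbd.mpr ⟨j, hj, hψ j (hlow i j hj) ▸ mem_image_of_mem _ h⟩
  have hN : ∀ φ, ∀ x ∈ K.cell φ, ∀ i, K.dim i ≤ 1 → K.cell i ⊆ K.cell φ → ∀ y ∈ R i,
      dist (π y) x < 3 * r₃ x := by
    intro φ x hx i hi hs y hy
    obtain ⟨_, a, ha, h1⟩ := hn i hi y hy
    have hxG := K.cell_subset_carrier φ hx
    have h2 := hsm φ x hx a (hs ha)
    have h3 := (f₃.slow x hxG a (by linarith [f₃.pos hxG])).1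
    have h4 := dist_triangle_right (π y) x a
    linarith
  have hN' : ∀ φ, ∀ x ∈ K.cell φ, ∀ z ∈ K.cell φ, z ∈ K.skel 1 →
      dist (π (ψ.toFun z)) x < 3 * r₃ x := by
    intro φ x hx z hz hz1
    obtain ⟨i, hi, his⟩ := K.exists_face hz
    have h1 := (K.mem_skel_iff_dim hi).mp hz1
    exact hN φ x hx i h1 his _ (hψ i h1 ▸ mem_image_of_mem _ hi.1)
  have hface : ∀ φ, K.dim φ = 2 → ∃ Δ, ConBall 2 Δ (ψ.toFun '' K.bd φ) ∧ Δ ⊆ S ∧
      ∀ y ∈ Δ, ∀ x ∈ K.cell φ, dist (π y) x < 3 * r₄ x := by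
    intro φ hφ
    have hC : IsCircle (ψ.toFun '' K.bd φ) := by
      obtain ⟨c⟩ := circle_bd K hφ
      exact ⟨c.trans (ψ.restr (K.locCone_bd φ).conicalSet (hsk φ hφ))⟩
    have hCS : ψ.toFun '' K.bd φ ⊆ S := by
      rintro _ ⟨z, hz, rfl⟩
      exact hYS (ψ.mapsTo (hsk φ hφ hz))
    obtain ⟨x₀, hx₀⟩ := K.cell_nonempty φ
    have hx₀G := K.cell_subset_carrier φ hx₀
    obtain ⟨D, B, hD, hDS, hCD, hs⟩ := hA.2.2 _ hCS (circle_conn hC).isPreconnected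
      ((f₃.small x₀ hx₀G).mono (by
        rintro _ ⟨_, ⟨z, hz, rfl⟩, rfl⟩
        refine ⟨hm (hCS (mem_image_of_mem _ hz)), mem_closedBall.mpr ?_⟩
        linarith [hN' φ x₀ hx₀ z (K.bd_subset φ hz) (hsk φ hφ hz), f₃.pos hx₀G]))
    obtain ⟨Δ, h1, h2, _⟩ := cid hD hC (hCD.trans sdiff_subset)
    refine ⟨Δ, h2, h1.trans hDS, fun y hy x hx => ?_⟩
    obtain ⟨z, hz⟩ := (circle_conn (circle_bd K hφ)).nonempty
    have hxG := K.cell_subset_carrier φ hx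
    have h3 := hN' φ x hx z (K.bd_subset φ hz) (hsk φ hφ hz)
    have h4 := hs _ (mem_image_of_mem π (hCD (mem_image_of_mem _ hz)).1) _
      (mem_image_of_mem π (h1 hy))
    have h5 := f₃'.lt_self hxG
    have h6 := f₃'.pos hxG
    have h7 := (f₄.near hxG (w := π (ψ.toFun z)) (by linarith)).2
    have h8 := dist_triangle_left (π y) x (π (ψ.toFun z))
    linarith
  choose! Δ hΔ hΔS hΔn using hface
  have hno : ∀ φ, K.dim φ = 2 → ∀ x ∈ K.skel 1, ψ.toFun x ∈ Δ φ → x ∈ K.bd φ := by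
    intro φ hφ x hx hxΔ
    obtain ⟨x₀, hx₀⟩ := K.cell_nonempty φ
    have hx₀G := K.cell_subset_carrier φ hx₀
    obtain ⟨D, B, hD, hDG, hb⟩ := hε x₀ hx₀G
    have h1 := f₄.lt_self hx₀G
    have h2 := f₄.pos hx₀G
    refine no_inside hK hup hS ψ hYS hφ (hΔ φ hφ) (hΔS φ hφ) hD hDG (fun y hy => hb
      ⟨K.cell_subset_carrier φ hy, mem_ball'.mpr ?_⟩) (fun j z hz hz1 hzΔ y hy => hb
      ⟨K.cell_subset_carrier j hy, mem_ball.mpr ?_⟩) hx hxΔ
    · linarith [hsm φ x₀ hx₀ y hy, f₃'.le hx₀G]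
    · have hzG := K.cell_subset_carrier j hz
      have h3 := hΔn φ hφ _ hzΔ x₀ hx₀
      have h4 := hN' j z hz z hz hz1
      have h5 := f₃'.le hzG
      have h6 := (f₄.near hzG (w := π (ψ.toFun z)) (by linarith)).1
      have h7 := (f₄.near hx₀G h3).2
      have h8 := hsm j z hz y hy
      have h9 := dist_triangle_left y x₀ z
      have h10 := dist_triangle_left z x₀ (π (ψ.toFun z))
      linarith
  let R' : K.ι → Set E3 := fun i => if K.dim i ≤ 1 then R i else Δ i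
  have hR1 : ∀ i, K.dim i ≤ 1 → R' i = R i := fun i hi => if_pos hi
  have hR2 : ∀ i, K.dim i = 2 → R' i = Δ i := fun i hi => if_neg (by omega)
  have hcase : ∀ i, K.dim i ≤ 1 ∨ K.dim i = 2 := fun i => by
    have := hdim i
    omega
  have hrbd' : ∀ i, K.rbd R' i = K.rbd R i := fun i =>
    iUnion_congr fun j => iUnion_congr fun hj => hR1 j (hlow i j hj)
  have hP : ∀ i, ∀ y ∈ R' i, y ∈ S ∧ ∀ x ∈ K.cell i, dist (π y) x < 3 * r₄ x := by
    intro i y hy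
    rcases hcase i with hi | hi
    · rw [hR1 i hi] at hy
      refine ⟨(hn i hi y hy).1, fun x hx => ?_⟩
      linarith [hN i x hx i hi Subset.rfl y hy, f₃'.le (K.cell_subset_carrier i hx)]
    · rw [hR2 i hi] at hy
      exact ⟨hΔS i hi hy, hΔn i hi y hy⟩
  have hlf : ∀ y ∈ S, ∃ U ∈ 𝓝 y, {i | K.dim i ≤ 2 ∧ (R' i ∩ U).Nonempty}.Finite := by
    intro y hy
    refine f₄.lf hπ hm K.cell_subset_carrier (fun w hw => ?_) (fun i _ y hy => ?_) hy
    · obtain ⟨D, B, hD, hDG, hb⟩ := hε w hw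
      refine (K.finite_meet hD.isCompact hDG).subset ?_
      rintro i ⟨x, hx, hx'⟩
      exact ⟨x, hx, (hb ⟨K.cell_subset_carrier i hx, hx'⟩).1⟩
    · obtain ⟨x, hx⟩ := K.cell_nonempty i
      exact ⟨(hP i y hy).1, x, hx, (hP i y hy).2 x hx⟩
  have hmix : ∀ i j, K.dim i ≤ 1 → K.dim j = 2 → ∀ y ∈ R i, y ∈ Δ j → y ∈ K.rbd R j := by
    intro i j hi hj y hy hy'
    rw [← hψ i hi] at hy
    obtain ⟨x, hx, rfl⟩ := hy
    rw [hrbd]
    exact mem_image_of_mem _ (hno j hj x (K.cell_subset_skel hi hx) hy')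
  have hR' : Realiz K 2 R' := by
    refine ⟨fun i _ => ?_, fun i j _ _ hne => ?_, fun y hy => ?_⟩
    · rw [hrbd']
      rcases hcase i with hi | hi
      · rw [hR1 i hi]
        exact hR.ball i hi
      · rw [hR2 i hi, hi, hrbd]
        exact hΔ i hi
    · rw [hrbd', hrbd']
      rcases hcase i with hi | hi <;> rcases hcase j with hj | hj
      · rw [hR1 i hi, hR1 j hj]
        exact hR.disj i j hi hj hne
      · rw [hR1 i hi, hR2 j hj]
        exact disjoint_left.mpr fun y h1 h2 => h2.2 (hmix i j hi hj y h1.1 h2.1)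
      · rw [hR2 i hi, hR1 j hj]
        exact disjoint_left.mpr fun y h1 h2 => h1.2 (hmix j i hj hi y h2.1 h1.1)
      · rw [hR2 i hi, hR2 j hj, hrbd, hrbd]
        refine disjoint_left.mpr fun y h1 h2 => bd_not_subset hK hi hj hne fun x hx => ?_
        have h3 : Δ i \ ψ.toFun '' K.bd i ⊆ Δ j := by
          refine subset_of_clopen' (S := S) (fun z hz hz' => ?_)
            (fun _ _ h => (hΔ j hj).isClosed.closure_subset h)
            (hΔ i hi).isConnected_int.isPreconnected (sdiff_subset.trans (hΔS i hi)) ⟨y, h1, h2.1⟩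
          refine (hS.ball_nhds_iff (hΔ j hj) (hΔS j hj) hz).mpr ?_
          rintro ⟨w, hw, rfl⟩
          exact hz'.2 (mem_image_of_mem _ (hno i hi w (hsk j hj hw) hz'.1))
        have h4 : Δ i ⊆ Δ j :=
          (hΔ i hi).subset_closure_int.trans (closure_minimal h3 (hΔ j hj).isClosed)
        exact K.bd_subset j (hno j hj x (hsk i hi hx) (h4 ((hΔ i hi).1 (mem_image_of_mem _ hx))))
    · obtain ⟨i, _, h⟩ := K.mem_rskel.mp hy
      exact hlf y (hP i y h).1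
  obtain ⟨Φ, hΦ⟩ := iso K 2 R' hR'
  have hsc := K.skel_eq_carrier hdim
  have hY : K.rskel R' 2 ⊆ S := fun y hy => by
    obtain ⟨i, _, h⟩ := K.mem_rskel.mp hy
    exact (hP i y h).1
  have hYm : PLMan 2 (K.rskel R' 2) := hG.image (Φ.cast hsc rfl)
  have hcl : ClosedIn (K.rskel R' 2) S := by
    refine LFIn.closedIn_of_cover (X := R') (fun y hy => ?_) (fun i => hR'.isClosed (hdim i))
      fun y hy => ?_
    · obtain ⟨U, hU, h⟩ := hlf y hy
      exact ⟨U, hU, h.subset fun i hi => ⟨hdim i, hi⟩⟩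
    · obtain ⟨i, hi, h⟩ := K.mem_rskel.mp hy
      exact ⟨i, h, K.subset_rskel R' hi⟩
  have hSY : S ⊆ K.rskel R' 2 := by
    intro y hy
    have hw := hm hy
    obtain ⟨i, hi⟩ := K.mem_carrier.mp hw
    obtain ⟨j, hij, hj⟩ := hup i
    obtain ⟨z, hz⟩ := (circle_conn (circle_bd K hj)).nonempty
    have h1 := hN' j _ (hij hi) z (K.bd_subset j hz) (hsk j hj hz)
    have h2 := hYS (ψ.mapsTo (hsk j hj hz))
    have h3 := f₃.pos hw
    obtain ⟨T, hTS, hT, hyT, hzT, _⟩ := hA.2.1 y hy _ h2 (f₃.small _ hw _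
      ⟨hw, mem_closedBall_self (by linarith)⟩ _ ⟨hm h2, mem_closedBall.mpr (by linarith)⟩)
    refine subset_of_clopen' (S := S) (fun x hx _ => ?_) (fun x hx => hcl x (hTS hx)) hT hTS
      ⟨_, hzT, K.subset_rskel R' (hdim j) ?_⟩ hyT
    · obtain ⟨C, B, hC, hxC, hCY, _⟩ := hYm x hx
      exact mem_of_superset ((hS.ball_nhds_iff hC (hCY.trans hY) hxC.1).mpr hxC.2) hCY
    · rw [hR2 j hj]
      exact (hΔ j hj).1 (mem_image_of_mem _ hz)
  refine ⟨Φ.cast hsc (Subset.antisymm hY hSY), fun u hu => ?_⟩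
  obtain ⟨i, hi⟩ := K.mem_carrier.mp hu
  have h1 := (hP i (Φ.toFun u) (hΦ i (hdim i) ▸ mem_image_of_mem _ hi)).2 u hi
  change dist (π (Φ.toFun u)) u < ε u
  linarith [f₄.lt_self hu, f₄.pos hu]

/-- a fine convex complex on a manifold -/
theorem exists_complex [FiniteDimensional ℝ E] (htri : TRI) {n : ℕ} {G : Set E} (hG : PLMan n G)
    {r : E → ℝ} (hr : Gauge r G) :
    ∃ K : RCx E, K.Cvx ∧ K.carrier = G ∧ ∀ i, Small r (K.cell i) := by
  let U : Set E := {x | ∃ C, IsClosed C ∧ LocCone C ∧ ∀ᶠ y in 𝓝 x, (y ∈ C ↔ y ∈ G)}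
  have hU : IsOpen U := isOpen_iff_mem_nhds.mpr (by
    rintro x ⟨C, h1, h2, h3⟩
    exact h3.eventually_nhds.mono fun y hy => ⟨C, h1, h2, hy⟩)
  have hGU : G ⊆ U := fun x hx => by
    obtain ⟨C, B, hC, _, h1, h2⟩ := hG x hx
    exact ⟨C, hC.isClosed, hC.locCone,
      (eventually_nhdsWithin_iff.mp h2).mono fun y hy => ⟨fun h => h1 h, hy⟩⟩
  have hcl : ClosedIn G U := by
    rintro x ⟨C, h1, _, h3⟩ hx
    refine h3.self_of_nhds.mp (h1.closure_subset (mem_closure_iff_frequently.mpr ?_))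
    exact ((mem_closure_iff_frequently.mp hx).and_eventually h3).mono fun y hy => hy.2.mpr hy.1
  have hlc : LocConeOn G U := by
    rintro x ⟨C, _, h2, h3⟩
    exact (locConeAt_congr h3).mp (h2 x)
  obtain ⟨ρ, hρ, _, _, hle⟩ := exists_gauge (X := U) (p := fun x a => x ∈ G → a ≤ r x)
    (fun x _ a b _ hab hb hx => hab.trans (hb hx)) fun x hx => by
      by_cases hxG : x ∈ G
      · refine ⟨r x / 2, half_pos (hr.2 x hxG), mem_nhdsWithin_of_mem_nhds ?_⟩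
        have h1 := (hr.1 x hxG).eventually (lt_mem_nhds (half_lt_self (hr.2 x hxG)))
        exact (eventually_nhdsWithin_iff.mp h1).mono fun y hy h => (hy h).le
      · refine ⟨1, one_pos, mem_nhdsWithin_of_mem_nhds ?_⟩
        filter_upwards [hcl.compl_mem_nhds hx hxG] with y hy h
        exact absurd h hy
  obtain ⟨K, hK, _, hsm, hsub⟩ := htri (F := E) (κ := Unit) (fun _ => G) (fun _ => id) hU hρ
    (fun _ _ => ⟨univ, univ_mem, toFinite _⟩) fun _ => ⟨hGU, hcl, hlc, continuousOn_id,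
      conicalOn_id fun x hx => (hlc x (hGU hx)).conicalSetAt hx⟩
  refine ⟨K.within G, hK.restrict _ _, (hsub ()).1.within_carrier, fun i => ?_⟩
  exact (hsm i.1).of_le fun x hx => hle x (hGU (i.2 hx)) (i.2 hx)

end Apx2

theorem apx2_of (htri : TRI) (hman : MAN) : APX2 := by
  intro E _ _ _ G ε Θ hG hε hΘ
  classical
  obtain ⟨ε₁, hε₁, hd⟩ := exists_gauge_prop (X := G)
    (P := fun U => ∃ D B, ConBall 2 D B ∧ D ⊆ G ∧ U ⊆ D \ B) fun x hx => by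
      obtain ⟨C, B, hC, h1, h2, h3⟩ := hG x hx
      exact ⟨C \ B, inter_mem h3 (mem_nhdsWithin_of_mem_nhds
        (hC.isCompact_bdry.isClosed.isOpen_compl.mem_nhds h1.2)), C, B, hC, h2, Subset.rfl⟩
  obtain ⟨r₄, f₄⟩ := Apx2.exists_fine (hε₁.min hε)
  obtain ⟨r₃, f₃, f₃'⟩ := Apx2.exists_fine₂ (hΘ _ f₄.gauge) f₄.gauge
  obtain ⟨K, hK, rfl, hsm⟩ := Apx2.exists_complex htri hG f₃.gauge
  obtain ⟨𝓡, h𝓡, hone⟩ := Apx2.one_skel K Θ hΘ f₃.gauge
  obtain ⟨h1, h2, _⟩ := hman K (n := 1) K.sub_carrier hG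
  refine ⟨insert r₄ 𝓡, fun r hr => ?_, fun S π hS hπ hm hA => ?_⟩
  · rcases Finset.mem_insert.mp hr with rfl | hr
    · exact f₄.gauge
    · exact h𝓡 r hr
  obtain ⟨R, hR, hn⟩ := hone S π hS hπ hm fun r hr => hA r (Finset.mem_insert_of_mem hr)
  obtain ⟨Φ, hΦ⟩ := Apx2.faces hK hG (fun i => h1 i (K.cell_subset_carrier i))
    (fun i => let ⟨j, h3, _, h4⟩ := h2 i (K.cell_subset_carrier i); ⟨j, h3, h4⟩) hS hπ hm
    (fun x hx => by
      obtain ⟨U, ⟨D, B, h3, h4, h5⟩, h6⟩ := hd x hx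
      exact ⟨D, B, h3, h4, ((inter_subset_inter_right _
        (ball_subset_ball (min_le_left _ _))).trans h6).trans h5⟩)
    f₄ (hA r₄ (Finset.mem_insert_self _ _)) f₃ f₃' hsm hR hn
  exact ⟨Φ, fun u hu => (hΦ u hu).trans_le (min_le_right _ _)⟩

end P073
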