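import Vale.Agent.P073Z.A1
import Vale.Agent.P073Z.A3
import Vale.Agent.P073Z.ARR
import Vale.Agent.P073Z.TRI
import Vale.Agent.P073Z.MAN
import Vale.Agent.P073Z.APX2

/-!
# Arrangements, triangulations and approximation of surfaces: unconditional forms
-/

namespace P073

theorem arr : ARR := arr_of cvx

theorem tri : TRI := tri_of arr stm

theorem apx2 : APX2 := apx2_of tri man

end P073
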