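import Vale.Agent.P073Z.A1b
import Vale.Agent.P073Z.A2.Min
import Vale.Agent.P073Z.A2.Ury
import Vale.Agent.P073Z.A2.Thin

/-!
# Distance, extension, approximation, caps
-/

open Set Metric Topology Filter

namespace P073

namespace A2

variable {E F : Type} [NormedAddCommGroup E] [NormedSpace ℝ E]
  [NormedAddCommGroup F] [NormedSpace ℝ F]

/-- extension of real PL functions -/
theorem exists_ext [FiniteDimensional ℝ E] {X : Set E} {h : E → ℝ} (hX : IsCompact X)
    (hc : LocCone X) (hh : PLOn h X) : ∃ g : E → ℝ, PLOn g univ ∧ EqOn g h X := by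
  rcases X.eq_empty_or_nonempty with rfl | hne
  · exact ⟨fun _ => 0, pl_const _ conicalSet_univ, eqOn_empty _ _⟩
  obtain ⟨N, C, -, hN, hb, -, -⟩ := exists_plNorm (E := E)
  obtain ⟨M, hM⟩ := lip hX hc hh
  have hs : ConicalSet ((univ : Set E) ×ˢ X) := conicalSet_prod conicalSet_univ hc.conicalSet
  obtain ⟨g, hg, h1, h2⟩ := exists_min hX hc hne
    (Φ := fun q : E × E => h q.2 + M * N (q.1 - q.2))
    (pl_add (pl_comp hh (pl_snd hs) fun q hq => hq.2)
      (pl_mul _ (pl_comp_univ hN (pl_sub (pl_fst hs) (pl_snd hs)))))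
  refine ⟨g, hg, fun x hx => le_antisymm ?_ ?_⟩
  · have h3 : N (x - x) ≤ 0 := by simpa using (hb (x - x)).2
    have h4 : g x ≤ h x + M * N (x - x) := h2 x x hx
    nlinarith [M.2]
  · obtain ⟨y, hy, e⟩ := h1 x
    have h3 := hM.dist_le_mul x hx y hy
    rw [Real.dist_eq, dist_eq_norm] at h3
    have h4 : g x = h y + M * N (x - y) := e
    have h5 := mul_le_mul_of_nonneg_left (hb (x - y)).1 M.2
    have h6 : (M : ℝ) * ‖x - y‖ ≤ M * N (x - y) := h5
    linarith [le_abs_self (h x - h y)]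

/-- uniform approximation by PL functions -/
theorem exists_apx {X : Set E} {φ : E → ℝ} {ρ : ℝ} (hX : IsCompact X) (hφ : ContinuousOn φ X)
    (hρ : 0 < ρ) : ∃ g : E → ℝ, PLOn g univ ∧ ∀ x ∈ X, |g x - φ x| < ρ := by
  have : CompactSpace X := isCompact_iff_compactSpace.1 hX
  let L : Set C(X, ℝ) := {f | ∃ g : E → ℝ, PLOn g univ ∧ ∀ x : X, f x = g x}
  have mk : ∀ g : E → ℝ, PLOn g univ → ∃ f ∈ L, ∀ x : X, f x = g x := fun g hg =>
    ⟨⟨fun x => g x, (continuousOn_univ.1 hg.1).comp continuous_subtype_val⟩,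
      ⟨g, hg, fun _ => rfl⟩, fun _ => rfl⟩
  have hL : closure L = ⊤ := by
    refine ContinuousMap.sublattice_closure_eq_top L ⟨0, fun _ => 0, pl_const _ conicalSet_univ,
      fun _ => rfl⟩ ?_ ?_ ?_
    · rintro f ⟨a, ha, ea⟩ f' ⟨b, hb, eb⟩
      exact ⟨_, pl_min ha hb, fun x => by rw [ContinuousMap.inf_apply, ea, eb]⟩
    · rintro f ⟨a, ha, ea⟩ f' ⟨b, hb, eb⟩
      exact ⟨_, pl_max ha hb, fun x => by rw [ContinuousMap.sup_apply, ea, eb]⟩
    · intro v x y
      by_cases hxy : x = y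
      · obtain ⟨f, hf, e⟩ := mk (fun _ => v x) (pl_const _ conicalSet_univ)
        exact ⟨f, hf, e x, by rw [e y, hxy]⟩
      · obtain ⟨ℓ, hℓ⟩ := SeparatingDual.exists_separating_of_ne (R := ℝ)
          (fun h : (x : E) = y => hxy (Subtype.ext h))
        obtain ⟨f, hf, e⟩ := mk (fun z => v x + (v y - v x) / (ℓ y - ℓ x) * (ℓ z - ℓ x))
          (pl_add (pl_const _ conicalSet_univ) (pl_mul _
            (pl_sub (pl_clm ℓ conicalSet_univ) (pl_const _ conicalSet_univ))))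
        refine ⟨f, hf, by rw [e x]; simp, ?_⟩
        rw [e y, div_mul_cancel₀ _ (sub_ne_zero.2 hℓ.symm)]
        ring
  let f₀ : C(X, ℝ) := ⟨fun x => φ x, hφ.domRestrict⟩
  have h0 : f₀ ∈ closure L := by rw [hL]; trivial
  obtain ⟨f, ⟨g, hg, e⟩, hd⟩ := Metric.mem_closure_iff.1 h0 ρ hρ
  refine ⟨g, hg, fun x hx => ?_⟩
  have h1 := (ContinuousMap.dist_apply_le_dist (f := f₀) (g := f) ⟨x, hx⟩).trans_lt hd
  rw [e, Real.dist_eq, abs_sub_comm] at h1
  exact h1

end A2

open A2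

theorem dist_thm : DIST := by
  intro n K hK hc hne
  have hs : ConicalSet ((univ : Set (Fin n → ℝ)) ×ˢ K) :=
    conicalSet_prod conicalSet_univ hc.conicalSet
  refine conical_min hK hc (Φ := fun q => ‖q.1 - q.2‖)
    (pl_comp_univ (pl_norm_pi n) (pl_sub (pl_fst hs) (pl_snd hs))) (continuous_infDist_pt K)
    (fun x => ?_) fun x y hy => ?_
  · obtain ⟨y, hy, e⟩ := hK.exists_infDist_eq_dist hne x
    exact ⟨y, hy, e.trans (dist_eq_norm _ _)⟩
  · exact (infDist_le_dist_of_mem hy).trans (dist_eq_norm _ _).le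

theorem extpl : EXTPL := by
  intro E F _ _ _ _ _ _ X h hX hc hh
  obtain ⟨n, e, -⟩ := exists_coord F
  choose g hg he using fun i : Fin n =>
    exists_ext hX hc (pl_apply (pl_comp_univ (pl_cle e conicalSet_univ) hh) i)
  refine ⟨fun x => e.symm fun i => g i x,
    pl_comp_univ (pl_cle e.symm conicalSet_univ) (pl_pi conicalSet_univ hg), fun x hx => ?_⟩
  have : (fun i => g i x) = e (h x) := funext fun i => he i hx
  simp only [this, ContinuousLinearEquiv.symm_apply_apply]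

theorem apx : APX := by
  intro E _ _ _ X Y φ ρ hX hY hc hYX hφ hφY hρ
  obtain ⟨b, hb, eb⟩ := exists_ext hY hc ⟨hφ.mono hYX, hφY⟩
  obtain ⟨g, hg, hd⟩ := exists_apx hX (hφ.sub (hb.1.mono (subset_univ _))) (half_pos hρ)
  have hk := fun c : ℝ => pl_const (E := E) c conicalSet_univ
  refine ⟨fun x => b x + (max (g x - ρ / 2) 0 + min (g x + ρ / 2) 0),
    pl_add hb (pl_add (pl_max (pl_sub hg (hk _)) (hk _)) (pl_min (pl_add hg (hk _)) (hk _))),
    fun x hx => ?_, fun x hx => ?_⟩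
  · have h1 : |g x - (φ x - b x)| < ρ / 2 := hd x (hYX hx)
    rw [eb hx, sub_self, sub_zero, abs_lt] at h1
    show b x + (max (g x - ρ / 2) 0 + min (g x + ρ / 2) 0) = φ x
    rw [max_eq_right (by linarith), min_eq_right (by linarith), eb hx]
    ring
  · have h1 : |g x - (φ x - b x)| < ρ / 2 := hd x hx
    rw [abs_lt] at h1 ⊢
    rcases le_total (g x - ρ / 2) 0 with h2 | h2 <;> rcases le_total (g x + ρ / 2) 0 with h3 | h3 <;>
      simp only [max_eq_right, max_eq_left, min_eq_right, min_eq_left, h2, h3] <;>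
      constructor <;> linarith

theorem cap : CAP := by
  intro E _ _ _ ι s Δ J η hη H
  classical
  have hd : ∀ i ∈ s, ∃ d : E → ℝ, PLOn d univ ∧ (∀ x, 0 ≤ d x ∧ d x ≤ 1) ∧
      ∀ x, d x = 0 ↔ x ∈ J i := by
    intro i hi
    obtain ⟨-, h2, h3, h4, -⟩ := H i hi
    obtain ⟨d, hd, h0, hz⟩ := exists_plDist h2 h3 h4
    refine ⟨fun x => min 1 (d x), pl_min (pl_const _ conicalSet_univ) hd,
      fun x => ⟨le_min zero_le_one (h0 x), min_le_left _ _⟩, fun x => ?_⟩
    rw [← hz x]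
    refine ⟨fun h : min 1 (d x) = 0 => ?_, fun h => by simp [h]⟩
    rcases le_total 1 (d x) with h1 | h1
    · rw [min_eq_left h1] at h; exact absurd h one_ne_zero
    · rwa [min_eq_right h1] at h
  choose! d hd h01 hz using hd
  have hc : ∀ᶠ c in 𝓝[>] (0:ℝ), ∀ i ∈ s, ∀ j ∈ s, Δ i ⊆ Δ j \ J j → ∀ x ∈ Δ i, c < d j x := by
    refine (eventually_all_finset s).2 fun i hi => (eventually_all_finset s).2 fun j hj => ?_
    by_cases hij : Δ i ⊆ Δ j \ J j
    · obtain ⟨c, hc, hle⟩ := (H i hi).1.exists_forall_le' ((hd j hj).1.mono (subset_univ _))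
        (a := 0) fun x hx => lt_of_le_of_ne (h01 j hj x).1
          fun h => (hij hx).2 ((hz j hj x).1 h.symm)
      filter_upwards [Ioo_mem_nhdsGT hc] with c' hc' _ x hx
      exact hc'.2.trans_le (hle x hx)
    · exact Eventually.of_forall fun _ h => absurd h hij
  obtain ⟨c, hc, hc0, hc1⟩ := (hc.and (Ioo_mem_nhdsGT (zero_lt_one' ℝ))).exists
  let rk : ι → ℕ := fun i => (s.filter fun j => Δ i ⊆ Δ j \ J j).card
  have hp : ∀ i, 0 < η * c ^ rk i := fun i => mul_pos hη (pow_pos hc0 _)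
  refine ⟨fun i x => η * c ^ rk i * d i x, fun i hi => ⟨pl_mul _ (hd i hi), fun x =>
    ⟨mul_nonneg (hp i).le (h01 i hi x).1, ?_⟩, fun x => ?_⟩, fun i hi j hj hij x hx => ?_⟩
  · exact (mul_le_of_le_one_right (hp i).le (h01 i hi x).2).trans
      (mul_le_of_le_one_right hη.le (pow_le_one₀ hc0.le hc1.le))
  · rw [← hz i hi x]
    exact ⟨fun h => (mul_eq_zero.1 h).resolve_left (hp i).ne', fun h => by simp [h]⟩
  · have hlt : rk j < rk i := by
      refine Finset.card_lt_card ⟨fun k hk => ?_, fun hsub => ?_⟩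
      · rw [Finset.mem_filter] at hk ⊢
        exact ⟨hk.1, (hij.trans sdiff_subset).trans hk.2⟩
      · have h1 := (Finset.mem_filter.1 (hsub (Finset.mem_filter.2 ⟨hj, hij⟩))).2
        obtain ⟨-, -, -, ⟨y, hy⟩, h5⟩ := H j hj
        exact (h1 (h5 hy)).2 hy
    calc η * c ^ rk i * d i x ≤ η * c ^ rk i := mul_le_of_le_one_right (hp i).le (h01 i hi x).2
      _ ≤ η * c ^ (rk j + 1) :=
        mul_le_mul_of_nonneg_left (pow_le_pow_of_le_one hc0.le hc1.le hlt) hη.le
      _ = η * c ^ rk j * c := by ring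
      _ < η * c ^ rk j * d j x := mul_lt_mul_of_pos_left (hc i hi j hj hij x hx) (hp j)

end P073
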