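import Vale.Agent.P073Z.Sk1

/-!
# Assembly of the fillings of the tiles
-/

open Set Metric Topology Filter

namespace P073

namespace ASM

theorem not_mem_of_inside {S : Set E3} {y : E3} (h : y ∈ Inside S) : y ∉ S := h.1

/-- a connected set which misses a sphere is inside or outside -/
theorem inside_or (jb : JB) {S C : Set E3} (hS : ConSphere 2 S) (hC : IsPreconnected C)
    (hd : Disjoint C S) : C ⊆ Inside S ∨ Disjoint C (Inside S) := by
  obtain ⟨h1, -, -, -, -, h6, -⟩ := jb.1 hS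
  rcases hC.subset_or_subset h1 h6.isClosed.isOpen_compl
    (disjoint_left.2 fun y hy hy' => hy' (Or.inr hy)) (fun y hy => by
      by_cases h : y ∈ Inside S
      · exact Or.inl h
      · exact Or.inr fun h' => h'.elim (disjoint_left.1 hd hy) h) with h | h
  · exact Or.inl h
  · exact Or.inr (disjoint_left.2 fun y hy hy' => h hy (Or.inr hy'))

theorem finite_of_compact {ι : Type} {O : ι → Set E3} {V K : Set E3} (hO : LFIn O V)
    (hK : IsCompact K) (hKV : K ⊆ V) : {i | (O i ∩ K).Nonempty}.Finite := by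
  refine hK.induction_on (p := fun s => {i | (O i ∩ s).Nonempty}.Finite) (by simp)
    (fun s t hst ht => ht.subset fun i hi => hi.mono (inter_subset_inter_right _ hst))
    (fun s t hs ht => (hs.union ht).subset fun i hi => ?_) fun x hx => ?_
  · obtain ⟨y, hy, h | h⟩ := hi
    · exact Or.inl ⟨y, hy, h⟩
    · exact Or.inr ⟨y, hy, h⟩
  · obtain ⟨U, hU, hfin⟩ := hO x (hKV hx)
    exact ⟨U, mem_nhdsWithin_of_mem_nhds hU, hfin⟩

/-- near a point only the closed sets which contain it are seen -/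
theorem eventually_mem {ι : Type} {T : ι → Set E3} {V : Set E3} (hT : LFIn T V)
    (hc : ∀ i, IsClosed (T i)) {x : E3} (hx : x ∈ V) : ∀ᶠ y in 𝓝 x, ∀ i, y ∈ T i → x ∈ T i := by
  obtain ⟨U, hU, hfin⟩ := hT x hx
  have h1 : ∀ᶠ y in 𝓝 x, ∀ i ∈ {i | (T i ∩ U).Nonempty}, y ∈ T i → x ∈ T i := by
    refine (eventually_all_finite hfin).2 fun i _ => ?_
    by_cases h : x ∈ T i
    · exact Eventually.of_forall fun _ _ => h
    · filter_upwards [(hc i).isOpen_compl.mem_nhds h] with y hy hy' using absurd hy' hy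
  filter_upwards [hU, h1] with y hy h i hi using h i ⟨y, hi, hy⟩ hi

variable {ι : Type} {V V' Y : Set E3} {T B O : ι → Set E3}

theorem sphere_img (e : ConHomeo (⋃ i, B i) Y) (hT : ∀ i, ConBall 3 (T i) (B i)) (i : ι) :
    ConSphere 2 (e.toFun '' B i) := by
  obtain ⟨φ⟩ := (hT i).conSphere
  exact ⟨(e.restr (hT i).conicalSet_bdry (subset_iUnion B i)).symm.trans φ⟩

theorem img_subset (e : ConHomeo (⋃ i, B i) Y) (i : ι) : e.toFun '' B i ⊆ Y :=
  (image_mono (subset_iUnion B i)).trans e.mapsTo.image_subset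

theorem mem_bd (hD : ∀ i j, i ≠ j → Disjoint (T i \ B i) (T j)) {i j : ι} (hij : i ≠ j) {x : E3}
    (hi : x ∈ T i) (hj : x ∈ T j) : x ∈ B i := by
  by_contra h
  exact disjoint_left.1 (hD i j hij) ⟨hi, h⟩ hj

theorem fill_subset (jb : JB) (e : ConHomeo (⋃ i, B i) Y) (hT : ∀ i, ConBall 3 (T i) (B i))
    (hO : ∀ i, Convex ℝ (O i) ∧ e.toFun '' B i ⊆ O i ∧ O i ⊆ V') (i : ι) :
    e.toFun '' B i ∪ Inside (e.toFun '' B i) ⊆ O i :=
  union_subset (hO i).2.1
    ((jb.1 (sphere_img e hT i)).2.2.2.2.2.2.trans (convexHull_min (hO i).2.1 (hO i).1))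

theorem disjoint_Y (jb : JB) (e : ConHomeo (⋃ i, B i) Y) (hV : IsOpen V)
    (hT : ∀ i, ConBall 3 (T i) (B i)) (hU : ⋃ i, T i = V) (hlf : LFIn T V)
    (hD : ∀ i j, i ≠ j →
      Disjoint (T i \ B i) (T j) ∧ IsPreconnected (B j \ T i) ∧ (B j \ T i).Nonempty)
    (hO : ∀ i, Convex ℝ (O i) ∧ e.toFun '' B i ⊆ O i ∧ O i ⊆ V') (hlo : LFIn O V') (Q : ι) :
    Disjoint (Inside (e.toFun '' B Q)) Y := by
  have hS := sphere_img e hT Q
  have hD1 := fun i j hij => (hD i j hij).1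
  have hBX := fun j => (sdiff_subset (s := B j) (t := T Q)).trans (subset_iUnion B j)
  -- the tiles whose boundaries go inside
  set 𝒥 : Set ι := {j | ∃ x ∈ B j \ T Q, e.toFun x ∈ Inside (e.toFun '' B Q)} with h𝒥
  have hall : ∀ j ∈ 𝒥, ∀ x ∈ B j \ T Q, e.toFun x ∈ Inside (e.toFun '' B Q) := by
    rintro j ⟨x₀, hx₀, hin⟩ x hx
    have hj : Q ≠ j := by
      rintro rfl
      exact hx.2 ((hT Q).1 hx.1)
    rcases inside_or jb hS ((hD Q j hj).2.1.image _ (e.cont.mono (hBX j))) (disjoint_left.2 (by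
      rintro _ ⟨a, ha, rfl⟩ ⟨c, hc, hac⟩
      have := e.injOn (subset_iUnion B Q hc) (hBX j ha) hac
      exact ha.2 (this ▸ (hT Q).1 hc))) with h | h
    · exact h ⟨x, hx, rfl⟩
    · exact absurd hin (disjoint_left.1 h ⟨x₀, hx₀, rfl⟩)
  have hfin : 𝒥.Finite := by
    refine (finite_of_compact hlo (jb.1 hS).2.2.2.2.2.1
      ((fill_subset jb e hT hO Q).trans (hO Q).2.2)).subset ?_
    rintro j ⟨x, hx, hin⟩
    exact ⟨_, (hO j).2.1 ⟨x, hx.1, rfl⟩, Or.inr hin⟩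
  have hK : IsCompact (⋃ j ∈ 𝒥, T j) := hfin.isCompact_biUnion fun j _ => (hT j).isCompact
  have hcon : IsPreconnected (T Q)ᶜ := by
    have := (jb.1 (hT Q).conSphere).2.2.2.1.isPreconnected
    rwa [jb.2 (hT Q), union_sdiff_cancel (hT Q).1] at this
  have hopen : IsOpen ((⋃ j ∈ 𝒥, T j) \ T Q) := by
    rw [isOpen_iff_mem_nhds]
    rintro x ⟨hx, hxQ⟩
    obtain ⟨j, hj, hxj⟩ := mem_iUnion₂.1 hx
    have hxV : x ∈ V := hU ▸ subset_iUnion T j hxj
    filter_upwards [hV.mem_nhds hxV, eventually_mem hlf (fun i => (hT i).isClosed) hxV,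
      (hT Q).isClosed.isOpen_compl.mem_nhds hxQ] with y hy h1 h2
    obtain ⟨k, hk⟩ := mem_iUnion.1 (hU ▸ hy : y ∈ ⋃ i, T i)
    refine ⟨mem_iUnion₂.2 ⟨k, ?_, hk⟩, h2⟩
    by_cases hkj : k = j
    · exact hkj ▸ hj
    · exact ⟨x, ⟨mem_bd hD1 hkj (h1 k hk) hxj, hxQ⟩,
        hall j hj x ⟨mem_bd hD1 (Ne.symm hkj) hxj (h1 k hk), hxQ⟩⟩
  have hempty : ∀ j, j ∉ 𝒥 := by
    intro j hj
    obtain ⟨x, hx, -⟩ := id hj
    have hsub : (T Q)ᶜ ⊆ (⋃ j ∈ 𝒥, T j) \ T Q :=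
      hcon.subset_of_closure_inter_subset hopen
        ⟨x, hx.2, mem_iUnion₂.2 ⟨j, hj, (hT j).1 hx.1⟩, hx.2⟩
        fun y hy => ⟨hK.isClosed.closure_subset (closure_mono sdiff_subset hy.1), hy.2⟩
    refine NormedSpace.unbounded_univ ℝ E3 (((hT Q).isCompact.union hK).isBounded.subset ?_)
    intro y _
    by_cases h : y ∈ T Q
    · exact Or.inl h
    · exact Or.inr (hsub h).1
  refine disjoint_left.2 fun y hy hyY => ?_
  obtain ⟨j, hj⟩ := mem_iUnion.1 (e.mapsTo_inv hyY)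
  rw [← e.right_inv hyY] at hy
  by_cases hQ : e.invFun y ∈ T Q
  · refine not_mem_of_inside hy ⟨_, ?_, rfl⟩
    by_cases hQj : Q = j
    · exact hQj ▸ hj
    · exact mem_bd hD1 hQj hQ ((hT j).1 hj)
  · exact hempty j ⟨_, ⟨hj, hQ⟩, hy⟩

theorem disjoint_in (jb : JB) (e : ConHomeo (⋃ i, B i) Y) (hT : ∀ i, ConBall 3 (T i) (B i))
    (hD : ∀ i j, i ≠ j → (B j \ T i).Nonempty)
    (hY : ∀ i, Disjoint (Inside (e.toFun '' B i)) Y) {i j : ι} (hij : i ≠ j) :
    Disjoint (Inside (e.toFun '' B i)) (Inside (e.toFun '' B j)) := by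
  have hi := jb.1 (sphere_img e hT i)
  have hj := jb.1 (sphere_img e hT j)
  rcases inside_or jb (sphere_img e hT j) hi.2.2.1.isPreconnected
    ((hY i).mono_right (img_subset e j)) with h1 | h1
  swap
  · exact h1
  rcases inside_or jb (sphere_img e hT i) hj.2.2.1.isPreconnected
    ((hY j).mono_right (img_subset e i)) with h2 | h2
  swap
  · exact h2.symm
  have h3 : e.toFun '' B j = e.toFun '' B i := by rw [← hi.2.1, ← hj.2.1, h1.antisymm h2]
  obtain ⟨x, hx⟩ := hD i j hij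
  obtain ⟨c, hc, hcx⟩ := h3.subset ⟨x, hx.1, rfl⟩
  have := e.injOn (subset_iUnion B i hc) (subset_iUnion B j hx.1) hcx
  exact absurd (this ▸ (hT i).1 hc) hx.2

theorem glue (jb : JB) (iod : IOD) (e : ConHomeo (⋃ i, B i) Y) {h g : ι → E3 → E3}
    (hV : IsOpen V) (hne : V.Nonempty) (hV' : IsPreconnected V')
    (hT : ∀ i, ConBall 3 (T i) (B i)) (hU : ⋃ i, T i = V) (hlf : LFIn T V)
    (hD : ∀ i j, i ≠ j →
      Disjoint (T i \ B i) (T j) ∧ IsPreconnected (B j \ T i) ∧ (B j \ T i).Nonempty)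
    (hO : ∀ i, Convex ℝ (O i) ∧ e.toFun '' B i ⊆ O i ∧ O i ⊆ V') (hlo : LFIn O V')
    (hh : ∀ i, HomeoOn (h i) (g i) (T i) (e.toFun '' B i ∪ Inside (e.toFun '' B i)) ∧
      EqOn (h i) e.toFun (B i)) :
    (⋃ i, (e.toFun '' B i ∪ Inside (e.toFun '' B i))) = V' ∧
      ∃ H G : E3 → E3, HomeoOn H G V V' ∧ ∀ i, EqOn H (h i) (T i) := by
  classical
  have hD1 := fun i j hij => (hD i j hij).1
  have hY := disjoint_Y jb e hV hT hU hlf hD hO hlo
  have hI := fun i j (hij : i ≠ j) => disjoint_in jb e hT (fun i j hij => (hD i j hij).2.2) hY hij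
  set R : ι → Set E3 := fun i => e.toFun '' B i ∪ Inside (e.toFun '' B i) with hR
  have hRO : ∀ i, R i ⊆ O i := fill_subset jb e hT hO
  have hRc : ∀ i, IsClosed (R i) := fun i => (jb.1 (sphere_img e hT i)).2.2.2.2.2.1.isClosed
  have hRV : (⋃ i, R i) ⊆ V' := iUnion_subset fun i => (hRO i).trans (hO i).2.2
  have hlr : LFIn R V' := fun y hy => by
    obtain ⟨U, hU, hfin⟩ := hlo y hy
    exact ⟨U, hU, hfin.subset fun i hi => hi.mono (inter_subset_inter_left _ (hRO i))⟩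
  have hag : ∀ i j, EqOn (h i) (h j) (T i ∩ T j) := by
    intro i j x hx
    by_cases hij : i = j
    · rw [hij]
    · rw [(hh i).2 (mem_bd hD1 hij hx.1 hx.2), (hh j).2 (mem_bd hD1 (Ne.symm hij) hx.2 hx.1)]
  have hag' : ∀ i j, EqOn (g i) (g j) (R i ∩ R j) := by
    intro i j y hy
    by_cases hij : i = j
    · rw [hij]
    have k : ∀ {i j}, i ≠ j → y ∈ R i → y ∈ R j → y ∈ e.toFun '' B i := fun hij hi hj =>
      hi.elim id fun hi => absurd hi (hj.elim
        (fun hj => disjoint_right.1 (hY _) (img_subset e _ hj))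
        fun hj => disjoint_right.1 (hI _ _ hij) hj)
    obtain ⟨x, hx, rfl⟩ := k hij hy.1 hy.2
    obtain ⟨c, hc, hcx⟩ := k (Ne.symm hij) hy.2 hy.1
    obtain rfl := e.injOn (subset_iUnion B j hc) (subset_iUnion B i hx) hcx
    have e1 := (hh i).1.left_inv ((hT i).1 hx)
    have e2 := (hh j).1.left_inv ((hT j).1 hc)
    rw [(hh i).2 hx] at e1
    rw [(hh j).2 hc] at e2
    rw [e1, e2]
  let H : E3 → E3 := fun x => if hx : ∃ i, x ∈ T i then h hx.choose x else 0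
  let G : E3 → E3 := fun y => if hy : ∃ i, y ∈ R i then g hy.choose y else 0
  have hH : ∀ i, EqOn H (h i) (T i) := by
    intro i x hx
    have hex : ∃ i, x ∈ T i := ⟨i, hx⟩
    simp only [H]
    rw [dif_pos hex]
    exact hag _ i ⟨hex.choose_spec, hx⟩
  have hG : ∀ i, EqOn G (g i) (R i) := by
    intro i x hx
    have hex : ∃ i, x ∈ R i := ⟨i, hx⟩
    simp only [G]
    rw [dif_pos hex]
    exact hag' _ i ⟨hex.choose_spec, hx⟩
  have rT : RelLF T := ⟨hU ▸ hlf, fun i z _ hz => (hT i).isClosed.closure_subset hz⟩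
  have rR : RelLF R := ⟨fun z hz => hlr z (hRV hz), fun i z _ hz => (hRc i).closure_subset hz⟩
  have key : HomeoOn H G (⋃ i, T i) (⋃ i, R i) := by
    refine ⟨fun x hx => ?_, fun x hx => ?_, fun x hx => ?_, fun x hx => ?_,
      rT.continuousOn fun i => (hh i).1.cont.congr (hH i),
      rR.continuousOn fun i => (hh i).1.cont_inv.congr (hG i)⟩ <;>
      obtain ⟨i, hi⟩ := mem_iUnion.1 hx
    · rw [hH i hi]; exact mem_iUnion.2 ⟨i, (hh i).1.mapsTo hi⟩
    · rw [hG i hi]; exact mem_iUnion.2 ⟨i, (hh i).1.mapsTo_inv hi⟩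
    · rw [hH i hi, hG i ((hh i).1.mapsTo hi), (hh i).1.left_inv hi]
    · rw [hG i hi, hH i ((hh i).1.mapsTo_inv hi), (hh i).1.right_inv hi]
  rw [hU] at key
  have himg : H '' V = ⋃ i, R i := key.mapsTo.image_subset.antisymm fun y hy =>
    ⟨G y, key.mapsTo_inv hy, key.right_inv hy⟩
  have hopen : IsOpen (⋃ i, R i) := himg ▸ iod hV key.cont key.left_inv.injOn
  have honto : (⋃ i, R i) = V' := by
    refine hRV.antisymm (hV'.subset_of_closure_inter_subset hopen ?_ fun y hy => ?_)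
    · obtain ⟨x, hx⟩ := hne
      exact ⟨H x, hRV (key.mapsTo hx), key.mapsTo hx⟩
    · obtain ⟨w, hw, hw'⟩ := mem_closure_iff_nhds.1 hy.1 _ (eventually_mem hlr hRc hy.2)
      obtain ⟨i, hi⟩ := mem_iUnion.1 hw'
      exact mem_iUnion.2 ⟨i, hw i hi⟩
  exact ⟨honto, H, G, honto ▸ key, hH⟩

end ASM

open ASM

theorem asmg_of (jb : JB) (iod : IOD) : ASMG := by
  intro ι V V' Y T B O e h g z hV hne _ hV' hT hU hlf hD hO hlo hh
  obtain ⟨-, H, G, hHG, hH⟩ := glue jb iod e hV hne hV' hT hU hlf hD hO hlo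
    fun i => ⟨(hh i).2.1, (hh i).2.2.1⟩
  have hz : ∀ i j, z i ∈ T j → i = j := fun i j hij => by
    by_contra hne
    exact disjoint_left.1 (hD i j hne).1 (hh i).1 hij
  refine ⟨H, G, hHG, hH, ⟨?_, fun x hx => ?_⟩, ?_, fun i => ?_⟩
  · rintro _ ⟨i, rfl⟩
    exact hU ▸ subset_iUnion T i (hh i).1.1
  · obtain ⟨U, hU, hfin⟩ := hlf x hx
    refine ⟨U, hU, (hfin.image z).subset ?_⟩
    rintro _ ⟨⟨i, rfl⟩, hi⟩
    exact ⟨i, ⟨_, (hh i).1.1, hi⟩, rfl⟩
  · have e1 : V \ range z = ⋃ i, T i \ {z i} := by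
      ext x
      constructor
      · rintro ⟨hx, hxz⟩
        obtain ⟨i, hi⟩ := mem_iUnion.1 (hU ▸ hx : x ∈ ⋃ i, T i)
        exact mem_iUnion.2 ⟨i, hi, fun h => hxz ⟨i, h.symm⟩⟩
      · intro hx
        obtain ⟨i, hi, hi'⟩ := mem_iUnion.1 hx
        refine ⟨hU ▸ subset_iUnion T i hi, ?_⟩
        rintro ⟨j, rfl⟩
        exact hi' (congrArg z (hz j i hi))
    rw [e1]
    refine ConicalOn.iUnion_of_locallyFinite
      (fun i => (hh i).2.2.2.congr ((hH i).mono sdiff_subset)) (fun x hx => ?_) fun i x hx hc => ?_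
    · obtain ⟨U, hU, hfin⟩ := hlf x (e1 ▸ hx).1
      exact ⟨U, hU, hfin.subset fun i hi => hi.mono (inter_subset_inter_left _ sdiff_subset)⟩
    · exact ⟨(hT i).isClosed.closure_subset (closure_mono sdiff_subset hc),
        fun h => (e1 ▸ hx).2 ⟨i, h.symm⟩⟩
  · rw [(hH i).image_eq]
    exact (hh i).2.1.mapsTo.image_subset.trans (fill_subset jb e hT hO i)

theorem asmt_of (jb : JB) (iod : IOD) (sch : SCH3) : ASMT := by
  intro ι V V' Y T B O e hV hne _ hV' hT hU hlf hD hO hlo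
  have hY := disjoint_Y jb e hV hT hU hlf hD hO hlo
  refine ⟨?_, hY, fun i j hij => disjoint_in jb e hT (fun i j hij => (hD i j hij).2.2) hY hij⟩
  have : ∀ i, ∃ h g : E3 → E3, HomeoOn h g (T i) (e.toFun '' B i ∪ Inside (e.toFun '' B i)) ∧
      EqOn h e.toFun (B i) := fun i => by
    obtain ⟨z, hz⟩ := (jb.1 (hT i).conSphere).2.2.1.nonempty
    rw [jb.2 (hT i)] at hz
    obtain ⟨h, g, h1, h2, -⟩ := sch (e.restr (hT i).conicalSet_bdry (subset_iUnion B i)) (hT i) hz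
      isClosed_empty interior_empty
    exact ⟨h, g, h1, h2⟩
  choose h g hh using this
  exact (glue jb iod e hV hne hV' hT hU hlf hD hO hlo hh).1

end P073
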