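import Vale.Agent.P073Z.COL.Two

/-!
# The PL bicollar of a two-sided surface
-/

open Set Metric Topology Filter

namespace P073

namespace Col

variable {U S P M : Set E3} {ε : E3 → ℝ} {κ : E3 × ℝ → E3}

theorem Thin.isOpen (h : Thin S U P M ε κ) {a b : ℝ} (ha : -1 ≤ a) (hb : b ≤ 1) :
    IsOpen (κ '' (S ×ˢ Ioo a b)) := by
  rw [isOpen_iff_mem_nhds]
  rintro _ ⟨q, hq, rfl⟩
  refine h.opn q ⟨hq.1, Ioo_subset_Ioo ha hb hq.2⟩ (image_mem_map ?_)
  filter_upwards [self_mem_nhdsWithin, mem_nhdsWithin_of_mem_nhds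
    (continuous_snd.continuousAt.eventually (isOpen_Ioo.mem_nhds hq.2))] with y a b
  exact ⟨a.1, b⟩

theorem Thin.closedIn (h : Thin S U P M ε κ) (hU : IsOpen U) (hcl : ClosedIn S U) {a b : ℝ}
    (ha : -1 ≤ a) (hb : b ≤ 1) : ClosedIn (κ '' (S ×ˢ Icc a b)) U := by
  intro u hu hc
  obtain ⟨R, hR, hB⟩ := Metric.isOpen_iff.1 hU u hu
  let K : Set E3 := closedBall u 2 ∩ {x | ∀ z, z ∉ U → min 1 (R / 3) ≤ dist x z}
  have hρ : 0 < min 1 (R / 3) := by positivity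
  have k1 : IsClosed {x : E3 | ∀ z, z ∉ U → min 1 (R / 3) ≤ dist x z} := by
    simp only [setOf_forall]
    exact isClosed_iInter fun z => isClosed_iInter fun _ =>
      isClosed_le continuous_const (by fun_prop)
  have k2 : IsCompact K := (isCompact_closedBall u 2).inter_right k1
  have k3 : K ⊆ U := fun x hx => by
    by_contra hn
    have := hx.2 x hn
    rw [dist_self] at this
    exact absurd hρ (not_lt.2 this)
  have k4 : IsCompact (K ∩ S) := by
    refine k2.of_isClosed_subset (isClosed_of_closure_subset fun x hx => ?_) inter_subset_left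
    have hK : x ∈ K := closure_minimal inter_subset_left k2.isClosed hx
    exact ⟨hK, hcl x (k3 hK) (closure_mono inter_subset_right hx)⟩
  have sub : (K ∩ S) ×ˢ Icc a b ⊆ S ×ˢ Icc (-1 : ℝ) 1 :=
    prod_mono inter_subset_right (Icc_subset_Icc ha hb)
  have k5 : IsClosed (κ '' ((K ∩ S) ×ˢ Icc a b)) :=
    ((k4.prod isCompact_Icc).image_of_continuousOn (h.cont.mono sub)).isClosed
  have k6 : ball u (min 1 (R / 3)) ∩ κ '' (S ×ˢ Icc a b) ⊆ κ '' ((K ∩ S) ×ˢ Icc a b) := by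
    rintro _ ⟨hy, q, hq, rfl⟩
    obtain ⟨-, n2, n3⟩ := h.near q ⟨hq.1, Icc_subset_Icc ha hb hq.2⟩
    rw [mem_ball, lt_min_iff] at hy
    refine ⟨q, ⟨⟨⟨?_, fun z hz => ?_⟩, hq.1⟩, hq.2⟩, rfl⟩
    · rw [mem_closedBall]
      have := dist_triangle_left q.1 u (κ q)
      linarith [hy.1]
    · have z1 : R ≤ dist z u := not_lt.1 fun hl => hz (hB hl)
      have z2 := dist_triangle4 z q.1 (κ q) u
      rw [dist_comm z q.1, dist_comm q.1 (κ q)] at z2
      refine (min_le_right _ _).trans ?_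
      linarith [n3 z hz, hy.2]
  exact image_mono (prod_mono inter_subset_right subset_rfl) (closure_minimal k6 k5
    (isOpen_ball.inter_closure ⟨mem_ball_self hρ, hc⟩))

theorem Thin.inv (h : Thin S U P M ε κ) (hS : ConicalSet S) : ∃ j : E3 → E3 × ℝ,
    (∀ q ∈ S ×ˢ Icc (-1 : ℝ) 1, j (κ q) = q) ∧ ∀ q ∈ S ×ˢ Ioo (-1 : ℝ) 1,
      ContinuousAt j (κ q) ∧ ConicalWithinAt j univ (κ q) := by
  have hl : LeftInvOn (Function.invFunOn κ (S ×ˢ Icc (-1) 1)) κ (S ×ˢ Icc (-1) 1) :=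
    h.inj.leftInvOn_invFunOn
  have sub : S ×ˢ Ioo (-1 : ℝ) 1 ⊆ S ×ˢ Icc (-1 : ℝ) 1 := prod_mono subset_rfl Ioo_subset_Icc_self
  refine ⟨_, hl, fun q hq => ?_⟩
  have c : ContinuousAt (Function.invFunOn κ (S ×ˢ Icc (-1) 1)) (κ q) := by
    rw [ContinuousAt, hl (sub hq)]
    refine (map_mono (h.opn q hq)).trans ?_
    have e : (Function.invFunOn κ (S ×ˢ Icc (-1) 1) ∘ κ) =ᶠ[𝓝[S ×ˢ Icc (-1 : ℝ) 1] q] id :=
      eventually_nhdsWithin_of_forall fun y hy => hl hy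
    rw [map_map, map_congr e, map_id]
    exact nhdsWithin_le_nhds
  refine ⟨c, ConicalWithinAt.of_mem_nhds (X := κ '' (S ×ˢ Ioo (-1 : ℝ) 1)) ?_
    ((h.isOpen le_rfl le_rfl).mem_nhds (mem_image_of_mem _ hq))⟩
  refine ((h.con q (sub hq)).mono_set (cs_prod (hS _ hq.1)
    (Convex.conicalSetAt (convex_Ioo _ _) hq.2)) sub).inverse hq (mapsTo_image _ _) ?_
      (hl.mono sub) ?_ c.continuousWithinAt
  · rintro _ ⟨y, hy, rfl⟩
    rw [hl (sub hy)]; exact hy
  · rintro _ ⟨y, hy, rfl⟩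
    rw [hl (sub hy)]

/-- the clamp -/
noncomputable def cl (q : E3 × ℝ) : ℝ := max (-1) (min 1 (2 * q.2))

theorem pl_cl : PL cl := (PL.const _).max ((PL.const _).min (PL.snd.mul _))

theorem Thin.col (h : Thin S U P M ε κ) (hU : IsOpen U) (hSU : S ⊆ U) (hcl : ClosedIn S U)
    (hS : ConicalSet S) (hP : IsOpen P) (hM : IsOpen M) (hd : Disjoint P M)
    (hPM : P ∪ M = U \ S) :
    ∃ (Y : Set E3) (κ : ConHomeo (S ×ˢ Icc (-1:ℝ) 1) Y) (lam : E3 → ℝ), Y ⊆ U ∧ ClosedIn Y U ∧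
    IsOpen (κ.toFun '' (S ×ˢ Ioo (-1) 1)) ∧ PLOn lam U ∧
    (∀ x ∈ S, κ.toFun (x, 0) = x ∧ ∀ s ∈ Icc (-1:ℝ) 1, lam (κ.toFun (x, s)) = s ∧
      dist (κ.toFun (x, s)) x < ε x) ∧
    (∀ y ∈ U \ Y, lam y = 1 ∨ lam y = -1) ∧
    (∀ y ∈ U, (y ∈ P ↔ 0 < lam y) ∧ (y ∈ M ↔ lam y < 0)) := by
  classical
  obtain ⟨j, hj, hj2⟩ := h.inv hS
  have sub : S ×ˢ Ioo (-1 : ℝ) 1 ⊆ S ×ˢ Icc (-1 : ℝ) 1 := prod_mono subset_rfl Ioo_subset_Icc_self
  have sub2 : S ×ˢ Icc (-(1 / 2) : ℝ) (1 / 2) ⊆ S ×ˢ Ioo (-1 : ℝ) 1 :=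
    prod_mono subset_rfl (Icc_subset_Ioo (by norm_num) (by norm_num))
  have hτ : PL fun q : E3 × ℝ => (q.1, 1 / 2 * q.2) := PL.fst.prod (PL.snd.mul _)
  have hσ : PL fun q : E3 × ℝ => (q.1, 2 * q.2) := PL.fst.prod (PL.snd.mul _)
  have mτ : MapsTo (fun q : E3 × ℝ => (q.1, 1 / 2 * q.2)) (S ×ˢ Icc (-1 : ℝ) 1)
      (S ×ˢ Icc (-(1 / 2) : ℝ) (1 / 2)) := fun q hq =>
    ⟨hq.1, by simp only; linarith [hq.2.1], by simp only; linarith [hq.2.2]⟩
  have mτ' := mτ.mono_right (sub2.trans sub)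
  have hPS : ∀ y ∈ P ∪ M, y ∉ S := fun y hy => (hPM ▸ hy : y ∈ U \ S).2
  have tri : ∀ q ∈ S ×ˢ Icc (-1 : ℝ) 1, (κ q ∈ P ↔ 0 < q.2) ∧ (κ q ∈ M ↔ q.2 < 0) ∧ κ q ∈ U := by
    intro q hq
    have hU' : ∀ y ∈ P ∪ M, y ∈ U := fun y hy => (hPM ▸ hy : y ∈ U \ S).1
    rcases lt_trichotomy q.2 0 with a | a | a
    · have := h.neg q hq a
      exact ⟨iff_of_false (disjoint_right.1 hd this) a.not_gt, iff_of_true this a,
        hU' _ (Or.inr this)⟩
    · have e : κ q = q.1 := by rw [← h.zero _ hq.1, ← a]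
      rw [e]
      exact ⟨iff_of_false (fun g => hPS _ (Or.inl g) hq.1) a.not_gt,
        iff_of_false (fun g => hPS _ (Or.inr g) hq.1) a.not_lt, hSU hq.1⟩
    · have := h.pos q hq a
      exact ⟨iff_of_true this a, iff_of_false (disjoint_left.1 hd this) a.not_gt,
        hU' _ (Or.inl this)⟩
  let Y : Set E3 := κ '' (S ×ˢ Icc (-(1 / 2) : ℝ) (1 / 2))
  let O : Set E3 := κ '' (S ×ˢ Ioo (-1 : ℝ) 1)
  let lam : E3 → ℝ := fun y => if y ∈ O then cl (j y) else if y ∈ P then 1 else -1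
  have hYc : ClosedIn Y U := h.closedIn hU hcl (by norm_num) (by norm_num)
  have l1 : ∀ q ∈ S ×ˢ Ioo (-1 : ℝ) 1, lam (κ q) = cl q := fun q hq => by
    simp only [lam]
    rw [if_pos (mem_image_of_mem _ hq), hj q (sub hq)]
  have l2 : ∀ y ∈ P, y ∉ Y → lam y = 1 := by
    intro y hy hY
    by_cases hO : y ∈ O
    · obtain ⟨q, hq, rfl⟩ := hO
      have a := (tri q (sub hq)).1.1 hy
      have b : 1 / 2 < q.2 := not_le.1 fun g => hY ⟨q, ⟨hq.1, by linarith, g⟩, rfl⟩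
      rw [l1 q hq, cl, min_eq_left (by linarith), max_eq_right (by norm_num)]
    · simp only [lam, if_neg hO, if_pos hy]
  have l3 : ∀ y ∈ M, y ∉ Y → lam y = -1 := by
    intro y hy hY
    by_cases hO : y ∈ O
    · obtain ⟨q, hq, rfl⟩ := hO
      have a := (tri q (sub hq)).2.1.1 hy
      have b : q.2 < -(1 / 2) := not_le.1 fun g => hY ⟨q, ⟨hq.1, g, by linarith⟩, rfl⟩
      rw [l1 q hq, cl, max_eq_left ((min_le_right _ _).trans (by linarith))]
    · simp only [lam, if_neg hO, if_neg (disjoint_right.1 hd hy)]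
  have hSY : S ⊆ Y := fun x hx => ⟨(x, 0), ⟨hx, by norm_num, by norm_num⟩, h.zero x hx⟩
  have out : ∀ y ∈ U, y ∉ Y → y ∈ P ∪ M := fun y hy hY => hPM ▸ ⟨hy, fun g => hY (hSY g)⟩
  have loc : ∀ y ∈ U, ContinuousAt lam y ∧ ConicalWithinAt lam univ y := by
    intro y hy
    have gen : ∀ f : E3 → ℝ, ContinuousAt f y → ConicalWithinAt f univ y → lam =ᶠ[𝓝 y] f →
        ContinuousAt lam y ∧ ConicalWithinAt lam univ y := fun f a b c =>
      ⟨a.congr c.symm, b.congr_nhds (Eventually.of_forall fun _ => Iff.rfl)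
        (c.mono fun z hz _ => hz) c.self_of_nhds⟩
    by_cases hO : y ∈ O
    · obtain ⟨q, hq, rfl⟩ := hO
      refine gen (cl ∘ j) (pl_cl.1.continuousAt.comp (hj2 q hq).1)
        ((pl_cl.2 _ trivial).comp (hj2 q hq).2 (mapsTo_univ _ _)
          (hj2 q hq).1.continuousWithinAt) ?_
      filter_upwards [(h.isOpen le_rfl le_rfl).mem_nhds (mem_image_of_mem _ hq)] with z hz
      exact if_pos hz
    · have hY : y ∉ Y := fun g => hO (image_mono sub2 g)
      have n : (closure Y)ᶜ ∈ 𝓝 y :=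
        isClosed_closure.isOpen_compl.mem_nhds fun g => hY (hYc y hy g)
      rcases out y hy hY with g | g
      · refine gen (fun _ => 1) continuousAt_const ((PL.const _).2 _ trivial) ?_
        filter_upwards [n, hP.mem_nhds g] with z a b
        exact l2 z b fun c => a (subset_closure c)
      · refine gen (fun _ => -1) continuousAt_const ((PL.const _).2 _ trivial) ?_
        filter_upwards [n, hM.mem_nhds g] with z a b
        exact l3 z b fun c => a (subset_closure c)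
  have hX : ConicalSet (S ×ˢ Icc (-1 : ℝ) 1) := h.con.conicalSet
  refine ⟨Y,
    { toFun := κ ∘ fun q : E3 × ℝ => (q.1, 1 / 2 * q.2)
      invFun := (fun q : E3 × ℝ => (q.1, 2 * q.2)) ∘ j
      mapsTo := (mapsTo_image _ _).comp mτ
      mapsTo_inv := ?_
      left_inv := fun q hq => ?_
      right_inv := ?_
      cont := h.cont.comp hτ.1.continuousOn mτ'
      cont_inv := ?_
      conical := h.con.comp (hτ.2.mono hX (subset_univ _)) mτ' hτ.1.continuousOn },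
    lam, ?_, hYc, ?_, ⟨fun y hy => (loc y hy).1.continuousWithinAt, fun y hy =>
      (loc y hy).2.mono_set (IsOpen.conicalSet hU y hy) (subset_univ _)⟩,
    fun x hx => ⟨?_, fun s hs => ⟨?_, ?_⟩⟩, fun y hy => ?_, fun y hy => ?_⟩
  · rintro _ ⟨q, hq, rfl⟩
    simp only [Function.comp, hj q (sub (sub2 hq))]
    exact ⟨hq.1, by simp only; linarith [hq.2.1], by simp only; linarith [hq.2.2]⟩
  · simp only [Function.comp, hj _ (mτ' hq)]
    exact Prod.ext rfl (by simp only; ring)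
  · rintro _ ⟨q, hq, rfl⟩
    simp only [Function.comp, hj q (sub (sub2 hq))]
    exact congrArg κ (Prod.ext rfl (by simp only; ring))
  · rintro _ ⟨q, hq, rfl⟩
    exact (hσ.1.continuousAt.comp (hj2 q (sub2 hq)).1).continuousWithinAt
  · rintro _ ⟨q, hq, rfl⟩
    exact (tri q (sub (sub2 hq))).2.2
  · have e : (κ ∘ fun q : E3 × ℝ => (q.1, 1 / 2 * q.2)) '' (S ×ˢ Ioo (-1) 1) =
        κ '' (S ×ˢ Ioo (-(1 / 2) : ℝ) (1 / 2)) := by
      refine Subset.antisymm ?_ ?_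
      · rintro _ ⟨q, hq, rfl⟩
        exact ⟨(q.1, 1 / 2 * q.2), ⟨hq.1, by simp only; linarith [hq.2.1],
          by simp only; linarith [hq.2.2]⟩, rfl⟩
      · rintro _ ⟨q, hq, rfl⟩
        exact ⟨(q.1, 2 * q.2), ⟨hq.1, by simp only; linarith [hq.2.1],
          by simp only; linarith [hq.2.2]⟩, congrArg κ (Prod.ext rfl (by simp only; ring))⟩
    exact e ▸ h.isOpen (by norm_num) (by norm_num)
  · change κ (x, 1 / 2 * 0) = x
    rw [mul_zero, h.zero x hx]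
  · change lam (κ (x, 1 / 2 * s)) = s
    rw [l1 _ (sub2 (mτ (show (x, s) ∈ S ×ˢ Icc (-1 : ℝ) 1 from ⟨hx, hs⟩))), cl]
    have : 2 * (1 / 2 * s) = s := by ring
    simp only [this]
    rw [min_eq_right hs.2, max_eq_right hs.1]
  · exact (h.near _ (mτ' (show (x, s) ∈ S ×ˢ Icc (-1 : ℝ) 1 from ⟨hx, hs⟩))).1
  · rcases out y hy.1 hy.2 with g | g
    · exact Or.inl (l2 y g hy.2)
    · exact Or.inr (l3 y g hy.2)
  · by_cases hY : y ∈ Y
    · obtain ⟨q, hq, rfl⟩ := hY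
      have e : lam (κ q) = 2 * q.2 := by
        rw [l1 q (sub2 hq), cl, min_eq_right (by linarith [hq.2.2]),
          max_eq_right (by linarith [hq.2.1])]
      obtain ⟨a, b, -⟩ := tri q (sub (sub2 hq))
      rw [e, a, b]
      exact ⟨⟨fun g => by linarith, fun g => by linarith⟩, fun g => by linarith,
        fun g => by linarith⟩
    · rcases out y hy hY with g | g
      · rw [l2 y g hY]
        exact ⟨iff_of_true g one_pos, iff_of_false (disjoint_left.1 hd g) (by norm_num)⟩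
      · rw [l3 y g hY]
        exact ⟨iff_of_false (disjoint_right.1 hd g) (by norm_num), iff_of_true g (by norm_num)⟩

end Col

theorem col_of (hL : LFL) (hG : PLG) (hT : THIN) : COL := by
  intro S U P M ε hU hSU hcl hS hP hM hd hPM hSP hSM hε
  obtain ⟨u, c, h⟩ := Col.exists_half hL hU hSU hcl hS hP hM hd hPM hSP hSM
  obtain ⟨u', c', h'⟩ := Col.exists_half hL hU hSU hcl hS hM hP hd.symm
    ((union_comm _ _).trans hPM) hSM hSP
  obtain ⟨w, κ, hb⟩ := Col.exists_bi hU hSU (Col.cs_man hS) hP hM hd hPM h h'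
  obtain ⟨κ', ht⟩ := hb.exists_thin hG hT hU hSU (Col.cs_man hS) hcl hε
  exact ht.col hU hSU hcl (Col.cs_man hS) hP hM hd hPM

end P073
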