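import Vale.Agent.P073Z.JB.Lfl
import Vale.Agent.P073Z.JB.Two

/-!
# The Jordan-Brouwer theorem for PL spheres in space
-/

open Set Metric Topology Filter

namespace P073.JBs

/-- the two half cubes of a flat chart -/
theorem side_of_chart {S : Set E3} {x : E3} (Φ : ConHomeo (univ : Set E3) (univ : Set E3))
    (h0 : Φ.toFun x = 0) (h : ∀ᶠ y in 𝓝 x, (y ∈ S ↔ Φ.toFun y 2 = 0)) :
    ∃ ρ : ℝ, 0 < ρ ∧ (∀ y, Φ.toFun y ∈ ball (0 : E3) ρ → (y ∈ S ↔ Φ.toFun y 2 = 0)) ∧
      Side S x (Φ.toFun ⁻¹' ball 0 ρ) (Φ.invFun '' (ball 0 ρ ∩ {z | 0 < z 2}))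
        (Φ.invFun '' (ball 0 ρ ∩ {z | z 2 < 0})) := by
  have hx : Φ.invFun 0 = x := by rw [← h0, Φ.inv_apply]
  have h1 : ∀ᶠ z in 𝓝 (0 : E3), (Φ.invFun z ∈ S ↔ Φ.toFun (Φ.invFun z) 2 = 0) := by
    have h2 : Tendsto Φ.invFun (𝓝 0) (𝓝 x) := hx ▸ Φ.continuous_inv.tendsto 0
    exact h2.eventually h
  obtain ⟨ρ, hρ, hb⟩ := Metric.eventually_nhds_iff_ball.1 h1
  have key : ∀ y, Φ.toFun y ∈ ball (0 : E3) ρ → (y ∈ S ↔ Φ.toFun y 2 = 0) := by
    intro y hy
    have := hb _ hy
    rwa [Φ.inv_apply] at this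
  have l2 : IsLinearMap ℝ (fun z : E3 => z 2) := ⟨fun _ _ => rfl, fun _ _ => rfl⟩
  have hcl : ∀ (σ : ℝ), σ = 1 ∨ σ = -1 → ∀ z ∈ ball (0 : E3) ρ, z 2 = 0 →
      z ∈ closure (ball (0 : E3) ρ ∩ {w | 0 < σ * w 2}) := by
    intro σ hσ z hz hz2
    have hc : Continuous (fun t : ℝ => z + t • (Pi.single 2 σ : E3)) := by fun_prop
    have ht : Tendsto (fun t : ℝ => z + t • (Pi.single 2 σ : E3)) (𝓝[>] 0) (𝓝 z) := by
      have := hc.tendsto 0
      rw [zero_smul, add_zero] at this
      exact this.mono_left nhdsWithin_le_nhds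
    refine mem_closure_of_tendsto ht ?_
    filter_upwards [ht.eventually (isOpen_ball.mem_nhds hz), self_mem_nhdsWithin] with t t1 t2
    refine ⟨t1, ?_⟩
    have t3 : (0:ℝ) < t := t2
    show 0 < σ * (z 2 + t * (Pi.single 2 σ : E3) 2)
    rw [hz2, Pi.single_eq_same, zero_add]
    rcases hσ with h | h <;> rw [h] <;> linarith
  refine ⟨ρ, hρ, key, isOpen_ball.preimage Φ.continuous, ?_, ?_, ?_, ?_, ?_⟩
  · show Φ.toFun x ∈ ball (0 : E3) ρ
    rw [h0]
    exact mem_ball_self hρ
  · exact ((convex_ball _ _).inter (convex_halfSpace_gt l2 0)).isPreconnected.image _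
      Φ.continuous_inv.continuousOn
  · exact ((convex_ball _ _).inter (convex_halfSpace_lt l2 0)).isPreconnected.image _
      Φ.continuous_inv.continuousOn
  · ext y
    constructor
    · rintro ⟨hy, hyS⟩
      have h3 : Φ.toFun y 2 ≠ 0 := fun h4 => hyS ((key y hy).2 h4)
      rcases lt_or_gt_of_ne h3 with h4 | h4
      · exact Or.inr ⟨_, ⟨hy, h4⟩, Φ.inv_apply y⟩
      · exact Or.inl ⟨_, ⟨hy, h4⟩, Φ.inv_apply y⟩
    · have aux : ∀ z ∈ ball (0 : E3) ρ, z 2 ≠ 0 → Φ.invFun z ∈ Φ.toFun ⁻¹' ball 0 ρ \ S := by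
        intro z hz hz2
        have h3 : Φ.toFun (Φ.invFun z) ∈ ball (0 : E3) ρ := by rw [Φ.apply_inv]; exact hz
        refine ⟨h3, fun h4 => hz2 ?_⟩
        have := (key _ h3).1 h4
        rwa [Φ.apply_inv] at this
      rintro (⟨z, ⟨h3, h4⟩, rfl⟩ | ⟨z, ⟨h3, h4⟩, rfl⟩)
      · exact aux z h3 (ne_of_gt h4)
      · exact aux z h3 (ne_of_lt h4)
  · rintro y ⟨hyS, hy⟩
    have h3 := (key y hy).1 hyS
    constructor
    · rw [← Φ.inv_apply y]
      refine mem_closure_image Φ.continuous_inv.continuousAt ?_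
      have := hcl 1 (Or.inl rfl) _ hy h3
      simpa using this
    · rw [← Φ.inv_apply y]
      refine mem_closure_image Φ.continuous_inv.continuousAt ?_
      have := hcl (-1) (Or.inr rfl) _ hy h3
      simpa using this

/-- a point outside the convex hull lies in an unbounded component -/
theorem inside_subset_convexHull (S : Set E3) : Inside S ⊆ convexHull ℝ S := by
  rintro y ⟨hy, hb⟩
  by_contra hn
  obtain ⟨v, hv⟩ : ∃ v : E3, ‖v‖ = 1 := exists_norm_eq E3 zero_le_one
  have ray : ∀ w : E3, ‖w‖ = 1 → ∃ t : ℝ, 0 < t ∧ y + t • w ∈ S := by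
    intro w hw
    by_contra hc
    push Not at hc
    have h1 : (fun t : ℝ => y + t • w) '' Ici 0 ⊆ connectedComponentIn Sᶜ y := by
      refine IsPreconnected.subset_connectedComponentIn
        (isPreconnected_Ici.image _ (by fun_prop)) ⟨0, mem_Ici.2 le_rfl, by simp⟩ ?_
      rintro _ ⟨t, ht, rfl⟩
      rcases eq_or_lt_of_le (mem_Ici.1 ht) with h0 | h0
      · rw [← h0]
        simpa using hy
      · exact hc t h0
    obtain ⟨R, hR⟩ := (hb.subset h1).subset_closedBall y
    have h2 := hR ⟨|R| + 1, by show (0:ℝ) ≤ |R| + 1; positivity, rfl⟩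
    rw [mem_closedBall, dist_eq_norm] at h2
    simp only [add_sub_cancel_left] at h2
    rw [norm_smul, hw, mul_one, Real.norm_of_nonneg (by positivity)] at h2
    linarith [le_abs_self R]
  obtain ⟨a, ha, h1⟩ := ray v hv
  obtain ⟨b, hb', h2⟩ := ray (-v) (by rw [norm_neg, hv])
  apply hn
  have h3 := (convex_convexHull ℝ S) (subset_convexHull ℝ S h1) (subset_convexHull ℝ S h2)
    (a := b / (a + b)) (b := a / (a + b)) (by positivity) (by positivity) (by field_simp; ring)
  have e : (b / (a + b)) • (y + a • v) + (a / (a + b)) • (y + b • -v) = y := by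
    have e1 : b / (a + b) + a / (a + b) = 1 := by field_simp; ring
    have e2 : b / (a + b) * a - a / (a + b) * b = 0 := by ring
    calc _ = (b / (a + b) + a / (a + b)) • y + (b / (a + b) * a - a / (a + b) * b) • v := by
          module
      _ = y := by rw [e1, e2, one_smul, zero_smul, add_zero]
  rwa [e] at h3

/-- the main statement, for an arbitrary continuous extension of the parametrisation -/
theorem core (hl : LFL) (hw : WIND) (hj : JMP) (hm : MANEX) {S : Set E3}
    (σ : ConHomeo (sphere (0 : E3) 1) S) {G : E3 → E3} (hG : ContinuousOn G (closedBall 0 1))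
    (he : EqOn G σ.toFun (sphere 0 1)) :
    ∃ p m, p ∉ S ∧ m ∉ S ∧ Inside S = connectedComponentIn Sᶜ p ∧
      (S ∪ Inside S)ᶜ = connectedComponentIn Sᶜ m ∧ Inside S ⊆ G '' closedBall 0 1 ∧
      ∀ y, y ∉ S → frontier (connectedComponentIn Sᶜ y) = S := by
  have hcpt : IsCompact S := σ.isCompact_right (isCompact_sphere _ _)
  have hS : IsClosed S := hcpt.isClosed
  have hSc : IsConnected S := by
    rw [← σ.image_eq]
    refine (isConnected_sphere ?_ 0 zero_le_one).image _ σ.cont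
    rw [rank_fin_fun]
    norm_num
  have hchart : ∀ x ∈ S, ∃ Φ : ConHomeo (univ : Set E3) (univ : Set E3), Φ.toFun x = 0 ∧
      ∀ᶠ y in 𝓝 x, (y ∈ S ↔ Φ.toFun y 2 = 0) := by
    intro x hx
    obtain ⟨C, B, c1, c2, c3, c4⟩ := hm.2.1 (n := 2) ⟨σ.symm⟩ x hx
    exact hl c1 c2 c3 c4
  have hside : ∀ x ∈ S, ∃ U P M, Side S x U P M := by
    intro x hx
    obtain ⟨Φ, f1, f2⟩ := hchart x hx
    obtain ⟨ρ, -, -, h⟩ := side_of_chart Φ f1 f2
    exact ⟨_, _, _, h⟩
  obtain ⟨x, hx⟩ := hSc.nonempty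
  obtain ⟨Φ, f1, f2⟩ := hchart x hx
  obtain ⟨ρ, hρ, key, hsd⟩ := side_of_chart Φ f1 f2
  -- the winding number after straightening
  have hG' : ContinuousOn (Φ.toFun ∘ G) (closedBall 0 1) := Φ.continuous.comp_continuousOn hG
  have himg : (Φ.toFun ∘ G) '' sphere 0 1 = Φ.toFun '' S := by
    rw [image_comp, he.image_eq, σ.image_eq]
  obtain ⟨-, w2, -, w4⟩ := hw hG'
  have hconst : ∀ y z, z ∈ connectedComponentIn Sᶜ y →
      wind (Φ.toFun ∘ G) (Φ.toFun y) = wind (Φ.toFun ∘ G) (Φ.toFun z) := by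
    intro y z hz
    have hy : y ∈ Sᶜ := connectedComponentIn_nonempty_iff.1 ⟨z, hz⟩
    refine w2 (Φ.toFun '' connectedComponentIn Sᶜ y)
      (isPreconnected_connectedComponentIn.image _ Φ.continuous.continuousOn) ?_ _
      (mem_image_of_mem _ (mem_connectedComponentIn hy)) _ (mem_image_of_mem _ hz)
    rw [himg, disjoint_image_iff Φ.injective]
    exact disjoint_left.2 fun a ha => connectedComponentIn_subset _ _ ha
  have hzero : ∀ y, y ∉ G '' closedBall 0 1 → wind (Φ.toFun ∘ G) (Φ.toFun y) = 0 := by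
    intro y hy
    refine w4 _ fun h => hy ?_
    rw [image_comp] at h
    exact Φ.apply_mem_image_iff.1 h
  let ℓ : E3 →ᵃ[ℝ] ℝ := (LinearMap.proj (R := ℝ) (φ := fun _ : Fin 3 => ℝ) 2).toAffineMap
  have hℓ : ∀ z : E3, ℓ z = z 2 := fun _ => rfl
  let z₁ : E3 := Pi.single 2 (ρ / 2)
  let z₂ : E3 := Pi.single 2 (-(ρ / 2))
  have hz₁ : z₁ ∈ ball (0 : E3) ρ := by
    rw [mem_ball_zero_iff, Pi.norm_single, Real.norm_of_nonneg (by linarith)]
    linarith
  have hz₂ : z₂ ∈ ball (0 : E3) ρ := by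
    rw [mem_ball_zero_iff, Pi.norm_single, norm_neg, Real.norm_of_nonneg (by linarith)]
    linarith
  have e₁ : 0 < z₁ 2 := by
    show 0 < (Pi.single 2 (ρ / 2) : E3) 2
    rw [Pi.single_eq_same]
    linarith
  have e₂ : z₂ 2 < 0 := by
    show (Pi.single 2 (-(ρ / 2)) : E3) 2 < 0
    rw [Pi.single_eq_same]
    linarith
  have heq : EqOn (Φ.toFun ∘ G) (Φ.toFun ∘ σ.toFun) (sphere 0 1) := fun u hu => by
    show Φ.toFun (G u) = Φ.toFun (σ.toFun u)
    rw [he hu]
  have hjump := hj ℓ (p := 0) (r := ρ) hG' (by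
      intro h
      have := LinearMap.congr_fun h z₁
      exact e₁.ne' this) rfl hρ (by
      intro u hu u' hu' h
      rw [heq hu.1, heq hu'.1] at h
      exact σ.injOn hu.1 hu'.1 (Φ.injective h)) (by
      intro u hu
      have h1 : ConicalWithinAt (Φ.toFun ∘ σ.toFun) (sphere 0 1) u :=
        Φ.conical.comp σ.conical (mapsTo_univ _ _) σ.cont u hu.1
      have h2 : ∀ᶠ u' in 𝓝[sphere 0 1] u, (Φ.toFun ∘ G) u' ∈ ball (0 : E3) ρ :=
        (hG'.mono sphere_subset_closedBall u hu.1) (isOpen_ball.mem_nhds hu.2)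
      refine h1.congr_nhds ?_ (Eventually.of_forall fun u' hu' => heq hu') (heq hu.1)
      filter_upwards [eventually_nhdsWithin_iff.1 h2] with u' hu'
      exact ⟨fun h => h.1, fun h => ⟨h, hu' h⟩⟩) (by
      rw [image_inter_preimage, himg]
      ext z
      constructor
      · rintro ⟨⟨y, hy, rfl⟩, hz⟩
        exact ⟨hz, (key y hz).1 hy⟩
      · rintro ⟨hz, hz0⟩
        refine ⟨Φ.mem_image_iff.2 ?_, hz⟩
        have h3 : Φ.toFun (Φ.invFun z) ∈ ball (0 : E3) ρ := by rw [Φ.apply_inv]; exact hz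
        refine (key _ h3).2 ?_
        rw [Φ.apply_inv]
        exact hz0) z₁ hz₁ z₂ hz₂ e₁ e₂
  have hp : Φ.invFun z₁ ∈ Φ.invFun '' (ball 0 ρ ∩ {z | 0 < z 2}) := mem_image_of_mem _ ⟨hz₁, e₁⟩
  have hq : Φ.invFun z₂ ∈ Φ.invFun '' (ball 0 ρ ∩ {z | z 2 < 0}) := mem_image_of_mem _ ⟨hz₂, e₂⟩
  set p := Φ.invFun z₁ with hpd
  set q := Φ.invFun z₂ with hqd
  have hne : wind (Φ.toFun ∘ G) (Φ.toFun p) ≠ wind (Φ.toFun ∘ G) (Φ.toFun q) := by
    rw [hpd, hqd, Φ.apply_inv, Φ.apply_inv]
    intro h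
    rw [h, sub_self] at hjump
    rcases hjump with h1 | h1 <;> norm_num at h1
  have hpS : p ∉ S := hsd.p_sub hp
  have hqS : q ∉ S := hsd.m_sub hq
  have htwo : ∀ y, y ∉ S → connectedComponentIn Sᶜ y = connectedComponentIn Sᶜ p ∨
      connectedComponentIn Sᶜ y = connectedComponentIn Sᶜ q :=
    fun y hy => comp_eq_or hS hSc hside hx hsd hp hq hy
  have hGb : Bornology.IsBounded (G '' closedBall 0 1) :=
    ((isCompact_closedBall _ _).image_of_continuousOn hG).isBounded
  -- symmetric form of the conclusion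
  have main : ∀ a b, a ∉ S → b ∉ S → wind (Φ.toFun ∘ G) (Φ.toFun a) ≠ 0 →
      (∀ y, y ∉ S → connectedComponentIn Sᶜ y = connectedComponentIn Sᶜ a ∨
        connectedComponentIn Sᶜ y = connectedComponentIn Sᶜ b) →
      Inside S = connectedComponentIn Sᶜ a ∧ (S ∪ Inside S)ᶜ = connectedComponentIn Sᶜ b ∧
        Inside S ⊆ G '' closedBall 0 1 := by
    intro a b ha hb hwa hab
    have h1 : connectedComponentIn Sᶜ a ⊆ G '' closedBall 0 1 := by
      intro z hz
      by_contra hn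
      exact hwa ((hconst a z hz).trans (hzero z hn))
    have h2 : ¬ Bornology.IsBounded (connectedComponentIn Sᶜ b) := by
      intro hbd
      have h3 : (univ : Set E3) ⊆ S ∪ (G '' closedBall 0 1 ∪ connectedComponentIn Sᶜ b) := by
        intro y _
        by_cases hy : y ∈ S
        · exact Or.inl hy
        · rcases hab y hy with h | h
          · exact Or.inr (Or.inl (h1 (h ▸ mem_connectedComponentIn hy)))
          · exact Or.inr (Or.inr (h ▸ mem_connectedComponentIn hy))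
      exact NormedSpace.unbounded_univ ℝ E3 ((hcpt.isBounded.union (hGb.union hbd)).subset h3)
    have h4 : Inside S = connectedComponentIn Sᶜ a := by
      ext y
      constructor
      · rintro ⟨hy, hbd⟩
        rcases hab y hy with h | h
        · exact h ▸ mem_connectedComponentIn hy
        · exact absurd (h ▸ hbd) h2
      · intro hy
        refine ⟨connectedComponentIn_subset _ _ hy, ?_⟩
        rw [← connectedComponentIn_eq hy]
        exact hGb.subset h1
    refine ⟨h4, ?_, h4 ▸ h1⟩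
    ext y
    constructor
    · intro hy
      have hy1 : y ∉ S := fun h => hy (Or.inl h)
      rcases hab y hy1 with h | h
      · exact absurd (Or.inr (h4 ▸ h ▸ mem_connectedComponentIn hy1)) hy
      · exact h ▸ mem_connectedComponentIn hy1
    · rintro hy (h | h)
      · exact connectedComponentIn_subset _ _ hy h
      · apply h2
        rw [connectedComponentIn_eq hy]
        exact h.2
  have hfr : ∀ y, y ∉ S → frontier (connectedComponentIn Sᶜ y) = S :=
    fun y hy => frontier_comp hS hSc hside hy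
  by_cases hp0 : wind (Φ.toFun ∘ G) (Φ.toFun p) = 0
  · obtain ⟨m1, m2, m3⟩ := main q p hqS hpS (fun h => hne (hp0.trans h.symm))
      (fun y hy => (htwo y hy).symm)
    exact ⟨q, p, hqS, hpS, m1, m2, m3, hfr⟩
  · obtain ⟨m1, m2, m3⟩ := main p q hpS hqS hp0 htwo
    exact ⟨p, q, hpS, hqS, m1, m2, m3, hfr⟩

end P073.JBs

namespace P073

open JBs

theorem jb_of (hl : LFL) (hw : WIND) (hj : JMP) (hm : MANEX) : JB := by
  constructor
  · rintro S ⟨e⟩
    have hG : ContinuousOn (coneMap (sphere (0 : E3) 1) e.symm.toFun) (closedBall 0 1) := by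
      have := continuousOn_coneMap (rayBase_sphere_pi 3) e.symm.cont
      rwa [coneSet_sphere_pi 3] at this
    obtain ⟨p, m, hp, hm', h1, h2, h3, h4⟩ := core hl hw hj hm e.symm hG
      (fun u hu => coneMap_of_mem (rayBase_sphere_pi 3) _ hu)
    have hcpt : IsCompact S := e.symm.isCompact_right (isCompact_sphere _ _)
    have ho : ∀ y, IsOpen (connectedComponentIn Sᶜ y) :=
      fun y => hcpt.isClosed.isOpen_compl.connectedComponentIn
    refine ⟨h1 ▸ ho p, h1 ▸ h4 p hp, h1 ▸ isConnected_connectedComponentIn_iff.2 hp,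
      h2 ▸ isConnected_connectedComponentIn_iff.2 hm', h2 ▸ h4 m hm', ?_,
      inside_subset_convexHull S⟩
    refine Metric.isCompact_of_isClosed_isBounded ?_ (hcpt.isBounded.union ?_)
    · rw [← isOpen_compl_iff, h2]
      exact ho m
    · exact ((isCompact_closedBall _ _).image_of_continuousOn hG).isBounded.subset h3
  · intro C B h
    have hB := h.conicalSet_bdry
    obtain ⟨hBC, φ, hφ⟩ := h
    let e : ConHomeo B (sphere (0 : E3) 1) := (φ.restr hB hBC).cast rfl hφ
    obtain ⟨p, m, hp, -, h1, -, h3, -⟩ := core hl hw hj hm e.symm (G := φ.invFun) φ.cont_inv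
      (fun u _ => rfl)
    have h4 : φ.invFun '' closedBall 0 1 = C := φ.symm.image_eq
    have h5 : Inside B ⊆ C \ B := fun y hy => ⟨h4 ▸ h3 hy, hy.1⟩
    have h6 : C \ B = φ.invFun '' ball 0 1 := by
      ext y
      constructor
      · rintro ⟨hyC, hyB⟩
        refine ⟨φ.toFun y, ?_, φ.left_inv hyC⟩
        rcases lt_or_eq_of_le (mem_closedBall_zero_iff.1 (φ.mapsTo hyC)) with h7 | h7
        · exact mem_ball_zero_iff.2 h7
        · exfalso
          have : φ.toFun y ∈ φ.toFun '' B := by rw [hφ]; exact mem_sphere_zero_iff_norm.2 h7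
          obtain ⟨b, hb, he⟩ := this
          exact hyB (φ.injOn (hBC hb) hyC he ▸ hb)
      · rintro ⟨z, hz, rfl⟩
        refine ⟨φ.mapsTo_inv (ball_subset_closedBall hz), fun hb => ?_⟩
        have h7 : φ.toFun (φ.invFun z) ∈ sphere (0 : E3) 1 := hφ ▸ mem_image_of_mem _ hb
        rw [φ.right_inv (ball_subset_closedBall hz), mem_sphere_zero_iff_norm] at h7
        exact (mem_ball_zero_iff.1 hz).ne h7
    have h8 : IsPreconnected (C \ B) := by
      rw [h6]
      exact (convex_ball _ _).isPreconnected.image _ (φ.cont_inv.mono ball_subset_closedBall)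
    refine Subset.antisymm h5 ?_
    rw [h1]
    exact h8.subset_connectedComponentIn (h5 (h1 ▸ mem_connectedComponentIn hp))
      (fun y hy => hy.2)

end P073
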