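import Vale.Agent.P073Z.WIND
import Vale.Agent.P073Z.A1b

/-!
# The jump lemma: the unconditional statement
-/

namespace P073

theorem jmp : JMP := jmp_of aeaff

end P073
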