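import Vale.Agent.P073Z.DISC2.Cos
import Vale.Agent.P073Z.DISC2.Repl
import Vale.Agent.P073Z.A8a
import Vale.Agent.P073Z.A12.Arcs
import Vale.Agent.P073Z.A12.Cid
import Vale.Agent.P073Z.A12.Xc

/-!
# Plane topology, second part: the unconditional statements
-/

namespace P073

theorem exa : EXA := exa_of (mod_of iod) arcs

theorem path : PATH := path_of arcs

theorem uni : UNI := uni_of (mod_of iod) arcs xc

theorem repl : REPL := repl_of (mod_of iod) arcs (cid_of iod) xc

end P073
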