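import Vale.Agent.P073Z.PUSH.B
import Vale.Agent.P073Z.DISC2

/-!
# Sliding a point along a boundary arc of a disc
-/

open Set Metric Topology Filter

namespace P073

open A2 PU

namespace PU

theorem mem_cube_two {z : E2} : z ∈ closedBall (0 : E2) 1 ↔ |z 0| ≤ 1 ∧ |z 1| ≤ 1 := by
  rw [mem_closedBall_zero_iff, pi_norm_le_iff_of_nonneg zero_le_one, Fin.forall_fin_two]
  rfl

theorem mem_ball_two {z : E2} : z ∈ ball (0 : E2) 1 ↔ |z 0| < 1 ∧ |z 1| < 1 := by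
  rw [mem_ball_zero_iff, pi_norm_lt_iff zero_lt_one, Fin.forall_fin_two]
  rfl

theorem slide_cube {O : Set E2} {p q : E2} (hp : |p 0| ≤ 1 / 2 ∧ p 1 = -1)
    (hq : |q 0| ≤ 1 / 2 ∧ q 1 = -1)
    (hO : ∀ x : E2, |x 0| ≤ 1 / 2 → x 1 = -1 → O ∈ 𝓝[closedBall 0 1] x) :
    ∃ Ψ : ConHomeo (closedBall (0 : E2) 1) (closedBall (0 : E2) 1), Ψ.toFun p = q ∧
      Ψ.toFun '' sphere 0 1 = sphere 0 1 ∧ ∀ x ∈ closedBall (0 : E2) 1 \ O, Ψ.toFun x = x := by
  have hc : Convex ℝ {x : E2 | |x 0| ≤ 1 / 2 ∧ x 1 = -1} := by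
    rintro x ⟨hx, hx'⟩ y ⟨hy, hy'⟩ a b ha hb hab
    obtain ⟨h1, h2⟩ := abs_le.1 hx
    obtain ⟨h3, h4⟩ := abs_le.1 hy
    simp only [mem_ofPred_eq, Pi.add_apply, Pi.smul_apply, smul_eq_mul, hx', hy']
    refine ⟨abs_le.2 ⟨?_, ?_⟩, ?_⟩ <;> nlinarith
  refine hc.isPreconnected.induction₂'
    (fun p q => ∃ Ψ : ConHomeo (closedBall (0 : E2) 1) (closedBall (0 : E2) 1), Ψ.toFun p = q ∧
      Ψ.toFun '' sphere 0 1 = sphere 0 1 ∧ ∀ x ∈ closedBall (0 : E2) 1 \ O, Ψ.toFun x = x)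
    (fun x hx => ?_) ?_ hp hq
  · obtain ⟨ε, hε, hεO⟩ := Metric.mem_nhdsWithin_iff.1 (hO x hx.1 hx.2)
    have hr : 0 < min ε (1 / 2) := lt_min hε (by norm_num)
    filter_upwards [mem_nhdsWithin_of_mem_nhds (closedBall_mem_nhds x (half_pos hr)),
      self_mem_nhdsWithin] with y hy hy'
    rw [mem_closedBall, dist_eq_norm] at hy
    obtain ⟨Φ, h1, h2, h3⟩ := exists_bump_move x (y - x) hr hy
    have h4 : ∀ z, Φ.toFun z 1 = z 1 := fun z => by
      obtain ⟨t, ht⟩ := h3 z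
      rw [ht]
      simp [hy'.2, hx.2]
    have h5 : ∀ z ∈ ball x (min ε (1 / 2)), |z 0| < 1 := fun z hz => by
      rw [mem_ball, dist_eq_norm] at hz
      have a1 := abs_lt.1 (((norm_le_pi_norm (z - x) 0).trans_lt hz).trans_le (min_le_right _ _))
      obtain ⟨a2, a3⟩ := abs_le.1 hx.1
      rw [Pi.sub_apply] at a1
      rw [abs_lt]
      constructor <;> linarith [a1.1, a1.2]
    have h6 : Φ.toFun '' closedBall 0 1 = closedBall 0 1 :=
      image_eq_of_fix Φ (subset_univ _) (fun z _ hz => h2 z hz) fun z _ hz hz' => by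
        rw [mem_cube_two, mem_cube_two, h4]
        simp [(h5 z hz).le, (h5 _ hz').le]
    have h7 : Φ.toFun '' sphere 0 1 = sphere 0 1 :=
      image_eq_of_fix Φ (subset_univ _) (fun z _ hz => h2 z hz) fun z _ hz hz' => by
        rw [← closedBall_sdiff_ball, Set.mem_sdiff, Set.mem_sdiff, mem_cube_two, mem_cube_two, mem_ball_two,
          mem_ball_two, h4]
        simp [(h5 z hz).le, (h5 _ hz').le, h5 z hz, h5 _ hz']
    let Ψ := (Φ.restr (conicalSet_cube 2) (subset_univ _)).cast rfl h6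
    have h8 : Ψ.toFun x = y := by
      show Φ.toFun x = y
      rw [h1, add_sub_cancel]
    have h9 : ∀ z ∈ closedBall (0 : E2) 1 \ O, Ψ.toFun z = z := fun z hz =>
      h2 z fun hb => hz.2 (hεO ⟨ball_subset_ball (min_le_left _ _) hb, hz.1⟩)
    have hxQ : x ∈ closedBall (0 : E2) 1 :=
      mem_cube_two.2 ⟨hx.1.trans (by norm_num), by rw [hx.2]; simp⟩
    refine ⟨⟨Ψ, h8, h7, h9⟩, Ψ.symm, ?_, inv_image Ψ sphere_subset_closedBall h7,
      fun z hz => inv_fix Ψ hz.1 (h9 z hz)⟩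
    rw [← h8]
    exact Ψ.left_inv hxQ
  · rintro x y z - - - ⟨Ψ, h1, h2, h3⟩ ⟨Ψ', h4, h5, h6⟩
    refine ⟨Ψ.trans Ψ', by simp [h1, h4], ?_, fun w hw => by simp [h3 w hw, h6 w hw]⟩
    rw [ConHomeo.trans_toFun, image_comp, h2, h5]

end PU

theorem slide : SLIDE := by
  intro E _ _ D B I O p q hD hI hIB hO hIO
  let p' : E2 := ![-(1 / 2), -1]
  let q' : E2 := ![1 / 2, -1]
  have hne : p' ≠ q' := fun h => by
    have := congrFun h 0
    simp [p', q'] at this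
    linarith
  have hseg : ∀ x : E2, x ∈ segment ℝ p' q' ↔ |x 0| ≤ 1 / 2 ∧ x 1 = -1 := fun x => by
    constructor
    · rintro ⟨a, b, ha, hb, hab, rfl⟩
      simp only [p', q', Pi.add_apply, Pi.smul_apply, smul_eq_mul, Matrix.cons_val_zero,
        Matrix.cons_val_one]
      refine ⟨abs_le.2 ⟨?_, ?_⟩, ?_⟩ <;> linarith
    · rintro ⟨h1, h2⟩
      obtain ⟨h3, h4⟩ := abs_le.1 h1
      refine ⟨1 / 2 - x 0, 1 / 2 + x 0, by linarith, by linarith, by ring, ?_⟩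
      ext i
      fin_cases i
      · simp [p', q']; ring
      · simp [p', q', h2]; ring
  obtain ⟨ψ, hp, hq⟩ := hI.exists_homeo (isArc_segment hne)
  have hsub : segment ℝ p' q' ⊆ sphere (0 : E2) 1 := fun x hx => by
    obtain ⟨h1, h2⟩ := (hseg x).1 hx
    rw [← closedBall_sdiff_ball, Set.mem_sdiff, mem_cube_two, mem_ball_two, h2]
    simp only [abs_neg, abs_one, le_refl, and_true, lt_self_iff_false, and_false,
      not_false_eq_true]
    linarith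
  have hunit : ConBall 2 (closedBall (0 : E2) 1) (sphere 0 1) :=
    ⟨sphere_subset_closedBall, ConHomeo.refl (conicalSet_cube 2), image_id' _⟩
  obtain ⟨φ, h1, h2⟩ := exa ψ hD hunit hI hIB hsub
  have hBD : B ⊆ D := hD.1
  have hpD : p ∈ D := hBD (hIB hI.left_mem)
  have hqD : q ∈ D := hBD (hIB hI.right_mem)
  obtain ⟨Ψ, a1, a2, a3⟩ := slide_cube (O := φ.invFun ⁻¹' O) (p := p') (q := q')
    ((hseg _).1 (left_mem_segment _ _ _)) ((hseg _).1 (right_mem_segment _ _ _)) fun x hx hx' => by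
      have b1 : x ∈ ψ.toFun '' I := ψ.image_eq.symm ▸ (hseg x).2 ⟨hx, hx'⟩
      obtain ⟨y, hy, rfl⟩ := b1
      rw [← h1 hy]
      exact preimage_mem φ (hBD (hIB hy)) (mem_nhdsWithin_of_mem_nhds (hO.mem_nhds (hIO hy)))
  refine ⟨φ.trans (Ψ.trans φ.symm), ?_, ?_, fun x hx => ?_⟩
  · show φ.invFun (Ψ.toFun (φ.toFun p)) = q
    rw [h1 hI.left_mem, hp, a1, ← hq, ← h1 hI.right_mem, φ.left_inv hqD]
  · rw [ConHomeo.trans_toFun, ConHomeo.trans_toFun, image_comp, image_comp, h2, a2, ← h2,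
      image_image]
    have : ∀ x ∈ B, φ.symm.toFun (φ.toFun x) = x := fun x hx => φ.left_inv (hBD hx)
    rw [image_congr this, image_id']
  · show φ.invFun (Ψ.toFun (φ.toFun x)) = x
    rw [a3 _ ⟨φ.mapsTo hx.1, fun h => hx.2 (by rwa [mem_preimage, φ.left_inv hx.1] at h)⟩,
      φ.left_inv hx.1]

end P073
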