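import Vale.Agent.P073Z.SCH3.Cell
import Vale.Agent.P073Z.SCH3.Coll

/-!
# Ball filling off one point
-/

open Set Metric Topology Filter

namespace P073

theorem conicalSet_prod_sch {E F : Type} [NormedAddCommGroup E] [NormedSpace ℝ E]
    [NormedAddCommGroup F] [NormedSpace ℝ F] {X : Set E} {Y : Set F} (hX : ConicalSet X)
    (hY : ConicalSet Y) : ConicalSet (X ×ˢ Y) := by
  intro q hq
  obtain ⟨r, hr, h1⟩ := hX q.1 hq.1
  obtain ⟨s, hs, h2⟩ := hY q.2 hq.2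
  refine ⟨min r s, lt_min hr hs, fun v hv hqv t ht => ⟨?_, ?_⟩⟩
  · exact h1 v.1 ((norm_fst_le v).trans (hv.trans (min_le_left _ _))) hqv.1 t ht
  · exact h2 v.2 ((norm_snd_le v).trans (hv.trans (min_le_right _ _))) hqv.2 t ht

/-- the inside of a PL sphere is a core with a collar -/
theorem exists_core (hJ : JB) (hC : COL) (hP : PUNCT) (hM : MANEX) {S : Set E3}
    (e : ConHomeo (sphere (0 : E3) 1) S) :
    ∃ (A : Set E3) (F : ConHomeo ((S ∪ Inside S) \ A) (closedBall (0 : E3) 1 \ {0}))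
      (f : E3 → E3), IsClosed A ∧ A.Nonempty ∧ A ⊆ Inside S ∧
      (∀ y ∈ (S ∪ Inside S) \ A, y ∈ Inside S ↔ ‖F.toFun y‖ < 1) ∧
      ContinuousOn f (S ∪ Inside S) ∧ EqOn f F.toFun ((S ∪ Inside S) \ A) ∧ (∀ y ∈ A, f y = 0) ∧
      ∀ x ∈ sphere (0 : E3) 1, F.invFun x = e.toFun x := by
  classical
  have hS : ConSphere 2 S := ⟨e.symm⟩
  obtain ⟨h1, h2, -, -, h5, h6, -⟩ := hJ.1 hS
  have hSc : IsCompact S := e.isCompact_right (isCompact_sphere _ _)
  obtain ⟨Y, κ, lam, -, -, -, hlam, hκ, hout, hsgn⟩ := hC (S := S) (U := univ)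
    (P := (S ∪ Inside S)ᶜ) (M := Inside S) (ε := fun _ => 1) isOpen_univ (subset_univ _)
    (fun x _ hx => by rwa [hSc.isClosed.closure_eq] at hx) (hM.2.1 hS) h6.isClosed.isOpen_compl h1
    (disjoint_compl_left.mono_right subset_union_right)
    (by
      ext y
      by_cases hy : y ∈ Inside S
      · simp [hy, hy.1]
      · simp [hy])
    (by conv_lhs => rw [← h5]
        exact frontier_subset_closure)
    (by conv_lhs => rw [← h2]
        exact frontier_subset_closure)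
    ⟨continuousOn_const, fun _ _ => one_pos⟩
  obtain ⟨P, hP⟩ := hP 3
  have hlc : Continuous lam := continuousOn_univ.1 hlam.1
  have hW : ∀ y, y ∈ S ∪ Inside S ↔ lam y ≤ 0 := fun y => by
    rw [← not_lt, ← (hsgn y (mem_univ y)).1, mem_compl_iff, not_not]
  have hI : ∀ y, y ∈ Inside S ↔ lam y < 0 := fun y => (hsgn y (mem_univ y)).2
  have hsub : S ×ˢ Ioc (-1:ℝ) 0 ⊆ S ×ˢ Icc (-1:ℝ) 1 := fun q hq =>
    ⟨hq.1, hq.2.1.le, hq.2.2.trans zero_le_one⟩
  have hlk : ∀ q ∈ S ×ˢ Icc (-1:ℝ) 1, lam (κ.toFun q) = q.2 := fun q hq =>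
    ((hκ q.1 hq.1).2 q.2 hq.2).1
  let A : Set E3 := {y | lam y = -1}
  have himg : κ.toFun '' (S ×ˢ Ioc (-1:ℝ) 0) = (S ∪ Inside S) \ A := by
    ext y
    constructor
    · rintro ⟨q, hq, rfl⟩
      refine ⟨(hW _).2 ?_, fun h => ?_⟩
      · rw [hlk q (hsub hq)]; exact hq.2.2
      · have : lam (κ.toFun q) = -1 := h
        rw [hlk q (hsub hq)] at this
        exact hq.2.1.ne' this
    · rintro ⟨hy, hyA⟩
      rw [hW] at hy
      have hyY : y ∈ Y := by_contra fun h => by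
        rcases hout y ⟨mem_univ y, h⟩ with h | h
        · linarith
        · exact hyA h
      have hq := κ.mapsTo_inv hyY
      have h3 := hlk _ hq
      rw [κ.right_inv hyY] at h3
      exact ⟨_, ⟨hq.1, lt_of_le_of_ne hq.2.1 fun h => hyA (h3.trans h.symm), h3 ▸ hy⟩,
        κ.right_inv hyY⟩
  have hcs : ConicalSet (S ×ˢ Ioc (-1:ℝ) 0) :=
    conicalSet_prod_sch e.conicalSet_right (Convex.conicalSet (convex_Ioc _ _))
  let M : ConHomeo (S ×ˢ Ioc (-1:ℝ) 0) (sphere (0 : E3) 1 ×ˢ Ioc (0:ℝ) 1) :=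
    { toFun := fun q => (e.invFun q.1, q.2 + 1)
      invFun := fun q => (e.toFun q.1, q.2 - 1)
      mapsTo := fun q hq => ⟨e.mapsTo_inv hq.1, by linarith [hq.2.1], by linarith [hq.2.2]⟩
      mapsTo_inv := fun q hq => ⟨e.mapsTo hq.1, by linarith [hq.2.1], by linarith [hq.2.2]⟩
      left_inv := fun q hq => by simp [e.right_inv hq.1]
      right_inv := fun q hq => by simp [e.left_inv hq.1]
      cont := (e.cont_inv.comp continuousOn_fst fun q hq => hq.1).prodMk (by fun_prop)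
      cont_inv := (e.cont.comp continuousOn_fst fun q hq => hq.1).prodMk (by fun_prop)
      conical := (e.conical_inv.comp (conicalOn_linear (LinearMap.fst ℝ E3 ℝ) hcs)
        (fun q hq => hq.1) continuousOn_fst).prodMk
        ((conicalOn_linear (LinearMap.snd ℝ E3 ℝ) hcs).add (conicalOn_const 1 hcs)) }
  let F := ((κ.restr hcs hsub).cast rfl himg).symm.trans (M.trans P)
  have hFn : ∀ y ∈ (S ∪ Inside S) \ A, ‖F.toFun y‖ = lam y + 1 := by
    intro y hy
    rw [← himg] at hy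
    obtain ⟨q, hq, rfl⟩ := hy
    show ‖P.toFun (M.toFun (κ.invFun (κ.toFun q)))‖ = _
    rw [κ.left_inv (hsub hq), hlk q (hsub hq)]
    exact (hP _ (M.mapsTo hq).1).2 _ (M.mapsTo hq).2
  have hA : IsClosed A := isClosed_eq hlc continuous_const
  let f : E3 → E3 := fun y => if y ∈ A then 0 else F.toFun y
  have hfA : ∀ y ∈ A, f y = 0 := fun y hy => if_pos hy
  have hfF : EqOn f F.toFun ((S ∪ Inside S) \ A) := fun y hy => if_neg hy.2
  refine ⟨A, F, f, hA, ?_, ?_, ?_, ?_, hfF, hfA, ?_⟩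
  · obtain ⟨x, hx⟩ : (sphere (0 : E3) 1).Nonempty := NormedSpace.sphere_nonempty.2 zero_le_one
    exact ⟨κ.toFun (e.toFun x, -1), hlk _ ⟨e.mapsTo hx, le_refl _, by norm_num⟩⟩
  · intro y hy
    have : lam y = -1 := hy
    rw [hI, this]; norm_num
  · intro y hy
    rw [hI, hFn y hy, add_lt_iff_neg_right]
  · intro y hy
    by_cases hyA : y ∈ A
    · rw [ContinuousWithinAt, hfA y hyA, tendsto_zero_iff_norm_tendsto_zero]
      have h3 : Tendsto (fun z => lam z + 1) (𝓝[S ∪ Inside S] y) (𝓝 (lam y + 1)) :=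
        ((hlc.add continuous_const).tendsto y).mono_left nhdsWithin_le_nhds
      have h4 : lam y = -1 := hyA
      rw [h4, neg_add_cancel] at h3
      refine h3.congr' ?_
      filter_upwards [self_mem_nhdsWithin] with z hz
      by_cases hzA : z ∈ A
      · have h5 : lam z = -1 := hzA
        rw [hfA z hzA, h5, neg_add_cancel, norm_zero]
      · rw [hfF ⟨hz, hzA⟩, hFn z ⟨hz, hzA⟩]
    · exact (continuousWithinAt_inter (hA.isOpen_compl.mem_nhds hyA)).1
        ((F.cont.congr hfF) y ⟨hy, hyA⟩)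
  · intro x hx
    have h3 : P.invFun x = (x, 1) := by
      conv_lhs => rw [← (hP x hx).1]
      exact P.left_inv ⟨hx, zero_lt_one, le_refl _⟩
    show κ.toFun (M.invFun (P.invFun x)) = _
    rw [h3]
    show κ.toFun (e.toFun x, 1 - 1) = _
    rw [sub_self, (hκ _ (e.mapsTo hx)).1]

theorem sch3_std (hJ : JB) (hC : COL) (hP : PUNCT) (hS : SHRINK) (hE : EMB) (hM : MANEX)
    {S N : Set E3} (e : ConHomeo (sphere (0 : E3) 1) S) (hN : IsClosed N)
    (hNi : interior N = ∅) : ∃ h g : E3 → E3, HomeoOn h g (closedBall 0 1) (S ∪ Inside S) ∧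
      EqOn h e.toFun (sphere 0 1) ∧ ConicalOn h (closedBall 0 1 \ {0}) ∧ h 0 ∉ N := by
  classical
  obtain ⟨A, F, f, hA, hne, hAO, hF, hf, hfF, hfA, hFe⟩ := exists_core hJ hC hP hM e
  obtain ⟨hO, -, -, -, -, hW, -⟩ := hJ.1 (S := S) ⟨e.symm⟩
  have hAW : A ⊆ S ∪ Inside S := hAO.trans subset_union_right
  have hAc : IsCompact A := hW.of_isClosed_subset hA hAW
  obtain ⟨c, a₁, r, r', k, k1, k2, k3, -, k5, k6, k7, k8, k9, k10, k11, k12⟩ :=
    exists_core_push hS hW hO subset_union_right hA hAO F hF hf hfF hfA hne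
  obtain ⟨Φ, a, hΦ, haN, hfib, hinj, hcon, hsurj, hid⟩ := exists_collapse hS hJ hAc hne hO hAO
    (fun U hU hAU => cellular_of_push hP hE hW hAc hAW hne k1 k2 k3 k5 k6 k7 k8 k9 k10 k11 k12
      hU hAU) hN hNi
  have hΦO : MapsTo Φ (Inside S) (Inside S) := by
    intro x hx
    by_contra hcon
    have h1 := hid _ hcon
    have h2 : Φ x ∉ A := fun h => hcon (hAO h)
    by_cases hxA : x ∈ A
    · exact h2 ((hfib _).1 (h1.trans ((hfib x).2 hxA)))
    · exact hcon ((hinj h2 hxA h1).symm ▸ hx)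
  have hΦW : MapsTo Φ (S ∪ Inside S) (S ∪ Inside S) := by
    intro x hx
    by_cases hxO : x ∈ Inside S
    · exact Or.inr (hΦO hxO)
    · rw [hid x hxO]; exact hx
  let h : E3 → E3 := fun x => if x = 0 then a else Φ (F.invFun x)
  have h0 : h 0 = a := if_pos rfl
  have h1 : ∀ x, x ≠ 0 → h x = Φ (F.invFun x) := fun x hx => if_neg hx
  have hhf : ∀ y ∈ S ∪ Inside S, h (f y) = Φ y := by
    intro y hy
    by_cases hyA : y ∈ A
    · rw [hfA y hyA, h0, (hfib y).2 hyA]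
    · rw [hfF ⟨hy, hyA⟩, h1 _ (F.mapsTo ⟨hy, hyA⟩).2, F.left_inv ⟨hy, hyA⟩]
  obtain ⟨a₀, ha₀⟩ := hne
  have hfm : MapsTo f (S ∪ Inside S) (closedBall 0 1) := by
    intro y hy
    by_cases hyA : y ∈ A
    · rw [hfA y hyA]; exact mem_closedBall_self zero_le_one
    · rw [hfF ⟨hy, hyA⟩]; exact (F.mapsTo ⟨hy, hyA⟩).1
  have hfs : closedBall (0 : E3) 1 ⊆ f '' (S ∪ Inside S) := by
    intro x hx
    by_cases hx0 : x = 0
    · exact ⟨a₀, hAW ha₀, by rw [hfA a₀ ha₀, hx0]⟩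
    · have h2 := F.mapsTo_inv (show x ∈ closedBall (0 : E3) 1 \ {0} from ⟨hx, hx0⟩)
      exact ⟨_, h2.1, by rw [hfF h2, F.right_inv ⟨hx, hx0⟩]⟩
  have hc : ContinuousOn h (closedBall 0 1) :=
    continuousOn_of_comp_eq hW hf hfs hΦ.continuousOn hhf
  have hbij : BijOn h (closedBall 0 1) (S ∪ Inside S) := by
    refine ⟨fun x hx => ?_, fun x hx y hy hxy => ?_, fun y hy => ?_⟩
    · obtain ⟨y, hy, rfl⟩ := hfs hx
      rw [hhf y hy]; exact hΦW hy
    · obtain ⟨u, hu, rfl⟩ := hfs hx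
      obtain ⟨v, hv, rfl⟩ := hfs hy
      rw [hhf u hu, hhf v hv] at hxy
      by_cases huA : u ∈ A
      · rw [hfA u huA, hfA v ((hfib v).1 (hxy ▸ (hfib u).2 huA))]
      · rw [hinj huA (fun hvA => huA ((hfib u).1 (hxy.trans ((hfib v).2 hvA)))) hxy]
    · obtain ⟨x, rfl⟩ := hsurj y
      have hx : x ∈ S ∪ Inside S := by_contra fun hx => by
        rw [hid x fun h => hx (Or.inr h)] at hy
        exact hx hy
      exact ⟨f x, hfm hx, hhf x hx⟩
  refine ⟨h, Function.invFunOn h (closedBall 0 1),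
    ⟨hbij.mapsTo, hbij.surjOn.mapsTo_invFunOn, hbij.injOn.leftInvOn_invFunOn,
      hbij.surjOn.rightInvOn_invFunOn, hc, ?_⟩, ?_, ?_, h0 ▸ haN⟩
  · exact continuousOn_of_comp_eq (isCompact_closedBall 0 1) hc hbij.surjOn continuousOn_id
      hbij.injOn.leftInvOn_invFunOn
  · intro x hx
    have hx0 : x ≠ 0 := fun h => by simp [h] at hx
    rw [h1 x hx0, hFe x hx, hid _ fun h => h.1 (e.mapsTo hx)]
  · exact (hcon.comp F.conical_inv (fun x hx => (F.mapsTo_inv hx).2) F.cont_inv).congr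
      fun x hx => h1 x hx.2

theorem sch3_of (hJ : JB) (hC : COL) (hP : PUNCT) (hS : SHRINK) (hE : EMB) (hV : MOVE)
    (hM : MANEX) : SCH3 := by
  intro E _ _ C B S N e z hCB hz hN hNi
  have hB := hCB.conicalSet_bdry
  obtain ⟨hBC, φ, hφ⟩ := hCB
  have hz' : φ.toFun z ∈ closedBall (0 : E3) 1 \ sphere 0 1 := by
    refine ⟨φ.mapsTo hz.1, fun h => ?_⟩
    rw [← hφ] at h
    obtain ⟨x, hx, hxz⟩ := h
    exact hz.2 (φ.injOn (hBC hx) hz.1 hxz ▸ hx)
  obtain ⟨Ψ, K', -, hK', hid, hΨ⟩ := hV (conBall_closedBall_at (0 : E3) one_pos) hz'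
    (q := 0) ⟨mem_closedBall_self zero_le_one, by simp⟩
  let χ := φ.trans Ψ
  have hχz : χ.toFun z = 0 := hΨ
  have hχB : χ.toFun '' B = sphere 0 1 := by
    show (Ψ.toFun ∘ φ.toFun) '' B = _
    rw [image_comp, hφ, image_congr (g := id), image_id]
    exact fun x hx => hid x ⟨sphere_subset_closedBall hx, fun h => (hK' h).2 hx⟩
  obtain ⟨h, g, hh, he, hcon, hN'⟩ := sch3_std hJ hC hP hS hE hM
    (((χ.restr hB hBC).cast rfl hχB).symm.trans e) hN hNi
  have hset : ConicalSet (C \ {z}) :=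
    χ.conicalSet_left.inter (IsOpen.conicalSet isOpen_compl_singleton)
  refine ⟨h ∘ χ.toFun, χ.invFun ∘ g, ⟨hh.mapsTo.comp χ.mapsTo, χ.mapsTo_inv.comp hh.mapsTo_inv,
    fun x hx => ?_, fun y hy => ?_, hh.cont.comp χ.cont χ.mapsTo,
    χ.cont_inv.comp hh.cont_inv hh.mapsTo_inv⟩, fun x hx => ?_, ?_, ?_⟩
  · show χ.invFun (g (h (χ.toFun x))) = x
    rw [hh.left_inv (χ.mapsTo hx), χ.left_inv hx]
  · show h (χ.toFun (χ.invFun (g y))) = y
    rw [χ.right_inv (hh.mapsTo_inv hy), hh.right_inv hy]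
  · show h (χ.toFun x) = _
    rw [he (hχB ▸ mem_image_of_mem _ hx)]
    show e.toFun (χ.invFun (χ.toFun x)) = _
    rw [χ.left_inv (hBC hx)]
  · refine hcon.comp (χ.conical.mono hset sdiff_subset) (fun x hx => ⟨χ.mapsTo hx.1, fun h => ?_⟩)
      (χ.cont.mono sdiff_subset)
    exact hx.2 (χ.injOn hx.1 hz.1 (h.trans hχz.symm))
  · show h (χ.toFun z) ∉ N
    rw [hχz]; exact hN'

end P073
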