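import Vale.Agent.P073Z.A4.Star
import Vale.Agent.P073Z.A4.Starb
import Vale.Agent.P073Z.A2
import Vale.Agent.P073Z.A8a
import Vale.Agent.P073Z.CosFin
import Vale.Agent.P073Z.JmpFin
import Vale.Agent.P073Z.JB
import Vale.Agent.P073Z.JB.Lfl
import Vale.Agent.P073Z.COL
import Vale.Agent.P073Z.PUSH
import Vale.Agent.P073Z.SHELL
import Vale.Agent.P073Z.MAN.Ex
import Vale.Agent.P073Z.SCH3
import Vale.Agent.P073Z.ASM

/-!
# Unconditional forms of the topological foundation statements
-/

namespace P073

theorem starb : STARB := starb_of star_thm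

theorem lfl : LFL := lfl_of star_thm cos_thm

theorem jb : JB := jb_of lfl wind_thm jmp manex

theorem col : COL := col_of lfl plg thin

theorem sch3 : SCH3 := sch3_of jb col punct shrink_thm emb move_thm manex

theorem asmg : ASMG := asmg_of jb iod

theorem asmt : ASMT := asmt_of jb iod sch3

end P073
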