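import Vale.Agent.P073Z.A12
import Vale.Agent.P073Z.DISC2
import Vale.Agent.P073Z.DISC2.Cos

/-!
# Laminar families of subdiscs of a disc
-/

open Set Metric Topology Filter

namespace P073.Lam

variable {E F : Type} [NormedAddCommGroup E] [NormedSpace ℝ E]
  [NormedAddCommGroup F] [NormedSpace ℝ F] {D B J J' Δ Δ' : Set E}

theorem bd_nonempty (h : ConBall 2 Δ J) : J.Nonempty :=
  (A12.circle_isConnected h.isCircleD).nonempty

/-- the open subdisc is open in the disc and misses its boundary -/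
theorem sub_open (hD : ConBall 2 D B) (h : ConBall 2 Δ J) (s : Δ ⊆ D) :
    Disjoint (Δ \ J) B ∧ ∀ x ∈ Δ \ J, Δ ∈ 𝓝[D] x := by
  obtain ⟨Δ₁, -, -, h3, h4, h5, -⟩ := cid hD h.isCircleD (h.1.trans s)
  rw [h3 Δ s h]
  exact ⟨h4, h5⟩

theorem sub_of_meet (hD : ConBall 2 D B) (h : ConBall 2 Δ J) (s : Δ ⊆ D) {T : Set E}
    (hT : IsPreconnected T) (hTD : T ⊆ D \ J) (hne : (T ∩ Δ).Nonempty) : T ⊆ Δ :=
  subset_of_clopen h.isClosed (sub_open hD h s).2 hT hTD hne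

theorem sub_of_bd (hD : ConBall 2 D B) (h : ConBall 2 Δ J) (h' : ConBall 2 Δ' J') (s : Δ ⊆ D)
    (s' : Δ' ⊆ D) (hJ : J' ⊆ Δ) : Δ' ⊆ Δ := by
  obtain ⟨Δ₁, h1, h2, -⟩ := cid h h'.isCircleD hJ
  rwa [A12.subdisc_unique iod hD h' h2 s' (h1.trans s)]

theorem nest (hD : ConBall 2 D B) (h : ConBall 2 Δ J) (h' : ConBall 2 Δ' J') (s : Δ ⊆ D)
    (s' : Δ' ⊆ D) (hd : Disjoint J J') (hne : (J' ∩ Δ).Nonempty) : Δ' ⊆ Δ \ J := by
  have h1 : J' ⊆ Δ := sub_of_meet hD h s (A12.circle_isConnected h'.isCircleD).isPreconnected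
    (fun x hx => ⟨s' (h'.1 hx), fun hx' => disjoint_left.1 hd hx' hx⟩) hne
  have h2 := sub_of_bd hD h h' s s' h1
  exact fun x hx => ⟨h2 hx, fun hx' => disjoint_left.1 (sub_open h h' h2).1
    ⟨hx, disjoint_left.1 hd hx'⟩ hx'⟩

/-- two subdiscs with disjoint boundaries are nested or disjoint -/
theorem laminar (hD : ConBall 2 D B) (h : ConBall 2 Δ J) (h' : ConBall 2 Δ' J') (s : Δ ⊆ D)
    (s' : Δ' ⊆ D) (hd : Disjoint J J') : Δ ⊆ Δ' \ J' ∨ Δ' ⊆ Δ \ J ∨ Disjoint Δ Δ' := by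
  by_cases h1 : (J ∩ Δ').Nonempty
  · exact Or.inl (nest hD h' h s' s hd.symm h1)
  by_cases h2 : (J' ∩ Δ).Nonempty
  · exact Or.inr (Or.inl (nest hD h h' s s' hd h2))
  refine Or.inr (Or.inr (disjoint_iff_inter_eq_empty.2 ?_))
  by_contra h3
  have h4 : Δ ⊆ Δ' := sub_of_meet hD h' s' h.isConnected.isPreconnected
    (fun x hx => ⟨s hx, fun hx' => h2 ⟨x, hx', hx⟩⟩) (nonempty_iff_ne_empty.2 h3)
  obtain ⟨x, hx⟩ := bd_nonempty h
  exact h1 ⟨x, hx, h4 (h.1 hx)⟩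

/-- the outermost members of a family of subdiscs with disjoint boundaries -/
theorem exists_outer {ι : Type} (s : Finset ι) (Δ J : ι → Set E) (hD : ConBall 2 D B)
    (h : ∀ i ∈ s, ConBall 2 (Δ i) (J i) ∧ Δ i ⊆ D)
    (hd : ∀ i ∈ s, ∀ j ∈ s, i ≠ j → Disjoint (J i) (J j)) :
    ∃ s' ⊆ s, (∀ i ∈ s', ∀ j ∈ s', i ≠ j → Disjoint (Δ i) (Δ j)) ∧
      ∀ i ∈ s, ∃ j ∈ s', Δ i ⊆ Δ j := by
  classical
  refine ⟨s.filter fun i => ∀ j ∈ s, ¬ Δ i ⊆ Δ j \ J j, Finset.filter_subset _ _,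
    fun i hi j hj hij => ?_, fun i hi => ?_⟩
  · rw [Finset.mem_filter] at hi hj
    rcases laminar hD (h i hi.1).1 (h j hj.1).1 (h i hi.1).2 (h j hj.1).2 (hd i hi.1 j hj.1 hij)
      with h1 | h1 | h1
    · exact absurd h1 (hi.2 j hj.1)
    · exact absurd h1 (hj.2 i hi.1)
    · exact h1
  · obtain ⟨j, hj⟩ := (s.filter fun j => Δ i ⊆ Δ j).exists_maximalFor Δ
      ⟨i, Finset.mem_filter.2 ⟨hi, Subset.rfl⟩⟩
    obtain ⟨h1, h2⟩ := Finset.mem_filter.1 hj.1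
    refine ⟨j, Finset.mem_filter.2 ⟨h1, fun k hk h3 => ?_⟩, h2⟩
    have h4 : Δ j ⊆ Δ k := h3.trans sdiff_subset
    have h5 : Δ k ⊆ Δ j := hj.2 (Finset.mem_filter.2 ⟨hk, h2.trans h4⟩) h4
    obtain ⟨x, hx⟩ := bd_nonempty (h k hk).1
    exact (h3 (h5 ((h k hk).1.1 hx))).2 hx

/-- the sign of a function on the disc minus subdiscs which contain its level set -/
theorem rest_ge {ι : Type} (s : Finset ι) (Δ J : ι → Set E) (hD : ConBall 2 D B)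
    (h : ∀ i ∈ s, ConBall 2 (Δ i) (J i) ∧ Δ i ⊆ D ∧ Disjoint (J i) B)
    (hd : ∀ i ∈ s, ∀ j ∈ s, i ≠ j → Disjoint (Δ i) (Δ j)) {g : E → ℝ} (hg : ContinuousOn g D)
    {t : ℝ} (hl : ∀ x ∈ D \ B, g x = t → ∃ i ∈ s, x ∈ Δ i) {z : E} (hz : z ∈ D)
    (hz' : ∀ i ∈ s, z ∉ Δ i) (ht : t < g z) : ∀ x ∈ D \ ⋃ i ∈ s, (Δ i \ J i), t ≤ g x := by
  obtain ⟨h1, h2, -⟩ := repl s Δ J J hD
    (fun i hi => ⟨(h i hi).1, (h i hi).2.1, Or.inl ⟨rfl, (h i hi).2.2⟩⟩) hd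
  have hO : IsOpen (⋃ i ∈ s, Δ i)ᶜ :=
    (s.finite_toSet.isClosed_biUnion fun i hi => (h i hi).1.isClosed).isOpen_compl
  obtain ⟨h3, h4⟩ := hD.preconn_int hO h1
  have hW : (D \ B) ∩ (⋃ i ∈ s, Δ i)ᶜ ⊆ D := fun x hx => hx.1.1
  have hzW : z ∈ closure ((D \ B) ∩ (⋃ i ∈ s, Δ i)ᶜ) :=
    h4 ⟨hz, fun hh => by
      obtain ⟨i, hi, hh⟩ := mem_iUnion₂.1 hh
      exact hz' i hi hh⟩
  have hne := mem_closure_iff_nhdsWithin_neBot.1 hzW
  obtain ⟨w, hw1, hw2⟩ := ((((hg z hz).mono hW).eventually (lt_mem_nhds ht)).and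
    self_mem_nhdsWithin).exists
  have h5 : ∀ y ∈ (D \ B) ∩ (⋃ i ∈ s, Δ i)ᶜ, t ≤ g y := by
    intro y hy
    by_contra hlt
    obtain ⟨u, hu, e⟩ := h3.intermediate_value hy hw2 (hg.mono hW) ⟨(not_le.1 hlt).le, hw1.le⟩
    obtain ⟨i, hi, hh⟩ := hl u hu.1 e
    exact hu.2 (mem_iUnion₂.2 ⟨i, hi, hh⟩)
  intro x hx
  have h6 : x ∈ closure ((D \ B) ∩ (⋃ i ∈ s, Δ i)ᶜ) := closure_minimal h4 isClosed_closure (h2 hx)
  have := mem_closure_iff_nhdsWithin_neBot.1 h6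
  exact ge_of_tendsto ((hg x hx.1).mono hW) (eventually_mem_nhdsWithin.mono h5)

/-- a map of a disc into the plane which is close to an embedding on the boundary circle covers
the origin if the embedding does -/
theorem zero_mem {P : Set (ℝ × ℝ)} (h : ConBall 2 Δ J) (f : ConHomeo Δ P) {g : E → ℝ × ℝ}
    (hg : ContinuousOn g Δ) (hs : ∀ x ∈ J, (0 : ℝ × ℝ) ∉ segment ℝ (f.toFun x) (g x))
    (h0 : (0 : ℝ × ℝ) ∈ P) : (0 : ℝ × ℝ) ∈ g '' Δ := by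
  by_contra hn
  have hP := h.image f Subset.rfl
  rw [f.image_eq] at hP
  obtain ⟨⟨Φ, hΦ⟩, hfr⟩ := hP.ambDiscD iod
  have hS : Φ.toFun '' sphere 0 1 = f.toFun '' J := by
    rw [hfr, ← hΦ, ← Φ.image_frontier, frontier_square]
  let N : Set E := Prod.fst '' ((Δ ×ˢ Icc (0:ℝ) 1) ∩
    (fun q : E × ℝ => f.toFun q.1 + q.2 • (g q.1 - f.toFun q.1)) ⁻¹' {0})
  have hc1 : ContinuousOn (fun q : E × ℝ => f.toFun q.1) (Δ ×ˢ Icc (0:ℝ) 1) :=
    f.cont.comp continuousOn_fst fun _ hq => hq.1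
  have hc2 : ContinuousOn (fun q : E × ℝ => g q.1) (Δ ×ˢ Icc (0:ℝ) 1) :=
    hg.comp continuousOn_fst fun _ hq => hq.1
  have hK := h.isCompact.prod (isCompact_Icc (a := (0:ℝ)) (b := 1))
  have hN : IsClosed N := ((hK.of_isClosed_subset ((hc1.add (continuousOn_snd.smul
    (hc2.sub hc1))).preimage_isClosed_of_isClosed hK.isClosed isClosed_singleton)
    inter_subset_left).image continuous_fst).isClosed
  have hJN : Disjoint J N := by
    refine disjoint_left.2 ?_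
    rintro _ hx ⟨q, ⟨hq, e⟩, rfl⟩
    refine hs _ hx ?_
    rw [segment_eq_image']
    exact ⟨q.2, hq.2, e⟩
  obtain ⟨u, hu0, hu1, hu⟩ := exists_continuous_zero_one_of_isClosed
    h.isCompact_bdry.isClosed hN hJN
  let k : E → ℝ × ℝ := fun x => f.toFun x + u x • (g x - f.toFun x)
  have hk : ContinuousOn k Δ := f.cont.add (u.continuous.continuousOn.smul (hg.sub f.cont))
  have hk0 : ∀ x ∈ Δ, k x ≠ 0 := by
    intro x hx e
    have h1 : u x = 1 := hu1 ⟨(x, u x), ⟨⟨hx, hu x⟩, e⟩, rfl⟩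
    refine hn ⟨x, hx, ?_⟩
    rw [← e]
    simp [k, h1]
  have hm : ∀ y ∈ closedBall (0 : Fin 2 → ℝ) 1, Φ.toFun (A12.e2 y) ∈ P := fun y hy =>
    hΦ ▸ mem_image_of_mem _ (by rwa [mem_closedBall_zero_iff, A12.norm_e2, ← mem_closedBall_zero_iff])
  have hΦc := continuousOn_univ.1 Φ.cont
  have hΦi := continuousOn_univ.1 Φ.cont_inv
  have hp : ‖Φ.invFun 0‖ < 1 := by
    rw [← hΦ] at h0
    obtain ⟨p, hp, e⟩ := h0
    have e' : Φ.invFun 0 = p := by rw [← e]; exact Φ.left_inv (mem_univ _)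
    rw [e']
    refine lt_of_le_of_ne (mem_closedBall_zero_iff.1 hp) fun h1 => ?_
    have : Φ.toFun p ∈ f.toFun '' J := hS ▸ mem_image_of_mem _ (mem_sphere_zero_iff_norm.2 h1)
    obtain ⟨x, hx, e2⟩ := this
    exact hs x hx (by rw [e2, e]; exact left_mem_segment _ _ _)
  obtain ⟨y, hy, e⟩ := A8a.exists_zero (G := fun y => A12.e2.symm
    (Φ.invFun (k (f.invFun (Φ.toFun (A12.e2 y)))) - Φ.invFun 0))
    (A12.e2.symm.continuous.comp_continuousOn ((hΦi.comp_continuousOn (hk.comp (f.cont_inv.comp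
      (hΦc.comp A12.e2.continuous).continuousOn hm) fun y hy => f.mapsTo_inv (hm y hy))).sub
      continuousOn_const)) (by
      intro y hy
      have : Φ.toFun (A12.e2 y) ∈ f.toFun '' J := hS ▸ mem_image_of_mem _ (by
        rwa [mem_sphere_zero_iff_norm, A12.norm_e2, ← mem_sphere_zero_iff_norm])
      obtain ⟨x, hx, e2⟩ := this
      have h1 : u x = 0 := hu0 hx
      have h2 : k x = f.toFun x := by simp [k, h1]
      rw [← e2, f.left_inv (h.1 hx), h2, e2, Φ.left_inv (mem_univ _), map_sub,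
        A12.e2.symm_apply_apply, sub_sub_cancel_left, norm_neg, A12.norm_e2_symm]
      exact hp)
  have e1 := sub_eq_zero.1 (A12.e2.symm.map_eq_zero_iff.1 e)
  exact hk0 _ (f.mapsTo_inv (hm y hy)) (Φ.symm.injOn (mem_univ _) (mem_univ _) e1)

end P073.Lam
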