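import Vale.Agent.P073Z.Defs

/-!
# Gauge calculus
-/

open Set Metric Topology Filter

namespace P073

section top

variable {S T : Type} [TopologicalSpace S] [TopologicalSpace T] {r r' : T → ℝ} {X Y : Set T}

theorem gauge_const {c : ℝ} (hc : 0 < c) : Gauge (fun _ : T => c) X :=
  ⟨continuousOn_const, fun _ _ => hc⟩

theorem Gauge.mono (h : Gauge r X) (hY : Y ⊆ X) : Gauge r Y :=
  ⟨h.1.mono hY, fun x hx => h.2 x (hY hx)⟩

theorem Gauge.min (h : Gauge r X) (h' : Gauge r' X) : Gauge (fun x => min (r x) (r' x)) X :=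
  ⟨h.1.inf h'.1, fun x hx => lt_min (h.2 x hx) (h'.2 x hx)⟩

theorem Gauge.const_mul (h : Gauge r X) {c : ℝ} (hc : 0 < c) : Gauge (fun x => c * r x) X :=
  ⟨continuousOn_const.mul h.1, fun x hx => mul_pos hc (h.2 x hx)⟩

theorem Gauge.div_const (h : Gauge r X) {c : ℝ} (hc : 0 < c) : Gauge (fun x => r x / c) X :=
  ⟨h.1.div_const c, fun x hx => div_pos (h.2 x hx) hc⟩

theorem Gauge.comp (h : Gauge r X) {f : S → T} {A : Set S} (hf : ContinuousOn f A)
    (hm : MapsTo f A X) : Gauge (fun x => r (f x)) A :=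
  ⟨h.1.comp hf hm, fun _ hx => h.2 _ (hm hx)⟩

/-- a common lower gauge for finitely many gauges -/
theorem exists_gauge_le_finset {ι : Type} (s : Finset ι) {g : ι → T → ℝ}
    (h : ∀ i ∈ s, Gauge (g i) X) : ∃ r, Gauge r X ∧ ∀ i ∈ s, ∀ x, r x ≤ g i x := by
  classical
  induction s using Finset.induction_on with
  | empty => exact ⟨fun _ => 1, gauge_const one_pos, fun i hi => absurd hi (Finset.notMem_empty i)⟩
  | insert j s _ ih =>
    obtain ⟨r, hr, hle⟩ := ih fun i hi => h i (Finset.mem_insert_of_mem hi)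
    refine ⟨fun x => min (r x) (g j x), hr.min (h j (Finset.mem_insert_self j s)), fun i hi x => ?_⟩
    rcases Finset.mem_insert.mp hi with rfl | hi
    · exact min_le_right _ _
    · exact (min_le_left _ _).trans (hle i hi x)

/-- a gauge is bounded below on compact sets -/
theorem Gauge.exists_lower (h : Gauge r X) {K : Set T} (hK : IsCompact K) (hKX : K ⊆ X) :
    ∃ c > 0, ∀ x ∈ K, c ≤ r x := by
  rcases K.eq_empty_or_nonempty with rfl | hne
  · exact ⟨1, one_pos, fun x hx => absurd hx (notMem_empty x)⟩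
  · obtain ⟨x, hx, hmin⟩ := hK.exists_isMinOn hne (h.1.mono hKX)
    exact ⟨r x, h.2 x (hKX hx), fun y hy => hmin hy⟩

end top

variable {S T : Type} [PseudoMetricSpace S] [PseudoMetricSpace T] {r r' : T → ℝ} {X K K' : Set T}

theorem Small.mono (h : Small r K) (hK : K' ⊆ K) : Small r K' :=
  fun x hx y hy => h x (hK hx) y (hK hy)

theorem Small.of_le (h : Small r K) (hle : ∀ x ∈ K, r x ≤ r' x) : Small r' K :=
  fun x hx y hy => (h x hx y hy).trans_le (hle x hx)

theorem small_empty : Small r (∅ : Set T) := fun x hx => absurd hx (notMem_empty x)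

theorem small_singleton {x : T} (h : 0 < r x) : Small r {x} := by
  rintro _ rfl _ rfl
  rwa [dist_self]

theorem Small.subset_ball (h : Small r K) {x : T} (hx : x ∈ K) : K ⊆ ball x (r x) :=
  fun y hy => mem_ball'.mpr (h x hx y hy)

/-- The master lemma: a property which holds locally uniformly for small radii holds for a
Lipschitz gauge. -/
theorem exists_gauge {p : T → ℝ → Prop} (mono : ∀ x ∈ X, ∀ a b, 0 < a → a ≤ b → p x b → p x a)
    (h : ∀ x ∈ X, ∃ ε > 0, ∀ᶠ y in 𝓝[X] x, p y ε) :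
    ∃ r, Gauge r X ∧ (∀ x y, r x ≤ r y + dist x y) ∧ (∀ x, r x ≤ 1) ∧ ∀ x ∈ X, p x (r x) := by
  have h1 : ∀ x : X, ∃ ε > 0, ∃ δ > 0, ∀ y ∈ X, dist y x < δ → p y ε := by
    intro x
    obtain ⟨ε, hε, hp⟩ := h x x.2
    obtain ⟨δ, hδ, hb⟩ := Metric.mem_nhdsWithin_iff.mp hp
    exact ⟨ε, hε, δ, hδ, fun y hy hd => hb ⟨hd, hy⟩⟩
  choose ε hε δ hδ hp using h1
  let g : T → X → ℝ := fun x y => min (min 1 (ε y)) (δ y - dist x y)
  have hg1 : ∀ x y, g x y ≤ 1 := fun x y => (min_le_left _ _).trans (min_le_left _ _)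
  have hbd : ∀ x, BddAbove (range (g x)) := fun x => ⟨1, by
    rintro _ ⟨y, rfl⟩
    exact hg1 x y⟩
  have hlip : ∀ x y, (⨆ z, g x z) ≤ (⨆ z, g y z) + dist x y := by
    intro x y
    rcases isEmpty_or_nonempty X with hX | hX
    · rw [Real.iSup_of_isEmpty, Real.iSup_of_isEmpty, zero_add]
      exact dist_nonneg
    · refine ciSup_le fun z => ?_
      have h2 : g x z ≤ g y z + dist x y := by
        have h3 := dist_triangle_left y (z : T) x
        have h4 := dist_nonneg (x := x) (y := y)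
        change min _ _ ≤ min _ _ + _
        rw [← min_add_add_right]
        exact min_le_min (by linarith) (by linarith)
      linarith [le_ciSup (hbd y) z]
  have hpos : ∀ x ∈ X, 0 < ⨆ z, g x z := fun x hx =>
    lt_of_lt_of_le (lt_min (lt_min one_pos (hε ⟨x, hx⟩)) (by
      rw [dist_self, sub_zero]
      exact hδ ⟨x, hx⟩)) (le_ciSup (hbd x) ⟨x, hx⟩)
  have hlip' : ∀ x y, (⨆ z, g x z) / 2 ≤ (⨆ z, g y z) / 2 + dist x y := fun x y => by
    linarith [hlip x y, dist_nonneg (x := x) (y := y)]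
  refine ⟨fun x => (⨆ z, g x z) / 2, ⟨?_, fun x hx => half_pos (hpos x hx)⟩, hlip', fun x => ?_,
    fun x hx => ?_⟩
  · exact (LipschitzWith.of_le_add hlip').continuous.continuousOn
  · have h2 : (⨆ z, g x z) ≤ 1 := Real.iSup_le (hg1 x) zero_le_one
    linarith
  · have : Nonempty X := ⟨⟨x, hx⟩⟩
    obtain ⟨z, hz⟩ := exists_lt_of_lt_ciSup (half_lt_self (hpos x hx))
    have h2 := half_pos (hpos x hx)
    have h3 := lt_of_lt_of_le hz (min_le_right _ _)
    exact mono x hx _ _ h2 (hz.le.trans ((min_le_left _ _).trans (min_le_right _ _)))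
      (hp z x hx (by linarith))

/-- a Lipschitz gauge below a gauge, with prescribed ratio -/
theorem Gauge.exists_lip (h : Gauge r X) {N : ℝ} (hN : 0 < N) :
    ∃ r', Gauge r' X ∧ (∀ x ∈ X, N * r' x ≤ r x) ∧ ∀ x y, r' x ≤ r' y + dist x y / N := by
  obtain ⟨ρ, hρ, hlip, _, hle⟩ := exists_gauge (X := X) (p := fun x a => a ≤ r x)
    (fun x _ a b _ hab hb => hab.trans hb) fun x hx =>
      ⟨r x / 2, half_pos (h.2 x hx),
        ((h.1 x hx).eventually (lt_mem_nhds (half_lt_self (h.2 x hx)))).mono fun _ hy => hy.le⟩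
  refine ⟨fun x => ρ x / N, hρ.div_const hN, fun x hx => ?_, fun x y => ?_⟩
  · rw [mul_div_cancel₀ _ hN.ne']
    exact hle x hx
  · rw [← add_div]
    exact div_le_div_of_nonneg_right (hlip x y) hN.le

/-- a much finer gauge: the balls of radius `N * r' x` are `r`-small, and `r'` varies slowly -/
theorem Gauge.exists_fine (h : Gauge r X) {N : ℝ} (hN : 0 < N) :
    ∃ r', Gauge r' X ∧ (∀ x ∈ X, Small r (X ∩ closedBall x (N * r' x))) ∧
      (∀ x ∈ X, ∀ y ∈ X, dist x y ≤ N * r' x → N * r' x < r y) ∧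
      ∀ x ∈ X, ∀ y, dist x y ≤ N * r' x → r' y ≤ 2 * r' x ∧ r' x ≤ 2 * r' y := by
  obtain ⟨ρ, hρ, hle, hlip⟩ := h.exists_lip (N := 4 * N) (by positivity)
  have h1 : ∀ x ∈ X, ∀ y, dist x y ≤ N * ρ x → ρ y ≤ 5 / 4 * ρ x ∧ 3 / 4 * ρ x ≤ ρ y := by
    intro x hx y hd
    have h2 : dist x y / (4 * N) ≤ ρ x / 4 := by
      rw [div_le_iff₀ (by positivity)]
      linarith
    have h3 := hlip x y
    have h4 := hlip y x
    rw [dist_comm] at h4
    constructor <;> linarith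
  have h5 : ∀ x ∈ X, ∀ y ∈ X, dist x y ≤ N * ρ x → 2 * (N * ρ x) < r y := by
    intro x hx y hy hd
    have h2 := (h1 x hx y hd).2
    have h3 := hle y hy
    have h4 := mul_pos hN (hρ.2 x hx)
    nlinarith
  refine ⟨ρ, hρ, fun x hx y hy z hz => ?_, fun x hx y hy hd => ?_, fun x hx y hd => ?_⟩
  · have h2 := h5 x hx y hy.1 (mem_closedBall'.mp hy.2)
    have h3 := dist_triangle_right y z x
    have h4 : dist y x ≤ N * ρ x := hy.2
    have h6 : dist z x ≤ N * ρ x := hz.2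
    linarith
  · have h2 := h5 x hx y hy hd
    have h4 := mul_pos hN (hρ.2 x hx)
    linarith
  · have h2 := h1 x hx y hd
    have h3 := hρ.2 x hx
    constructor <;> linarith [h2.1, h2.2]

/-- unions of two intersecting small sets, and pairs of close points -/
theorem Gauge.exists_union (h : Gauge r X) :
    ∃ r', Gauge r' X ∧ (∀ x ∈ X, r' x ≤ r x) ∧
      (∀ A B, A ⊆ X → B ⊆ X → Small r' A → Small r' B → (A ∩ B).Nonempty → Small r (A ∪ B)) ∧
      ∀ x ∈ X, ∀ y ∈ X, dist x y < r' x → Small r {x, y} := by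
  obtain ⟨ρ, hρ, h1, h2, _⟩ := h.exists_fine one_pos
  simp only [one_mul] at h1 h2
  refine ⟨ρ, hρ, fun x hx => (h2 x hx x hx (by rw [dist_self]; exact (hρ.2 x hx).le)).le, ?_,
    fun x hx y hy hd => (h1 x hx).mono ?_⟩
  · rintro A B hA hB hA' hB' ⟨x, hxA, hxB⟩
    refine (h1 x (hA hxA)).mono (union_subset (fun y hy => ⟨hA hy, ?_⟩) fun y hy => ⟨hB hy, ?_⟩)
    · exact ball_subset_closedBall (hA'.subset_ball hxA hy)
    · exact ball_subset_closedBall (hB'.subset_ball hxB hy)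
  · rintro _ (rfl | rfl)
    · exact ⟨hx, mem_closedBall_self (hρ.2 _ hx).le⟩
    · exact ⟨hy, mem_closedBall'.mpr hd.le⟩

/-- Lebesgue gauge, ball form -/
theorem exists_gauge_ball {ι : Type} {U : ι → Set T} (h : ∀ x ∈ X, ∃ i, U i ∈ 𝓝[X] x) :
    ∃ r, Gauge r X ∧ ∀ x ∈ X, ∃ i, X ∩ ball x (r x) ⊆ U i := by
  obtain ⟨r, hr, _, _, hp⟩ := exists_gauge (X := X) (p := fun x a => ∃ i, X ∩ ball x a ⊆ U i)
    (fun x _ a b _ hab ⟨i, hi⟩ => ⟨i, (inter_subset_inter_right _ (ball_subset_ball hab)).trans hi⟩)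
    fun x hx => by
      obtain ⟨i, hi⟩ := h x hx
      obtain ⟨δ, hδ, hb⟩ := Metric.mem_nhdsWithin_iff.mp hi
      refine ⟨δ / 2, half_pos hδ, ?_⟩
      filter_upwards [mem_nhdsWithin_of_mem_nhds (ball_mem_nhds x (half_pos hδ))] with y hy
      refine ⟨i, fun z hz => hb ⟨?_, hz.1⟩⟩
      have h1 := dist_triangle z y x
      have h2 : dist z y < δ / 2 := hz.2
      have h3 : dist y x < δ / 2 := hy
      rw [mem_ball]
      linarith
  exact ⟨r, hr, hp⟩

/-- Lebesgue gauge -/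
theorem exists_gauge_cover {ι : Type} {U : ι → Set T} (h : ∀ x ∈ X, ∃ i, U i ∈ 𝓝[X] x) :
    ∃ r, Gauge r X ∧ ∀ K ⊆ X, K.Nonempty → Small r K → ∃ i, K ⊆ U i := by
  obtain ⟨r, hr, hp⟩ := exists_gauge_ball h
  refine ⟨r, hr, fun K hK ⟨x, hx⟩ hs => ?_⟩
  obtain ⟨i, hi⟩ := hp x (hK hx)
  exact ⟨i, fun y hy => hi ⟨hK hy, hs.subset_ball hx hy⟩⟩

/-- Lebesgue gauge for a property of sets -/
theorem exists_gauge_prop {P : Set T → Prop} (h : ∀ x ∈ X, ∃ U ∈ 𝓝[X] x, P U) :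
    ∃ r, Gauge r X ∧ ∀ x ∈ X, ∃ U, P U ∧ X ∩ ball x (r x) ⊆ U := by
  obtain ⟨r, hr, hp⟩ := exists_gauge_ball (X := X) (U := fun U : {U // P U} => U.1) fun x hx =>
    let ⟨U, hU, hP⟩ := h x hx
    ⟨⟨U, hP⟩, hU⟩
  refine ⟨r, hr, fun x hx => ?_⟩
  obtain ⟨U, hU⟩ := hp x hx
  exact ⟨U.1, U.2, hU⟩

/-- a gauge below a locally finite family of constants -/
theorem exists_gauge_lf {ι : Type} {C : ι → Set T} (h : LFIn C X) {c : ι → ℝ}
    (hc : ∀ i, 0 < c i) : ∃ r, Gauge r X ∧ ∀ i, ∀ x ∈ X, x ∈ C i → r x ≤ c i := by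
  obtain ⟨r, hr, _, _, hp⟩ := exists_gauge (X := X) (p := fun x a => ∀ i, x ∈ C i → a ≤ c i)
    (fun x _ a b _ hab hb i hi => hab.trans (hb i hi)) fun x hx => by
      obtain ⟨U, hU, hfin⟩ := h x hx
      obtain ⟨g, hg, hle⟩ := exists_gauge_le_finset (X := X) hfin.toFinset
        (g := fun i _ => c i) fun i _ => gauge_const (hc i)
      refine ⟨g x, hg.2 x hx, ?_⟩
      filter_upwards [mem_nhdsWithin_of_mem_nhds hU] with y hy i hi
      exact hle i (hfin.mem_toFinset.mpr ⟨y, hi, hy⟩) x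
  exact ⟨r, hr, fun i x hx => hp x hx i⟩

/-- uniform continuity for gauges -/
theorem Gauge.exists_image (h : Gauge r X) {f : S → T} {A : Set S} (hf : ContinuousOn f A)
    (hm : MapsTo f A X) : ∃ ρ, Gauge ρ A ∧
      (∀ x ∈ A, ∀ y ∈ A, dist x y < ρ x → dist (f x) (f y) < r (f x)) ∧
      ∀ K ⊆ A, Small ρ K → Small r (f '' K) := by
  obtain ⟨ρ, hρ, _, _, hp⟩ := exists_gauge (X := A)
    (p := fun x a => ∀ y ∈ A, dist x y < a → dist (f x) (f y) < r (f x))
    (fun x _ a b _ hab hb y hy hd => hb y hy (hd.trans_le hab)) fun x hx => by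
      have h0 := h.2 _ (hm hx)
      have h1 : ∀ᶠ y in 𝓝[A] x, r (f x) / 2 < r (f y) :=
        ((h.comp hf hm).1 x hx).eventually (lt_mem_nhds (half_lt_self h0))
      have h2 : ∀ᶠ y in 𝓝[A] x, dist (f y) (f x) < r (f x) / 4 :=
        (hf x hx).eventually (ball_mem_nhds _ (by positivity))
      obtain ⟨δ, hδ, hb⟩ := Metric.mem_nhdsWithin_iff.mp (h1.and h2)
      refine ⟨δ / 2, half_pos hδ, ?_⟩
      filter_upwards [mem_nhdsWithin_of_mem_nhds (ball_mem_nhds x (half_pos hδ)),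
        self_mem_nhdsWithin] with y hy hyA z hz hd
      have h3 : dist y x < δ / 2 := hy
      have h4 := hb ⟨(ball_subset_ball (half_le_self hδ.le)) hy, hyA⟩
      have h5 := hb (a := z) ⟨by
        have h6 := dist_triangle_left z x y
        rw [mem_ball]
        linarith, hz⟩
      have h7 := dist_triangle_right (f y) (f z) (f x)
      linarith [h4.1, h4.2, h5.2]
  refine ⟨ρ, hρ, hp, ?_⟩
  rintro K hK hs _ ⟨x, hx, rfl⟩ _ ⟨y, hy, rfl⟩
  exact hp x (hK hx) y (hK hy) (hs x hx y hy)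

/-- a gauge whose balls stay inside a relatively open set -/
theorem exists_gauge_open {U : Set T} (hU : IsOpen U) (hX : X ⊆ U) :
    ∃ r, Gauge r X ∧ ∀ x ∈ X, ball x (r x) ⊆ U := by
  obtain ⟨r, hr, _, _, hp⟩ := exists_gauge (X := X) (p := fun x a => ball x a ⊆ U)
    (fun x _ a b _ hab hb => (ball_subset_ball hab).trans hb) fun x hx => by
      obtain ⟨δ, hδ, hb⟩ := Metric.isOpen_iff.mp hU x (hX hx)
      refine ⟨δ / 2, half_pos hδ, ?_⟩
      filter_upwards [mem_nhdsWithin_of_mem_nhds (ball_mem_nhds x (half_pos hδ))] with y hy z hz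
      refine hb ?_
      have h1 := dist_triangle z y x
      have h2 : dist z y < δ / 2 := hz
      have h3 : dist y x < δ / 2 := hy
      rw [mem_ball]
      linarith
  exact ⟨r, hr, hp⟩

/-- a gauge which separates the disjoint members of a locally finite family of closed sets -/
theorem exists_gauge_sep {ι : Type} {C : ι → Set T} (h : LFIn C X) (hc : ∀ i, IsClosed (C i)) :
    ∃ r, Gauge r X ∧ ∀ x ∈ X, ∃ z ∈ X, ∀ i, (C i ∩ X ∩ ball x (r x)).Nonempty → z ∈ C i := by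
  obtain ⟨r, hr, hp⟩ := exists_gauge_prop (X := X)
    (P := fun U => ∃ z ∈ X, ∀ i, (C i ∩ U).Nonempty → z ∈ C i) fun x hx => by
      obtain ⟨U, hU, hfin⟩ := h x hx
      have h1 : ∀ᶠ y in 𝓝 x, ∀ i ∈ {i | (C i ∩ U).Nonempty}, y ∈ C i → x ∈ C i := by
        rw [eventually_all_finite hfin]
        intro i _
        by_cases hi : x ∈ C i
        · exact Eventually.of_forall fun _ _ => hi
        · filter_upwards [(hc i).isOpen_compl.mem_nhds hi] with y hy hy'
          exact absurd hy' hy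
      refine ⟨_, mem_nhdsWithin_of_mem_nhds (inter_mem hU h1), x, hx, ?_⟩
      rintro i ⟨y, hy, hyU, hy'⟩
      exact hy' i ⟨y, hy, hyU⟩ hy
  refine ⟨r, hr, fun x hx => ?_⟩
  obtain ⟨U, ⟨z, hz, hz'⟩, hU⟩ := hp x hx
  refine ⟨z, hz, ?_⟩
  rintro i ⟨y, ⟨hy, hyX⟩, hyb⟩
  exact hz' i ⟨y, hy, hU ⟨hyX, hyb⟩⟩

end P073
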