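import Vale.Agent.P073Z.Dens
import Vale.Agent.P073Z.RCX

/-!
# Densities in normalised coordinates
-/

open Set Metric Topology Filter MeasureTheory
open scoped ENNReal NNReal Pointwise

namespace P073

namespace Par

variable (P : Par)

theorem η_pos : 0 < P.η := by
  unfold η
  positivity

/-- the normalised coordinates do not see the shift -/
theorem nu_shift (w : E3) (j : Fin P.N) (x : E3) :
    ({ P with w := w } : Par).nu j (w + x) = ({ P with w := 0 } : Par).nu j x := by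
  funext i
  simp [nu, η]

theorem dist_nu_le {j : Fin P.N} (hm : 1 ≤ P.m j) (x y : E3) :
    dist (P.nu j x) (P.nu j y) ≤ (P.T j).b * P.m j / P.η * dist x y := by
  have hη := P.η_pos
  have h0 : (1 : ℝ) ≤ P.m j := by exact_mod_cast hm
  have h1 : ‖(P.T j).L.symm (x - y)‖ ≤ (P.T j).b * dist x y := by
    rw [dist_eq_norm]
    exact ((P.T j).L.symm : E3 →L[ℝ] E3).le_of_opNorm_le (P.T j).normLi _
  refine (dist_pi_le_iff (by positivity)).2 fun i => ?_
  have h2 : |(P.T j).L.symm (x - y) i| ≤ (P.T j).b * dist x y := (norm_le_pi_norm _ i).trans h1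
  have h3 : P.η / P.m j ≤ if (i : ℕ) < (P.T j).r then P.η / P.m j else P.η := by
    split_ifs
    exacts [le_rfl, div_le_self hη.le h0]
  have h4 : 0 < P.η / P.m j := by positivity
  rw [Real.dist_eq, nu, nu, ← sub_div, ← Pi.sub_apply, ← map_sub, sub_sub_sub_cancel_right, abs_div,
    abs_of_pos (h4.trans_le h3)]
  refine (div_le_div₀ (by positivity) h2 h4 h3).trans_eq ?_
  field_simp

theorem dist_le_nu {j : Fin P.N} (hm : 1 ≤ P.m j) (x y : E3) :
    dist x y ≤ (P.T j).b * P.η * dist (P.nu j x) (P.nu j y) := by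
  have hη := P.η_pos
  have h0 : (1 : ℝ) ≤ P.m j := by exact_mod_cast hm
  have h1 : ‖(P.T j).L.symm (x - y)‖ ≤ P.η * dist (P.nu j x) (P.nu j y) := by
    refine (pi_norm_le_iff_of_nonneg (by positivity)).2 fun i => ?_
    have h2 := dist_le_pi_dist (P.nu j x) (P.nu j y) i
    have h3 : (if (i : ℕ) < (P.T j).r then P.η / P.m j else P.η) ≤ P.η := by
      split_ifs
      exacts [div_le_self hη.le h0, le_rfl]
    have h4 : 0 < if (i : ℕ) < (P.T j).r then P.η / P.m j else P.η := by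
      split_ifs <;> positivity
    rw [Real.dist_eq, nu, nu, ← sub_div, ← Pi.sub_apply, ← map_sub, sub_sub_sub_cancel_right,
      abs_div, abs_of_pos h4, div_le_iff₀ h4] at h2
    exact h2.trans ((mul_le_mul_of_nonneg_left h3 dist_nonneg).trans_eq (mul_comm _ _))
  have h2 := ((P.T j).L : E3 →L[ℝ] E3).le_of_opNorm_le (P.T j).normL ((P.T j).L.symm (x - y))
  rw [ContinuousLinearEquiv.coe_coe, ContinuousLinearEquiv.apply_symm_apply, ← dist_eq_norm] at h2
  rw [mul_assoc]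
  exact h2.trans (mul_le_mul_of_nonneg_left h1 (Nat.cast_nonneg _))

theorem continuous_nu (j : Fin P.N) : Continuous (P.nu j) := by
  unfold nu
  fun_prop

/-- transport of a density along a multiple of the normalised coordinates -/
theorem hm_nu {j : Fin P.N} (hm : 1 ≤ P.m j) {c d : ℝ} (hc : 0 < c) (hd : 0 ≤ d) {T : Set E3}
    {D : ℝ≥0∞} (h : ∀ y, μH[d] (T ∩ closedBall y ((P.T j).b * P.m j * c)) ≤ D) (x : E3) :
    μH[d] ({x | c • P.nu j x ∈ T} ∩ closedBall x P.η) ≤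
      ENNReal.ofReal ((P.T j).b * P.η / c) ^ d * D := by
  have hη := P.η_pos
  have hA : LipschitzWith ((P.T j).b * P.m j * c / P.η).toNNReal fun x => c • P.nu j x :=
    LipschitzWith.of_dist_le' fun x y => by
      rw [dist_smul₀, Real.norm_of_nonneg hc.le]
      exact (mul_le_mul_of_nonneg_left (P.dist_nu_le hm x y) hc.le).trans_eq (by ring)
  have hB : AntilipschitzWith ((P.T j).b * P.η / c).toNNReal fun x => c • P.nu j x :=
    AntilipschitzWith.of_le_mul_dist fun x y => by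
      rw [dist_smul₀, Real.norm_of_nonneg hc.le, Real.coe_toNNReal _ (by positivity)]
      exact (P.dist_le_nu hm x y).trans_eq (by field_simp)
  refine Dens.hm_transport hd hA hB (fun y => ?_) x
  rw [Real.coe_toNNReal _ (by positivity), div_mul_cancel₀ _ hη.ne']
  exact h y

end Par

namespace Dens

/-- transport along a homothety -/
theorem hm_smul {c d η : ℝ} (hc : 0 < c) (hd : 0 ≤ d) {T : Set E3} {D : ℝ≥0∞}
    (h : ∀ y, μH[d] (T ∩ closedBall y (c * η)) ≤ D) (x : E3) :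
    μH[d] ({x | c • x ∈ T} ∩ closedBall x η) ≤ ENNReal.ofReal c⁻¹ ^ d * D := by
  have hA : LipschitzWith c.toNNReal fun x : E3 => c • x :=
    LipschitzWith.of_dist_le' fun x y => by rw [dist_smul₀, Real.norm_of_nonneg hc.le]
  have hB : AntilipschitzWith c⁻¹.toNNReal fun x : E3 => c • x :=
    AntilipschitzWith.of_le_mul_dist fun x y => by
      rw [dist_smul₀, Real.norm_of_nonneg hc.le, Real.coe_toNNReal _ (inv_pos.2 hc).le,
        inv_mul_cancel_left₀ hc.ne']
  refine hm_transport hd hA hB (fun y => ?_) x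
  rw [Real.coe_toNNReal _ hc.le]
  exact h y

/-- lattice lines of mesh `c⁻¹` in a cube of size `η`, with `1 ≤ c η` -/
theorem hm_grid_smul {c η : ℝ} (hc : 0 < c) (h : 1 ≤ c * η) (x : E3) :
    μH[1] ({x | c • x ∈ gridLines} ∩ closedBall x η) ≤ ENNReal.ofReal (192 * c ^ 2 * η ^ 3) := by
  refine (hm_smul hc zero_le_one (fun y => hm_gridLines y (by linarith)) x).trans ?_
  rw [ENNReal.rpow_one, ← ENNReal.ofReal_mul (inv_pos.2 hc).le]
  refine ENNReal.ofReal_le_ofReal ?_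
  have h1 : (2 * (c * η) + 2) ^ 3 ≤ (4 * (c * η)) ^ 3 := by gcongr; linarith
  rw [inv_mul_le_iff₀ hc]
  nlinarith

/-- Kuhn cells of dimension at most one -/
theorem kcell_subset_kwire (hK : KUHN) {ζ : E3}
    (h : Module.finrank ℝ (vectorSpan ℝ (kcell ζ)) ≤ 1) : kcell ζ ⊆ kwire := by
  classical
  obtain ⟨t, h1, -, h2, h3, h4, -⟩ := hK.2 ζ
  have h5 : ∀ v ∈ t, ∃ z, v = zc z := fun v hv => by
    have h6 : v ∈ kv ζ := h1 ▸ Finset.mem_coe.2 hv
    choose k hk using h6.1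
    exact ⟨k, funext hk⟩
  have h6 : t.card ≤ 2 := by
    rcases t.eq_empty_or_nonempty with rfl | hne
    · simp
    have h7 := h2.finrank_vectorSpan (n := t.card - 1)
      (by rw [Fintype.card_coe]; have := hne.card_pos; omega)
    rw [h3, ← direction_affineSpan, affineSpan_convexHull, direction_affineSpan] at h
    have h9 : range (Subtype.val : t → E3) = (t : Set E3) := Subtype.range_coe
    rw [h9] at h7
    omega
  intro x hx
  rw [h3] at hx
  obtain ⟨v, hv⟩ : t.Nonempty := by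
    rw [← Finset.coe_nonempty, ← convexHull_nonempty_iff (𝕜 := ℝ)]
    exact ⟨x, hx⟩
  obtain ⟨w, hw, h7⟩ : ∃ w ∈ t, (t : Set E3) ⊆ {v, w} := by
    by_cases h7 : ∃ w ∈ t, w ≠ v
    · obtain ⟨w, hw, h7⟩ := h7
      refine ⟨w, hw, fun u hu => ?_⟩
      by_contra h8
      simp only [mem_insert_iff, mem_singleton_iff, not_or] at h8
      have h9 : ({u, v, w} : Finset E3) ⊆ t := by
        intro a ha
        simp only [Finset.mem_insert, Finset.mem_singleton] at ha
        rcases ha with rfl | rfl | rfl <;> assumption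
      have h10 := Finset.card_le_card h9
      rw [Finset.card_eq_three.2 ⟨u, v, w, h8.1, h8.2, h7.symm, rfl⟩] at h10
      omega
    · push Not at h7
      exact ⟨v, hv, fun u hu => Or.inl (h7 u hu)⟩
  have h8 : ‖v - w‖ ≤ 1 := by
    rcases eq_or_ne v w with rfl | h8
    · simp
    · exact (h4 v hv w hw h8).le
  obtain ⟨z, rfl⟩ := h5 v hv
  obtain ⟨z', rfl⟩ := h5 w hw
  refine ⟨z, z', fun i => ?_, ?_⟩
  · have h9 : |(z i : ℝ) - z' i| ≤ 1 := (norm_le_pi_norm (zc z - zc z') i).trans h8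
    exact_mod_cast h9
  · rw [← convexHull_pair]
    exact convexHull_mono h7 hx

theorem isBox_uface (z : Fin 3 → ℤ) (J : Finset (Fin 3)) : IsBox (uface z J) := by
  refine ⟨z, fun i => if i ∈ J then z i else z i + 1, fun i => by by_cases h : i ∈ J <;> simp [h], ?_⟩
  ext x
  simp only [uface, ucube, mem_Icc, Pi.le_def, mem_ofPred_eq]
  constructor
  · rintro ⟨⟨h1, h2⟩, h3⟩
    refine ⟨h1, fun i => ?_⟩
    split_ifs with h
    · exact (h3 i h).le
    · exact_mod_cast h2 i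
  · rintro ⟨h1, h2⟩
    refine ⟨⟨h1, fun i => ?_⟩, fun i h => ?_⟩
    · have h3 := h2 i
      split_ifs at h3
      · linarith
      · exact_mod_cast h3
    · have h3 := h2 i
      rw [if_pos h] at h3
      exact le_antisymm h3 (h1 i)

end Dens

open Dens

theorem Par.inner_subset_buf (P : Par) (j : Fin P.N) : P.Inner j ⊆ P.Buf j := fun _ hz =>
  (subset_biUnion_of_mem (u := ucube) hz).trans (self_subset_cthickening _)

theorem Par.fine_subset_flat (P : Par) (j : Fin P.N) :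
    P.Fine j ⊆ {x | (P.n : ℝ) • P.nu j x ∈ flat (P.T j).I P.n} := by
  rintro x ⟨z, -, hz⟩ i hi
  exact ⟨z i, congrArg (fun s => (P.n : ℝ) * s) (hz.2 i hi)⟩

section

variable {Ω : Set E3} {P : Par} {M₀ : ℝ≥0} {Mt : Ty → ℕ → ℝ≥0} {S : Ty → ℕ → Set E3}

theorem Mesh.sub_fine (𝓜 : Mesh Ω P M₀ Mt S) (j : Fin P.N) : 𝓜.Q.Sub (P.Fine j) := by
  rintro x ⟨z, hz, hx⟩
  obtain ⟨i, h1, h2⟩ := 𝓜.sub_box j z (P.inner_subset_buf j hz) _ (isBox_uface z (P.T j).I)
    (fun _ h => h.1) x hx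
  exact ⟨i, h1, fun y hy => ⟨z, hz, h2 hy⟩⟩

/-- the fine wires are lattice segments on the flats -/
theorem Mesh.skel_fine_subset (hK : KUHN) (𝓜 : Mesh Ω P M₀ Mt S) (hn : 1 ≤ P.n) (j : Fin P.N) :
    𝓜.Q.skel 1 ∩ P.Fine j ⊆ {x | (P.n : ℝ) • P.nu j x ∈ kwire ∩ flat (P.T j).I P.n} := by
  rintro x ⟨h1, h2⟩
  refine ⟨?_, P.fine_subset_flat j h2⟩
  obtain ⟨i, hi⟩ := 𝓜.Q.exists_ocell (𝓜.Q.skel_subset_carrier 1 h1)
  have h3 := 𝓜.fine j i ((𝓜.sub_fine j).cell_subset hi h2) x hi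
  have h4 : 𝓜.Q.dim i ≤ 1 := (𝓜.Q.mem_skel_iff_dim hi).1 h1
  have h0 : (P.n : ℝ) ≠ 0 := by exact_mod_cast (Nat.one_le_iff_ne_zero.1 hn)
  let e : E3 →ᵃ[ℝ] E3 := (P.n : ℝ) • (𝓜.ν j).toAffineEquiv.toAffineMap
  have he : ∀ y, e y = (P.n : ℝ) • P.nu j y := fun y => by
    rw [← 𝓜.ν_eq]
    rfl
  have h5 : e '' 𝓜.Q.cell i = kcell ((P.n : ℝ) • P.nu j x) := by
    rw [h3, ← funext he]
    refine image_preimage_eq _ fun y => ⟨(𝓜.ν j).symm ((P.n : ℝ)⁻¹ • y), ?_⟩
    rw [he, ← 𝓜.ν_eq, ContinuousAffineEquiv.apply_symm_apply, smul_inv_smul₀ h0]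
  refine kcell_subset_kwire hK (ζ := (P.n : ℝ) • P.nu j x) ?_ (h5.subset ⟨x, hi.1, he x⟩)
  rw [← h5, ← AffineMap.map_vectorSpan]
  exact (Submodule.finrank_map_le _ _).trans ((𝓜.cvx i).2.2 ▸ h4)

end

end P073
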