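import Vale.Agent.P073Z.MESH.Cell
import Vale.Agent.P073Z.MESH.Lines
import Vale.Agent.P073Z.A4.Shape
import Vale.Agent.P073Z.TriU

/-!
# The source mesh
-/

open Set Metric Topology Filter MeasureTheory
open scoped ENNReal NNReal

namespace P073

open Me Me.Ctx

theorem mesh_of (arr : ARR) (hL : LINES) (hC : CHART) : MESH := by
  obtain ⟨Mk, hk⟩ := hC kΛ 1 kΛ_int
  obtain ⟨Mf, hf⟩ := hC fΛ 1 fΛ_int
  choose Mn hn using fun (T : Ty) (m : ℕ) => hC (nΛ T m) T.b (nΛ_int T m)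
  choose D hD using fun (T : Ty) (m : ℕ) => (hL.1 (nΛ T m)).2
  refine ⟨max (max Mk Mf) (3 ^ 15), fun T m => max (max (Mn T m) (D T m)) (3 ^ 15),
    fun T m => Lines (nΛ T m), fun T m => ⟨(hL.1 _).1, fun y => (hD T m y).trans
      (ENNReal.coe_le_coe.2 ((le_max_right _ _).trans (le_max_left _ _)))⟩, ?_⟩
  intro Ω P _ ok
  obtain ⟨c⟩ := exists_ctx ok
  obtain ⟨K, h1, h2, h3⟩ := c.exists_cx arr
  have h : Cx c K := ⟨h1, h2, h3⟩
  choose pt hpt using K.ocell_nonempty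
  let far : K.ι → Prop := fun i => ∀ x ∈ K.cell i, Far P x
  let kf : K.ι → ℕ := fun i => sInf {k | Cb P Ω k (pt i)}
  have hkf : ∀ i, far i → Cb P Ω (kf i) (pt i) := fun i hi =>
    Nat.sInf_mem (s := {k | Cb P Ω k (pt i)}) ((cover ok (h.mem (hpt i).1)).resolve_right
      fun ⟨_, hj⟩ => (hi _ (hpt i).1).not_co hj)
  have hfb : ∀ i j, far i → Disjoint (K.cell i) (P.BufSet j) := fun i j hi =>
    Set.disjoint_left.2 fun x hx hb => (hi x hx).not_co ((buf_nr ok hb).mono (by norm_num)).co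
  have huniq : ∀ i j j', K.cell i ⊆ P.BufSet j → K.cell i ⊆ P.BufSet j' → j = j' :=
    fun i j j' a b => Nr.eq ok ((buf_nr ok (a (hpt i).1)).mono (by norm_num))
      ((buf_nr ok (b (hpt i).1)).mono (by norm_num))
  have hmul : ∀ (x : E3) (s : Set K.ι) (M : ℝ≥0), s ⊆ {i | x ∈ K.cell i} →
      ((s.ncard : ℕ) : ℝ) ≤ (max M (3 ^ 15) : ℝ≥0) := by
    intro x s M hs
    have h4 := (ncard_le_ncard hs (mult h.sc x).1).trans (mult h.sc x).2
    have h5 : ((3 ^ 15 : ℝ≥0) : ℝ) ≤ (max M (3 ^ 15) : ℝ≥0) := NNReal.coe_le_coe.2 (le_max_right _ _)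
    refine le_trans ?_ h5
    exact_mod_cast h4
  have H : ∀ i, ∃ (nm : E3 ≃ᴬ[ℝ] E3) (M : ℝ≥0),
      BiChart (K.dim i) (nm '' K.cell i) (nm '' K.bd i) M ∧
      (far i → (∀ x, nm x = (2:ℝ) ^ kf i • x) ∧ M = max (max Mk Mf) (3 ^ 15)) ∧
      (¬ far i → ∃ j, K.cell i ⊆ P.U j ∧ (K.cell i ⊆ P.BufSet j ∨ ((∀ x, nm x = P.η⁻¹ • x) ∧
        M = max (max (Mn (P.T j) (P.m j)) (D (P.T j) (P.m j))) (3 ^ 15)))) ∧
      ∀ j, K.cell i ⊆ P.BufSet j → M = max (max Mk Mf) (3 ^ 15) ∧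
        (K.cell i ⊆ P.Fine j → ∀ x, nm x = (P.n : ℝ) • P.nu j x) ∧
        (¬ K.cell i ⊆ P.Fine j → ∀ x, nm x = P.nu j x) := by
    intro i
    by_cases hi : far i
    · obtain ⟨nm, e⟩ := exists_smul (c := (2:ℝ) ^ kf i) (by positivity) (.refl ℝ E3)
      obtain ⟨z, -, hz⟩ := h.cb (hpt i) (hkf i hi)
      refine ⟨nm, _, h.chart (hf _ ((le_max_right _ _).trans (le_max_left _ _)))
        (c.θ (Sum.inl (kf i))) nm ((2:ℝ) ^ kf i • P.w) (hpt i)
        ((ad_far' (hi _ (hpt i).1) (hkf i hi)).congr (c.hδ _)) (fun x hx y hy => ?_) fun x => ?_,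
        fun _ => ⟨e, rfl⟩, fun h' => absurd hi h', fun j hj => ?_⟩
      · rw [c.hδ, c.hδ]
        exact dist_ucube (hz x hx) (hz y hy)
      · rw [e, c.hδ, dy, ← smul_add, sub_add_cancel]
        rfl
      · exact absurd (hj (hpt i).1) (Set.disjoint_left.1 (hfb i j hi) (hpt i).1)
    by_cases hb : ∃ j, K.cell i ⊆ P.BufSet j
    · obtain ⟨j, hj⟩ := hb
      have hU : K.cell i ⊆ P.U j := fun x hx => mem_U.2 ((buf_nr ok (hj hx)).mono (by norm_num))
      by_cases hF : K.cell i ⊆ P.Fine j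
      · obtain ⟨nm, e⟩ := exists_smul (c := (P.n : ℝ))
          (by exact_mod_cast Nat.one_le_iff_ne_zero.1 ok.n_pos) (c.θ (Sum.inr j))
        simp only [c.hν] at e
        refine ⟨nm, max (max Mk Mf) (3 ^ 15),
          h.chart (hk _ ((le_max_left _ _).trans (le_max_left _ _))) nm nm 0 (hpt i)
          ((ad_fine (hj (hpt i).1)).congr e) (fun x hx y hy => ?_) fun x => (add_zero _).symm,
          fun h' => absurd h' hi, fun _ => ⟨j, hU, Or.inl hj⟩, fun j' hj' => ?_⟩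
        · rw [h.fine hF (hpt i)] at hx hy
          rw [e, e]
          exact dist_ucube (kcell_cube hx) (kcell_cube hy)
        · obtain rfl := huniq i j j' hj hj'
          exact ⟨rfl, fun _ => e, fun h' => absurd hF h'⟩
      · obtain ⟨z, h4, h5⟩ := hj (hpt i).1
        have h6 : core P j z := ⟨_, (buf_nr ok (hj (hpt i).1)).mono (by norm_num), h5⟩
        refine ⟨c.θ (Sum.inr j), max (max Mk Mf) (3 ^ 15),
          h.chart (hk _ ((le_max_left _ _).trans (le_max_left _ _)))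
          _ _ 0 (hpt i) ((ad_coarse (hj (hpt i).1) fun h' => hF (h.fine_sub (hpt i) h')).congr
            (c.hν j)) (fun x hx y hy => ?_) fun x => (add_zero _).symm,
          fun h' => absurd h' hi, fun _ => ⟨j, hU, Or.inl hj⟩, fun j' hj' => ?_⟩
        · rw [c.hν, c.hν]
          exact dist_ucube (h.co (hpt i) h6 h5 hx) (h.co (hpt i) h6 h5 hy)
        · obtain rfl := huniq i j j' hj hj'
          exact ⟨rfl, fun h' => absurd h' hF, fun _ => c.hν j⟩
    · have h4 : ∃ x ∈ K.cell i, ¬ Far P x := by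
        by_contra h4
        exact hi fun x hx => by_contra fun h5 => h4 ⟨x, hx, h5⟩
      obtain ⟨x₀, h4, h5⟩ := h4
      obtain ⟨j, hU⟩ := h.near h4 h5
      obtain ⟨nm, e⟩ := exists_smul (c := P.η⁻¹) (inv_ne_zero η_pos.ne') (.refl ℝ E3)
      refine ⟨nm, _, h.chart (hn (P.T j) (P.m j) _ ((le_max_left _ _).trans (le_max_left _ _)))
        (c.θ (Sum.inl P.k₀)) nm ((2:ℝ) ^ P.k₀ • P.w) (hpt i)
        ((ad_near (mem_U.1 (hU (hpt i).1)) fun h' => hb ⟨j, h.buf_sub (hpt i) (fine_buf h')⟩).congr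
          (c.hδ _)) (fun x hx y hy => ?_) fun x => ?_,
        fun h' => absurd h' hi, fun _ => ⟨j, hU, Or.inr ⟨e, rfl⟩⟩, fun j' hj' => absurd ⟨j', hj'⟩ hb⟩
      · rw [c.hδ, c.hδ]
        have h6 := (h.adj hy hx).dist_le ok ((mem_U.1 (hU hy)).mono (by norm_num))
        rw [dist_dy (P := P) P.k₀, un, mul_comm] at h6
        exact le_of_mul_le_mul_right h6 η_pos
      · rw [e, c.hδ, dy, ← smul_add, sub_add_cancel, η_inv]
        rfl
  choose nm M a1 a2 a3 a4 using H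
  exact ⟨{
    Q := K
    cvx := h1.cvx
    carrier := h2
    small := fun i x hx y hy => (h.adj hx hy).small ok
    rat := fun i hi x hx => by
      have hx' : x ∈ K.ocell i := (K.ocell_eq_cell hi).symm ▸ hx
      exact rat_of_dim (h1.finite hx) (fun ℓ hl => Ctx.rat hl) ((h1.dim hx').trans hi)
    ν := fun j => c.θ (Sum.inr j)
    ν_eq := c.hν
    sub_box := fun j z hz X => h.sub_box hz
    fine := fun j i hi x => h.fine hi
    coarse := fun j i => h.coarse
    nm := nm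
    M := M
    chart := fun i _ => a1 i
    far := far
    kf := kf
    far_face := fun i j hi hj => by
      have h4 : far j := fun x hx => hi x (hj hx)
      have h5 := h.cb' (hpt i) (hkf i hi) (hj (hpt j).1)
      exact ⟨h4, h5.le_succ ok (hkf j h4), (hkf j h4).le_succ ok h5⟩
    far_chart := a2
    far_zone := fun i hi => ⟨((hkf i hi).facts ok).1, fun x hx => by
      obtain ⟨-, -, h4, h5⟩ := (h.cb' (hpt i) (hkf i hi) hx).facts ok
      have h6 : (0:ℝ) < 2⁻¹ ^ kf i := by positivity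
      exact ⟨by linarith, fun h7 => by linarith [h5 h7]⟩⟩
    far_wire := fun i hi h4 x hx => h.wire_far hL (hpt i) (hi _ (hpt i).1) (hkf i hi) h4 hx
    far_K := hfb
    far_near := fun i j hi ⟨x, hx, hU⟩ =>
      (h.cb' (hpt i) (hkf i hi) hx).eq_of_nr ok ((mem_U.1 hU).mono (by norm_num))
    near := a3
    buf_chart := a4
    wire_near := fun φ e j b1 b2 b3 b4 b5 x hx => h.wire_near b1 b2 b3 b4 b5 hx
    mult_far := fun x => hmul x _ _ fun i hi => hi.2.2
    mult_near := fun j x _ => hmul x _ _ fun i hi => hi.2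
    mult_fine := fun j x _ => hmul x _ _ Subset.rfl }⟩

theorem mesh : MESH := mesh_of arr lines (chart_of shape)

end P073
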