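import Vale.Agent.P073Z.GOOD.Cnt
import Vale.Agent.P073Z.KUHN
import Vale.Agent.P073Z.AVG

/-!
# Selection of the good simplices and count of the bad ones
-/

open Set Metric Topology Filter MeasureTheory
open scoped ENNReal NNReal

namespace P073

open Gd

theorem good_of (hK : KUHN) (hS : SEGV) : GOOD := by
  intro κ₀ hκ
  let θ : ℕ → ℝ := fun b => min (κ₀ (Mb b)) 1 / (64 * ((b : ℝ) + 1))
  have h1 : ∀ b, 0 < θ b ∧ θ b * (64 * ((b : ℝ) + 1)) = min (κ₀ (Mb b)) 1 := fun b =>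
    ⟨div_pos (lt_min (hκ _) one_pos) (by positivity), div_mul_cancel₀ _ (by positivity)⟩
  have h2 : ∀ b, θ b ≤ 1 ∧ θ b * (64 * b) ≤ 1 ∧ θ b * (4 * b) ≤ κ₀ (Mb b) := fun b => by
    obtain ⟨h3, h4⟩ := h1 b
    have h5 := mul_nonneg h3.le (Nat.cast_nonneg (α := ℝ) b)
    refine ⟨?_, ?_, ?_⟩ <;> nlinarith [min_le_left (κ₀ (Mb b)) 1, min_le_right (κ₀ (Mb b)) 1]
  have h3 : ∀ b, 1 ≤ Mb b := fun b => by
    have : (1 : ℝ) ≤ ((b : ℝ) + 1) ^ 3 := one_le_pow₀ (le_add_of_nonneg_left b.cast_nonneg)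
    unfold Mb
    linarith
  refine ⟨fun b => (80 * ((b : ℝ) + 1) ^ 2)⁻¹, θ, fun b => Cn b + Mb b, fun b =>
    ⟨by positivity, (h1 b).1, le_add_of_nonneg_of_le (Nat.cast_nonneg _) (h3 b)⟩, ?_⟩
  intro Ω f F P M₀ Mt S 𝓜 τ β d _ hP _ hF hβ hτ hd hp hg
  have H : Hy Ω P f τ β d := by
    refine ⟨hP, hK, hβ, fun j => ⟨(hτ j).1, ?_, (hτ j).2.2⟩, hd, fun j => ⟨(hp j).1,
      le_trans (mul_le_mul_of_nonneg_right (le_add_of_nonneg_left (Nat.cast_nonneg _))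
        (rho_pos hP j).le) (hp j).2⟩⟩
    have h4 : τ j ≤ (80 * (((P.T j).b : ℝ) + 1) ^ 2)⁻¹ := (hτ j).2.1
    rw [← one_div, le_div_iff₀ (by positivity)] at h4
    refine le_trans (mul_le_mul_of_nonneg_left ?_ (hτ j).1) h4
    gcongr
    linarith
  obtain ⟨γ, h4, h5⟩ := exists_good (θ := θ) H hS 𝓜 hF (fun b => (h2 b).2) hg
  refine ⟨γ, fun i hi => ?_, fun j => ?_⟩
  · obtain ⟨j, h6, h7⟩ := h5 i hi
    refine ⟨j, h6, fun x hx y hy => (h7 x hx y hy).trans ?_⟩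
    have h8 := (hτ j).1
    have h9 := (le_Mb (b_one P j)).1
    gcongr
    nlinarith [Nat.cast_nonneg (α := ℝ) (Cn (P.T j).b), sq_nonneg ((P.T j).b : ℝ)]
  · refine (enc_mono fun i hi => ?_).trans ((count H hS 𝓜 hF hg j ⟨(h1 _).1, (h2 _).1⟩).trans
      (mul_le_mul_left ?_ _))
    · exact ⟨hi.1, fun h => hi.2 (h4 i j h)⟩
    · rw [← ENNReal.ofReal_natCast]
      exact ENNReal.ofReal_le_ofReal (le_add_of_nonneg_right (zero_le_one.trans (h3 _)))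

theorem good : GOOD := good_of kuhn segv

end P073
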