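import Vale.Agent.P073Z.Sk3

/-!
# Approximation of a matrix by admissible types
-/

open Set Metric Topology Filter Module

namespace P073

namespace Typ

theorem exists_basis (B : E3 →L[ℝ] E3) (hB : B ≠ 0) : ∃ (r : ℕ) (L : E3 ≃L[ℝ] E3), 1 ≤ r ∧ r ≤ 3 ∧
    (∀ i : Fin 3, r ≤ (i : ℕ) → B (L (Pi.single i 1)) = 0) ∧
    ∀ u : E3, (∀ i : Fin 3, r ≤ (i : ℕ) → u i = 0) → B (L u) = 0 → u = 0 := by
  obtain ⟨W, hW⟩ := (LinearMap.ker (B : E3 →ₗ[ℝ] E3)).exists_isCompl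
  have hW' := hW.symm
  have hrs : finrank ℝ W + finrank ℝ (LinearMap.ker (B : E3 →ₗ[ℝ] E3)) = 3 := by
    rw [Submodule.finrank_add_eq_of_isCompl hW']
    simp
  let b₀ := ((finBasis ℝ W).prod (finBasis ℝ (LinearMap.ker (B : E3 →ₗ[ℝ] E3)))).map
    (Submodule.prodEquivOfIsCompl _ _ hW')
  let e := finSumFinEquiv.trans (finCongr hrs)
  let b := b₀.reindex e
  have hb : ∀ i : Fin 3, ((i : ℕ) < finrank ℝ W → b i ∈ W) ∧
      (finrank ℝ W ≤ (i : ℕ) → b i ∈ LinearMap.ker (B : E3 →ₗ[ℝ] E3)) := by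
    intro i
    obtain ⟨x, rfl⟩ := e.surjective i
    have h1 : b (e x) = b₀ x := by simp [b]
    rw [h1]
    rcases x with x | x
    · refine ⟨fun _ => by simp [b₀], fun h => ?_⟩
      have : ((e (Sum.inl x) : Fin 3) : ℕ) = x := by simp [e]
      rw [this] at h
      exact absurd x.2 (not_lt.2 h)
    · refine ⟨fun h => ?_, fun _ => by simp [b₀]⟩
      have : ((e (Sum.inr x) : Fin 3) : ℕ) = finrank ℝ W + x := by simp [e]
      rw [this] at h
      omega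
  have hL : ∀ u : E3, b.equivFun.symm.toContinuousLinearEquiv u = ∑ i, u i • b i := fun u =>
    b.equivFun_symm_apply u
  refine ⟨finrank ℝ W, b.equivFun.symm.toContinuousLinearEquiv, ?_, by omega, ?_, ?_⟩
  · by_contra hn
    have h0 : W = ⊥ := Submodule.finrank_eq_zero.1 (by omega)
    rw [h0] at hW
    have h1 : LinearMap.ker (B : E3 →ₗ[ℝ] E3) = ⊤ := eq_top_of_isCompl_bot hW
    refine hB (ContinuousLinearMap.ext fun x => ?_)
    have : x ∈ LinearMap.ker (B : E3 →ₗ[ℝ] E3) := h1 ▸ Submodule.mem_top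
    exact this
  · intro i hi
    have : b.equivFun.symm.toContinuousLinearEquiv (Pi.single i 1) = b i := by
      rw [hL]
      simp [Pi.single_apply]
    rw [this]
    exact (hb i).2 hi
  · intro u hu h0
    have h1 : b.equivFun.symm.toContinuousLinearEquiv u ∈ W := by
      rw [hL]
      refine W.sum_mem fun i _ => ?_
      rcases lt_or_ge (i : ℕ) (finrank ℝ W) with h | h
      · exact W.smul_mem _ ((hb i).1 h)
      · rw [hu i h, zero_smul]; exact W.zero_mem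
    have h2 := Submodule.disjoint_def.1 hW.disjoint _ h0 h1
    exact b.equivFun.symm.toContinuousLinearEquiv.map_eq_zero_iff.1 h2

theorem exists_low (C : E3 →L[ℝ] E3) (r : ℕ)
    (h : ∀ u : E3, (∀ i : Fin 3, r ≤ (i : ℕ) → u i = 0) → C u = 0 → u = 0) :
    ∃ c : ℝ, ∀ u : E3, (∀ i : Fin 3, r ≤ (i : ℕ) → u i = 0) → ‖u‖ ≤ c * ‖C u‖ := by
  let U : Submodule ℝ E3 :=
    { carrier := {u | ∀ i : Fin 3, r ≤ (i : ℕ) → u i = 0}
      add_mem' := fun {a b} ha hb i hi => by rw [Pi.add_apply, ha i hi, hb i hi, add_zero]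
      zero_mem' := fun _ _ => rfl
      smul_mem' := fun c a ha i hi => by rw [Pi.smul_apply, ha i hi, smul_zero] }
  obtain ⟨K, -, hK⟩ := LinearMap.exists_antilipschitzWith ((C : E3 →ₗ[ℝ] E3).domRestrict U)
    (LinearMap.ker_eq_bot'.2 fun u hu => Subtype.ext (h u.1 u.2 hu))
  exact ⟨K, fun u hu => by simpa using hK.le_mul_norm (map_zero _) ⟨u, hu⟩⟩

/-- the operator of a matrix -/
noncomputable def op : Matrix (Fin 3) (Fin 3) ℝ →ₗ[ℝ] (E3 →L[ℝ] E3) :=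
  LinearMap.toContinuousLinearMap.toLinearMap ∘ₗ Matrix.toLin'.toLinearMap

theorem op_apply (M : Matrix (Fin 3) (Fin 3) ℝ) (x : E3) : op M x = M.mulVec x := rfl

theorem exists_rat (L₀ : E3 ≃L[ℝ] E3) {O : Set ((E3 →L[ℝ] E3) × (E3 →L[ℝ] E3))}
    (hO : O ∈ 𝓝 ((L₀ : E3 →L[ℝ] E3), (L₀.symm : E3 →L[ℝ] E3))) : ∃ L : E3 ≃L[ℝ] E3,
    ((L : E3 →L[ℝ] E3), (L.symm : E3 →L[ℝ] E3)) ∈ O ∧ ∀ i k : Fin 3,
      (∃ q : ℚ, L (Pi.single i 1) k = q) ∧ ∃ q : ℚ, L.symm (Pi.single i 1) k = q := by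
  have hc : Continuous op := op.continuous_of_finiteDimensional
  have h0 : op (LinearMap.toMatrix' (L₀ : E3 →ₗ[ℝ] E3)) = L₀ := by
    ext x i
    simp [op]
  have hinv : ContinuousAt ContinuousLinearMap.inverse (L₀ : E3 →L[ℝ] E3) :=
    (contDiffAt_map_inverse (𝕜 := ℝ) (n := 0) L₀).continuousAt
  have h1 : ∀ᶠ X in 𝓝 (L₀ : E3 →L[ℝ] E3), (X, ContinuousLinearMap.inverse X) ∈ O := by
    refine (continuousAt_id.prodMk hinv).eventually_mem ?_
    simpa using hO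
  have h2 : ∀ᶠ X in 𝓝 (L₀ : E3 →L[ℝ] E3), X ∈ range
      ((↑) : (E3 ≃L[ℝ] E3) → E3 →L[ℝ] E3) := ContinuousLinearEquiv.nhds L₀
  have h3 := h1.and h2
  rw [← h0] at h3
  have hd : DenseRange (fun (Q : Matrix (Fin 3) (Fin 3) ℚ) => Q.map ((↑) : ℚ → ℝ)) :=
    DenseRange.piMap fun _ => DenseRange.piMap fun _ => Rat.denseRange_cast
  obtain ⟨Q, hQ, L, hL⟩ := hd.mem_nhds (hc.continuousAt.eventually h3)
  have hL' : ∀ x, L x = (Q.map ((↑) : ℚ → ℝ)).mulVec x := fun x => by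
    rw [← op_apply, ← hL]; rfl
  refine ⟨L, ?_, fun i k => ⟨⟨Q k i, ?_⟩, ⟨Q⁻¹ k i, ?_⟩⟩⟩
  · rw [← hL, ContinuousLinearMap.inverse_equiv] at hQ
    exact hQ
  · rw [hL']; simp
  · have hu : IsUnit (Q.map ((↑) : ℚ → ℝ)) := by
      rw [← Matrix.mulVec_injective_iff_isUnit]
      intro x y hxy
      exact L.injective (by rw [hL', hL']; exact hxy)
    have hdet : IsUnit Q.det := by
      rw [Matrix.isUnit_iff_isUnit_det, isUnit_iff_ne_zero] at hu
      rw [isUnit_iff_ne_zero]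
      intro h
      apply hu
      have := (Rat.castHom ℝ).map_det Q
      rw [h, map_zero] at this
      exact this.symm
    have hmul : Q.map ((↑) : ℚ → ℝ) * (Q⁻¹).map ((↑) : ℚ → ℝ) = 1 := by
      have := Matrix.map_mul (L := Q) (M := Q⁻¹) (f := Rat.castHom ℝ)
      rw [Matrix.mul_nonsing_inv Q hdet, Matrix.map_one _ (map_zero _) (map_one _)] at this
      exact this.symm
    have : L.symm (Pi.single i 1) = ((Q⁻¹).map ((↑) : ℚ → ℝ)).mulVec (Pi.single i 1) := by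
      rw [ContinuousLinearEquiv.symm_apply_eq, hL', Matrix.mulVec_mulVec, hmul, Matrix.one_mulVec]
    rw [this]
    simp

end Typ

open Typ in
theorem type_thm : TYPE := by
  intro τ hτ B hB
  obtain ⟨r, L₀, r1, r3, hk, hi⟩ := exists_basis B hB
  obtain ⟨c, hc⟩ := exists_low (B.comp (L₀ : E3 →L[ℝ] E3)) r hi
  obtain ⟨b, hb⟩ := exists_nat_gt (max (max 1 c) (max ‖B‖ (max ‖(L₀ : E3 →L[ℝ] E3)‖
    ‖(L₀.symm : E3 →L[ℝ] E3)‖)))
  simp only [max_lt_iff] at hb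
  obtain ⟨⟨b1, b2⟩, b3, b4, b5⟩ := hb
  have hA : Continuous fun q : (E3 →L[ℝ] E3) × (E3 →L[ℝ] E3) =>
      (B.comp (L₀ : E3 →L[ℝ] E3)).comp q.2 := continuous_const.clm_comp continuous_snd
  have h0 : (B.comp (L₀ : E3 →L[ℝ] E3)).comp (L₀.symm : E3 →L[ℝ] E3) = B := by
    ext x i
    simp
  have hO : {q : (E3 →L[ℝ] E3) × (E3 →L[ℝ] E3) | ‖q.1‖ < b ∧ ‖q.2‖ < b ∧
      ‖(B.comp (L₀ : E3 →L[ℝ] E3)).comp q.2‖ < b ∧
      ‖(B.comp (L₀ : E3 →L[ℝ] E3)).comp q.2 - B‖ < τ b} ∈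
      𝓝 ((L₀ : E3 →L[ℝ] E3), (L₀.symm : E3 →L[ℝ] E3)) := by
    refine IsOpen.mem_nhds ?_ ⟨b4, b5, by rw [h0]; exact b3, by rw [h0, sub_self, norm_zero]; exact hτ b⟩
    exact (isOpen_lt continuous_fst.norm continuous_const).inter
      ((isOpen_lt continuous_snd.norm continuous_const).inter
        ((isOpen_lt hA.norm continuous_const).inter
          (isOpen_lt (hA.sub continuous_const).norm continuous_const)))
  obtain ⟨L, ⟨k1, k2, k3, k4⟩, hq⟩ := exists_rat L₀ hO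
  refine ⟨⟨r, b, L, (B.comp (L₀ : E3 →L[ℝ] E3)).comp (L.symm : E3 →L[ℝ] E3), r1, r3, ?_, hq,
    k1.le, k2.le, k3.le, fun i h => ?_, fun u hu => ?_⟩, k4⟩
  · exact_mod_cast b1.le
  · simpa using hk i h
  · refine (hc u hu).trans ?_
    have : ((B.comp (L₀ : E3 →L[ℝ] E3)).comp (L.symm : E3 →L[ℝ] E3)) (L u) =
        (B.comp (L₀ : E3 →L[ℝ] E3)) u := by simp
    rw [this]
    exact mul_le_mul_of_nonneg_right b2.le (norm_nonneg _)

end P073
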