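import Vale.Agent.P073Z.KSEL
import Vale.Agent.P073Z.TYPE

/-!
# The selection statement, unconditional form
-/

namespace P073

theorem ksel : KSEL := ksel_of type_thm

end P073
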