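import Vale.Agent.P073Z.STAIR.Loc
import Vale.Agent.P073Z.A2

/-!
# The staircase map
-/

open Set Metric Topology Filter MeasureTheory
open scoped ENNReal NNReal

namespace P073

namespace Stair

variable {s σ p : ℝ} {c : E3 → ℝ} {z : Fin 3 → ℤ} {I J : Finset (Fin 3)} {H : E3 → E3} {ξ : E3}

/-- the affine model in an inner cube -/
noncomputable def lam (s : ℝ) (z : Fin 3 → ℤ) (S : Finset (Fin 3)) (ξ : E3) : E3 :=
  fun i => if i ∈ S then steep s (z i) (ξ i) else ξ i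

theorem lam_eq (S : Finset (Fin 3)) (ξ : E3) : lam s z S ξ = dgs S s⁻¹ ξ + lam s z S 0 := by
  funext i
  simp only [lam, steep, Pi.add_apply, dgs_apply, Pi.zero_apply]
  split_ifs <;> ring

theorem tj_eq_lam (h1 : c ξ = 1) (h : ξ ∈ ocube z) (hy : tj s c z I J ξ ∈ ocube z) :
    tj s c z I J ξ = lam s z (I \ J) ξ := by
  funext i
  by_cases hi : i ∈ I \ J
  · have h2 := (mem_ocube.1 hy i).1
    have h3 := (mem_ocube.1 h i).2
    rw [tj, push_of_mem hi, h1] at h2 ⊢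
    rw [lam, if_pos hi]
    rcases le_total (ξ i - 1) (steep s (z i) (ξ i)) with h4 | h4
    · exact max_eq_right h4
    · rw [max_eq_left h4] at h2
      linarith
  · rw [tj, push_of_notMem hi, lam, if_neg hi]

theorem lintegral_lam (hs : 0 < s) (S : Finset (Fin 3)) {g : E3 → ℝ≥0∞} (hg : Measurable g) :
    ∫⁻ ξ, g (lam s z S ξ) = ENNReal.ofReal s ^ S.card * ∫⁻ y, g y := by
  have hdet : (Matrix.diagonal fun i : Fin 3 => if i ∈ S then s⁻¹ else 1).det = s⁻¹ ^ S.card := by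
    rw [Matrix.det_diagonal, Finset.prod_ite_mem, Finset.univ_inter, Finset.prod_const]
  have h1 := Real.map_matrix_volume_pi_eq_smul_volume_pi
    (M := Matrix.diagonal fun i : Fin 3 => if i ∈ S then s⁻¹ else 1) (by rw [hdet]; positivity)
  have h2 : ⇑(Matrix.toLin' (Matrix.diagonal fun i : Fin 3 => if i ∈ S then s⁻¹ else 1)) =
      ⇑(dgs S s⁻¹) := by
    funext y i
    rw [Matrix.toLin'_apply, Matrix.mulVec_diagonal, dgs_apply]
  rw [h2, hdet, inv_pow, inv_inv, abs_of_pos (by positivity), ENNReal.ofReal_pow hs.le] at h1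
  have h3 := lintegral_map (μ := (volume : Measure E3)) (f := fun y => g (y + lam s z S 0))
    (hg.comp (measurable_add_const _)) (dgs S s⁻¹).continuous.measurable
  rw [h1, lintegral_smul_measure, lintegral_add_right_eq_self, smul_eq_mul] at h3
  rw [h3]
  exact lintegral_congr fun ξ => by rw [lam_eq]

theorem lintegral_gj (hp : 0 ≤ p) : ∫⁻ y, gj H p z J y ≤ En (3 - J.card) p H (uface z J) := by
  rw [gj, lintegral_indicator (isOpen_ocube z).measurableSet]
  exact face_le z J H hp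

theorem inner_norm (hs : 0 < s) (hs1 : s < 1) (hc : LipschitzWith (1 / 2) c)
    (h1 : ∀ ξ ∈ ocube z, c ξ = 1) (hJ : J ⊆ I) (h : ξ ∈ ocube z)
    (hy : tj s c z I J ξ ∈ ocube z) :
    ‖(fderiv ℝ (tj s c z I J) ξ).comp (dgs I s)‖ ≤ (1 : ℝ≥0) := by
  have h2 : tj s c z I J =ᶠ[𝓝 ξ] fun x => dgs (I \ J) s⁻¹ x + lam s z (I \ J) 0 := by
    filter_upwards [(isOpen_ocube z).mem_nhds h, (tj_lip hs hc).continuous.continuousAt
      ((isOpen_ocube z).mem_nhds hy)] with x a b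
    rw [tj_eq_lam (h1 x a) a b, lam_eq]
  have h3 : (dgs (I \ J) s⁻¹).comp (dgs I s) = dgs J s := by
    ext y i
    simp only [ContinuousLinearMap.comp_apply, dgs_apply, Finset.mem_sdiff]
    by_cases a : i ∈ J
    · simp [a, hJ a]
    · by_cases b : i ∈ I
      · simp [a, b, hs.ne']
      · simp [a, b]
  rw [h2.fderiv_eq, ((dgs (I \ J) s⁻¹).hasFDerivAt.add_const _).fderiv, h3]
  exact norm_dgs_le J hs.le hs1.le

theorem inner_le (hs : 0 < s) (hp : 0 ≤ p) (h1 : ∀ ξ ∈ ocube z, c ξ = 1) (hJ : J ⊆ I) :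
    ∫⁻ ξ in ocube z, gj H p z J (tj s c z I J ξ) ≤
      ENNReal.ofReal s ^ (I.card - J.card) * En (3 - J.card) p H (uface z J) := by
  calc ∫⁻ ξ in ocube z, gj H p z J (tj s c z I J ξ)
      ≤ ∫⁻ ξ in ocube z, gj H p z J (lam s z (I \ J) ξ) := by
        refine setLIntegral_mono' (isOpen_ocube z).measurableSet fun ξ hξ => ?_
        by_cases hy : tj s c z I J ξ ∈ ocube z
        · rw [tj_eq_lam (h1 ξ hξ) hξ hy]
        · rw [gj, indicator_of_notMem hy]
          exact zero_le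
    _ ≤ ∫⁻ ξ, gj H p z J (lam s z (I \ J) ξ) := setLIntegral_le_lintegral _ _
    _ ≤ _ := by
        rw [lintegral_lam hs _ measurable_gj, Finset.card_sdiff_of_subset hJ]
        exact mul_le_mul_right (lintegral_gj hp) _

theorem outer_le (hs : 0 < s) (hs1 : s < 1) (hp : 0 ≤ p) (hc : LipschitzWith (1 / 2) c) :
    ∫⁻ ξ in ocube z, gj H p z J (tj s c z I J ξ) ≤
      ((2 : ℝ≥0) : ℝ≥0∞) ^ (3:ℝ) * En (3 - J.card) p H (uface z J) :=
  (setLIntegral_le_lintegral _ _).trans ((lintegral_comp_le (tj_anti hs hs1 hc)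
    (tj_lip hs hc).continuous.measurable measurable_gj).trans
    (mul_le_mul_right (lintegral_gj hp) _))

theorem kill {B : E3 →L[ℝ] E3} (hB : ∀ i ∈ I, B (Pi.single i 1) = 0) {v w : E3}
    (h : ∀ i, i ∉ I → v i = w i) : B v = B w := by
  rw [← sub_eq_zero, ← map_sub, ← Finset.univ_sum_single (v - w), map_sum]
  refine Finset.sum_eq_zero fun i _ => ?_
  by_cases hi : i ∈ I
  · have : (Pi.single i ((v - w) i) : E3) = (v - w) i • (Pi.single i 1 : E3) := by
      rw [← Pi.single_smul, smul_eq_mul, mul_one]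
    rw [this, map_smul, hB i hi, smul_zero]
  · rw [Pi.sub_apply, h i hi, sub_self, Pi.single_zero, map_zero]

theorem finite_cubes {X : Set E3} (hX : Bornology.IsBounded X) :
    {z : Fin 3 → ℤ | ucube z ⊆ X}.Finite := by
  obtain ⟨R, hR⟩ := hX.exists_norm_le
  refine (finite_Icc (fun _ => -⌈R⌉) fun _ => ⌈R⌉).subset fun z hz => ?_
  have h1 := hR _ (hz (mem_ucube.2 fun i => ⟨le_rfl, by linarith⟩ : (fun i => (z i : ℝ)) ∈ _))
  have h2 : ∀ i, |(z i : ℝ)| ≤ ⌈R⌉ := fun i =>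
    ((norm_le_pi_norm (fun i => (z i : ℝ)) i).trans h1).trans (Int.le_ceil R)
  exact ⟨fun i => by exact_mod_cast (abs_le.1 (h2 i)).1,
    fun i => by exact_mod_cast (abs_le.1 (h2 i)).2⟩

/-- the global map -/
theorem exists_global (hs : 0 < s) (hs1 : s < 1) (hc : LipschitzWith (1 / 2) c)
    (hc0 : ∀ ξ, 0 ≤ c ξ) (hpl : PLOn c univ) (h0 : 0 < σ) (h1 : σ ≤ 1 / 2) :
    ∃ Θ : ConHomeo (univ : Set E3) (univ : Set E3), (∀ ξ, c ξ = 0 → Θ.toFun ξ = ξ) ∧
      (∀ z, Θ.toFun '' ucube z = ucube z) ∧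
      ∀ z, ∀ ξ ∈ ocube z, Θ.toFun =ᶠ[𝓝 ξ] th s c z I σ := by
  have hσ : σ ≤ 1 := by linarith
  obtain ⟨Θ, hΘ⟩ := exists_homeo (f := push I (fun _ => st s σ) c)
    (pl_push (fun _ => pl_st hs hs1 hσ) hpl) (push_anti (two_le_inv h0 h1) (fun i t t' h => by
      rw [Real.coe_toNNReal _ (by positivity), le_inv_mul_iff₀ h0]
      exact st_slope hs hs1 hσ h) hc)
  have hle : ∀ ξ i, Θ.toFun ξ i ≤ ξ i := fun ξ i => by
    rw [hΘ]
    by_cases hi : i ∈ I
    · rw [push_of_mem hi]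
      exact max_le (sub_le_self _ (hc0 ξ)) (st_le hs hs1 hσ)
    · rw [push_of_notMem hi]
  have hge : ∀ ξ i (k : ℤ), ((k:ℝ) ≤ ξ i → (k:ℝ) ≤ Θ.toFun ξ i) ∧
      ((k:ℝ) < ξ i → (k:ℝ) < Θ.toFun ξ i) := fun ξ i k => by
    rw [hΘ]
    by_cases hi : i ∈ I
    · rw [push_of_mem hi]
      constructor
      · intro h
        have := st_slope hs hs1 hσ h
        rw [st_int hs hs1] at this
        exact le_max_of_le_right (by nlinarith)
      · intro h
        have := st_slope hs hs1 hσ h.le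
        rw [st_int hs hs1] at this
        exact lt_max_of_lt_right (by nlinarith)
    · rw [push_of_notMem hi]
      exact ⟨id, id⟩
  refine ⟨Θ, fun ξ h => funext fun i => ?_, fun z => Subset.antisymm ?_ fun y hy => ?_,
    fun z ξ hξ => ?_⟩
  · rw [hΘ]
    by_cases hi : i ∈ I
    · rw [push_of_mem hi, h, sub_zero, max_eq_left (st_le hs hs1 hσ)]
    · rw [push_of_notMem hi]
  · rintro _ ⟨ξ, hξ, rfl⟩
    exact mem_ucube.2 fun i => ⟨(hge ξ i _).1 (mem_ucube.1 hξ i).1,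
      (hle ξ i).trans (mem_ucube.1 hξ i).2⟩
  · have e := Θ.right_inv (mem_univ y)
    refine ⟨Θ.invFun y, mem_ucube.2 fun i => ⟨?_, not_lt.1 fun h => ?_⟩, e⟩
    · have := hle (Θ.invFun y) i
      rw [e] at this
      exact (mem_ucube.1 hy i).1.trans this
    · have := (hge (Θ.invFun y) i (z i + 1)).2 (by push_cast; exact h)
      rw [e] at this
      push_cast at this
      exact not_lt.2 (mem_ucube.1 hy i).2 this
  · filter_upwards [(isOpen_ocube z).mem_nhds hξ] with x hx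
    rw [hΘ]
    funext i
    by_cases hi : i ∈ I
    · rw [th, push_of_mem hi, push_of_mem hi,
        st_eq hs hs1 hσ (mem_ucube.1 (ocube_subset z hx) i)]
    · rw [th, push_of_notMem hi, push_of_notMem hi]

end Stair

open Stair

theorem stair : STAIR := by
  intro p s hp hs hs1
  have hp0 : 0 < p := by linarith
  refine ⟨kk s ^ p * 2 ^ (3:ℝ), ?_⟩
  intro W Z H I B 𝓘 ε hW hH hZ hcon hsub hint hB hε
  rcases 𝓘.eq_empty_or_nonempty with rfl | hne
  · refine ⟨ConHomeo.refl A2.conicalSet_univ, fun _ _ => rfl, fun _ => image_id' _,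
      fun _ h => absurd h (by simp), fun z h => ?_⟩
    have := h (mem_ucube.2 fun i => ⟨le_rfl, by linarith⟩ : (fun i => (z i : ℝ)) ∈ _)
    simp at this
  set U : Set E3 := ⋃ z ∈ 𝓘, ucube z with hU
  have hUc : IsCompact U := 𝓘.isCompact_biUnion fun _ _ => isCompact_Icc
  have hUl : LocCone U := A1.locCone_biUnion 𝓘.finite_toSet fun _ _ => locCone_Icc_pi _ _
  have hUn : U.Nonempty := let ⟨z, hz⟩ := hne
    ⟨fun i => z i, mem_iUnion₂.2 ⟨z, hz, mem_ucube.2 fun i => ⟨le_rfl, by linarith⟩⟩⟩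
  let c : E3 → ℝ := fun ξ => max (1 - 1 / 2 * infDist ξ U) 0
  have hc : LipschitzWith (1 / 2) c := by
    refine LipschitzWith.max_const (LipschitzWith.of_dist_le_mul fun x y => ?_) 0
    have := (lipschitz_infDist_pt U).dist_le_mul x y
    rw [Real.dist_eq] at this ⊢
    have h2 : 1 - 1 / 2 * infDist x U - (1 - 1 / 2 * infDist y U) =
        -(1 / 2) * (infDist x U - infDist y U) := by ring
    rw [h2, abs_mul, abs_neg, abs_of_pos (by norm_num : (0:ℝ) < 1 / 2)]
    simp only [NNReal.coe_one, one_mul, NNReal.coe_div, NNReal.coe_ofNat] at this ⊢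
    linarith
  have hc0 : ∀ ξ, 0 ≤ c ξ := fun _ => le_max_right _ _
  have hpl : PLOn c univ := A2.pl_max (A2.pl_sub (A2.pl_const _ A2.conicalSet_univ)
    (A2.pl_mul _ ⟨(continuous_infDist_pt U).continuousOn, dist_thm hUc hUl hUn⟩))
    (A2.pl_const _ A2.conicalSet_univ)
  have hin : ∀ z ∈ 𝓘, ucube z ⊆ cthickening 3 U := fun z hz =>
    (subset_biUnion_of_mem (u := ucube) hz).trans (self_subset_cthickening U)
  have hc1 : ∀ z ∈ 𝓘, ∀ ξ ∈ ocube z, c ξ = 1 := fun z hz ξ hξ => by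
    have : infDist ξ U = 0 :=
      infDist_zero_of_mem (subset_biUnion_of_mem (u := ucube) hz (ocube_subset z hξ))
    simp [c, this]
  let σ : ℕ → ℝ := fun n => 1 / 2 * (1 / ((n:ℝ) + 1))
  have hσ : ∀ n, 0 < σ n ∧ σ n ≤ 1 / 2 := fun n => ⟨by positivity, mul_le_of_le_one_right
    (by norm_num) ((div_le_one (by positivity)).2 (by simp))⟩
  have hlim : Tendsto σ atTop (𝓝 0) := by
    have := (tendsto_one_div_add_atTop_nhds_zero_nat (𝕜 := ℝ)).const_mul (1 / 2)
    rwa [mul_zero] at this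
  have g1 : ∀ z, ucube z ⊆ cthickening 3 U → (∀ J, Gen H z J) ∧ Unif H z := fun z hz =>
    gen_unif hW hH hZ hcon (hz.trans hsub) fun ξ hξ i => hint ξ ⟨hξ.1, hz hξ.2⟩ i _
  have g2 : ∀ z, ucube z ⊆ cthickening 3 U →
      (∀ J, Gen (fun ξ => H ξ - B ξ) z J) ∧ Unif (fun ξ => H ξ - B ξ) z := fun z hz =>
    gen_unif hW (hH.sub B.continuous.continuousOn) hZ
      (hcon.sub (conicalOn_linear B.toLinearMap hcon.conicalSet)) (hz.trans hsub)
      fun ξ hξ i => hint ξ ⟨hξ.1, hz hξ.2⟩ i _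
  have e1 := (eventually_all_finset 𝓘).2 fun z hz => loc (I := I) hs hs1 hp0 hc hc0 (dgs I s)
    (fun J hJ ξ hξ hy => inner_norm hs hs1 hc (hc1 z hz) hJ hξ hy) (g2 z (hin z hz)).1
    (g2 z (hin z hz)).2 hσ hlim hε
  have e2 := (eventually_all_finite (finite_cubes (hUc.isBounded.cthickening (δ := 3)))).2
    fun z hz => loc (I := I) (κ := kk s) hs hs1 hp0 hc hc0 (ContinuousLinearMap.id ℝ E3)
      (fun J _ ξ _ _ => norm_fderiv_le_of_lipschitz ℝ (tj_lip hs hc)) (g1 z hz).1 (g1 z hz).2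
      hσ hlim hε
  obtain ⟨n, f1, f2⟩ := (e1.and e2).exists
  obtain ⟨Θ, t1, t2, t3⟩ := exists_global (I := I) hs hs1 hc hc0 hpl (hσ n).1 (hσ n).2
  have t4 : ∀ z, ∀ ξ ∈ ocube z,
      fderiv ℝ (H ∘ Θ.toFun) ξ = fderiv ℝ (H ∘ th s c z I (σ n)) ξ := fun z ξ hξ =>
    EventuallyEq.fderiv_eq ((t3 z ξ hξ).mono fun x hx => congrArg H hx)
  refine ⟨Θ, fun ξ hξ => t1 ξ (max_eq_right ?_), t2, fun z hz => ?_, fun z hz => ?_⟩
  · rw [mem_thickening_iff_infDist_lt hUn, not_lt] at hξ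
    linarith
  · rw [← setLIntegral_congr (ocube_ae z)]
    refine le_trans (le_of_eq (lintegral_congr_ae ?_)) ((f1 z hz).trans (add_le_add_left ?_ _))
    · refine (ae_restrict_iff' (isOpen_ocube z).measurableSet).2 ?_
      filter_upwards [ae_diff (I := I) hs hs1 hc hc0 ((g1 z (hin z hz)).1 ∅) (hσ n).1 (hσ n).2]
        with ξ h1 hξ
      have h2 : (fun ξ => H ξ - B ξ) ∘ th s c z I (σ n) =
          fun x => (H ∘ th s c z I (σ n)) x - B x := by
        funext x
        simp only [Function.comp]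
        rw [kill (v := th s c z I (σ n) x) (w := x) hB fun i hi => push_of_notMem hi x]
      rw [t4 z ξ hξ, h2, ((h1 hξ).hasFDerivAt.fun_sub B.hasFDerivAt).fderiv]
    · refine le_trans (Finset.sum_le_sum fun J hJ => ?_)
        (le_mul_of_one_le_left' (ENNReal.one_le_rpow one_le_two hp0))
      rw [ENNReal.coe_one, ENNReal.one_rpow, one_mul]
      exact inner_le hs hp0.le (hc1 z hz) (Finset.mem_powerset.1 hJ)
  · rw [← setLIntegral_congr (ocube_ae z),
      setLIntegral_congr_fun (isOpen_ocube z).measurableSet fun ξ hξ => by rw [t4 z ξ hξ]]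
    refine (f2 z hz).trans (add_le_add_left ?_ _)
    rw [Finset.mul_sum]
    refine Finset.sum_le_sum fun J _ => ?_
    rw [ENNReal.coe_mul, ENNReal.coe_rpow_of_nonneg _ hp0.le,
      ENNReal.coe_rpow_of_nonneg _ (by norm_num), mul_assoc]
    exact mul_le_mul_right (outer_le hs hs1 hp0.le hc) _

end P073
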