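import Vale.Agent.P073Z.TOPOF
import Vale.Agent.P073Z.MESH
import Vale.Agent.P073Z.GOOD
import Vale.Agent.P073Z.KSELFin
import Vale.Agent.P073Z.HAJ
import Vale.Agent.P073Z.STAIR
import Vale.Agent.P073Z.GenBV
import Vale.Agent.P073Z.ACC.Tools
import Vale.Agent.P073Z.ACC.Cube
import Vale.Agent.P073Z.ACC.Cell
import Vale.Agent.P073Z.ACC.Box
import Vale.Agent.P073Z.ACC.Farn
import Vale.Agent.P073Z.ACC.Stairs
import Vale.Agent.P073Z.ACC.Det
import Vale.Agent.P073Z.ACC.Mean
import Vale.Agent.P073Z.ACC.Gauge
import Vale.Agent.P073Z.ACC.Final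
import Vale.Agent.P073Z.Fin.All

/-!
# The piecewise linear approximation, and the approximation theorem for exponents below two
-/

namespace P073

theorem cell_thm : CELL := cell_of cube_thm

theorem det_thm : DET := det_of cube_thm cell_thm ena (box_of cube_thm cell_thm scale ena)
  (farn_of cube_thm cell_thm scale ena chain) (stairs_of stair cube_thm cell_thm)

theorem pla : PLA :=
  pla_of (mid_of topo_thm mesh good wire cube_thm cell_thm det_thm) ksel haj genbv mean gauge_thm
    cube_thm

theorem ballEvans (p : ℝ) (hp1 : 1 ≤ p) (hp2 : p < 2) : Vale.Agent.P073Z.Fin.BallEvans p :=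
  Vale.Agent.P073Z.Fin.ballEvans_of_PLA pla p hp1 hp2

end P073
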