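import Vale.Agent.P073Z.FLAT.Core
import Vale.Agent.P073Z.FLAT.Red
import Vale.Agent.P073Z.FLAT.Ind

/-!
# Flattening of the good triangles: the unconditional statements
-/

namespace P073

theorem flat1 : FLAT1 := flat1_of flcore

theorem flat : FLAT := flat_of flat1

end P073
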