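import Vale.Agent.P073Z.GRID.Defs

/-!
# The Banach indicatrix and counting crossings
-/

open Set Metric Topology Filter MeasureTheory
open scoped ENNReal NNReal

namespace P073

namespace Ind

theorem enc_eq {α : Type*} (s : Set α) :
    (s.encard : ℝ≥0∞) = ∑' x, s.indicator (fun _ => (1 : ℝ≥0∞)) x := by
  rw [← ENNReal.tsum_set_one, tsum_subtype s (fun _ => (1 : ℝ≥0∞))]

theorem sc_closed {A C : Set ℝ} (hA : IsSigmaCompact A) (hC : IsClosed C) :
    IsSigmaCompact (A ∩ C) := by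
  obtain ⟨K, hK, rfl⟩ := hA
  rw [iUnion_inter]
  exact isSigmaCompact_iUnion_of_isCompact _ fun i => (hK i).inter_right hC

theorem sc_open {A U : Set ℝ} (hA : IsSigmaCompact A) (hU : IsOpen U) :
    IsSigmaCompact (A ∩ U) := by
  obtain ⟨F, hF, -, rfl, -⟩ := hU.exists_iUnion_isClosed
  rw [inter_iUnion]
  exact isSigmaCompact_iUnion _ fun i => sc_closed hA (hF i)

theorem sc_meas {A : Set ℝ} (hA : IsSigmaCompact A) : MeasurableSet A := by
  obtain ⟨K, hK, rfl⟩ := hA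
  exact MeasurableSet.iUnion fun i => (hK i).measurableSet

/-- the pieces of mesh `1 / n` -/
def piece (A : Set ℝ) (n : ℕ) (k : ℤ) : Set ℝ := {s ∈ A | ⌊(n : ℝ) * s⌋ = k}

theorem sc_piece {A : Set ℝ} (hA : IsSigmaCompact A) (n : ℕ) (k : ℤ) :
    IsSigmaCompact (piece A n k) := by
  have h : piece A n k = (A ∩ {s | (k : ℝ) ≤ n * s}) ∩ {s | n * s < (k : ℝ) + 1} := by
    ext s
    simp only [piece, mem_ofPred_eq, mem_inter_iff, Int.floor_eq_iff, and_assoc]
  rw [h]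
  exact sc_open (sc_closed hA (isClosed_le continuous_const (by fun_prop)))
    (isOpen_lt (by fun_prop) continuous_const)

/-- the number of pieces meeting the level set -/
noncomputable def num (φ : ℝ → ℝ) (A : Set ℝ) (n : ℕ) (t : ℝ) : ℝ≥0∞ :=
  ∑' k : ℤ, (φ '' piece A n k).indicator (fun _ => (1 : ℝ≥0∞)) t

theorem num_eq (φ : ℝ → ℝ) (A : Set ℝ) (n : ℕ) (t : ℝ) :
    num φ A n t = (((fun s : ℝ => ⌊(n : ℝ) * s⌋) '' {s ∈ A | φ s = t}).encard : ℝ≥0∞) := by
  rw [enc_eq, num]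
  refine tsum_congr fun k => ?_
  have h : t ∈ φ '' piece A n k ↔ k ∈ (fun s : ℝ => ⌊(n : ℝ) * s⌋) '' {s ∈ A | φ s = t} :=
    ⟨fun ⟨s, ⟨h1, h2⟩, h3⟩ => ⟨s, ⟨h1, h3⟩, h2⟩, fun ⟨s, ⟨h1, h3⟩, h2⟩ => ⟨s, ⟨h1, h2⟩, h3⟩⟩
  by_cases hk : t ∈ φ '' piece A n k
  · rw [indicator_of_mem hk, indicator_of_mem (h.1 hk)]
  · rw [indicator_of_notMem hk, indicator_of_notMem (fun h' => hk (h.2 h'))]

theorem ev_ne {x y : ℝ} (h : x ≠ y) : ∀ᶠ n : ℕ in atTop, ⌊(n : ℝ) * x⌋ ≠ ⌊(n : ℝ) * y⌋ := by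
  have hp : 0 < |x - y| := abs_pos.2 (sub_ne_zero.2 h)
  filter_upwards [eventually_ge_atTop ⌈1 / |x - y|⌉₊] with n hn he
  have h1 := Int.abs_sub_lt_one_of_floor_eq_floor he
  have h2 : 1 / |x - y| ≤ n := (Nat.le_ceil _).trans (by exact_mod_cast hn)
  rw [← mul_sub, abs_mul, Nat.abs_cast] at h1
  rw [div_le_iff₀ hp] at h2
  linarith

theorem indic_eq (φ : ℝ → ℝ) (A : Set ℝ) (t : ℝ) :
    indic φ A t = liminf (fun n => num φ A n t) atTop := by
  apply le_antisymm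
  · rw [indic, ← ENNReal.tsum_set_one, ENNReal.tsum_eq_iSup_sum]
    refine iSup_le fun F => le_liminf_of_le (by isBoundedDefault) ?_
    have hF : ∀ᶠ n : ℕ in atTop, ∀ x ∈ F, ∀ y ∈ F, x ≠ y →
        ⌊(n : ℝ) * x.1⌋ ≠ ⌊(n : ℝ) * y.1⌋ := by
      refine (F.eventually_all).2 fun x _ => (F.eventually_all).2 fun y _ => ?_
      by_cases hxy : x = y
      · exact Eventually.of_forall fun _ h => absurd hxy h
      · filter_upwards [ev_ne (fun h => hxy (Subtype.ext h))] with n hn _ using hn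
    filter_upwards [hF] with n hn
    rw [num_eq]
    have hinj : InjOn (fun x : {s ∈ A | φ s = t} => ⌊(n : ℝ) * x.1⌋) (F : Set _) :=
      fun x hx y hy h => by_contra fun hne => hn x hx y hy hne h
    have h1 : (F.card : ℕ∞) ≤
        ((fun s : ℝ => ⌊(n : ℝ) * s⌋) '' {s ∈ A | φ s = t}).encard := by
      rw [← encard_coe_eq_coe_finsetCard, ← hinj.encard_image]
      refine encard_le_encard ?_
      rintro _ ⟨x, -, rfl⟩
      exact ⟨x.1, x.2, rfl⟩
    have h2 := ENat.toENNReal_le.2 h1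
    simpa using h2
  · refine liminf_le_of_frequently_le' (Frequently.of_forall fun n => ?_)
    rw [num_eq, indic]
    exact ENat.toENNReal_le.2 (encard_image_le _ _)

theorem meas_img {φ : ℝ → ℝ} {A : Set ℝ} (hA : IsSigmaCompact A) (hφ : ContinuousOn φ A)
    (n : ℕ) (k : ℤ) : MeasurableSet (φ '' piece A n k) :=
  sc_meas ((sc_piece hA n k).image_of_continuousOn (hφ.mono fun _ h => h.1))

theorem meas_num {φ : ℝ → ℝ} {A : Set ℝ} (hA : IsSigmaCompact A) (hφ : ContinuousOn φ A)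
    (n : ℕ) : Measurable (num φ A n) :=
  Measurable.tsum fun k => measurable_const.indicator (meas_img hA hφ n k)

theorem sum_var_le (φ : ℝ → ℝ) (A : Set ℝ) (n : ℕ) (F : Finset ℤ) :
    ∑ k ∈ F, eVariationOn φ (piece A n k) ≤ eVariationOn φ (⋃ k ∈ F, piece A n k) := by
  induction F using Finset.induction_on_max with
  | empty => simp
  | insert m F hm ih =>
    rw [Finset.sum_insert fun h => (hm m h).false, Finset.set_biUnion_insert, add_comm,
      union_comm]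
    refine (add_le_add ih le_rfl).trans (eVariationOn.add_le_union φ ?_)
    intro x hx y hy
    obtain ⟨k, hk, hx⟩ := mem_iUnion₂.1 hx
    by_contra hlt
    have h1 : ⌊(n : ℝ) * y⌋ ≤ ⌊(n : ℝ) * x⌋ :=
      Int.floor_le_floor (mul_le_mul_of_nonneg_left (not_le.1 hlt).le (Nat.cast_nonneg n))
    rw [hx.2, hy.2] at h1
    exact absurd (hm k hk) (not_lt.2 h1)

theorem lint_num_le {φ : ℝ → ℝ} {A : Set ℝ} (hA : IsSigmaCompact A) (hφ : ContinuousOn φ A)
    (n : ℕ) : ∫⁻ t, num φ A n t ≤ eVariationOn φ A := by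
  simp only [num]
  rw [lintegral_tsum fun k => (measurable_const.indicator (meas_img hA hφ n k)).aemeasurable]
  have h1 : ∀ k, ∫⁻ t, (φ '' piece A n k).indicator (fun _ => (1 : ℝ≥0∞)) t ≤
      eVariationOn φ (piece A n k) := by
    intro k
    rw [lintegral_indicator_const (meas_img hA hφ n k), one_mul]
    refine (Real.volume_le_diam _).trans (ediam_le ?_)
    rintro _ ⟨x, hx, rfl⟩ _ ⟨y, hy, rfl⟩
    exact eVariationOn.edist_le φ hx hy
  refine (ENNReal.tsum_le_tsum h1).trans ?_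
  rw [ENNReal.tsum_eq_iSup_sum]
  exact iSup_le fun F => (sum_var_le φ A n F).trans
    (eVariationOn.mono φ (iUnion₂_subset fun _ _ _ h => h.1))

theorem lint_le {φ : ℝ → ℝ} {A : Set ℝ} (hA : IsSigmaCompact A) (hφ : ContinuousOn φ A) :
    ∫⁻ t, indic φ A t ≤ eVariationOn φ A := by
  simp only [indic_eq]
  refine (lintegral_liminf_le fun n => meas_num hA hφ n).trans ?_
  exact liminf_le_of_frequently_le' (Frequently.of_forall fun n => lint_num_le hA hφ n)

theorem cnt_eq (f : E3 → E3) {a b : E3} (hab : a ≠ b) (X : Set E3) :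
    cnt f a b X =
      ({s ∈ Icc (0 : ℝ) 1 | f (AffineMap.lineMap a b s) ∈ X}.encard : ℝ≥0∞) := by
  rw [cnt, ← (AffineMap.lineMap_injective ℝ hab).encard_image]
  congr 2
  rw [segment_eq_image_lineMap]
  ext x
  constructor
  · rintro ⟨⟨s, hs, rfl⟩, hx⟩
    exact ⟨s, ⟨hs, hx⟩, rfl⟩
  · rintro ⟨s, ⟨hs, hx⟩, rfl⟩
    exact ⟨⟨s, hs, rfl⟩, hx⟩

theorem cont_line {f : E3 → E3} {a b : E3} (hf : ContinuousOn f (segment ℝ a b)) :
    ContinuousOn (fun s : ℝ => f (AffineMap.lineMap a b s)) (Icc 0 1) := by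
  refine hf.comp AffineMap.lineMap_continuous.continuousOn fun s hs => ?_
  rw [segment_eq_image_lineMap]
  exact ⟨s, hs, rfl⟩

theorem var_coord_le (f : E3 → E3) (a b : E3) (j : Fin 3) :
    eVariationOn (fun s : ℝ => f (AffineMap.lineMap a b s) j) (Icc 0 1) ≤ segVar f a b := by
  have h := (LipschitzWith.eval (α := fun _ : Fin 3 => ℝ) j).lipschitzOnWith (s := univ)
    |>.comp_eVariationOn_le (g := fun s : ℝ => f (AffineMap.lineMap a b s)) (s := Icc 0 1)
      (mapsTo_univ _ _)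
  rw [ENNReal.coe_one, one_mul] at h
  exact h

end Ind

open Ind

theorem measurable_indic {φ : ℝ → ℝ} {A : Set ℝ} (hA : IsSigmaCompact A) (hφ : ContinuousOn φ A) :
    Measurable (indic φ A) := by
  have h : indic φ A = fun t => liminf (fun n => num φ A n t) atTop := funext (indic_eq φ A)
  rw [h]
  exact Measurable.liminf fun n => meas_num hA hφ n

theorem lintegral_indic_le {φ : ℝ → ℝ} {a b : ℝ} (hφ : ContinuousOn φ (Icc a b)) :
    ∫⁻ t, indic φ (Icc a b) t ≤ eVariationOn φ (Icc a b) :=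
  lint_le isCompact_Icc.isSigmaCompact hφ

theorem ae_finite_level {φ : ℝ → ℝ} {a b : ℝ} (hφ : ContinuousOn φ (Icc a b))
    (hv : eVariationOn φ (Icc a b) ≠ ⊤) : ∀ᵐ t, {s ∈ Icc a b | φ s = t}.Finite := by
  have h := ae_lt_top (measurable_indic isCompact_Icc.isSigmaCompact hφ)
    (ne_top_of_le_ne_top hv (lintegral_indic_le hφ))
  filter_upwards [h] with t ht
  rw [indic, ENat.toENNReal_lt_top] at ht
  exact encard_lt_top_iff.1 ht

theorem countable_locExtr {X : Type} [TopologicalSpace X] [SecondCountableTopology X] (φ : X → ℝ)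
    (A : Set X) :
    {t | ∃ s ∈ A, φ s = t ∧ (IsLocalMaxOn φ A s ∨ IsLocalMinOn φ A s)}.Countable := by
  have hc : (⋃ U ∈ TopologicalSpace.countableBasis X,
      ({t | IsGreatest (φ '' (U ∩ A)) t} ∪ {t | IsLeast (φ '' (U ∩ A)) t})).Countable := by
    refine (TopologicalSpace.countable_countableBasis X).biUnion fun U _ => Countable.union ?_ ?_
    · exact Set.Subsingleton.countable fun _ hx _ hy => IsGreatest.unique hx hy
    · exact Set.Subsingleton.countable fun _ hx _ hy => IsLeast.unique hx hy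
  refine hc.mono ?_
  have key : ∀ s ∈ A, ∀ p : X → Prop, (∀ᶠ x in 𝓝[A] s, p x) →
      ∃ U ∈ TopologicalSpace.countableBasis X, s ∈ U ∧ ∀ x ∈ U ∩ A, p x := by
    intro s _ p hp
    rw [eventually_nhdsWithin_iff] at hp
    obtain ⟨U, hU, hsU, hsub⟩ :=
      (TopologicalSpace.isBasis_countableBasis X).mem_nhds_iff.1 hp
    exact ⟨U, hU, hsU, fun x hx => hsub hx.1 hx.2⟩
  rintro t ⟨s, hs, rfl, h | h⟩
  · obtain ⟨U, hU, hsU, hp⟩ := key s hs _ h
    refine mem_iUnion₂.2 ⟨U, hU, Or.inl ⟨⟨s, ⟨hsU, hs⟩, rfl⟩, ?_⟩⟩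
    rintro _ ⟨x, hx, rfl⟩
    exact hp x hx
  · obtain ⟨U, hU, hsU, hp⟩ := key s hs _ h
    refine mem_iUnion₂.2 ⟨U, hU, Or.inr ⟨⟨s, ⟨hsU, hs⟩, rfl⟩, ?_⟩⟩
    rintro _ ⟨x, hx, rfl⟩
    exact hp x hx

theorem ae_acc {β : Type} [Countable β] (g : ℝ → β) :
    ∀ᵐ t : ℝ, ∀ η > (0 : ℝ), volume {c ∈ Ioo (-η) η | g (t + c) = g t} ≠ 0 := by
  have h : ∀ v : β, volume {t : ℝ | g t = v ∧
      ∃ η > (0 : ℝ), volume {c ∈ Ioo (-η) η | g (t + c) = v} = 0} = 0 := by
    intro v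
    refine measure_null_of_locally_null _ ?_
    rintro x ⟨-, η, hη, h0⟩
    refine ⟨(fun y => -x + y) ⁻¹' {c ∈ Ioo (-η) η | g (x + c) = v}, ?_, ?_⟩
    · have h1 : Ioo (x - η) (x + η) ∈ 𝓝 x := Ioo_mem_nhds (by linarith) (by linarith)
      filter_upwards [self_mem_nhdsWithin, mem_nhdsWithin_of_mem_nhds h1] with y hy hy'
      refine ⟨⟨by linarith [hy'.1], by linarith [hy'.2]⟩, ?_⟩
      rw [add_neg_cancel_left]
      exact hy.1
    · rw [measure_preimage_add]
      exact h0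
  rw [ae_iff]
  refine measure_mono_null ?_ (measure_iUnion_null h)
  intro t ht
  simp only [mem_ofPred_eq, not_forall, not_not] at ht
  obtain ⟨η, hη, h0⟩ := ht
  exact mem_iUnion.2 ⟨g t, rfl, η, hη, h0⟩

theorem measurable_cnt {f : E3 → E3} {a b : E3} (hab : a ≠ b) (hf : ContinuousOn f (segment ℝ a b))
    {W : Set E3} (hW : IsOpen W) (j : Fin 3) :
    Measurable fun t : ℝ => cnt f a b (W ∩ {y | y j = t}) := by
  have hc := cont_line hf
  obtain ⟨U, hU, hUe⟩ := continuousOn_iff'.1 hc W hW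
  have h : (fun t : ℝ => cnt f a b (W ∩ {y | y j = t})) =
      indic (fun s : ℝ => f (AffineMap.lineMap a b s) j) (Icc 0 1 ∩ U) := by
    funext t
    rw [cnt_eq f hab, indic]
    congr 2
    ext s
    have h1 := Set.ext_iff.1 hUe s
    simp only [mem_inter_iff, mem_preimage, mem_ofPred_eq] at h1 ⊢
    tauto
  rw [h]
  exact measurable_indic (sc_open isCompact_Icc.isSigmaCompact hU)
    (((continuous_apply j).comp_continuousOn hc).mono inter_subset_left)

theorem lintegral_cnt_le {f : E3 → E3} {a b : E3} (hab : a ≠ b)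
    (hf : ContinuousOn f (segment ℝ a b)) (j : Fin 3) :
    ∫⁻ t : ℝ, cnt f a b {y | y j = t} ≤ segVar f a b := by
  simp only [cnt_eq f hab]
  exact (lintegral_indic_le ((continuous_apply j).comp_continuousOn (cont_line hf))).trans
    (var_coord_le f a b j)

theorem ae_cnt_finite {f : E3 → E3} {a b : E3} (hab : a ≠ b) (hf : ContinuousOn f (segment ℝ a b))
    (hv : segVar f a b < ⊤) (j : Fin 3) :
    ∀ᵐ t : ℝ, {x ∈ segment ℝ a b | f x j = t}.Finite := by
  have hm := measurable_cnt hab hf isOpen_univ j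
  simp only [univ_inter] at hm
  have h := ae_lt_top hm (ne_top_of_le_ne_top hv.ne (lintegral_cnt_le hab hf j))
  filter_upwards [h] with t ht
  rw [cnt, ENat.toENNReal_lt_top] at ht
  exact encard_lt_top_iff.1 ht

theorem cnt_mono (f : E3 → E3) (a b : E3) {X Y : Set E3} (h : X ⊆ Y) :
    cnt f a b X ≤ cnt f a b Y :=
  ENat.toENNReal_le.2 (encard_le_encard fun _ hx => ⟨hx.1, h hx.2⟩)

theorem tsum_cnt_le (f : E3 → E3) (a b : E3) {W : ℕ → Set E3} {m : ℕ}
    (hW : ∀ y, {n | y ∈ W n}.encard ≤ m) (X : Set E3) :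
    ∑' n, cnt f a b (W n ∩ X) ≤ m * cnt f a b X := by
  simp only [cnt, enc_eq]
  rw [ENNReal.tsum_comm, ← ENNReal.tsum_mul_left]
  refine ENNReal.tsum_le_tsum fun x => ?_
  by_cases hx : x ∈ {x ∈ segment ℝ a b | f x ∈ X}
  · rw [indicator_of_mem hx, mul_one]
    have h1 := ENat.toENNReal_le.2 (hW (f x))
    rw [enc_eq, ENat.toENNReal_coe] at h1
    refine le_trans (ENNReal.tsum_le_tsum fun n => ?_) h1
    by_cases hn : f x ∈ W n
    · rw [indicator_of_mem (s := {n | f x ∈ W n}) hn]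
      exact indicator_le_self' (fun _ _ => zero_le_one) x
    · rw [indicator_of_notMem (fun h => hn h.2.1)]
      exact bot_le
  · have h0 : ∀ n, {x ∈ segment ℝ a b | f x ∈ W n ∩ X}.indicator
        (fun _ => (1 : ℝ≥0∞)) x = 0 := fun n => indicator_of_notMem (fun h => hx ⟨h.1, h.2.2⟩) _
    simp only [h0, tsum_zero]
    exact bot_le

end P073
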