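import Vale.Agent.P073Z.GRID.Lev
import Vale.Agent.P073Z.GRID.Sum
import Vale.Agent.P073Z.GRID.Planes
import Vale.Agent.P073Z.Gauge
import Vale.Agent.P073Z.ARR
import Vale.Agent.P073Z.A3

/-!
# The target grid
-/

open Set Metric Topology Filter MeasureTheory
open scoped ENNReal NNReal

namespace P073

open Grid

theorem Grid.sum_le {f : E3 → E3} {a b : E3} (hab : a ≠ b) (hf : ContinuousOn f (segment ℝ a b))
    {W : ℕ → Set E3} (hW : ∀ n, IsOpen (W n)) (h3 : ∀ y, {n | y ∈ W n}.encard ≤ (3 : ℕ))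
    {h : ℕ → ℝ} {ε : ℕ → ℝ≥0∞} {S : ℕ → Fin 3 → ℝ≥0∞}
    (hS : ∀ n j, ENNReal.ofReal (h n) * S n j ≤
      2 * (∫⁻ t : ℝ, cnt f a b (W n ∩ {y | y j = t})) + ε n) :
    ∑' n, 8 * (ENNReal.ofReal (2 * h n) * ∑ j, S n j) ≤ 288 * segVar f a b + 48 * ∑' n, ε n := by
  have h1 : ∀ j : Fin 3, ∑' n, ∫⁻ t : ℝ, cnt f a b (W n ∩ {y | y j = t}) ≤ 3 * segVar f a b := by
    intro j
    rw [← lintegral_tsum fun n => (measurable_cnt hab hf (hW n) j).aemeasurable]
    calc ∫⁻ t : ℝ, ∑' n, cnt f a b (W n ∩ {y | y j = t})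
        ≤ ∫⁻ t : ℝ, (3 : ℕ) * cnt f a b {y | y j = t} :=
          lintegral_mono fun t => tsum_cnt_le f a b h3 _
      _ = 3 * ∫⁻ t : ℝ, cnt f a b {y | y j = t} := by
          rw [lintegral_const_mul' _ _ (by simp)]
          rfl
      _ ≤ 3 * segVar f a b := by
          gcongr
          exact lintegral_cnt_le hab hf j
  calc ∑' n, 8 * (ENNReal.ofReal (2 * h n) * ∑ j, S n j)
      ≤ ∑' n, ∑ j : Fin 3, 16 * (2 * (∫⁻ t : ℝ, cnt f a b (W n ∩ {y | y j = t})) + ε n) := by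
        refine ENNReal.tsum_le_tsum fun n => ?_
        rw [ENNReal.ofReal_mul zero_le_two, Finset.mul_sum, Finset.mul_sum]
        refine Finset.sum_le_sum fun j _ => ?_
        calc 8 * (ENNReal.ofReal 2 * ENNReal.ofReal (h n) * S n j)
            = 16 * (ENNReal.ofReal (h n) * S n j) := by
              rw [ENNReal.ofReal_ofNat]
              ring
          _ ≤ _ := by
              gcongr
              exact hS n j
    _ = ∑ j : Fin 3, 16 * (2 * (∑' n, ∫⁻ t : ℝ, cnt f a b (W n ∩ {y | y j = t})) + ∑' n, ε n) := by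
        rw [Summable.tsum_finsetSum fun _ _ => ENNReal.summable]
        refine Finset.sum_congr rfl fun j _ => ?_
        rw [ENNReal.tsum_mul_left, ENNReal.tsum_add, ENNReal.tsum_mul_left]
    _ ≤ ∑ _j : Fin 3, 16 * (2 * (3 * segVar f a b) + ∑' n, ε n) := by
        gcongr with j
        exact h1 j
    _ = _ := by
        rw [Fin.sum_univ_three]
        ring

theorem grid_of (harr : ARR) : GRID := by
  refine ⟨288, ?_⟩
  intro Λ X₀ f ι κ a b η δ s co A hΛ hb hδ _ hX hw hlf hA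
  have : Countable ι := hlf.countable fun e =>
    ⟨f (a e), mem_image_of_mem f (left_mem_segment ℝ _ _),
      (hw e).2.2.1 (mem_image_of_mem f (left_mem_segment ℝ _ _))⟩
  obtain ⟨Z, W, C, hcov, hr, hov⟩ := exists_rings hΛ hb
  have hWΛ : ∀ n, W n ⊆ Λ := fun n => (hr n).2.2.2.1.trans (hr n).2.2.2.2.2
  have hfin : ∀ n, {e | (f '' segment ℝ (a e) (b e) ∩ W n).Nonempty}.Finite := fun n =>
    (hlf.finite_meet (hr n).2.2.2.2.1 (hr n).2.2.2.2.2).subset fun e he =>
      he.mono (inter_subset_inter_right _ (hr n).2.2.2.1)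
  obtain ⟨r, hrg, hsm, -, hr2⟩ := hδ.exists_fine (N := 3) (by norm_num)
  choose c hc hcr using fun n => hrg.exists_lower (hr n).2.2.2.2.1 (hr n).2.2.2.2.2
  choose θ hθ hθW using fun n =>
    (hr n).1.exists_cthickening_subset_open (hr n).2.2.1 (hr n).2.1
  obtain ⟨R, hR⟩ := hb.subset_closedBall 0
  have hRm : ∀ y ∈ Λ, ∀ j, y j ∈ Icc (-R) R := fun y hy j =>
    abs_le.1 ((norm_le_pi_norm y j).trans (mem_closedBall_zero_iff.1 (hR hy)))
  choose ε hε hεs using fun e => ENNReal.exists_pos_sum_of_countable'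
    (ε := η e / 48) (ENNReal.div_ne_zero.2 ⟨(hw e).2.2.2.2.ne', by simp⟩) ℕ
  obtain ⟨P, h, p1, p2, p3, p4, p5, p6, p7⟩ := exists_planes (f := f) a b (fun n => W (n - 2))
    (fun n => (hr _).2.2.1) (fun e => ⟨(hw e).1, (hw e).2.1, (hw e).2.2.2.1⟩) (fun n => hfin _) R
    (fun n => min (θ n / 2) (c (n - 2) / 2)) (fun n => lt_min (half_pos (hθ n)) (half_pos (hc _)))
    (fun e n => ε e (n - 2)) (fun e n => (hε e _).ne') (LevSet f a b) (ae_levSet f a b) s co A
    fun k hk => (hA k hk).2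
  have side : ∀ n l u y, y ∈ Λ → Box (P n) l u → y ∈ Icc l u → ∀ j, u j - l j ≤ 2 * h n :=
    fun n l u y hy k1 k2 j => k1.side_le k2 (p2 n).1 j (p4 n j _ (hRm y hy j))
  obtain ⟨K, lev, lo, hi, hK, hcar, H⟩ := exists_boxCx harr P W p1 hWΛ
    (fun y hy => by
      obtain ⟨n, hn⟩ := hcov y hy
      obtain ⟨l, u, k1, k2⟩ := exists_box (P := P n) (x := y)
        (fun j => (p4 n j _ (hRm y hy j)).1.imp fun t ht => ⟨ht.1, ht.2.2.le⟩)
        (fun j => (p4 n j _ (hRm y hy j)).2.imp fun t ht => ⟨ht.1, ht.2.1.le⟩)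
      have k3 := obox_subset l u k2
      refine ⟨n, l, u, k1, k3, fun z hz => hθW n (mem_cthickening_of_dist_le z y _ _ hn ?_)⟩
      have k4 := (p2 n).2.trans (min_le_left _ _)
      exact dist_le_of_mem_Icc hz k3 (hθ n).le fun j => (side n l u y hy k1 k3 j).trans
        (by linarith))
    hov
    (fun x hx => by
      obtain ⟨m, hm⟩ := hcov x hx
      exact ⟨W m, (hr m).2.2.1.mem_nhds ((hr m).2.1 hm), (finite_Iic (m + 2)).subset
        fun n hn => hov m n (inter_comm _ _ ▸ hn)⟩)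
  have hd : ∀ i j, hi i j - lo i j ≤ 2 * h (lev i + 2) := fun i j => by
    obtain ⟨y, hy⟩ := K.cell_nonempty i
    exact side _ _ _ y (hWΛ _ (H.sub i hy)) (H.box i) (H.cell i ▸ hy) j
  have hdist : ∀ i, ∀ x ∈ K.cell i, ∀ y ∈ K.cell i, dist y x ≤ r x := fun i x hx y hy => by
    have k1 := (p2 (lev i + 2)).2.trans (min_le_right _ _)
    rw [Nat.add_sub_cancel] at k1
    refine (dist_le_of_mem_Icc (H.cell i ▸ hy) (H.cell i ▸ hx) (hc (lev i)).le fun j =>
      (hd i j).trans (by linarith)).trans (hcr _ x ((hr _).2.2.2.1 (H.sub i hx)))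
  have hskel : ∀ e, Disjoint (f '' segment ℝ (a e) (b e)) (K.skel 1) := fun e => by
    rw [disjoint_left]
    rintro _ ⟨x, hx, rfl⟩
    exact H.notMem_skel fun n i j hij => p5 _ i j hij e x hx
  refine ⟨K, hK, hcar, fun i => ⟨_, _, H.cell i⟩, fun i => ?_,
    H.goodLev (fun n => (hr n).2.2.1) hfin fun n => p3 _, fun e => ⟨hskel e, ?_⟩,
    fun k hk => ?_⟩
  · obtain ⟨x, hx⟩ := K.cell_nonempty i
    have hxΛ := hWΛ _ (H.sub i hx)
    refine (hsm x hxΛ).mono (iUnion₂_subset fun j hj y hy => ⟨hWΛ _ (H.sub j hy), ?_⟩)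
    obtain ⟨z, hzj, hzi⟩ := hj
    have k1 := hdist i x hx z hzi
    have k2 := hdist j z hzj y hy
    have k0 := (hrg.2 x hxΛ).le
    have k3 := (hr2 x hxΛ z (by rw [dist_comm]; linarith)).1
    rw [mem_closedBall]
    linarith [dist_triangle y z x]
  · refine (H.crossSum_le (d := fun n => 2 * h (n + 2)) hd (hskel e)).trans
      ((Grid.sum_le (hw e).1 (hw e).2.1 (fun n => (hr n).2.2.1)
        (fun y => encard_le_three fun n hn n' hn' => hov n n' ⟨y, hn, hn'⟩)
        (h := fun n => h (n + 2)) (ε := ε e) fun n j => p7 e (n + 2) j).trans ?_)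
    refine add_le_add le_rfl ?_
    exact (mul_le_mul_right (hεs e).le _).trans ENNReal.mul_div_le
  · obtain ⟨t, ht, htP⟩ := p6 k hk
    have hmono : Monotone fun n => P n (co k) := monotone_nat_of_le_succ fun n => p1 n _
    exact ⟨t, ht, fun y hy hyt => H.exists_face (hcar ▸ hΛ)
      (fun n => hmono (Nat.zero_le _) htP) (hcar ▸ hX hy) hyt⟩

theorem grid : GRID := grid_of (arr_of cvx)

end P073
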