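import Vale.Agent.P073Z.PS
import Vale.Agent.P073Z.SURF.Sk

/-!
# Pseudo-surfaces from the essential normal surface over a nonempty base
-/

open Set Metric Topology Filter MeasureTheory

namespace P073

open PSa in
theorem ps_of2 (hA : APX2) (hS : SF.SURFN) (hC : COL) : PS := by
  intro E _ _ _ G V π ψ σ ι a b 𝓛 ε hG hV h hbv hlf hw hL hε
  rcases G.eq_empty_or_nonempty with rfl | hne
  · obtain ⟨c, hc⟩ := nonempty_of_measure_ne_zero hL
    have hV' : ∀ x, x ∉ V := fun x hx => (h.mapsTo hx).1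
    refine ⟨c, hc, ∅, ⟨fun _ => 0, fun _ => 0, fun _ hq => hq.1.elim, fun _ hq => hq.elim,
      fun _ hq => hq.1.elim, fun _ hq => hq.elim, fun _ hq => hq.1.elim, fun _ hq => hq.elim,
      fun _ hq => hq.1.elim⟩, fun _ => 0, empty_subset _, fun x hx => (hV' x hx).elim,
      ⟨fun x hx => (hV' x hx).elim, fun x hx => (hV' x hx).elim⟩, fun _ hu => hu.elim,
      fun x hx => (hV' x hx.1).elim, fun x hx => (hV' x hx).elim, fun _ _ hu => hu.elim⟩
  choose! δ hδ hδ' using fun u (hu : u ∈ G) => exists_radius h.cont_inv hε hu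
  obtain ⟨r, hr, hr'⟩ := exists_gauge δ hδ
  have key : ∀ c ∈ Ioo (-1 / 2 : ℝ) (1 / 2), ∀ u ∈ G, ∀ x ∈ V, dist (π x) u < r u →
      |ψ x - c| < r (π x) → dist x (σ (u, c)) < ε u / 2 := by
    intro c hc u hu x hx h1 h2
    obtain ⟨w, hw, h3, h4, h5⟩ := hr' u hu (π x) (h.mapsTo hx).1 _ h1 h2
    have := hδ' w hw u hu (π x) (h.mapsTo hx).1 c hc (ψ x) h3 h4 h5
    rwa [h.left_inv hx] at this
  obtain ⟨Θ, hΘ, hs⟩ := hS hG hne
  obtain ⟨𝓡, h𝓡, hΦ⟩ := hA Θ hG hr hΘ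
  obtain ⟨c, hc, S, P, M, s1, s2, s3, s4, s5, s6, s7, s8, s9, s10, s11, s12⟩ :=
    hs a b 𝓡 hV h hbv hlf hw hL h𝓡 hr
  obtain ⟨Φ, hΦ⟩ := hΦ S π s3 (h.cont.fst.mono s1) (fun x hx => (h.mapsTo (s1 hx)).1) s11
  obtain ⟨Y, κ, lam, y1, y2, -, y3, y4, y5, y6⟩ := hC (ε := fun x => ε (Φ.invFun x) / 2) hV s1 s2 s3
    s4 s5 s6 s7 s8 s9 ⟨(hε.1.comp Φ.cont_inv Φ.mapsTo_inv).div_const 2,
      fun x hx => half_pos (hε.2 _ (Φ.mapsTo_inv hx))⟩
  have near : ∀ u ∈ G, ∀ s ∈ Icc (-1:ℝ) 1,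
      dist (κ.toFun (Φ.toFun u, s)) (σ (u, c)) < ε u := by
    intro u hu s hs
    have hx := Φ.mapsTo hu
    have h1 := ((y4 _ hx).2 s hs).2
    rw [Φ.left_inv hu] at h1
    have h0 : Φ.toFun u ∉ P ∪ M := fun h => (s7 ▸ h).2 hx
    have h2 := key c hc.2 u hu _ (s1 hx) (hΦ u hu) (by
      rw [abs_lt]
      constructor
      · by_contra h3
        exact h0 (Or.inr ((s10 _ (s1 hx)).2 (by linarith)))
      · by_contra h3
        exact h0 (Or.inl ((s10 _ (s1 hx)).1 (by linarith))))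
    linarith [dist_triangle (κ.toFun (Φ.toFun u, s)) (Φ.toFun u) (σ (u, c))]
  refine ⟨c, hc, Y, (prodId Φ (Convex.conicalSet (convex_Icc _ _))).trans κ, lam, y1, y2, y3,
    fun u hu s hs => ⟨((y4 _ (Φ.mapsTo hu)).2 s hs).1, near u hu s hs⟩, y5, fun x hx hfar => ?_,
    fun i u hu hi => ?_⟩
  · have h1 : x ∉ Y := by
      intro hy
      have h2 := κ.mapsTo_inv hy
      have h3 := near _ (Φ.mapsTo_inv h2.1) _ h2.2
      rw [Φ.right_inv h2.1, Prod.mk.eta, κ.right_inv hy] at h3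
      exact h3.not_ge (hfar _ (Φ.mapsTo_inv h2.1))
    have h2 : r (π x) ≤ |ψ x - c| := by
      by_contra h2
      have hu := (h.mapsTo hx).1
      have h3 := key c hc.2 _ hu x hx (by rw [dist_self]; exact hr.2 _ hu) (not_le.1 h2)
      linarith [hfar _ hu, hε.2 _ hu]
    constructor
    · intro h3
      rw [abs_of_pos (sub_pos.2 h3)] at h2
      have h4 := (y6 x hx).1.1 ((s10 x hx).1 (by linarith))
      exact (y5 x ⟨hx, h1⟩).resolve_right fun e => by linarith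
    · intro h3
      rw [abs_of_neg (sub_neg.2 h3)] at h2
      have h4 := (y6 x hx).2.1 ((s10 x hx).2 (by linarith))
      exact (y5 x ⟨hx, h1⟩).resolve_left fun e => by linarith
  · have h1 : ((prodId Φ (Convex.conicalSet (convex_Icc _ _))).trans κ).toFun (u, 0) =
        Φ.toFun u := (y4 _ (Φ.mapsTo hu)).1
    rw [h1] at hi ⊢
    exact s12 i _ (Φ.mapsTo hu) hi

end P073
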