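import Vale.Agent.P073Z.Sk1

/-!
# Block statements
-/

open Set Metric Topology Filter MeasureTheory
open scoped ENNReal NNReal ContDiff

namespace P073

/-! ### pseudo-surfaces -/

/-- the level `c` is not a mountain pass level of `ψ` on the disc `D` with boundary `B` -/
def NoPass {E : Type} [TopologicalSpace E] (D B : Set E) (ψ : E → ℝ) (c : ℝ) : Prop :=
  (∀ a ∈ B, ∀ b ∈ B, c < ψ a → c < ψ b → b ∈ connectedComponentIn {x ∈ D | c < ψ x} a ∨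
    ∃ c' < c, b ∉ connectedComponentIn {x ∈ D | c' < ψ x} a) ∧
  (∀ a ∈ B, ∀ b ∈ B, ψ a < c → ψ b < c → b ∈ connectedComponentIn {x ∈ D | ψ x < c} a ∨
    ∃ c' > c, b ∉ connectedComponentIn {x ∈ D | ψ x < c'} a)

def MPC : Prop := ∀ {E : Type} [NormedAddCommGroup E] [NormedSpace ℝ E] {D B : Set E} {ψ : E → ℝ},
  ConBall 2 D B → ContinuousOn ψ D → {c | ¬ NoPass D B ψ c}.Countable

/-- pairing, strips and middle arcs in one face -/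
def FACE : Prop := ∀ {E : Type} [NormedAddCommGroup E] [NormedSpace ℝ E] [FiniteDimensional ℝ E]
  {D B : Set E} {ψ : E → ℝ} {c : ℝ} (Z : Finset E) (I : E → Set E) (zp zm : E → E),
  ConBall 2 D B → ContinuousOn ψ D → NoPass D B ψ c → (∀ x, x ∈ Z ↔ x ∈ B ∧ ψ x = c) →
  (∀ z ∈ Z, IsArc (I z) (zm z) (zp z) ∧ I z ⊆ B ∧ z ∈ I z ∧ ψ (zm z) < c ∧ c < ψ (zp z)) →
  (∀ z ∈ Z, ∀ z' ∈ Z, z ≠ z' → Disjoint (I z) (I z')) →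
  ∃ (τ : E → E) (σ αp αm : E → Set E),
    (∀ z ∈ Z, τ z ∈ Z ∧ τ z ≠ z ∧ τ (τ z) = z ∧ σ (τ z) = σ z ∧ αp (τ z) = αp z ∧
      αm (τ z) = αm z ∧ IsArc (αp z) (zp z) (zp (τ z)) ∧ IsArc (αm z) (zm z) (zm (τ z)) ∧
      (∀ x ∈ αp z, c < ψ x) ∧ (∀ x ∈ αm z, ψ x < c) ∧
      αp z ∩ B = {zp z, zp (τ z)} ∧ αm z ∩ B = {zm z, zm (τ z)} ∧
      ConBall 2 (σ z) (I z ∪ I (τ z) ∪ αp z ∪ αm z) ∧ σ z ⊆ D ∧ σ z ∩ B = I z ∪ I (τ z)) ∧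
    (∀ z ∈ Z, ∀ z' ∈ Z, z' ≠ z → z' ≠ τ z → Disjoint (σ z) (σ z')) ∧
    ∀ O, IsOpen O → {x ∈ D | ψ x = c} ⊆ O → ∃ α : E → Set E, ∀ z ∈ Z, α (τ z) = α z ∧
      IsArc (α z) z (τ z) ∧ α z ⊆ O ∩ σ z ∧
      α z ∩ (I z ∪ I (τ z) ∪ αp z ∪ αm z) = {z, τ z}

/-- density, local connectivity and big discs for a surface `S` over `G` -/
def Approx {E : Type} [NormedAddCommGroup E] [NormedSpace ℝ E] (G : Set E) (S : Set E3)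
    (π : E3 → E) (r' r : E → ℝ) : Prop :=
  (∀ u ∈ G, ∃ x ∈ S, dist (π x) u < r u) ∧
  (∀ x ∈ S, ∀ y ∈ S, dist (π x) (π y) < r' (π x) →
    ∃ K ⊆ S, IsPreconnected K ∧ x ∈ K ∧ y ∈ K ∧ Small r (π '' K)) ∧
  (∀ K ⊆ S, IsPreconnected K → Small r' (π '' K) →
    ∃ D B, ConBall 2 D B ∧ D ⊆ S ∧ K ⊆ D \ B ∧ Small r (π '' D))

def APX2 : Prop := ∀ {E : Type} [NormedAddCommGroup E] [NormedSpace ℝ E] [FiniteDimensional ℝ E]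
  {G : Set E} {ε : E → ℝ} (Θ : (E → ℝ) → (E → ℝ)), PLMan 2 G → Gauge ε G →
  (∀ r, Gauge r G → Gauge (Θ r) G) → ∃ 𝓡 : Finset (E → ℝ), (∀ r ∈ 𝓡, Gauge r G) ∧
  ∀ (S : Set E3) (π : E3 → E), PLMan 2 S → ContinuousOn π S → MapsTo π S G →
    (∀ r ∈ 𝓡, Approx G S π (Θ r) r) →
    ∃ Φ : ConHomeo G S, ∀ u ∈ G, dist (π (Φ.toFun u)) u < ε u

/-- the essential normal surface -/
def SURF : Prop := ∀ {E : Type} [NormedAddCommGroup E] [NormedSpace ℝ E] [FiniteDimensional ℝ E]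
  {G : Set E}, PLMan 2 G → ∃ Θ : (E → ℝ) → (E → ℝ), (∀ r, Gauge r G → Gauge (Θ r) G) ∧
  ∀ {V : Set E3} {π : E3 → E} {ψ : E3 → ℝ} {σ : E × ℝ → E3} {ι : Type} (a b : ι → E3)
    {𝓛 : Set ℝ} (𝓡 : Finset (E → ℝ)) {γ : E → ℝ},
  IsOpen V → HomeoOn (fun x => (π x, ψ x)) σ V (G ×ˢ Ioo (-1) 1) → GenBV ψ V →
  LFIn (fun i => segment ℝ (a i) (b i)) V →
  (∀ i, ∀ x ∈ segment ℝ (a i) (b i), ∀ y ∈ segment ℝ (a i) (b i), segment ℝ x y ⊆ V →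
    segVar ψ x y < ⊤) →
  volume (𝓛 ∩ Ioo (-1 / 2) (1 / 2)) ≠ 0 → (∀ r ∈ 𝓡, Gauge r G) → Gauge γ G →
  ∃ c ∈ 𝓛 ∩ Ioo (-1 / 2) (1 / 2), ∃ S P M : Set E3, S ⊆ V ∧ ClosedIn S V ∧ PLMan 2 S ∧
    IsOpen P ∧ IsOpen M ∧ Disjoint P M ∧ P ∪ M = V \ S ∧ S ⊆ closure P ∧ S ⊆ closure M ∧
    (∀ x ∈ V, (c + γ (π x) ≤ ψ x → x ∈ P) ∧ (ψ x ≤ c - γ (π x) → x ∈ M)) ∧
    (∀ r ∈ 𝓡, Approx G S π (Θ r) r) ∧
    ∀ i, ∀ x ∈ S, x ∈ segment ℝ (a i) (b i) → ψ x = c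

def PS : Prop := ∀ {E : Type} [NormedAddCommGroup E] [NormedSpace ℝ E] [FiniteDimensional ℝ E]
  {G : Set E} {V : Set E3} {π : E3 → E} {ψ : E3 → ℝ} {σ : E × ℝ → E3} {ι : Type} (a b : ι → E3)
  {𝓛 : Set ℝ} {ε : E → ℝ}, PLMan 2 G → IsOpen V →
  HomeoOn (fun x => (π x, ψ x)) σ V (G ×ˢ Ioo (-1) 1) → GenBV ψ V →
  LFIn (fun i => segment ℝ (a i) (b i)) V →
  (∀ i, ∀ x ∈ segment ℝ (a i) (b i), ∀ y ∈ segment ℝ (a i) (b i), segment ℝ x y ⊆ V →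
    segVar ψ x y < ⊤) →
  volume (𝓛 ∩ Ioo (-1 / 2) (1 / 2)) ≠ 0 → Gauge ε G →
  ∃ c ∈ 𝓛 ∩ Ioo (-1 / 2) (1 / 2), ∃ (Y : Set E3) (κ : ConHomeo (G ×ˢ Icc (-1:ℝ) 1) Y)
    (lam : E3 → ℝ), Y ⊆ V ∧ ClosedIn Y V ∧ PLOn lam V ∧
    (∀ u ∈ G, ∀ s ∈ Icc (-1:ℝ) 1, lam (κ.toFun (u, s)) = s ∧
      dist (κ.toFun (u, s)) (σ (u, c)) < ε u) ∧
    (∀ y ∈ V \ Y, lam y = 1 ∨ lam y = -1) ∧
    (∀ x ∈ V, (∀ u ∈ G, ε u ≤ dist x (σ (u, c))) →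
      (c < ψ x → lam x = 1) ∧ (ψ x < c → lam x = -1)) ∧
    ∀ i, ∀ u ∈ G, κ.toFun (u, 0) ∈ segment ℝ (a i) (b i) → ψ (κ.toFun (u, 0)) = c

/-! ### the target grid -/

/-- the number of points of the segment mapped into `X` -/
noncomputable def cnt (f : E3 → E3) (a b : E3) (X : Set E3) : ℝ≥0∞ :=
  ({x ∈ segment ℝ a b | f x ∈ X}.encard : ℝ≥0∞)

open Classical in
/-- crossings with the two-cells, weighted by the diameters of the adjacent three-cells -/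
noncomputable def crossSum (K : RCx E3) (f : E3 → E3) (a b : E3) : ℝ≥0∞ :=
  ∑' q : K.ι × K.ι, if K.dim q.1 = 2 ∧ K.dim q.2 = 3 ∧ K.cell q.1 ⊆ K.cell q.2 then
    ENNReal.ofReal (diam (K.cell q.2)) * cnt f a b (K.cell q.1) else 0

/-- the planes of the two-cells are accumulation levels of levels with no more crossings -/
def GoodLev (K : RCx E3) (f : E3 → E3) {ι : Type} (a b : ι → E3) : Prop :=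
  ∀ S, K.dim S = 2 → ∃ ℓ : E3 →ᵃ[ℝ] ℝ, ℓ.linear ≠ 0 ∧ (∀ y ∈ K.cell S, ℓ y = 0) ∧
    ∀ X, IsCompact X → X ⊆ K.ocell S → ∃ U, IsOpen U ∧ X ⊆ U ∧ ∀ η > (0:ℝ),
      volume {c ∈ Ioo (-η) η | ∀ e, cnt f (a e) (b e) (U ∩ {y | ℓ y = c}) ≤
        cnt f (a e) (b e) (K.cell S)} ≠ 0

/-- the union of the cells meeting the cell `i` -/
def RCx.star {E : Type} [NormedAddCommGroup E] [NormedSpace ℝ E] (K : RCx E) (i : K.ι) : Set E :=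
  ⋃ j, ⋃ (_ : (K.cell j ∩ K.cell i).Nonempty), K.cell j

def GRID : Prop := ∃ K₀ : ℝ≥0, ∀ {Λ X₀ : Set E3} {f : E3 → E3} {ι κ : Type} (a b : ι → E3)
  (η : ι → ℝ≥0∞) {δ : E3 → ℝ} (s : Finset κ) (co : κ → Fin 3) (A : κ → Set ℝ),
  IsOpen Λ → Bornology.IsBounded Λ → Gauge δ Λ → IsCompact X₀ → X₀ ⊆ Λ →
  (∀ e, a e ≠ b e ∧ ContinuousOn f (segment ℝ (a e) (b e)) ∧
    f '' segment ℝ (a e) (b e) ⊆ Λ ∧ segVar f (a e) (b e) < ⊤ ∧ 0 < η e) →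
  LFIn (fun e => f '' segment ℝ (a e) (b e)) Λ →
  (∀ k ∈ s, MeasurableSet (A k) ∧ volume (A k) ≠ 0) →
  ∃ K : RCx E3, K.Cvx ∧ K.carrier = Λ ∧ (∀ i, ∃ lo hi : E3, K.cell i = Icc lo hi) ∧
    (∀ i, Small δ (K.star i)) ∧ GoodLev K f a b ∧
    (∀ e, Disjoint (f '' segment ℝ (a e) (b e)) (K.skel 1) ∧
      crossSum K f (a e) (b e) ≤ K₀ * segVar f (a e) (b e) + η e) ∧
    ∀ k ∈ s, ∃ t ∈ A k, ∀ y ∈ X₀, y (co k) = t →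
      ∃ S, K.dim S = 2 ∧ y ∈ K.cell S ∧ ∀ y' ∈ K.cell S, y' (co k) = t

def T0 : Prop := ∀ {Ω Λ N : Set E3} {f f' : E3 → E3} {ι : Type} (a b : ι → E3) (K : RCx E3)
  (O : K.ι → Set E3), IsOpen Ω → IsOpen Λ → IsConnected Ω → HomeoOn f f' Ω Λ → GenBV f Ω →
  ClosedIn N Ω → interior N = ∅ →
  (∀ e, segment ℝ (a e) (b e) ⊆ Ω ∧ segVar f (a e) (b e) < ⊤ ∧
    Disjoint (f '' segment ℝ (a e) (b e)) (K.skel 1)) →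
  LFIn (fun e => segment ℝ (a e) (b e)) Ω → K.Cvx → K.carrier = Λ → GoodLev K f a b →
  (∀ i, IsOpen (O i) ∧ Convex ℝ (O i) ∧ O i ⊆ Ω ∧ f' '' K.star i ⊆ O i) → LFIn O Ω →
  ∃ (g g' : E3 → E3) (Z : Set E3), HomeoOn g g' Ω Λ ∧ DiscreteIn Z Ω ∧ Disjoint Z N ∧
    ConicalOn g (Ω \ Z) ∧ (∀ x ∈ Ω, ∃ j, x ∈ O j ∧ g x ∈ K.star j) ∧
    ∀ e, Disjoint (g '' segment ℝ (a e) (b e)) (K.skel 1) ∧
      ∀ S, K.dim S = 2 → cnt g (a e) (b e) (K.cell S) ≤ cnt f (a e) (b e) (K.cell S)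

def SQ : Prop := ∃ K₁ : ℝ≥0, ∀ {Λ : Set E3} {g : E3 → E3} {ι : Type} (a b : ι → E3)
  (η : ι → ℝ≥0∞) (K : RCx E3), IsOpen Λ → K.Cvx → K.carrier = Λ →
  (∀ i, ∃ lo hi : E3, K.cell i = Icc lo hi) →
  (∀ e, PLOn g (segment ℝ (a e) (b e)) ∧ g '' segment ℝ (a e) (b e) ⊆ Λ ∧
    Disjoint (g '' segment ℝ (a e) (b e)) (K.skel 1) ∧ crossSum K g (a e) (b e) < ⊤ ∧ 0 < η e) →
  LFIn (fun e => g '' segment ℝ (a e) (b e)) Λ →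
  ∃ Ψ : ConHomeo Λ Λ, (∀ y ∈ K.skel 2, Ψ.toFun y = y) ∧ (∀ i, Ψ.toFun '' K.cell i = K.cell i) ∧
    ∀ e, μH[1] (Ψ.toFun '' (g '' segment ℝ (a e) (b e))) ≤ K₁ * crossSum K g (a e) (b e) + η e

/-- constant speed parametrisation -/
def CSP : Prop := ∀ {A : Set E3} {p q x y : E3}, IsArc A p q → x ≠ y →
  ∃ φ : ConHomeo (segment ℝ x y) A, φ.toFun x = p ∧ φ.toFun y = q ∧
    (∀ u ∈ segment ℝ x y, ∀ w ∈ segment ℝ x y,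
      edist (φ.toFun u) (φ.toFun w) * edist x y ≤ μH[1] A * edist u w) ∧
    (A = segment ℝ p q → ∀ t ∈ Icc (0:ℝ) 1,
      φ.toFun (AffineMap.lineMap x y t) = AffineMap.lineMap p q t)

/-! ### straightening and flattening -/

/-- good simplices -/
structure Good (Q : RCx E3) (f : E3 → E3) (κ₀ : ℝ → ℝ) (β : ℝ) where
  /-- the good cells -/
  G : Finset Q.ι
  /-- affine interpolation -/
  A : Q.ι → E3 →ᵃ[ℝ] E3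
  /-- target scale -/
  s : Q.ι → ℝ
  /-- distortion -/
  M : Q.ι → ℝ
  face : ∀ i ∈ G, ∀ j, Q.cell j ⊆ Q.cell i →
    j ∈ G ∧ s j = s i ∧ M j = M i ∧ EqOn (A j) (A i) (Q.cell j)
  simplex : ∀ i ∈ G, ∃ t : Finset E3, AffineIndependent ℝ ((↑) : t → E3) ∧
    Q.cell i = convexHull ℝ (t : Set E3) ∧
    ∀ j, Q.cell j ⊆ Q.cell i → ∃ t' ⊆ t, Q.cell j = convexHull ℝ (t' : Set E3)
  vert : ∀ v ∈ G, Q.dim v = 0 → EqOn (A v) f (Q.cell v)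
  inj : ∀ i ∈ G, InjOn (A i) (Q.cell i)
  inter : ∀ i ∈ G, ∀ j ∈ G, A i '' Q.cell i ∩ A j '' Q.cell j ⊆ A i '' (Q.cell i ∩ Q.cell j)
  pos : ∀ i ∈ G, 0 < s i ∧ 1 ≤ M i ∧ M i * s i ≤ β
  sep : ∀ i ∈ G, ∀ j ∈ G, (s i ≠ s j ∨ M i ≠ M j) →
    ∀ y ∈ A i '' Q.cell i, ∀ z ∈ A j '' Q.cell j, 10 * β ≤ dist y z
  deg : ∀ v ∈ G, Q.dim v = 0 →
    (({e | Q.dim e = 1 ∧ Q.cell v ⊆ Q.cell e}.ncard : ℕ) : ℝ) ≤ M v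
  wire : ∀ v ∈ G, ∀ e x y, Q.dim e = 1 → Q.cell v = {x} → Q.cell e = segment ℝ x y →
    s v ≤ ‖f y - f x‖ ∧ ‖f y - f x‖ ≤ M v * s v ∧
    eVariationOn (fun t : ℝ => f (AffineMap.lineMap x y t) - AffineMap.lineMap (f x) (f y) t)
      (Icc 0 1) ≤ ENNReal.ofReal (κ₀ (M v) * s v)
  far : ∀ i ∈ G, ∀ e, Q.dim e = 1 → Disjoint (Q.cell e) (Q.cell i) →
    ∀ x ∈ Q.cell e, ∀ y ∈ A i '' Q.cell i, s i / M i ≤ dist (f x) y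
  ang : ∀ i ∈ G, ∀ e x y, Q.dim e = 1 → Q.cell e = segment ℝ x y → x ∈ Q.cell i →
    y ∉ Q.cell i → ∀ t ∈ Icc (0:ℝ) 1, ∀ z ∈ A i '' Q.cell i,
      t * (s i / M i) ≤ dist (AffineMap.lineMap (f x) (f y) t) z

/-- `R'` is `R` moved by at most `d`, and only near the set `X` -/
def Moved {ι : Type} (R R' : ι → Set E3) (X : Set E3) (d : ℝ) (i : ι) : Prop :=
  R' i ⊆ thickening d (R i) ∧ (Disjoint (R i) (thickening d X) → R' i = R i)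

/-- cone surgery in a star-shaped neighbourhood of a vertex or of a point of an edge -/
def CS : Prop := ∀ (Q : RCx E3) (R : Q.ι → Set E3) (i₀ : Q.ι) {g : E3 → ℝ} {c : E3} {t₁ t₂ : ℝ},
  IsOpen Q.carrier → Realiz Q 2 R → Q.dim i₀ ≤ 1 → PLOn g univ →
  (∀ x, ∀ t : ℝ, 0 ≤ t → g (t • x) = t * g x) → (∀ x, x ≠ 0 → 0 < g x) → 0 < t₁ → t₁ < t₂ →
  {i | Q.dim i ≤ 2 ∧ ∃ y ∈ R i, g (y - c) ≤ t₂}.Finite →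
  (∀ j, Q.dim j ≤ 1 → ¬ Q.cell i₀ ⊆ Q.cell j → ∀ y ∈ R j, t₂ ≤ g (y - c)) →
  (∃ y ∈ R i₀, g (y - c) ≤ t₁) →
  (∀ e, Q.dim e = 1 → Q.cell i₀ ⊆ Q.cell e → ∀ t ∈ Ioo t₁ t₂,
    {y ∈ R e | g (y - c) = t}.ncard = Q.dim i₀ + 1) →
  ∃ t ∈ Ioo t₁ t₂, ∃ R' : Q.ι → Set E3, Realiz Q 2 R' ∧
    (∀ i, Q.dim i ≤ 2 → R' i ⊆ R i ∪ {y | g (y - c) ≤ t} ∧
      ((∀ y ∈ R i, t₂ ≤ g (y - c)) → R' i = R i)) ∧
    (Q.dim i₀ = 0 → R' i₀ = {c}) ∧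
    ∀ e, Q.dim e = 1 → Q.cell i₀ ⊆ Q.cell e →
      R' e = {y ∈ R e | t ≤ g (y - c)} ∪ coneSetAt c {y ∈ R e | g (y - c) = t}

def STR : Prop := ∃ κ₀ : ℝ → ℝ, (∀ M, 0 < κ₀ M) ∧
  ∀ (Q : RCx E3) {f : E3 → E3} {β : ℝ} (γ : Good Q f κ₀ β), 0 < β → IsOpen Q.carrier → Q.Cvx →
  ContinuousOn f Q.carrier →
  ∃ A : Q.ι × Fin 3 × Bool → Set ℝ,
    (∀ v ∈ γ.G, Q.dim v = 0 → ∀ k, MeasurableSet (A (v, k)) ∧ volume (A (v, k)) ≠ 0) ∧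
  ∀ (t : Q.ι × Fin 3 × Bool → ℝ) {Y : Set E3} (ψ : ConHomeo (Q.skel 2) Y),
    (∀ v ∈ γ.G, Q.dim v = 0 → ∀ k, t (v, k) ∈ A (v, k) ∧ ∀ e x y, Q.dim e = 1 →
      Q.cell v ⊆ Q.cell e → Q.cell e = segment ℝ x y →
      cnt ψ.toFun x y {z | z k.1 = t (v, k)} ≤ cnt f x y {z | z k.1 = t (v, k)}) →
    (∀ i ∈ γ.G, ∀ x ∈ Q.skel 2, dist (ψ.toFun x) (f x) ≤ κ₀ (γ.M i) * γ.s i) →
    (∀ i ∈ γ.G, {j | Q.dim j ≤ 2 ∧ (ψ.toFun '' Q.cell j ∩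
      thickening (30 * β) (γ.A i '' Q.cell i)).Nonempty}.Finite) →
    ∃ R : Q.ι → Set E3, Realiz Q 2 R ∧
      (∀ i ∈ γ.G, Q.dim i ≤ 1 → R i = γ.A i '' Q.cell i) ∧
      (∀ i ∈ γ.G, ∀ e, Q.dim e = 1 → R e ∩ γ.A i '' Q.cell i ⊆ γ.A i '' (Q.cell e ∩ Q.cell i)) ∧
      (∀ e x y, Q.dim e = 1 → Q.cell e = segment ℝ x y →
        μH[1] (R e) ≤ 2 * μH[1] (ψ.toFun '' Q.cell e) + 10 * segVar f x y) ∧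
      ∀ i, Q.dim i ≤ 2 → Moved (fun j => ψ.toFun '' Q.cell j) R
        (⋃ j ∈ γ.G, γ.A j '' Q.cell j) (30 * β) i

/-- flattening one triangle -/
def FLAT1 : Prop := ∀ (Q : RCx E3) (R : Q.ι → Set E3) (τ : Q.ι) (v e : Fin 3 → Q.ι)
  (y : Fin 3 → E3) {U : Set E3} {κ : Type} (s : Finset κ) (X : κ → Set E3),
  IsOpen Q.carrier → Q.Cvx → Realiz Q 2 R → Q.dim τ = 2 → AffineIndependent ℝ y →
  (∀ k, Q.dim (v k) = 0 ∧ Q.dim (e k) = 1 ∧ R (v k) = {y k} ∧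
    R (e k) = segment ℝ (y (k + 1)) (y (k + 2)) ∧
    Q.cell (v (k + 1)) ⊆ Q.cell (e k) ∧ Q.cell (v (k + 2)) ⊆ Q.cell (e k)) →
  Q.bd τ = ⋃ k, Q.cell (e k) →
  (∀ j, Q.dim j ≤ 1 → R j ∩ convexHull ℝ (range y) ⊆ ⋃ k, R (e k)) →
  IsOpen U → convexHull ℝ (range y) ⊆ U → {i | Q.dim i ≤ 2 ∧ (R i ∩ U).Nonempty}.Finite →
  (∀ k ∈ s, IsClosed (X k) ∧ ∃ J : Set (Fin 3), J ≠ univ ∧
    X k ∩ convexHull ℝ (range y) = convexHull ℝ (y '' J)) →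
  ∃ R' : Q.ι → Set E3, Realiz Q 2 R' ∧ (∀ j, Q.dim j ≤ 1 → R' j = R j) ∧
    R' τ = convexHull ℝ (range y) ∧
    ∀ φ, Q.dim φ = 2 → φ ≠ τ → R' φ ⊆ R φ ∪ U ∧
      (Disjoint (R φ) (convexHull ℝ (range y)) → R' φ = R φ) ∧
      (Convex ℝ (R φ) → R φ ∩ convexHull ℝ (range y) ⊆ ⋃ k, R (e k) → R' φ = R φ) ∧
      ∀ k ∈ s, (R' φ ∩ X k).Nonempty → (R φ ∩ X k).Nonempty

def FLAT : Prop := ∀ (Q : RCx E3) {f : E3 → E3} {κ₀ : ℝ → ℝ} {β : ℝ} (γ : Good Q f κ₀ β)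
  (R : Q.ι → Set E3), 0 < β → IsOpen Q.carrier → Q.Cvx → Realiz Q 2 R →
  (∀ i ∈ γ.G, Q.dim i ≤ 1 → R i = γ.A i '' Q.cell i) →
  (∀ i ∈ γ.G, ∀ e, Q.dim e = 1 → R e ∩ γ.A i '' Q.cell i ⊆ γ.A i '' (Q.cell e ∩ Q.cell i)) →
  (∀ i ∈ γ.G, {j | Q.dim j ≤ 2 ∧
    (R j ∩ thickening (10 * β) (γ.A i '' Q.cell i)).Nonempty}.Finite) →
  ∃ R' : Q.ι → Set E3, Realiz Q 2 R' ∧ (∀ j, Q.dim j ≤ 1 → R' j = R j) ∧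
    (∀ i ∈ γ.G, Q.dim i ≤ 2 → R' i = γ.A i '' Q.cell i) ∧
    ∀ i, Q.dim i ≤ 2 → Moved R R' (⋃ j ∈ γ.G, γ.A j '' Q.cell j) (10 * β) i

/-! ### the topological machine and the analytic input -/

def TOPO : Prop := ∀ {p : ℝ}, 1 ≤ p → p < 2 →
  ∃ (κ₀ : ℝ → ℝ) (K₂ : ℝ≥0) (C : ℝ≥0 → ℝ≥0), (∀ M, 0 < κ₀ M) ∧
  ∀ {Ω Λ : Set E3} {f f' : E3 → E3} (Q : RCx E3) {β : ℝ} (γ : Good Q f κ₀ β)
    (O : Q.ι → Set E3) (ϱ : Q.ι → ℝ) (n : Q.ι → E3 ≃ᴬ[ℝ] E3) (M : Q.ι → ℝ≥0)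
    (η : Q.ι → ℝ≥0∞),
  IsOpen Ω → IsOpen Λ → IsConnected Ω → IsConnected Λ → Bornology.IsBounded Λ → 0 < β →
  HomeoOn f f' Ω Λ → GenBV f Ω → Q.Cvx → Q.carrier = Ω →
  (∀ e x y, Q.dim e = 1 → Q.cell e = segment ℝ x y → segVar f x y < ⊤) →
  (∀ i, Convex ℝ (O i) ∧ O i ⊆ Λ ∧ 0 < ϱ i ∧ thickening (ϱ i) (f '' Q.cell i) ⊆ O i ∧
    ((∃ j ∈ γ.G, (thickening (100 * β) (γ.A j '' Q.cell j) ∩ f '' Q.cell i).Nonempty) →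
      100 * β ≤ ϱ i)) → LFIn O Λ →
  (∀ j ∈ γ.G, cthickening (100 * β) (γ.A j '' Q.cell j) ⊆ Λ) →
  (∀ i, 2 ≤ Q.dim i → BiChart (Q.dim i) (n i '' Q.cell i) (n i '' Q.bd i) (M i)) →
  (∀ i, 0 < η i) →
  ∃ (h h' : E3 → E3) (Z : Set E3), HomeoOn h h' Ω Λ ∧ DiscreteIn Z Ω ∧ Disjoint Z (Q.skel 2) ∧
    ConicalOn h (Ω \ Z) ∧ (∀ i, Q.dim i = 3 → h '' Q.cell i ⊆ O i) ∧
    (∀ i ∈ γ.G, EqOn h (γ.A i) (Q.cell i)) ∧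
    (∀ e x y, Q.dim e = 1 → Q.cell e = segment ℝ x y → ∀ u ∈ Q.cell e, ∀ w ∈ Q.cell e,
      edist (h u) (h w) * edist x y ≤ (K₂ * segVar f x y + η e) * edist u w) ∧
    ∀ i, i ∉ γ.G → 2 ≤ Q.dim i →
      En (Q.dim i) p (h ∘ (n i).symm) (n i '' Q.cell i) ≤
        C (M i) * En (Q.dim i - 1) p (h ∘ (n i).symm) (n i '' Q.bd i) + η i

def GENBV : Prop := ∀ {Ω : Set E3} {f : E3 → E3} {F : E3 → (E3 →L[ℝ] E3)}, IsOpen Ω →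
  ContinuousOn f Ω → LocallyIntegrableOn F Ω volume →
  Vale.Agent.P073.HB.WeakDeriv volume Ω f F → GenBV f Ω

end P073
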