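import Vale.Agent.P073Z.Hex
import Vale.Agent.P073Z.Sk2

/-!
# Countably many mountain pass levels
-/

open Set Metric Topology Filter

namespace P073

variable {E : Type} [NormedAddCommGroup E] [NormedSpace ℝ E]

namespace Hex

theorem comp_gt_mem {D B : Set E} {ψ : E → ℝ} (hD : ConBall 2 D B) (hψ : ContinuousOn ψ D)
    {c : ℝ} {x : E} (hx : x ∈ D) (h : c < ψ x) :
    connectedComponentIn {x ∈ D | c < ψ x} x ∈ 𝓝[D] x := by
  refine comp_mem_nhdsWithin hD hx ?_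
  have h1 : ψ ⁻¹' Ioi c ∈ 𝓝[D] x := hψ x hx (Ioi_mem_nhds h)
  filter_upwards [h1, self_mem_nhdsWithin] with y hy hyD
  exact ⟨hyD, hy⟩

theorem countable_pass {D B : Set E} {ψ : E → ℝ} (hD : ConBall 2 D B) (hψ : ContinuousOn ψ D) :
    {c | ∃ a ∈ B, ∃ b ∈ B, c < ψ a ∧ c < ψ b ∧ b ∉ connectedComponentIn {x ∈ D | c < ψ x} a ∧
      ∀ c' < c, b ∈ connectedComponentIn {x ∈ D | c' < ψ x} a}.Countable := by
  obtain ⟨Q, hQ, hQc, hBQ⟩ := hD.isCompact_bdry.isSeparable.exists_countable_dense_subset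
  have near : ∀ c, ∀ a ∈ B, c < ψ a →
      ∃ a' ∈ Q, a' ∈ connectedComponentIn {x ∈ D | c < ψ x} a := by
    intro c a ha h
    obtain ⟨O, hO, haO, hs⟩ := mem_nhdsWithin.1 (comp_gt_mem hD hψ (hD.1 ha) h)
    obtain ⟨a', h1, h2⟩ := mem_closure_iff.1 (hBQ ha) O hO haO
    exact ⟨a', h2, hs ⟨h1, hD.1 (hQ h2)⟩⟩
  have hsub : ∀ q : E × E, {c : ℝ | q.2 ∉ connectedComponentIn {x ∈ D | c < ψ x} q.1 ∧
      ∀ c' < c, q.2 ∈ connectedComponentIn {x ∈ D | c' < ψ x} q.1}.Subsingleton := by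
    intro q c₁ h₁ c₂ h₂
    rcases lt_trichotomy c₁ c₂ with h | h | h
    · exact absurd (h₂.2 c₁ h) h₁.1
    · exact h
    · exact absurd (h₁.2 c₂ h) h₂.1
  refine ((hQc.prod hQc).biUnion fun q _ => (hsub q).countable).mono ?_
  rintro c ⟨a, ha, b, hb, h1, h2, h3, h4⟩
  obtain ⟨a', ha', ka⟩ := near c a ha h1
  obtain ⟨b', hb', kb⟩ := near c b hb h2
  refine mem_biUnion (x := (a', b')) ⟨ha', hb'⟩ ⟨fun h => h3 ?_, fun c' hc' => ?_⟩
  · exact mem_comp_trans ka (mem_comp_trans h (mem_comp_symm kb))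
  · have hm : {x ∈ D | c < ψ x} ⊆ {x ∈ D | c' < ψ x} := fun x hx => ⟨hx.1, hc'.trans hx.2⟩
    exact mem_comp_trans (mem_comp_symm (connectedComponentIn_mono _ hm ka))
      (mem_comp_trans (h4 c' hc') (connectedComponentIn_mono _ hm kb))

end Hex

open Hex in
theorem mpc : MPC := by
  intro E _ _ D B ψ hD hψ
  have h1 := countable_pass hD hψ
  have h2 := (countable_pass hD hψ.neg).image (fun c : ℝ => -c)
  refine (h1.union h2).mono fun c hc => ?_
  rw [mem_ofPred_eq, NoPass, not_and_or] at hc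
  rcases hc with hc | hc
  · left
    push Not at hc
    exact hc
  · right
    push Not at hc
    obtain ⟨a, ha, b, hb, k1, k2, k3, k4⟩ := hc
    refine ⟨-c, ⟨a, ha, b, hb, neg_lt_neg k1, neg_lt_neg k2, ?_, fun c' hc' => ?_⟩, neg_neg c⟩
    · simpa only [Pi.neg_apply, neg_lt_neg_iff] using k3
    · have := k4 (-c') (by linarith)
      simpa only [Pi.neg_apply, lt_neg] using this

end P073
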