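import Vale.Agent.P073Z.SCH3F
import Vale.Agent.P073Z.TriU
import Vale.Agent.P073Z.SURF.Asm
import Vale.Agent.P073Z.SURF.Box
import Vale.Agent.P073Z.SURF.Sep
import Vale.Agent.P073Z.SURF.Two
import Vale.Agent.P073Z.SURF.Side
import Vale.Agent.P073Z.SURF.Tent
import Vale.Agent.P073Z.SURF.Lev
import Vale.Agent.P073Z.SURF.Norm
import Vale.Agent.P073Z.SURF.Nman
import Vale.Agent.P073Z.SURF.Big
import Vale.Agent.P073Z.SURF.Hat
import Vale.Agent.P073Z.SURF.LC
import Vale.Agent.P073Z.SURF.Zarc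
import Vale.Agent.P073Z.SURF.Zeta
import Vale.Agent.P073Z.PS2

/-!
# Unconditional form of the surface approximation statement
-/

namespace P073

theorem SF.surfn : SF.SURFN :=
  have sep : SF.SEP2 := SF.sep2_of lfl
  have two : SF.TWO := SF.two_of lfl
  have side : SF.SIDE := SF.side_of sep two
  have wj : SF.WJ := SF.wj_of sep
  SF.surfn_of SF.box side (SF.par_of two side) SF.tent SF.level SF.norm_thm SF.nman SF.comp SF.big
    (SF.colr_of wj SF.box SF.annu57 SF.nman) (SF.lc_of wj SF.box SF.annu57 SF.nman)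
    (SF.zeta_of SF.box SF.nman SF.zarc SF.skc) SF.lam

theorem ps_thm : PS := ps_of2 apx2 SF.surfn col

end P073
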