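import Vale.Agent.P073Z.SQ.Cube
import Vale.Agent.P073Z.RCX
import Vale.Agent.P073Z.A7a.Sgn

/-!
# Squeezing the three-cells of a grid
-/

open Set Metric Topology Filter MeasureTheory
open scoped ENNReal NNReal

namespace P073

open Sh

namespace Sq

/-- the normalisation of a box -/
noncomputable def nrm (lo hi y : E3) : E3 :=
  fun i => ((hi i - lo i) / 2)⁻¹ * (y i - (lo i + hi i) / 2)

/-- the inverse of the normalisation -/
noncomputable def nrm' (lo hi z : E3) : E3 :=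
  fun i => (lo i + hi i) / 2 + (hi i - lo i) / 2 * z i

variable {lo hi : E3}

theorem nrm'_nrm (h : ∀ i, lo i < hi i) (y : E3) : nrm' lo hi (nrm lo hi y) = y := by
  funext i
  have h1 : (hi i - lo i) / 2 ≠ 0 := (half_pos (sub_pos.2 (h i))).ne'
  rw [nrm', nrm, mul_inv_cancel_left₀ h1, add_sub_cancel]

theorem nrm_nrm' (h : ∀ i, lo i < hi i) (z : E3) : nrm lo hi (nrm' lo hi z) = z := by
  funext i
  have h1 : (hi i - lo i) / 2 ≠ 0 := (half_pos (sub_pos.2 (h i))).ne'
  rw [nrm, nrm', add_sub_cancel_left, inv_mul_cancel_left₀ h1]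

theorem norm_nrm_le (h : ∀ i, lo i < hi i) {y : E3} : ‖nrm lo hi y‖ ≤ 1 ↔ y ∈ Icc lo hi := by
  rw [pi_norm_le_iff_of_nonneg zero_le_one, ← pi_univ_Icc, mem_univ_pi]
  refine forall_congr' fun i => ?_
  have h1 : 0 < (hi i - lo i) / 2 := half_pos (sub_pos.2 (h i))
  rw [Real.norm_eq_abs, nrm, abs_mul, abs_of_pos (inv_pos.2 h1), inv_mul_le_iff₀ h1, mul_one,
    abs_le, mem_Icc]
  exact and_congr ⟨fun h => by linarith, fun h => by linarith⟩
    ⟨fun h => by linarith, fun h => by linarith⟩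

theorem norm_nrm_lt (h : ∀ i, lo i < hi i) {y : E3} :
    ‖nrm lo hi y‖ < 1 ↔ y ∈ interior (Icc lo hi) := by
  rw [pi_norm_lt_iff one_pos, ← pi_univ_Icc, interior_pi_set finite_univ, mem_univ_pi]
  refine forall_congr' fun i => ?_
  have h1 : 0 < (hi i - lo i) / 2 := half_pos (sub_pos.2 (h i))
  rw [Real.norm_eq_abs, nrm, abs_mul, abs_of_pos (inv_pos.2 h1), inv_mul_lt_iff₀ h1, mul_one,
    abs_lt, interior_Icc, mem_Ioo]
  exact and_congr ⟨fun h => by linarith, fun h => by linarith⟩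
    ⟨fun h => by linarith, fun h => by linarith⟩

theorem continuous_nrm (lo hi : E3) : Continuous (nrm lo hi) := by
  unfold nrm
  fun_prop

theorem conicalOn_nrm (lo hi : E3) : ConicalOn (nrm lo hi) univ := fun z hz =>
  conicalWithinAt_pi (conicalSet_univ z hz) fun i =>
    (((conicalOn_proj i).sub (conicalOn_const _ conicalSet_univ)).const_smul
      ((hi i - lo i) / 2)⁻¹) z hz

theorem lipschitz_nrm' (h : ∀ i, lo i < hi i) :
    LipschitzWith (diam (Icc lo hi)).toNNReal (nrm' lo hi) := by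
  refine LipschitzWith.of_dist_le' fun z z' => ?_
  have h1 : lo ≤ hi := fun i => (h i).le
  refine (dist_pi_le_iff (mul_nonneg diam_nonneg dist_nonneg)).2 fun i => ?_
  have h2 : 0 < (hi i - lo i) / 2 := half_pos (sub_pos.2 (h i))
  have h3 : dist (hi i) (lo i) ≤ diam (Icc lo hi) := (dist_le_pi_dist hi lo i).trans
    (dist_le_diam_of_mem isCompact_Icc.isBounded (right_mem_Icc.2 h1) (left_mem_Icc.2 h1))
  rw [Real.dist_eq, abs_of_pos (sub_pos.2 (h i))] at h3
  rw [nrm', nrm', dist_add_left, Real.dist_eq, ← mul_sub, abs_mul, abs_of_pos h2]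
  exact mul_le_mul (by linarith) (dist_le_pi_dist z z' i) (abs_nonneg _) diam_nonneg

/-- the normalisation as a PL homeomorphism -/
noncomputable def nrmH (h : ∀ i, lo i < hi i) : ConHomeo (Icc lo hi) (closedBall (0 : E3) 1) where
  toFun := nrm lo hi
  invFun := nrm' lo hi
  mapsTo := fun _ hy => mem_closedBall_zero_iff.2 ((norm_nrm_le h).2 hy)
  mapsTo_inv := fun z hz => (norm_nrm_le h).1 (by
    rw [nrm_nrm' h]
    exact mem_closedBall_zero_iff.1 hz)
  left_inv := fun y _ => nrm'_nrm h y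
  right_inv := fun z _ => nrm_nrm' h z
  cont := (continuous_nrm lo hi).continuousOn
  cont_inv := (lipschitz_nrm' h).continuous.continuousOn
  conical := (conicalOn_nrm lo hi).mono (Convex.conicalSet (convex_Icc _ _)) (subset_univ _)

/-- the squeezed segment in a box -/
theorem eventually_box (h : ∀ i, lo i < hi i) {g : E3 → E3} {a b : E3}
    (hg : PLOn g (segment ℝ a b)) {θ : ℝ≥0∞} (hθ : 0 < θ) :
    ∀ᶠ ε in 𝓝[>] (0 : ℝ), μH[1] ((fun y => nrm' lo hi (psi ε (nrm lo hi y))) ''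
      (g '' segment ℝ a b ∩ Icc lo hi)) ≤
      6 * (ENNReal.ofReal (diam (Icc lo hi)) * cnt g a b (Icc lo hi \ interior (Icc lo hi))) + θ := by
  rcases eq_or_ne a b with rfl | hab
  · refine Eventually.of_forall fun ε => ?_
    have h1 : μH[1] ({nrm' lo hi (psi ε (nrm lo hi (g a)))} : Set E3) = 0 := by
      rw [← segment_same ℝ, hausdorffMeasure_segment, edist_self]
    refine (measure_mono (image_mono inter_subset_left)).trans ?_
    rw [segment_same, image_singleton, image_singleton, h1]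
    exact zero_le
  obtain ⟨ψ, hψ⟩ := exists_line hab
  have hγ : PLOn (nrm lo hi ∘ g ∘ ψ.toFun) (Icc 0 1) :=
    ⟨(continuous_nrm lo hi).comp_continuousOn (hg.1.comp ψ.cont ψ.mapsTo),
      (conicalOn_nrm lo hi).comp (hg.2.comp ψ.conical ψ.mapsTo ψ.cont) (mapsTo_univ _ _)
        (hg.1.comp ψ.cont ψ.mapsTo)⟩
  have hc : ({t ∈ Icc (0 : ℝ) 1 | ‖(nrm lo hi ∘ g ∘ ψ.toFun) t‖ = 1}.encard : ℝ≥0∞) ≤
      cnt g a b (Icc lo hi \ interior (Icc lo hi)) := by
    refine ENat.toENNReal_le.2 (encard_le_encard_of_injOn (f := ψ.toFun) (fun t ht => ?_)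
      (ψ.injOn.mono fun t ht => ht.1))
    exact ⟨ψ.mapsTo ht.1, (norm_nrm_le h).1 ht.2.le, fun h1 => ((norm_nrm_lt h).2 h1).ne ht.2⟩
  filter_upwards [eventually_cube hγ (θ := θ / ENNReal.ofReal (diam (Icc lo hi)))
    (ENNReal.div_pos hθ.ne' ENNReal.ofReal_ne_top)] with ε hε
  have h1 : (fun y => nrm' lo hi (psi ε (nrm lo hi y))) '' (g '' segment ℝ a b ∩ Icc lo hi) ⊆
      nrm' lo hi '' (psi ε '' ((nrm lo hi ∘ g ∘ ψ.toFun) '' Icc 0 1 ∩ closedBall 0 1)) := by
    rintro _ ⟨_, ⟨⟨x, hx, rfl⟩, hb⟩, rfl⟩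
    refine ⟨_, ⟨_, ⟨⟨ψ.invFun x, ψ.mapsTo_inv hx, ?_⟩, (nrmH h).mapsTo hb⟩, rfl⟩, rfl⟩
    exact congrArg (fun x => nrm lo hi (g x)) (ψ.right_inv hx)
  refine (measure_mono h1).trans (((lipschitz_nrm' h).hausdorffMeasure_image_le zero_le_one _).trans ?_)
  rw [ENNReal.rpow_one]
  refine (mul_le_mul_right hε _).trans ?_
  rw [mul_add, mul_left_comm]
  exact add_le_add (mul_le_mul_right (mul_le_mul_right hc _) _) ENNReal.mul_div_le

section Cx

variable {K : RCx E3}

theorem dim_le_three (hK : K.Cvx) (i : K.ι) : K.dim i ≤ 3 := by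
  rw [(hK i).2.2]
  exact (Submodule.finrank_le _).trans (by simp)

theorem affineSpan_eq_top_iff (hK : K.Cvx) (i : K.ι) :
    affineSpan ℝ (K.cell i) = ⊤ ↔ K.dim i = 3 := by
  rw [AffineSubspace.affineSpan_eq_top_iff_vectorSpan_eq_top_of_nonempty ℝ E3 E3
    (K.cell_nonempty i), (hK i).2.2]
  constructor
  · intro h
    rw [h]
    simp
  · intro h
    exact Submodule.eq_top_of_finrank_eq (by simpa using h)

/-- every point of an open carrier lies in a three-cell -/
theorem exists_three (hK : K.Cvx) (hΛ : IsOpen K.carrier) {x : E3} (hx : x ∈ K.carrier) :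
    ∃ i, K.dim i = 3 ∧ x ∈ K.cell i := by
  by_contra h
  push Not at h
  obtain ⟨U, hU, H⟩ := K.exists_nhds hx
  have h1 : U ∩ K.carrier ⊆ ⋃ i ∈ {i | x ∈ K.cell i}, K.cell i := by
    rintro y ⟨hy, hy'⟩
    obtain ⟨i, hi⟩ := K.mem_carrier.1 hy'
    exact mem_biUnion (H i ⟨y, hi, hy⟩) hi
  have h2 : volume (⋃ i ∈ {i | x ∈ K.cell i}, K.cell i) = 0 :=
    (measure_biUnion_null_iff (K.finite_mem hx).countable).2 fun i hi =>
      measure_mono_null (subset_affineSpan ℝ _) (Measure.addHaar_affineSubspace _ _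
        fun h3 => h i ((affineSpan_eq_top_iff hK i).1 h3) hi)
  exact (Measure.measure_pos_of_mem_nhds volume (inter_mem hU (hΛ.mem_nhds hx))).ne'
    (measure_mono_null h1 h2)

theorem bd_eq (hK : K.Cvx) {i : K.ι} (h : K.dim i = 3) :
    K.bd i = K.cell i \ interior (K.cell i) := by
  rw [(hK i).2.1, intrinsicFrontier_eq (K.isClosed_cell i),
    intrinsicInterior_of_top ((affineSpan_eq_top_iff hK i).2 h)]

theorem lt_of_three (hK : K.Cvx) {i : K.ι} (h : K.dim i = 3) (hc : K.cell i = Icc lo hi) (k : Fin 3) :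
    lo k < hi k := by
  obtain ⟨x, hx⟩ := (hK i).1.interior_nonempty_iff_affineSpan_eq_top.2
    ((affineSpan_eq_top_iff hK i).2 h)
  rw [hc, ← pi_univ_Icc, interior_pi_set finite_univ, mem_univ_pi] at hx
  have h1 := hx k
  rw [interior_Icc] at h1
  exact h1.1.trans h1.2

open Classical in
/-- crossings of the boundary are crossings of the two-faces -/
theorem cnt_bd_le {g : E3 → E3} {a b : E3} (hd : Disjoint (g '' segment ℝ a b) (K.skel 1))
    {i : K.ι} (h : K.dim i = 3) : ENNReal.ofReal (diam (K.cell i)) * cnt g a b (K.bd i) ≤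
      ∑' j, if K.dim j = 2 ∧ K.dim i = 3 ∧ K.cell j ⊆ K.cell i then
        ENNReal.ofReal (diam (K.cell i)) * cnt g a b (K.cell j) else 0 := by
  let s := (K.finite_faces i).toFinset.filter fun j => K.dim j = 2
  have h1 : {x ∈ segment ℝ a b | g x ∈ K.bd i} ⊆
      ⋃ j ∈ s, {x ∈ segment ℝ a b | g x ∈ K.cell j} := by
    rintro x ⟨hx, hb⟩
    obtain ⟨j, h1, h2, h3⟩ := K.exists_face_bd hb
    have h4 : ¬ K.dim j ≤ 1 := fun h4 =>
      Set.disjoint_left.1 hd ⟨x, hx, rfl⟩ (K.mem_skel.2 ⟨j, h4, h1.1⟩)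
    exact mem_biUnion (Finset.mem_filter.2 ⟨(K.finite_faces i).mem_toFinset.2
      (h2.trans (K.bd_subset i)), by omega⟩) ⟨hx, h1.1⟩
  have h2 : cnt g a b (K.bd i) ≤ ∑ j ∈ s, cnt g a b (K.cell j) := by
    have h3 := ENat.toENNReal_le.2 ((encard_le_encard h1).trans (s.set_encard_biUnion_le _))
    refine h3.trans_eq ?_
    exact map_sum ENat.toENNRealRingHom _ s
  refine (mul_le_mul_right h2 _).trans (le_trans ?_ (ENNReal.sum_le_tsum s))
  rw [Finset.mul_sum]
  refine Finset.sum_le_sum fun j hj => ?_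
  obtain ⟨h3, h4⟩ := Finset.mem_filter.1 hj
  rw [if_pos ⟨h4, h, (K.finite_faces i).mem_toFinset.1 h3⟩]

/-- squeezing one cell -/
theorem exists_cell (hK : K.Cvx) (hb : ∀ i, ∃ lo hi : E3, K.cell i = Icc lo hi) {ι : Type}
    {g : E3 → E3} {a b : ι → E3} {θ : ι → ℝ≥0∞} (hg : ∀ e, PLOn g (segment ℝ (a e) (b e)))
    (hθ : ∀ e, 0 < θ e) (hlf : LFIn (fun e => g '' segment ℝ (a e) (b e)) K.carrier) (i : K.ι) :
    ∃ h : ConHomeo (K.cell i) (K.cell i), (∀ x, K.dim i ≠ 3 ∨ x ∈ K.bd i → h.toFun x = x) ∧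
      (K.dim i = 3 → ∀ e, μH[1] (h.toFun '' (g '' segment ℝ (a e) (b e) ∩ K.cell i)) ≤
        6 * (ENNReal.ofReal (diam (K.cell i)) * cnt g (a e) (b e) (K.bd i)) + θ e) := by
  by_cases h3 : K.dim i = 3
  swap
  · exact ⟨ConHomeo.refl (K.locCone_cell i).conicalSet, fun _ _ => rfl, fun h => absurd h h3⟩
  obtain ⟨lo, hi, hc⟩ := hb i
  have h := lt_of_three hK h3 hc
  have hfin := hlf.finite_meet (K.isCompact_cell i) (K.cell_subset_carrier i)
  obtain ⟨ε, hε, h0, h1⟩ := ((hfin.eventually_all.2 fun e _ => eventually_box h (hg e) (hθ e)).and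
    (eventually_mem_nhdsWithin.and
      ((eventually_le_nhds one_pos).filter_mono nhdsWithin_le_nhds))).exists
  obtain ⟨Q, hQ⟩ := exists_psi h0 h1
  rw [bd_eq hK h3]
  rw [hc] at hε ⊢
  have h2 : (((nrmH h).trans Q).trans (nrmH h).symm).toFun =
      fun y => nrm' lo hi (psi ε (nrm lo hi y)) := by
    rw [← hQ]
    rfl
  refine ⟨((nrmH h).trans Q).trans (nrmH h).symm, fun x hx => ?_, fun _ e => ?_⟩
  · rw [h2]
    beta_reduce
    rw [psi_of_one_le h0 (not_lt.1 fun h4 => (hx.resolve_left (not_not.2 h3)).2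
      ((norm_nrm_lt h).1 h4)), nrm'_nrm h]
  · rw [h2]
    rcases (g '' segment ℝ (a e) (b e) ∩ Icc lo hi).eq_empty_or_nonempty with h4 | h4
    · rw [h4, image_empty, measure_empty]
      exact zero_le
    · exact hε e h4

end Cx

end Sq

open Sq in
theorem sq_thm : SQ := by
  classical
  refine ⟨6, ?_⟩
  intro Λ g ι a b η K hΛ hK hc hb he hlf
  subst hc
  have hfin : ∀ e, {i | (K.cell i ∩ g '' segment ℝ (a e) (b e)).Nonempty}.Finite := fun e =>
    K.finite_meet ((isCompact_segment _ _).image_of_continuousOn (he e).1.1) (he e).2.1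
  choose h h1 h2 using exists_cell hK hb (θ := fun e => η e / (hfin e).toFinset.card)
    (fun e => (he e).1) (fun e => ENNReal.div_pos (he e).2.2.2.2.ne' (ENNReal.natCast_ne_top _)) hlf
  have hR : RelLF K.cell := ⟨K.lf, fun i _ _ hz => (K.isClosed_cell i).closure_subset hz⟩
  have h3 : ∀ i j, i ≠ j → ∀ x ∈ K.cell i ∩ K.cell j, (h i).toFun x = x := by
    intro i j hij x hx
    refine h1 i x ?_
    by_cases h3 : K.dim i = 3
    · exact Or.inr (K.inter_subset_bd hij ((dim_le_three hK j).trans h3.ge) hx)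
    · exact Or.inl h3
  obtain ⟨Ψ, hΨ⟩ := ConHomeo.exists_glue_family hR hR h (fun i j x hx => by
      rcases eq_or_ne i j with rfl | hij
      · rfl
      · rw [h3 i j hij x hx, h3 j i hij.symm x hx.symm])
    (fun i j x hx => by
      rcases eq_or_ne i j with rfl | hij
      · rw [inter_self, (h i).image_eq]
        exact hx.1
      · exact ⟨x, hx, h3 i j hij x hx⟩)
  refine ⟨Ψ, fun y hy => ?_, fun i => ?_, fun e => ?_⟩
  · obtain ⟨i, hi, hy⟩ := K.mem_skel.1 hy
    exact ((hΨ i).1 hy).trans (h1 i y (Or.inl (by omega)))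
  · exact (hΨ i).1.image_eq.trans (h i).image_eq
  let s := (hfin e).toFinset.filter fun i => K.dim i = 3
  have h4 : Ψ.toFun '' (g '' segment ℝ (a e) (b e)) ⊆
      ⋃ i ∈ s, (h i).toFun '' (g '' segment ℝ (a e) (b e) ∩ K.cell i) := by
    rintro _ ⟨y, hy, rfl⟩
    obtain ⟨i, hi, hyi⟩ := exists_three hK hΛ ((he e).2.1 hy)
    exact mem_biUnion (Finset.mem_filter.2 ⟨(hfin e).mem_toFinset.2 ⟨y, hyi, hy⟩, hi⟩)
      ⟨y, ⟨hy, hyi⟩, ((hΨ i).1 hyi).symm⟩
  refine (measure_mono h4).trans ((measure_biUnion_finset_le _ _).trans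
    ((Finset.sum_le_sum fun i hi => h2 i (Finset.mem_filter.1 hi).2 e).trans ?_))
  rw [Finset.sum_add_distrib, ← Finset.mul_sum]
  refine add_le_add (mul_le_mul_right ?_ _) ?_
  · rw [crossSum, ENNReal.tsum_prod', ENNReal.tsum_comm]
    exact (Finset.sum_le_sum fun i hi => cnt_bd_le (he e).2.2.1 (Finset.mem_filter.1 hi).2).trans
      (ENNReal.sum_le_tsum s)
  · rw [Finset.sum_const, nsmul_eq_mul]
    exact (mul_le_mul_left (Nat.cast_le.2 (Finset.card_filter_le _ _)) _).trans ENNReal.mul_div_le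

end P073
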