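import Vale.Agent.P073Z.Sk1
import Vale.Agent.P073Z.DER.Rel

/-!
# Derived coordinates of a convex complex
-/

open Set Metric Topology Filter

namespace P073

namespace DER

variable {E : Type} [NormedAddCommGroup E] [NormedSpace ℝ E]

/-- `a` are weights along a chain which represent `x` -/
structure Rep (K : RCx E) (b : K.ι → E) (x : E) (a : K.ι →₀ ℝ) : Prop where
  nonneg : ∀ i, 0 ≤ a i
  chain : ∀ i j, a i ≠ 0 → a j ≠ 0 → K.cell i ⊆ K.cell j ∨ K.cell j ⊆ K.cell i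
  sum : Finsupp.linearCombination ℝ (fun _ => (1:ℝ)) a = 1
  eq : Finsupp.linearCombination ℝ b a = x

theorem lc_eq {ι F : Type} [AddCommGroup F] [Module ℝ F] (v : ι → F) (a : ι →₀ ℝ) :
    Finsupp.linearCombination ℝ v a = ∑ i ∈ a.support, a i • v i := by
  rw [Finsupp.linearCombination_apply, Finsupp.sum]

theorem lc_one {ι : Type} (a : ι →₀ ℝ) :
    Finsupp.linearCombination ℝ (fun _ => (1:ℝ)) a = ∑ i ∈ a.support, a i := by
  rw [lc_eq]
  simp only [smul_eq_mul, mul_one]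

variable {K : RCx E} {b : K.ι → E} {x : E} {a a' : K.ι →₀ ℝ} {i : K.ι}

theorem Rep.top (h : Rep K b x a) : ∃ i, a i ≠ 0 ∧ ∀ j, a j ≠ 0 → K.cell j ⊆ K.cell i := by
  have hne : a.support.Nonempty := by
    by_contra h1
    have h2 := h.sum
    rw [lc_one, Finset.not_nonempty_iff_eq_empty.1 h1, Finset.sum_empty] at h2
    exact zero_ne_one h2
  obtain ⟨i, hi, hmax⟩ := a.support.exists_max_image K.dim hne
  have hi' := Finsupp.mem_support_iff.1 hi
  refine ⟨i, hi', fun j hj => ?_⟩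
  rcases h.chain j i hj hi' with h1 | h1
  · exact h1
  · rw [K.eq_of_subset_of_dim_le h1 (hmax j (Finsupp.mem_support_iff.2 hj))]

theorem Rep.mem (h : Rep K b x a) (hK : K.Cvx) (hb : ∀ i, b i ∈ K.ocell i)
    (hi : ∀ j, a j ≠ 0 → K.cell j ⊆ K.cell i) : x ∈ K.cell i := by
  rw [← h.eq, lc_eq]
  refine (hK i).1.sum_mem (fun j _ => h.nonneg j) ?_ fun j hj =>
    hi j (Finsupp.mem_support_iff.1 hj) (hb j).1
  rw [← lc_one, h.sum]

theorem Rep.mem_bd (h : Rep K b x a) (hK : K.Cvx) (hb : ∀ i, b i ∈ K.ocell i)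
    (hi : ∀ j, a j ≠ 0 → K.cell j ⊆ K.bd i) : x ∈ K.bd i := by
  obtain ⟨j, h1, h2⟩ := h.top
  exact hi j h1 (h.mem hK hb h2)

theorem rep_single (K : RCx E) (b : K.ι → E) (i : K.ι) :
    Rep K b (b i) (Finsupp.single i 1) := by
  classical
  refine ⟨fun j => ?_, fun j k hj hk => ?_, by simp, by simp⟩
  · rw [Finsupp.single_apply]
    split_ifs <;> norm_num
  · rw [(Finsupp.single_apply_ne_zero.1 hj).1, (Finsupp.single_apply_ne_zero.1 hk).1]
    exact Or.inl Subset.rfl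

theorem Rep.comb {y : E} (h : Rep K b x a) (h' : Rep K b y a')
    (hc : ∀ i j, a i ≠ 0 → a' j ≠ 0 → K.cell i ⊆ K.cell j ∨ K.cell j ⊆ K.cell i) {θ : ℝ}
    (h0 : 0 ≤ θ) (h1 : θ ≤ 1) : Rep K b (x + θ • (y - x)) (a + θ • (a' - a)) := by
  have hv : ∀ j, (a + θ • (a' - a)) j = (1 - θ) * a j + θ * a' j := fun j => by
    simp only [Finsupp.add_apply, Finsupp.smul_apply, Finsupp.sub_apply, smul_eq_mul]
    ring
  have hs : ∀ j, (a + θ • (a' - a)) j ≠ 0 → a j ≠ 0 ∨ a' j ≠ 0 := fun j hj => by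
    by_contra h2
    push Not at h2
    exact hj (by rw [hv, h2.1, h2.2]; ring)
  refine ⟨fun j => ?_, fun j k hj hk => ?_, ?_, ?_⟩
  · rw [hv]
    exact add_nonneg (mul_nonneg (by linarith) (h.nonneg j)) (mul_nonneg h0 (h'.nonneg j))
  · rcases hs j hj with h2 | h2 <;> rcases hs k hk with h3 | h3
    · exact h.chain j k h2 h3
    · exact hc j k h2 h3
    · exact (hc k j h3 h2).symm
    · exact h'.chain j k h2 h3
  · rw [map_add, map_smul, map_sub, h.sum, h'.sum, sub_self, smul_zero, add_zero]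
  · rw [map_add, map_smul, map_sub, h.eq, h'.eq]

theorem Rep.split (h : Rep K b x a) (hi : a i ≠ 0) (ht : ∀ j, a j ≠ 0 → K.cell j ⊆ K.cell i) :
    (a = Finsupp.single i 1 ∧ x = b i) ∨ ∃ (z : E) (a' : K.ι →₀ ℝ), ∃ τ ∈ Ioo (0:ℝ) 1,
      Rep K b z a' ∧ (∀ j, a' j ≠ 0 → K.cell j ⊆ K.bd i) ∧ x = b i + τ • (z - b i) ∧
      a = Finsupp.single i 1 + τ • (a' - Finsupp.single i 1) := by
  classical
  set e : K.ι →₀ ℝ := a - Finsupp.single i (a i) with he
  have he1 : ∀ j, e j = if i = j then 0 else a j := fun j => by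
    rw [he, Finsupp.sub_apply, Finsupp.single_apply]
    split_ifs with h1
    · rw [h1, sub_self]
    · rw [sub_zero]
  have he2 : ∀ j, 0 ≤ e j := fun j => by
    rw [he1]
    split_ifs
    · exact le_rfl
    · exact h.nonneg j
  have he3 : ∀ j, e j ≠ 0 → a j ≠ 0 ∧ j ≠ i := fun j hj => by
    rw [he1] at hj
    split_ifs at hj with h1
    · exact absurd rfl hj
    · exact ⟨hj, Ne.symm h1⟩
  have hs : Finsupp.linearCombination ℝ (fun _ => (1:ℝ)) e = 1 - a i := by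
    rw [he, map_sub, h.sum, Finsupp.linearCombination_single, smul_eq_mul, mul_one]
  have hx : Finsupp.linearCombination ℝ b e = x - a i • b i := by
    rw [he, map_sub, h.eq, Finsupp.linearCombination_single]
  have hpos : 0 < a i := lt_of_le_of_ne (h.nonneg i) (Ne.symm hi)
  have hnn : 0 ≤ 1 - a i := by
    rw [← hs, lc_one]
    exact Finset.sum_nonneg fun j _ => he2 j
  rcases hnn.eq_or_lt with h1 | h1
  · left
    have h2 : a i = 1 := by linarith
    have h3 : e = 0 := by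
      rw [← h1, lc_one, Finset.sum_eq_zero_iff_of_nonneg fun j _ => he2 j] at hs
      ext j
      by_contra h4
      exact h4 (hs j (Finsupp.mem_support_iff.2 h4))
    refine ⟨?_, ?_⟩
    · rw [← h2]
      exact sub_eq_zero.1 h3
    · rw [h3, map_zero, h2, one_smul] at hx
      exact sub_eq_zero.1 hx.symm
  · right
    have hn : ∀ j, ((1 - a i)⁻¹ • e) j ≠ 0 → e j ≠ 0 := fun j hj h2 =>
      hj (by rw [Finsupp.smul_apply, h2, smul_zero])
    refine ⟨(1 - a i)⁻¹ • (x - a i • b i), (1 - a i)⁻¹ • e, 1 - a i, ⟨h1, by linarith⟩,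
      ⟨fun j => ?_, fun j k hj hk => ?_, ?_, ?_⟩, fun j hj => ?_, ?_, ?_⟩
    · exact mul_nonneg (inv_nonneg.2 hnn) (he2 j)
    · exact h.chain j k (he3 j (hn j hj)).1 (he3 k (hn k hk)).1
    · rw [map_smul, hs, smul_eq_mul, inv_mul_cancel₀ h1.ne']
    · rw [map_smul, hx]
    · exact K.subset_bd_of_ne (ht j (he3 j (hn j hj)).1) (he3 j (hn j hj)).2
    · rw [smul_sub, smul_smul, mul_inv_cancel₀ h1.ne', one_smul]
      module
    · rw [smul_sub, smul_smul, mul_inv_cancel₀ h1.ne', one_smul, he]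
      have h2 : Finsupp.single i (a i) = a i • Finsupp.single i (1:ℝ) := by
        rw [Finsupp.smul_single, smul_eq_mul, mul_one]
      rw [h2]
      module

variable [FiniteDimensional ℝ E]

theorem Rep.mem_ocell (h : Rep K b x a) (hK : K.Cvx) (hb : ∀ i, b i ∈ K.ocell i)
    (hi : a i ≠ 0) (ht : ∀ j, a j ≠ 0 → K.cell j ⊆ K.cell i) : x ∈ K.ocell i := by
  rcases h.split hi ht with ⟨-, h1⟩ | ⟨z, a', τ, hτ, h1, h2, h3, -⟩
  · rw [h1]
    exact hb i
  · rw [h3]
    exact hK.ray_mem_ocell (hb i) (K.bd_subset i (h1.mem_bd hK hb h2)) hτ.1.le hτ.2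

theorem Rep.top_eq (h : Rep K b x a) (hK : K.Cvx) (hb : ∀ i, b i ∈ K.ocell i)
    (hx : x ∈ K.ocell i) : a i ≠ 0 ∧ ∀ j, a j ≠ 0 → K.cell j ⊆ K.cell i := by
  obtain ⟨m, h1, h2⟩ := h.top
  obtain rfl := K.ocell_unique (h.mem_ocell hK hb h1 h2) hx
  exact ⟨h1, h2⟩

theorem Rep.below (h : Rep K b x a) (hK : K.Cvx) (hb : ∀ i, b i ∈ K.ocell i)
    (hx : x ∈ K.cell i) {j : K.ι} (hj : a j ≠ 0) : K.cell j ⊆ K.cell i := by
  obtain ⟨m, h1, h2⟩ := K.exists_face hx
  exact ((h.top_eq hK hb h1).2 j hj).trans h2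

theorem unique_aux (hK : K.Cvx) (hb : ∀ i, b i ∈ K.ocell i) (n : ℕ) : ∀ i, K.dim i < n →
    ∀ (x : E) (a a' : K.ι →₀ ℝ), x ∈ K.ocell i → Rep K b x a → Rep K b x a' → a = a' := by
  induction n with
  | zero => intro i hi; omega
  | succ n ih =>
    intro i hi x a a' hx h h'
    have key : ∀ {z : E} {τ : ℝ}, z ∈ K.bd i → 0 < τ → b i ≠ b i + τ • (z - b i) := by
      intro z τ hz hτ he
      have h1 : τ • (z - b i) = 0 := left_eq_add.1 he
      have h2 : z = b i := sub_eq_zero.1 ((smul_eq_zero.1 h1).resolve_left hτ.ne')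
      exact (hb i).2 (h2 ▸ hz)
    obtain ⟨h1, h2⟩ := h.top_eq hK hb hx
    obtain ⟨h1', h2'⟩ := h'.top_eq hK hb hx
    rcases h.split h1 h2 with ⟨e1, e2⟩ | ⟨z, c, τ, hτ, r1, r2, r3, r4⟩ <;>
      rcases h'.split h1' h2' with ⟨e1', e2'⟩ | ⟨z', c', τ', hτ', r1', r2', r3', r4'⟩
    · rw [e1, e1']
    · exact absurd (e2.symm.trans r3') (key (r1'.mem_bd hK hb r2') hτ'.1)
    · exact absurd (e2'.symm.trans r3) (key (r1.mem_bd hK hb r2) hτ.1)
    · have hz := r1.mem_bd hK hb r2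
      obtain ⟨rfl, rfl⟩ := hK.ray_unique (hb i) hz (r1'.mem_bd hK hb r2') hτ.1 hτ'.1
        (r3.symm.trans r3')
      obtain ⟨j, hj, -, hd⟩ := K.exists_face_bd hz
      rw [r4, r4', ih j (by omega) z c c' hj r1 r1']

theorem Rep.unique (h : Rep K b x a) (h' : Rep K b x a') (hK : K.Cvx)
    (hb : ∀ i, b i ∈ K.ocell i) : a = a' := by
  obtain ⟨m, h1, h2⟩ := h.top
  exact unique_aux hK hb _ m (Nat.lt_succ_self _) x a a' (h.mem_ocell hK hb h1 h2) h h'

theorem exists_aux (hK : K.Cvx) (hb : ∀ i, b i ∈ K.ocell i) (n : ℕ) : ∀ i, K.dim i < n →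
    ∀ x ∈ K.cell i, ∃ a, Rep K b x a := by
  induction n with
  | zero => intro i hi; omega
  | succ n ih =>
    intro i hi x hx
    by_cases h1 : x = b i
    · exact ⟨_, h1 ▸ rep_single K b i⟩
    · obtain ⟨z, hz, τ, hτ, h2⟩ := hK.exists_ray (hb i).1 hx h1
      obtain ⟨j, hj, -, hd⟩ := K.exists_face_bd hz
      obtain ⟨c, hc⟩ := ih j (by omega) z hj.1
      refine ⟨_, h2 ▸ (rep_single K b i).comb hc (fun k l hk hl => ?_) hτ.1.le hτ.2⟩
      rw [(Finsupp.single_apply_ne_zero.1 hk).1]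
      exact Or.inr (hc.below hK hb (K.bd_subset i hz) hl)

theorem exists_rep (hK : K.Cvx) (hb : ∀ i, b i ∈ K.ocell i) (hx : x ∈ K.carrier) :
    ∃ a, Rep K b x a := by
  obtain ⟨i, hi⟩ := K.mem_carrier.1 hx
  exact exists_aux hK hb _ i (Nat.lt_succ_self _) x hi

open Classical in
/-- the coordinates -/
noncomputable def tt (K : RCx E) (b : K.ι → E) (x : E) : K.ι →₀ ℝ :=
  if h : ∃ a, Rep K b x a then h.choose else 0

theorem Rep.tt_eq (h : Rep K b x a) (hK : K.Cvx) (hb : ∀ i, b i ∈ K.ocell i) :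
    tt K b x = a := by
  have h1 : ∃ a, Rep K b x a := ⟨a, h⟩
  rw [tt, dif_pos h1]
  exact h1.choose_spec.unique h hK hb

theorem rep_tt (hK : K.Cvx) (hb : ∀ i, b i ∈ K.ocell i) (hx : x ∈ K.carrier) :
    Rep K b x (tt K b x) := by
  obtain ⟨a, ha⟩ := exists_rep hK hb hx
  rwa [ha.tt_eq hK hb]

omit [FiniteDimensional ℝ E] in
theorem tt_out (hK : K.Cvx) (hb : ∀ i, b i ∈ K.ocell i) (hx : x ∉ K.carrier) :
    tt K b x = 0 := by
  rw [tt, dif_neg]
  rintro ⟨a, ha⟩
  obtain ⟨m, -, h2⟩ := ha.top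
  exact hx (K.cell_subset_carrier m (ha.mem hK hb h2))

/-- weights supported in `s` -/
def Wt {ι : Type} (s : Finset ι) : Set (ι → ℝ) :=
  {w | (∀ k, 0 ≤ w k) ∧ (∀ k, k ∉ s → w k = 0) ∧ ∑ k ∈ s, w k = 1}

theorem isClosed_Wt {ι : Type} (s : Finset ι) : IsClosed (Wt s) := by
  have h1 : IsClosed {w : ι → ℝ | ∀ k, 0 ≤ w k} := by
    rw [ofPred_forall]
    exact isClosed_iInter fun k => isClosed_le continuous_const (continuous_apply k)
  have h2 : IsClosed {w : ι → ℝ | ∀ k, k ∉ s → w k = 0} := by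
    simp only [ofPred_forall]
    exact isClosed_iInter fun k => isClosed_iInter fun _ =>
      isClosed_eq (continuous_apply k) continuous_const
  have h3 : IsClosed {w : ι → ℝ | ∑ k ∈ s, w k = 1} :=
    isClosed_eq (continuous_finsetSum s fun k _ => continuous_apply k) continuous_const
  exact h1.inter (h2.inter h3)

theorem isCompact_Wt {ι : Type} (s : Finset ι) : IsCompact (Wt s) := by
  refine (isCompact_univ_pi fun _ : ι => isCompact_Icc (a := (0:ℝ)) (b := 1)).of_isClosed_subset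
    (isClosed_Wt s) fun w hw k _ => ⟨hw.1 k, ?_⟩
  by_cases hk : k ∈ s
  · rw [← hw.2.2]
    exact Finset.single_le_sum (fun j _ => hw.1 j) hk
  · rw [hw.2.1 k hk]
    exact zero_le_one

omit [FiniteDimensional ℝ E] in
theorem rep_of_wt {s : Finset K.ι}
    (hs : ∀ i ∈ s, ∀ j ∈ s, K.cell i ⊆ K.cell j ∨ K.cell j ⊆ K.cell i) {w : K.ι → ℝ}
    (hw : w ∈ Wt s) : ∃ a, Rep K b (∑ k ∈ s, w k • b k) a ∧ ∀ k, a k = w k := by
  have h1 : ∀ k, w k ≠ 0 → k ∈ s := fun k hk => by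
    by_contra h
    exact hk (hw.2.1 k h)
  have h2 : ∀ {F : Type} [AddCommGroup F] [Module ℝ F] (v : K.ι → F),
      Finsupp.linearCombination ℝ v (Finsupp.onFinset s w h1) = ∑ k ∈ s, w k • v k := by
    intro F _ _ v
    rw [Finsupp.linearCombination_apply]
    exact Finsupp.sum_of_support_subset _ Finsupp.support_onFinset_subset
      (fun i (a : ℝ) => a • v i) fun k _ => zero_smul ℝ _
  refine ⟨Finsupp.onFinset s w h1, ⟨hw.1, fun i j hi hj => hs i (h1 i hi) j (h1 j hj), ?_, h2 b⟩,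
    fun k => rfl⟩
  rw [h2]
  simp only [smul_eq_mul, mul_one]
  exact hw.2.2

theorem tt_wt (hK : K.Cvx) (hb : ∀ i, b i ∈ K.ocell i) {s : Finset K.ι}
    (hs : ∀ i ∈ s, ∀ j ∈ s, K.cell i ⊆ K.cell j ∨ K.cell j ⊆ K.cell i) {w : K.ι → ℝ}
    (hw : w ∈ Wt s) (j : K.ι) : tt K b (∑ k ∈ s, w k • b k) j = w j := by
  obtain ⟨a, h1, h2⟩ := rep_of_wt (b := b) hs hw
  rw [h1.tt_eq hK hb, h2]

theorem pl_simplex (hK : K.Cvx) (hb : ∀ i, b i ∈ K.ocell i) {s : Finset K.ι}
    (hs : ∀ i ∈ s, ∀ j ∈ s, K.cell i ⊆ K.cell j ∨ K.cell j ⊆ K.cell i) (j : K.ι) :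
    PLOn (fun x => tt K b x j) ((fun w : K.ι → ℝ => ∑ k ∈ s, w k • b k) '' Wt s) := by
  constructor
  · refine continuousOn_image_of_isCompact (isCompact_Wt s) (isClosed_Wt s) (by fun_prop) ?_
    exact (continuous_apply j).continuousOn.congr fun w hw => tt_wt hK hb hs hw j
  · rintro _ ⟨w, hw, rfl⟩
    refine ⟨1, one_pos, fun v _ hv t ht => ?_⟩
    obtain ⟨w', hw', hv⟩ := hv
    have h1 : w + t • (w' - w) ∈ Wt s := by
      refine ⟨fun k => ?_, fun k hk => ?_, ?_⟩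
      · have h2 := mul_nonneg (sub_nonneg.2 ht.2) (hw.1 k)
        have h3 := mul_nonneg ht.1 (hw'.1 k)
        simp only [Pi.add_apply, Pi.smul_apply, Pi.sub_apply, smul_eq_mul]
        linarith
      · simp only [Pi.add_apply, Pi.smul_apply, Pi.sub_apply, hw.2.1 k hk, hw'.2.1 k hk,
          sub_self, smul_zero, add_zero]
      · simp only [Pi.add_apply, Pi.smul_apply, Pi.sub_apply, smul_eq_mul]
        rw [Finset.sum_add_distrib, ← Finset.mul_sum, Finset.sum_sub_distrib, hw.2.2, hw'.2.2]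
        ring
    have h2 : ∑ k ∈ s, (w + t • (w' - w)) k • b k = ∑ k ∈ s, w k • b k + t • v := by
      have h3 : v = ∑ k ∈ s, w' k • b k - ∑ k ∈ s, w k • b k := eq_sub_of_add_eq' hv.symm
      rw [h3, ← Finset.sum_sub_distrib, Finset.smul_sum, ← Finset.sum_add_distrib]
      refine Finset.sum_congr rfl fun k _ => ?_
      simp only [Pi.add_apply, Pi.smul_apply, Pi.sub_apply, smul_eq_mul]
      module
    refine ⟨⟨_, h1, h2⟩, ?_⟩
    have hv' : ∑ k ∈ s, w' k • b k = ∑ k ∈ s, w k • b k + v := hv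
    change tt K b (∑ k ∈ s, w k • b k + t • v) j = tt K b (∑ k ∈ s, w k • b k) j +
      t • (tt K b (∑ k ∈ s, w k • b k + v) j - tt K b (∑ k ∈ s, w k • b k) j)
    rw [← h2, ← hv', tt_wt hK hb hs h1, tt_wt hK hb hs hw, tt_wt hK hb hs hw']
    rfl

theorem pl_cell (hK : K.Cvx) (hb : ∀ i, b i ∈ K.ocell i) (i j : K.ι) :
    PLOn (fun x => tt K b x j) (K.cell i) := by
  classical
  let C : Finset (Finset K.ι) := (K.finite_faces i).toFinset.powerset.filter fun s =>
    ∀ i ∈ s, ∀ j ∈ s, K.cell i ⊆ K.cell j ∨ K.cell j ⊆ K.cell i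
  let σ : C → Set E := fun s => (fun w : K.ι → ℝ => ∑ k ∈ s.1, w k • b k) '' Wt s.1
  have hC : ∀ s : C, (∀ k ∈ s.1, K.cell k ⊆ K.cell i) ∧
      ∀ i ∈ s.1, ∀ j ∈ s.1, K.cell i ⊆ K.cell j ∨ K.cell j ⊆ K.cell i := fun s => by
    obtain ⟨h1, h2⟩ := Finset.mem_filter.1 s.2
    exact ⟨fun k hk => (K.finite_faces i).mem_toFinset.1 (Finset.mem_powerset.1 h1 hk), h2⟩
  have he : K.cell i = ⋃ s, σ s := by
    refine Subset.antisymm (fun x hx => ?_) (iUnion_subset ?_)
    · have h := rep_tt hK hb (K.cell_subset_carrier i hx)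
      refine mem_iUnion.2 ⟨⟨(tt K b x).support, Finset.mem_filter.2 ⟨Finset.mem_powerset.2
        fun k hk => (K.finite_faces i).mem_toFinset.2
          (h.below hK hb hx (Finsupp.mem_support_iff.1 hk)), fun k hk l hl =>
        h.chain k l (Finsupp.mem_support_iff.1 hk) (Finsupp.mem_support_iff.1 hl)⟩⟩,
        tt K b x, ⟨h.nonneg, fun k hk => Finsupp.notMem_support_iff.1 hk, ?_⟩, ?_⟩
      · rw [← lc_one, h.sum]
      · exact (lc_eq b _).symm.trans h.eq
    · rintro s _ ⟨w, hw, rfl⟩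
      exact (hK i).1.sum_mem (fun k _ => hw.1 k) hw.2.2 fun k hk => (hC s).1 k hk (hb k).1
  have hL : RelLF σ := RelLF.of_finite fun s =>
    ((isCompact_Wt s.1).image (by fun_prop)).isClosed
  rw [he]
  exact ⟨hL.continuousOn fun s => (pl_simplex hK hb (hC s).2 j).1,
    hL.conicalOn fun s => (pl_simplex hK hb (hC s).2 j).2⟩

/-- the derived coordinates -/
noncomputable def derived (hK : K.Cvx) (hb : ∀ i, b i ∈ K.ocell i) : Derived K where
  b := b
  t := fun j x => tt K b x j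
  b_mem := hb
  pl := fun j => K.sub_carrier.plOn fun i _ => pl_cell hK hb i j
  nonneg := fun j x => by
    by_cases hx : x ∈ K.carrier
    · exact (rep_tt hK hb hx).nonneg j
    · rw [tt_out hK hb hx]
      exact le_rfl
  zero_out := fun j x hx => by
    rw [tt_out hK hb hx]
    rfl
  chain := fun x i j hi hj => by
    by_cases hx : x ∈ K.carrier
    · exact (rep_tt hK hb hx).chain i j hi hj
    · rw [tt_out hK hb hx] at hi
      exact absurd rfl hi
  top := fun i x hx => (rep_tt hK hb (K.cell_subset_carrier i hx.1)).top_eq hK hb hx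
  coord := fun s a hs h0 h1 => by
    classical
    have hw : (fun k => if k ∈ s then a k else 0) ∈ Wt s := by
      refine ⟨fun k => ?_, fun k hk => if_neg hk, ?_⟩
      · by_cases hk : k ∈ s
        · simp only [if_pos hk]
          exact h0 k hk
        · simp only [if_neg hk]
          exact le_rfl
      · rw [← h1]
        exact Finset.sum_congr rfl fun k hk => if_pos hk
    have he : ∑ k ∈ s, a k • b k = ∑ k ∈ s, (if k ∈ s then a k else 0) • b k :=
      Finset.sum_congr rfl fun k hk => by rw [if_pos hk]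
    obtain ⟨c, hc, -⟩ := rep_of_wt (b := b) hs hw
    obtain ⟨m, -, hm⟩ := hc.top
    rw [he]
    refine ⟨K.cell_subset_carrier m (hc.mem hK hb hm), fun k hk => ?_, fun k hk => ?_⟩
    · exact (tt_wt hK hb hs hw k).trans (if_pos hk)
    · exact (tt_wt hK hb hs hw k).trans (if_neg hk)
  repr := fun x hx => by
    have h := rep_tt hK hb hx
    exact ⟨(tt K b x).support, fun k => Finsupp.mem_support_iff.symm,
      (lc_one _).symm.trans h.sum, (lc_eq b _).symm.trans h.eq⟩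

end DER

theorem der : DER := fun _ hK _ hb => ⟨DER.derived hK hb, rfl⟩

end P073
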