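import Vale.Agent.P073Z.T0.AsmB
import Vale.Agent.P073Z.T0.Model
import Vale.Agent.P073Z.T0.Conen
import Vale.Agent.P073Z.T0.Bic
import Vale.Agent.P073Z.T0.TR
import Vale.Agent.P073Z.T0.LemH
import Vale.Agent.P073Z.DER
import Vale.Agent.P073Z.A14

/-!
# Block T0: PL approximation with crossing counts
-/

open Set Metric Topology Filter

namespace P073

theorem t0_of_model (hM : T0.MODEL) (h1 : TR1) (h2 : TR2) (hL : LEMH) (hA : ASMG) (hS : SCH3) :
    T0 := by
  refine T0.As.t0_of_parts (fun K F a b c d e => ?_) (fun a b c d e t h => ?_)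
    (fun a b K S δ c d e g h i _ j k l m n o => ?_) (fun χ a b c d e => hL χ a b c d e) hA hS
  · obtain ⟨m⟩ := hM K a b c d e
    exact ⟨m, m.T_nhds⟩
  · obtain ⟨Y, κ, lam, k1, -, k2, k3, k4, k5⟩ := h1 a b c d t.isOpen e t.sub t.closedIn t.man
      t.P_open t.M_open t.disj t.union t.G_P t.G_M h
    exact ⟨Y, κ, lam, k1, k2, k3, k4, k5⟩
  · exact h2 a b K S c d e g h i j k l m.isCompact m.conicalSet n o

theorem t0_of (hP : PS) (hC : COL) (hB : STARB) (hD : T0.SMD) (hA : ASMG) (hS : SCH3) : T0 :=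
  t0_of_model (T0.model_of der hB (T0.conen_of hB) hD T0.bic) (tr1_of hP hC) (tr2_of hP)
    (lemh_of p4) hA hS

end P073
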