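import Vale.Agent.P073Z.TOPO.Real
import Vale.Agent.P073Z.TOPO.FillStmt

/-!
# The topological machine
-/

open Set Metric Topology Filter MeasureTheory
open scoped ENNReal NNReal

namespace P073

theorem topo_of (grid : GRID) (t0 : T0) (sq : SQ) (str : STR) (flat : FLAT) (fill : FILL) :
    TOPO := by
  intro p hp1 hp2
  obtain ⟨κ₀, K₂, hκ₀, hreal⟩ := TP.exists_real grid t0 sq str flat
  obtain ⟨C, hC⟩ := fill hp1 hp2
  refine ⟨κ₀, K₂, C, hκ₀, ?_⟩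
  intro Ω Λ f f' Q β γ O ϱ n M η hΩ hΛ hΩc hΛc hΛb hβ hf hG hQ hQΩ hV hO hOlf hth hch hη
  obtain ⟨R, hR, hRG, hRO, hRl⟩ := hreal Q γ O ϱ η hΩ hΛ hΩc hΛb hβ hf hG hQ hQΩ hV
    (fun i => (hO i).2.2) hth hη
  obtain ⟨h, h', Z, h1, h2, h3, h4, h5, h6, h7, h8⟩ := hC Q R (γ.G : Set Q.ι) γ.A O n M η hΩ
    hΩc.nonempty hΛ hΛc.isPreconnected hQ hQΩ hR
    (fun i hi => ⟨γ.inj i hi, fun j hj => ⟨(γ.face i hi j hj).1, (γ.face i hi j hj).2.2.2⟩,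
      hRG i hi⟩) (fun i _ => ⟨(hO i).1, (hO i).2.1, hRO i⟩) hOlf hch hη
  exact ⟨h, h', Z, h1, h2, h3, h4, h5, h6, fun e x y he hxy u hu w hw =>
    (h7 e x y he hxy u hu w hw).trans (mul_le_mul_left (hRl e x y he hxy) _), h8⟩

end P073
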