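import Vale.Agent.P073Z.STRF
import Vale.Agent.P073Z.PSF
import Vale.Agent.P073Z.T0
import Vale.Agent.P073Z.T0.Smd
import Vale.Agent.P073Z.GRID
import Vale.Agent.P073Z.SQ
import Vale.Agent.P073Z.FLAT
import Vale.Agent.P073Z.TOPO

/-!
# Unconditional form of the topological machine
-/

namespace P073

theorem t0_thm : T0 := t0_of ps_thm col starb T0.smd asmg sch3

theorem topo_thm : TOPO := topo_of grid t0_thm sq_thm str_thm flat fill_thm

end P073
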