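import Vale.Agent.P073Z.SHELL

/-!
# The annulus model
-/

open Set Metric Topology Filter

namespace P073.Sh

theorem norm_two (x : Fin 2 → ℝ) : ‖((x 0, x 1) : ℝ × ℝ)‖ = ‖x‖ := by
  refine eq_of_forall_ge_iff fun r => ?_
  rw [Prod.norm_def, max_le_iff]
  constructor
  · intro h
    refine (pi_norm_le_iff_of_nonneg ((norm_nonneg _).trans h.1)).2 fun i => ?_
    fin_cases i
    · exact h.1
    · exact h.2
  · intro h
    exact ⟨(norm_le_pi_norm x 0).trans h, (norm_le_pi_norm x 1).trans h⟩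

theorem norm_two' (z : ℝ × ℝ) : ‖(![z.1, z.2] : Fin 2 → ℝ)‖ = ‖z‖ := (norm_two _).symm

/-- the two models of the plane, on sets given by the norm -/
theorem exists_two {P : ℝ → Prop} (hc : ConicalSet {x : Fin 2 → ℝ | P ‖x‖}) :
    ∃ τ : ConHomeo {x : Fin 2 → ℝ | P ‖x‖} {z : ℝ × ℝ | P ‖z‖},
      (∀ x, τ.toFun x = (x 0, x 1)) ∧ ∀ z, τ.invFun z = ![z.1, z.2] :=
  ⟨⟨fun x => (x 0, x 1), fun z => ![z.1, z.2],
    fun x hx => by
      change P _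
      rw [norm_two]
      exact hx,
    fun z hz => by
      change P _
      rw [norm_two']
      exact hz,
    fun x _ => by
      funext i
      fin_cases i <;> rfl,
    fun _ _ => rfl, by fun_prop, by fun_prop,
    ((conicalOn_proj 0).prodMk (conicalOn_proj 1)).mono hc (subset_univ _)⟩,
    fun _ => rfl, fun _ => rfl⟩

/-- **the general shell in the plane** -/
theorem exists_shell2 {a b : ℝ} (ha : 0 < a) (hab : a ≤ b) :
    ∃ Q : ConHomeo (sphere (0 : ℝ × ℝ) 1 ×ˢ Icc a b) {z : ℝ × ℝ | a ≤ ‖z‖ ∧ ‖z‖ ≤ b},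
      ∀ x ∈ sphere (0 : ℝ × ℝ) 1, Q.toFun (x, b) = b • x ∧ Q.toFun (x, a) = a • x ∧
        ∀ s ∈ Icc a b, ‖Q.toFun (x, s)‖ = s := by
  obtain ⟨Q, hQ⟩ := exists_shell 2 ha hab
  have e1 : {x : Fin 2 → ℝ | ‖x‖ = 1} = sphere 0 1 := by
    ext x
    exact mem_sphere_zero_iff_norm.symm
  have e2 : {x : ℝ × ℝ | ‖x‖ = 1} = sphere 0 1 := by
    ext x
    exact mem_sphere_zero_iff_norm.symm
  obtain ⟨τ, -, hτ⟩ := exists_two (P := fun r => r = 1) (e1 ▸ conicalSet_sphere_pi 2)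
  obtain ⟨σ, hσ, -⟩ := exists_two (P := fun r => a ≤ r ∧ r ≤ b) Q.conicalSet_right
  let τ' := (τ.cast e1 e2).symm
  refine ⟨((prod τ' (ConHomeo.refl (Convex.conicalSet (convex_Icc a b)))).trans Q).trans σ,
    fun x hx => ?_⟩
  have h1 : τ.invFun x ∈ sphere (0 : Fin 2 → ℝ) 1 := τ'.mapsTo hx
  obtain ⟨h2, h3, h4⟩ := hQ _ h1
  refine ⟨?_, ?_, fun s hs => ?_⟩
  · change σ.toFun (Q.toFun (τ.invFun x, b)) = _
    rw [h2, hσ, hτ]
    rfl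
  · change σ.toFun (Q.toFun (τ.invFun x, a)) = _
    rw [h3, hσ, hτ]
    rfl
  · change ‖σ.toFun (Q.toFun (τ.invFun x, s))‖ = _
    rw [hσ, norm_two, h4 s hs]

end P073.Sh

namespace P073

open Sh

/-- **the annulus model** -/
theorem IsCircle.exists_annulus {E : Type*} [NormedAddCommGroup E] [NormedSpace ℝ E] {J : Set E}
    (h : IsCircle J) :
    ∃ φ : ConHomeo (J ×ˢ Icc (-1 : ℝ) 1) {z : ℝ × ℝ | 1 / 2 ≤ ‖z‖ ∧ ‖z‖ ≤ 3 / 2},
      ∀ x ∈ J, ∀ s ∈ Icc (-1 : ℝ) 1, ‖φ.toFun (x, s)‖ = 1 + s / 2 := by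
  obtain ⟨α⟩ := h
  obtain ⟨Q, hQ⟩ := exists_shell2 (a := 1 / 2) (b := 3 / 2) (by norm_num) (by norm_num)
  obtain ⟨ψ, hψ, -⟩ := exists_aff (a := -1) (b := 1) (a' := 1 / 2) (b' := 3 / 2) (c := 1)
    (d := 1 / 2) (by norm_num) (fun s hs => ⟨by linarith [hs.1], by linarith [hs.2]⟩)
    (fun s hs => ⟨by linarith [hs.1], by linarith [hs.2]⟩)
  refine ⟨(prod α.symm ψ).trans Q, fun x hx s hs => ?_⟩
  change ‖Q.toFun (α.invFun x, ψ.toFun s)‖ = _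
  rw [(hQ _ (α.mapsTo_inv hx)).2.2 _ (ψ.mapsTo hs), hψ]
  ring

/-- the shell over a sphere of any dimension -/
theorem ConSphere.exists_shell {E : Type*} [NormedAddCommGroup E] [NormedSpace ℝ E] {n : ℕ}
    {S : Set E} (h : ConSphere n S) {a b : ℝ} (ha : 0 < a) (hab : a ≤ b) :
    ∃ φ : ConHomeo (S ×ˢ Icc a b) {x : Fin (n + 1) → ℝ | a ≤ ‖x‖ ∧ ‖x‖ ≤ b},
      ∀ x ∈ S, ∀ s ∈ Icc a b, ‖φ.toFun (x, s)‖ = s := by
  obtain ⟨α⟩ := h
  obtain ⟨Q, hQ⟩ := Sh.exists_shell (n + 1) ha hab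
  exact ⟨(prod α (ConHomeo.refl (Convex.conicalSet (convex_Icc a b)))).trans Q,
    fun x hx s hs => (hQ _ (α.mapsTo hx)).2.2 s hs⟩

end P073
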