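import Vale.Agent.P073Z.CS.Main
import Vale.Agent.P073Z.CS.Face
import Vale.Agent.P073Z.CosFin
import Vale.Agent.P073Z.A14
import Vale.Agent.P073Z.A3

/-!
# Cone surgery: the statement
-/

namespace P073

theorem cscap (hS : STAR) : CSCAP := cscap_of hS cos_thm

theorem cs_of (hS : STAR) : CS := cs_of_face hS cos_thm coneb p4 csface

end P073
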