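import Vale.Agent.P073Z.A8a

/-!
# Collapsing a cellular compact set to a point
-/

open Set Metric Topology Filter

namespace P073

namespace Collapse

variable {n : ℕ}

/-- the interior of a ball of full dimension is open -/
theorem isOpen_diff {D B : Set (Fin n → ℝ)} (h : ConBall n D B) : IsOpen (D \ B) := by
  obtain ⟨hBD, φ, hφ⟩ := h
  have e : D \ B = φ.invFun '' ball 0 1 := by
    ext x
    constructor
    · rintro ⟨h1, h2⟩
      refine ⟨φ.toFun x, ?_, φ.left_inv h1⟩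
      rw [← closedBall_sdiff_sphere]
      refine ⟨φ.mapsTo h1, fun h3 => h2 ?_⟩
      rw [← hφ] at h3
      obtain ⟨b, hb, e⟩ := h3
      exact φ.injOn (hBD hb) h1 e ▸ hb
    · rintro ⟨y, hy, rfl⟩
      refine ⟨φ.mapsTo_inv (ball_subset_closedBall hy), fun h => ?_⟩
      have h1 : φ.toFun (φ.invFun y) ∈ sphere (0 : Fin n → ℝ) 1 := hφ ▸ mem_image_of_mem _ h
      rw [φ.right_inv (ball_subset_closedBall hy)] at h1
      exact (mem_ball.1 hy).ne h1
  rw [e]
  exact iod isOpen_ball (φ.cont_inv.mono ball_subset_closedBall)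
    (φ.symm.injOn.mono ball_subset_closedBall)

/-- extension by the identity -/
theorem exists_ext {E : Type} [NormedAddCommGroup E] [NormedSpace ℝ E] {C O K : Set E}
    (Φ : ConHomeo C C) (hO : IsOpen O) (hOC : O ⊆ C) (hK : IsClosed K) (hKO : K ⊆ O)
    (h : ∀ x ∈ C \ K, Φ.toFun x = x) : ∃ s : ConHomeo (univ : Set E) (univ : Set E),
    (∀ x ∈ C, s.toFun x = Φ.toFun x) ∧ ∀ x, x ∉ K → s.toFun x = x := by
  classical
  have h' : ∀ x ∈ C \ K, Φ.invFun x = x := fun x hx => by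
    conv_lhs => rw [← h x hx]
    exact Φ.left_inv hx.1
  have out : ∀ f : E → E, (∀ x ∈ C \ K, f x = x) → ∀ x, x ∉ K → C.piecewise f id x = x := by
    intro f hf x hx
    by_cases hc : x ∈ C
    · rw [piecewise_eq_of_mem _ _ _ hc, hf x ⟨hc, hx⟩]
    · rw [piecewise_eq_of_notMem _ _ _ hc, id]
  have ev : ∀ f : E → E, (∀ x ∈ C \ K, f x = x) → ∀ x, x ∉ K →
      C.piecewise f id =ᶠ[𝓝 x] fun y => y := by
    intro f hf x hx
    filter_upwards [hK.isOpen_compl.mem_nhds hx] with y hy using out f hf y hy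
  have cont : ∀ f : E → E, ContinuousOn f C → (∀ x ∈ C \ K, f x = x) →
      ContinuousOn (C.piecewise f id) univ := by
    intro f hc hf x _
    refine ContinuousAt.continuousWithinAt ?_
    by_cases hx : x ∈ K
    · have h1 : C ∈ 𝓝 x := mem_of_superset (hO.mem_nhds (hKO hx)) hOC
      refine (hc.continuousAt h1).congr ?_
      filter_upwards [h1] with y hy using (piecewise_eq_of_mem _ _ _ hy).symm
    · exact continuousAt_id.congr (ev f hf x hx).symm
  have inv : ∀ f g : E → E, MapsTo f C C → LeftInvOn g f C →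
      LeftInvOn (C.piecewise g id) (C.piecewise f id) univ := by
    intro f g hm hl x _
    by_cases hc : x ∈ C
    · rw [piecewise_eq_of_mem _ _ _ hc, piecewise_eq_of_mem _ _ _ (hm hc), hl hc]
    · rw [piecewise_eq_of_notMem _ _ _ hc, id, piecewise_eq_of_notMem _ _ _ hc, id]
  refine ⟨⟨C.piecewise Φ.toFun id, C.piecewise Φ.invFun id, mapsTo_univ _ _, mapsTo_univ _ _,
    inv _ _ Φ.mapsTo Φ.left_inv, inv _ _ Φ.mapsTo_inv Φ.right_inv, cont _ Φ.cont h,
    cont _ Φ.cont_inv h', fun x _ => ?_⟩, fun x hx => piecewise_eq_of_mem _ _ _ hx, out _ h⟩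
  by_cases hx : x ∈ K
  · have h1 : C ∈ 𝓝 x := mem_of_superset (hO.mem_nhds (hKO hx)) hOC
    refine (Φ.conical x (hOC (hKO hx))).congr_nhds ?_ ?_
      (piecewise_eq_of_mem _ _ _ (hOC (hKO hx)))
    · filter_upwards [h1] with y hy using by simp [hy]
    · exact Eventually.of_forall fun y hy => piecewise_eq_of_mem _ _ _ hy
  · refine (conicalOn_id (IsOpen.conicalSet isOpen_univ) x (mem_univ x)).congr_nhds
      (Eventually.of_forall fun _ => Iff.rfl) ?_ (out _ h x hx)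
    filter_upwards [ev _ h x hx] with y hy _ using hy

/-- a stage of the construction -/
structure St (A : Set (Fin n → ℝ)) where
  /-- the ball -/
  D : Set (Fin n → ℝ)
  /-- its boundary -/
  B : Set (Fin n → ℝ)
  /-- the homeomorphism -/
  Φ : ConHomeo (univ : Set (Fin n → ℝ)) (univ : Set (Fin n → ℝ))
  ball : ConBall n D B
  sub : A ⊆ D \ B

/-- the relation between consecutive stages -/
structure Nx {A : Set (Fin n → ℝ)} (N : Set (Fin n → ℝ)) (ε : ℝ) (s t : St A) : Prop where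
  sub : t.D ⊆ s.D
  thin : t.D ⊆ thickening ε A
  eq : ∀ x, x ∉ s.D → t.Φ.toFun x = s.Φ.toFun x
  small : ∃ q, t.Φ.toFun '' t.D ⊆ ball q ε \ N

theorem exists_next (hS : SHRINK) {A N : Set (Fin n → ℝ)} (hne : A.Nonempty) (hN : IsClosed N)
    (hN' : interior N = ∅)
    (cell : ∀ U, IsOpen U → A ⊆ U → ∃ D B, ConBall n D B ∧ A ⊆ D \ B ∧ D ⊆ U) {ε : ℝ}
    (hε : 0 < ε) (s : St A) : ∃ t, Nx N ε s t := by
  obtain ⟨D, B, hD, h1, h2⟩ := cell ((s.D \ s.B) ∩ thickening ε A)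
    ((isOpen_diff s.ball).inter isOpen_thickening)
    (subset_inter s.sub (self_subset_thickening hε A))
  have hC := s.ball.image s.Φ (subset_univ _)
  have hO := isOpen_diff hC
  have hm : ∀ x ∈ s.D \ s.B, s.Φ.toFun x ∈ s.Φ.toFun '' s.D \ s.Φ.toFun '' s.B := by
    intro x hx
    refine ⟨mem_image_of_mem _ hx.1, ?_⟩
    rintro ⟨b, hb, e⟩
    exact hx.2 (s.Φ.injOn (mem_univ _) (mem_univ _) e ▸ hb)
  obtain ⟨q, hq, hqN⟩ : ∃ q ∈ s.Φ.toFun '' s.D \ s.Φ.toFun '' s.B, q ∉ N := by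
    by_contra h
    push Not at h
    obtain ⟨x, hx⟩ := hne
    have := interior_maximal h hO (hm x (s.sub hx))
    rw [hN'] at this
    exact this
  obtain ⟨Φ, K, hK, hKO, h3, h4, -⟩ := hS (K := s.Φ.toFun '' D) (U := ball q ε \ N) hC
    (hD.isCompact.image_of_continuousOn (s.Φ.cont.mono (subset_univ _))) (by
      rintro _ ⟨x, hx, rfl⟩
      exact hm x (h2 hx).1) hq ((isOpen_ball.sdiff hN).mem_nhds ⟨mem_ball_self hε, hqN⟩)
  obtain ⟨σ, h5, h6⟩ := exists_ext Φ hO sdiff_subset hK.isClosed hKO h3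
  refine ⟨⟨D, B, s.Φ.trans σ, hD, h1⟩, fun x hx => (h2 hx).1.1, fun x hx => (h2 hx).2,
    fun x hx => h6 _ fun h => ?_, q, ?_⟩
  · obtain ⟨y, hy, e⟩ := (hKO h).1
    exact hx (s.Φ.injOn (mem_univ _) (mem_univ _) e ▸ hy)
  · rintro _ ⟨x, hx, rfl⟩
    refine h4 ⟨_, ⟨x, hx, rfl⟩, ?_⟩
    exact (h5 _ (mem_image_of_mem _ (h2 hx).1.1)).symm

end Collapse

open Collapse in
/-- a cellular compact set can be collapsed to a point by a map which is PL off the set -/
theorem collapse_of (hS : SHRINK) {n : ℕ} {A V N : Set (Fin n → ℝ)} (hA : IsCompact A)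
    (hne : A.Nonempty) (hV : IsOpen V) (hAV : A ⊆ V) (hN : IsClosed N) (hN' : interior N = ∅)
    (cell : ∀ U, IsOpen U → A ⊆ U → ∃ D B, ConBall n D B ∧ A ⊆ D \ B ∧ D ⊆ U) :
    ∃ (Φ Ψ : (Fin n → ℝ) → (Fin n → ℝ)) (a : Fin n → ℝ) (K : Set (Fin n → ℝ)), IsCompact K ∧
      K ⊆ V ∧ a ∈ V ∧ a ∉ N ∧ Continuous Φ ∧ (∀ x, x ∉ K → Φ x = x) ∧ (∀ x ∈ A, Φ x = a) ∧
      HomeoOn Φ Ψ Aᶜ {a}ᶜ ∧ ConicalOn Φ Aᶜ := by
  classical
  obtain ⟨D₀, B₀, h1, h2, h3⟩ := cell V hV hAV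
  choose nx hnx using fun (k : ℕ) (s : St A) =>
    exists_next hS hne hN hN' cell (Nat.one_div_pos_of_nat (α := ℝ) (n := k)) s
  let s : ℕ → St A := fun k =>
    Nat.rec ⟨D₀, B₀, ConHomeo.refl (IsOpen.conicalSet isOpen_univ), h1, h2⟩ nx k
  have hs : ∀ k : ℕ, Nx N (1 / ((k : ℝ) + 1)) (s k) (s (k + 1)) := fun k => hnx k (s k)
  have inj : ∀ k x y, (s k).Φ.toFun x = (s k).Φ.toFun y → x = y :=
    fun k x y e => (s k).Φ.injOn (mem_univ _) (mem_univ _) e
  have anti : ∀ i j, i ≤ j → (s j).D ⊆ (s i).D :=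
    antitone_nat_of_succ_le (f := fun k => (s k).D) fun k => (hs k).sub
  have agree : ∀ i j, i ≤ j → ∀ x, x ∉ (s i).D → (s j).Φ.toFun x = (s i).Φ.toFun x := by
    intro i j hij x hx
    induction j, hij using Nat.le_induction with
    | base => rfl
    | succ j hij ih => rw [(hs j).eq x fun h => hx (anti i j hij h), ih]
  have img : ∀ i j, i ≤ j → ∀ x ∈ (s i).D, (s j).Φ.toFun x ∈ (s i).Φ.toFun '' (s i).D := by
    intro i j hij x hx
    refine ⟨(s i).Φ.invFun ((s j).Φ.toFun x), ?_, (s i).Φ.right_inv (mem_univ _)⟩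
    by_contra h
    have h4 := agree i j hij _ h
    rw [(s i).Φ.right_inv (mem_univ _)] at h4
    rw [inj j _ _ h4] at h
    exact h hx
  have cpt : ∀ k, IsCompact ((s k).Φ.toFun '' (s k).D) := fun k =>
    (s k).ball.isCompact.image_of_continuousOn ((s k).Φ.cont.mono (subset_univ _))
  obtain ⟨a, ha⟩ := IsCompact.nonempty_iInter_of_sequence_nonempty_isCompact_isClosed
    (fun k => (s k).Φ.toFun '' (s k).D) (fun k => by
      rintro _ ⟨x, hx, rfl⟩
      exact img k (k + 1) k.le_succ x ((hs k).sub hx))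
    (fun k => (hne.mono ((s k).sub.trans sdiff_subset)).image _) (cpt 0) fun k => (cpt k).isClosed
  rw [mem_iInter] at ha
  have small : ∀ ε : ℝ, 0 < ε → ∃ k, (s k).Φ.toFun '' (s k).D ⊆ ball a ε := by
    intro ε hε
    obtain ⟨k, hk⟩ := exists_nat_one_div_lt (half_pos hε)
    obtain ⟨q, hq⟩ := (hs k).small
    refine ⟨k + 1, fun y hy => ?_⟩
    have h4 := mem_ball.1 (hq hy).1
    have h5 := mem_ball.1 (hq (ha (k + 1))).1
    rw [mem_ball]
    linarith [dist_triangle_right y a q]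
  have exA : ∀ x, x ∉ A → ∃ k, x ∉ (s k).D := by
    intro x hx
    obtain ⟨ε, hε, h4⟩ := Metric.isOpen_iff.1 hA.isClosed.isOpen_compl x hx
    obtain ⟨k, hk⟩ := exists_nat_one_div_lt hε
    refine ⟨k + 1, fun h => ?_⟩
    obtain ⟨z, hz, h5⟩ := mem_thickening_iff.1 ((hs k).thin h)
    exact h4 (mem_ball'.2 (h5.trans hk)) hz
  have exa : ∀ y, y ≠ a → ∃ k, y ∉ (s k).Φ.toFun '' (s k).D := by
    intro y hy
    obtain ⟨k, hk⟩ := small _ (dist_pos.2 hy)
    exact ⟨k, fun h => lt_irrefl _ (mem_ball.1 (hk h))⟩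
  choose! i hi using exA
  choose! j hj using exa
  set Φ : (Fin n → ℝ) → (Fin n → ℝ) := fun x => if x ∈ A then a else (s (i x)).Φ.toFun x with hΦ
  set Ψ : (Fin n → ℝ) → (Fin n → ℝ) := fun y => (s (j y)).Φ.invFun y with hΨ
  have nA : ∀ k x, x ∉ (s k).D → x ∉ A := fun k x hx h => hx ((s k).sub h).1
  have K0 : ∀ x ∈ A, Φ x = a := fun x hx => if_pos hx
  have K1 : ∀ k x, x ∉ (s k).D → Φ x = (s k).Φ.toFun x := by
    intro k x hx
    have h4 : Φ x = (s (i x)).Φ.toFun x := if_neg (nA k x hx)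
    rw [h4, ← agree k _ (le_max_left k (i x)) x hx,
      agree (i x) _ (le_max_right k (i x)) x (hi x (nA k x hx))]
  have K2 : ∀ k, ∀ x ∈ (s k).D, Φ x ∈ (s k).Φ.toFun '' (s k).D := by
    intro k x hx
    by_cases h : x ∈ A
    · rw [K0 x h]
      exact ha k
    · rw [K1 (max k (i x)) x fun h' => hi x h (anti _ _ (le_max_right _ _) h')]
      exact img k _ (le_max_left _ _) x hx
  have K3 : ∀ k y, y ∉ (s k).Φ.toFun '' (s k).D →
      (s k).Φ.invFun y ∉ (s k).D ∧ Φ ((s k).Φ.invFun y) = y := by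
    intro k y hy
    have h4 : (s k).Φ.invFun y ∉ (s k).D := fun h => hy ⟨_, h, (s k).Φ.right_inv (mem_univ _)⟩
    exact ⟨h4, by rw [K1 k _ h4, (s k).Φ.right_inv (mem_univ _)]⟩
  have injΦ : ∀ x y, x ∉ A → y ∉ A → Φ x = Φ y → x = y := by
    intro x y hx hy e
    rw [K1 (max (i x) (i y)) x fun h => hi x hx (anti _ _ (le_max_left _ _) h),
      K1 (max (i x) (i y)) y fun h => hi y hy (anti _ _ (le_max_right _ _) h)] at e
    exact inj _ _ _ e
  have K4 : ∀ k y, y ∉ (s k).Φ.toFun '' (s k).D → Ψ y = (s k).Φ.invFun y := by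
    intro k y hy
    have h4 := K3 _ y (hj y fun e => hy (e ▸ ha k))
    have h5 := K3 k y hy
    exact injΦ _ _ (nA _ _ h4.1) (nA _ _ h5.1) (h4.2.trans h5.2.symm)
  have ev : ∀ x, x ∉ A → Φ =ᶠ[𝓝 x] (s (i x)).Φ.toFun := by
    intro x hx
    filter_upwards [(s (i x)).ball.isClosed.isOpen_compl.mem_nhds (hi x hx)] with y hy
    exact K1 _ y hy
  have hcont : Continuous Φ := by
    rw [continuous_iff_continuousAt]
    intro x
    by_cases hx : x ∈ A
    · rw [ContinuousAt, K0 x hx, Metric.tendsto_nhds]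
      intro ε hε
      obtain ⟨k, hk⟩ := small ε hε
      filter_upwards [(isOpen_diff (s k).ball).mem_nhds ((s k).sub hx)] with y hy
      exact hk (K2 k y hy.1)
    · exact ((continuousOn_univ.1 (s (i x)).Φ.cont).continuousAt).congr (ev x hx).symm
  have hm : MapsTo Φ Aᶜ {a}ᶜ := by
    intro x hx e
    obtain ⟨y, hy, e'⟩ := ha (i x)
    rw [mem_singleton_iff, K1 _ x (hi x hx), ← e'] at e
    exact hi x hx (inj _ _ _ e ▸ hy)
  have hm' : MapsTo Ψ {a}ᶜ Aᶜ := fun y hy => nA _ _ (K3 _ y (hj y hy)).1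
  have hr : RightInvOn Ψ Φ {a}ᶜ := fun y hy => (K3 _ y (hj y hy)).2
  obtain ⟨q, hq⟩ := (hs 0).small
  refine ⟨Φ, Ψ, a, D₀, h1.isCompact, h3, ?_, (hq (ha 1)).2, hcont, fun x hx => K1 0 x hx, K0,
    ⟨hm, hm', fun x hx => injΦ _ _ (hm' (hm hx)) hx (hr (hm hx)), hr, hcont.continuousOn,
      fun y hy => ContinuousAt.continuousWithinAt ?_⟩, fun x hx => ?_⟩
  · obtain ⟨y, hy, e⟩ := ha 0
    exact e ▸ h3 hy
  · refine ((continuousOn_univ.1 (s (j y)).Φ.cont_inv).continuousAt).congr ?_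
    filter_upwards [(cpt (j y)).isClosed.isOpen_compl.mem_nhds (hj y hy)] with z hz
    exact (K4 _ z hz).symm
  · refine ((s (i x)).Φ.conical x (mem_univ x)).congr_nhds ?_ ?_ (K1 _ x (hi x hx))
    · filter_upwards [hA.isClosed.isOpen_compl.mem_nhds hx] with y hy using by simp [hy]
    · filter_upwards [ev x hx] with y hy _ using hy

end P073
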