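import Vale.Agent.P073Z.Cone.Model
import Vale.Agent.P073Z.A1b
import Vale.Agent.P073Z.EN.B

/-!
# The cone lemmas `CONE2` and `CONE3`
-/

open Set Metric Topology Filter MeasureTheory
open scoped ENNReal NNReal

namespace P073

namespace Cone

theorem exists_inv_of_compact {S : Type} [TopologicalSpace S] [T2Space S] [Nonempty S] {X : Set S}
    (hX : IsCompact X) {f : S → S} (hf : ContinuousOn f X) (hinj : InjOn f X) (hY : f '' X = X) :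
    ∃ g : S → S, HomeoOn f g X X := by
  have hbij : BijOn f X X := ⟨fun x hx => hY.le (mem_image_of_mem f hx), hinj, hY.ge⟩
  refine ⟨Function.invFunOn f X, hbij.mapsTo, hbij.surjOn.mapsTo_invFunOn,
    hbij.injOn.leftInvOn_invFunOn, hbij.surjOn.rightInvOn_invFunOn, hf, ?_⟩
  rw [continuousOn_iff_isClosed]
  intro t ht
  refine ⟨f '' (t ∩ X), ((hX.inter_left ht).image_of_continuousOn
    (hf.mono inter_subset_right)).isClosed, ?_⟩
  ext y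
  constructor
  · rintro ⟨hy, hyY⟩
    exact ⟨⟨Function.invFunOn f X y, ⟨hy, hbij.surjOn.mapsTo_invFunOn hyY⟩,
      hbij.surjOn.rightInvOn_invFunOn hyY⟩, hyY⟩
  · rintro ⟨⟨x, ⟨hxt, hxX⟩, rfl⟩, hyY⟩
    refine ⟨?_, hyY⟩
    show Function.invFunOn f X (f x) ∈ t
    rw [hbij.injOn.leftInvOn_invFunOn hxX]
    exact hxt

theorem transport (hB : ENB) {k : ℕ} {p : ℝ} (hp0 : 0 < p) (hp : p < (k:ℝ) + 1) (M : ℝ≥0) :
    ∃ C : ℝ≥0, ∀ {Q B : Set E3} (φ : ConHomeo Q (closedBall (0 : Fin (k + 1) → ℝ) 1)), B ⊆ Q →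
      φ.toFun '' B = sphere 0 1 → LipschitzOnWith M φ.toFun Q →
      LipschitzOnWith M φ.invFun (closedBall 0 1) → ∀ η : ℝ≥0∞, 0 < η → ∃ η' : ℝ≥0∞, 0 < η' ∧
      ∀ (h : E3 → E3) (Ω : (Fin (k + 1) → ℝ) → Fin (k + 1) → ℝ),
        En (k + 1) p ((h ∘ φ.invFun) ∘ Ω) (closedBall 0 1) ≤
          Cm k p * En k p (h ∘ φ.invFun) (sphere 0 1) + η' →
        En (k + 1) p (h ∘ (φ.invFun ∘ Ω ∘ φ.toFun)) Q ≤ C * En k p h B + η := by
  have hM : ∀ m : ℕ, (M : ℝ≥0∞) ^ p * (M : ℝ≥0∞) ^ m ≠ ⊤ := fun m =>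
    ENNReal.mul_ne_top (ENNReal.rpow_ne_top_of_nonneg hp0.le ENNReal.coe_ne_top)
      (ENNReal.pow_ne_top ENNReal.coe_ne_top)
  have hC := ENNReal.mul_ne_top (ENNReal.mul_ne_top (hM (k + 1)) (Cm_ne_top hp)) (hM k)
  refine ⟨((M : ℝ≥0∞) ^ p * (M : ℝ≥0∞) ^ (k + 1) * Cm k p *
    ((M : ℝ≥0∞) ^ p * (M : ℝ≥0∞) ^ k)).toNNReal, fun {Q B} φ hBQ hφB hL hL' η hη => ?_⟩
  obtain ⟨η', hη', hη''⟩ := ENNReal.exists_nnreal_pos_mul_lt (hM (k + 1)) hη.ne'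
  refine ⟨η', by exact_mod_cast hη', fun h Ω H => ?_⟩
  have hQ : IsCompact Q := φ.symm.isCompact_right (isCompact_closedBall _ _)
  have h1 := (hB (S := E3) (S' := Fin (k + 1) → ℝ) (T := E3) (k + 1) hp0).1
    (h := (h ∘ φ.invFun) ∘ Ω) hQ φ.mapsTo φ.mapsTo_inv φ.left_inv φ.right_inv hL hL'
  have hm : MapsTo φ.invFun (sphere 0 1) B := by
    rw [← hφB]
    rintro _ ⟨b, hb, rfl⟩
    rw [φ.left_inv (hBQ hb)]; exact hb
  have h2 := (hB (S := Fin (k + 1) → ℝ) (S' := E3) (T := E3) k hp0).1 (h := h)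
    (isCompact_sphere 0 1) hm (fun b hb => hφB ▸ mem_image_of_mem _ hb)
    (φ.right_inv.mono sphere_subset_closedBall) (φ.left_inv.mono hBQ)
    (hL'.mono sphere_subset_closedBall) (hL.mono hBQ)
  rw [ENNReal.coe_toNNReal hC]
  refine h1.trans ((mul_le_mul_right (H.trans (add_le_add (mul_le_mul_right h2 _) le_rfl)) _).trans
    ?_)
  rw [mul_add]
  refine add_le_add (le_of_eq (by ring)) ?_
  rw [mul_comm]; exact hη''.le

theorem eqOn_bdry {k : ℕ} {Q B : Set E3} (φ : ConHomeo Q (closedBall (0 : Fin k → ℝ) 1))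
    (hBQ : B ⊆ Q) (hφB : φ.toFun '' B = sphere 0 1) (u : ℕ → ℝ) :
    EqOn (φ.invFun ∘ Om u ∘ φ.toFun) id B := by
  intro b hb
  have : φ.toFun b ∈ sphere (0 : Fin k → ℝ) 1 := hφB ▸ mem_image_of_mem _ hb
  simp only [Function.comp, id]
  rw [Om_of_one_le u (mem_sphere_zero_iff_norm.1 this).ge, φ.left_inv (hBQ hb)]

end Cone

open Cone

theorem cone2_of (hB : ENB) (hS : STM) (hL : LIP) : CONE2 := by
  intro p hp1 hp2 M
  have hp : p < ((1:ℕ):ℝ) + 1 := by push_cast; linarith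
  obtain ⟨C, hC⟩ := transport hB (k := 1) (by linarith) hp M
  refine ⟨C, fun {D B h η} hD hh hη => ?_⟩
  obtain ⟨hBD, φ, hφB, l1, l2⟩ := hD
  obtain ⟨η', hη', H⟩ := hC φ hBD hφB l1 l2 η hη
  obtain ⟨u, hu, ⟨N, hN⟩, hE⟩ := model2 (k := 1) hB hS hL hp1 hp (g := h ∘ φ.invFun)
    ⟨hh.1.comp φ.cont_inv φ.mapsTo_inv, hh.2.comp φ.conical_inv φ.mapsTo_inv φ.cont_inv⟩ hη'
  have hc : ConicalOn (Om u) (closedBall (0 : Fin 2 → ℝ) 1) :=
    ((OmN_pl u N).2.mono (locCone_closedBall_pi _ _).conicalSet (subset_univ _)).congr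
      fun x _ => Om_eq_OmN_of_zero hN x
  let Ω := ConHomeo.ofCompact (isCompact_closedBall (0 : Fin 2 → ℝ) 1) (Om u)
    (continuous_Om (k := 1) hu).continuousOn (Om_injOn (k := 1) hu) hc (Om_image (k := 1) hu)
  have hΩ : ((φ.trans Ω).trans φ.symm).toFun = φ.invFun ∘ Om u ∘ φ.toFun := by
    simp only [ConHomeo.trans_toFun, ConHomeo.symm_toFun, Ω, ConHomeo.ofCompact_toFun]
  refine ⟨(φ.trans Ω).trans φ.symm, ?_, ?_⟩
  · rw [hΩ]; exact eqOn_bdry φ hBD hφB u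
  · rw [hΩ]; exact H h (Om u) hE

theorem cone3_of (hB : ENB) (hS : STM) (hL : LIP) : CONE3 := by
  intro p hp1 hp2 M
  have hp : p < ((2:ℕ):ℝ) + 1 := by push_cast; linarith
  obtain ⟨C, hC⟩ := transport hB (k := 2) (by linarith) hp M
  refine ⟨C, fun {Q B} hQ => ?_⟩
  obtain ⟨hBQ, φ, hφB, l1, l2⟩ := hQ
  have h0 : (0 : Fin 3 → ℝ) ∈ closedBall (0 : Fin 3 → ℝ) 1 := mem_closedBall_self zero_le_one
  have hz : φ.toFun (φ.invFun 0) = 0 := φ.right_inv h0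
  refine ⟨φ.invFun 0, ⟨φ.mapsTo_inv h0, fun hb => ?_⟩, fun {h η} hc hh hη => ?_⟩
  · have : φ.toFun (φ.invFun 0) ∈ sphere (0 : Fin 3 → ℝ) 1 := hφB ▸ mem_image_of_mem _ hb
    rw [hz] at this
    simp at this
  obtain ⟨η', hη', H⟩ := hC φ hBQ hφB l1 l2 η hη
  obtain ⟨u, hu, hE⟩ := model3 (k := 2) hB hS hL hp1 hp (g := h ∘ φ.invFun) (fun a ha => by
    have hsub : {x : Fin 3 → ℝ | a ≤ ‖x‖ ∧ ‖x‖ ≤ 1} ⊆ closedBall 0 1 :=
      fun x hx => mem_closedBall_zero_iff.2 hx.2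
    refine ⟨(hc.comp φ.cont_inv φ.mapsTo_inv).mono hsub, hh.comp
      (φ.conical_inv.mono (locCone_shell _ _).conicalSet hsub) (fun x hx => ?_)
      (φ.cont_inv.mono hsub)⟩
    refine ⟨φ.mapsTo_inv (hsub hx), fun h1 => ?_⟩
    have h2 : x = 0 := by rw [← φ.right_inv (hsub hx), mem_singleton_iff.1 h1, hz]
    have h3 := hx.1
    rw [h2, norm_zero] at h3
    linarith) hη'
  obtain ⟨Ω', hΩ⟩ := exists_inv_of_compact (isCompact_closedBall (0 : Fin 3 → ℝ) 1)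
    (continuous_Om (k := 2) hu).continuousOn (Om_injOn (k := 2) hu) (Om_image (k := 2) hu)
  refine ⟨φ.invFun ∘ Om u ∘ φ.toFun, φ.invFun ∘ Ω' ∘ φ.toFun,
    ⟨φ.mapsTo_inv.comp (hΩ.mapsTo.comp φ.mapsTo), φ.mapsTo_inv.comp (hΩ.mapsTo_inv.comp φ.mapsTo),
      fun x hx => ?_, fun x hx => ?_,
      φ.cont_inv.comp (hΩ.cont.comp φ.cont φ.mapsTo) (hΩ.mapsTo.comp φ.mapsTo),
      φ.cont_inv.comp (hΩ.cont_inv.comp φ.cont φ.mapsTo) (hΩ.mapsTo_inv.comp φ.mapsTo)⟩,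
    eqOn_bdry φ hBQ hφB u, ?_, fun x hx => ?_, H h (Om u) hE⟩
  · simp only [Function.comp]
    rw [φ.right_inv (hΩ.mapsTo (φ.mapsTo hx)), hΩ.left_inv (φ.mapsTo hx), φ.left_inv hx]
  · simp only [Function.comp]
    rw [φ.right_inv (hΩ.mapsTo_inv (φ.mapsTo hx)), hΩ.right_inv (φ.mapsTo hx), φ.left_inv hx]
  · simp only [Function.comp]
    rw [hz, Om_zero]
  · have hx0 : φ.toFun x ≠ 0 := fun h1 =>
      hx.2 ((φ.left_inv hx.1).symm.trans (congrArg φ.invFun h1))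
    have a1 : ConicalWithinAt (Om u ∘ φ.toFun) Q x :=
      (conical_Om u hx0).comp (φ.conical x hx.1) (mapsTo_univ _ _) (φ.cont x hx.1)
    have a2 : ConicalWithinAt (φ.invFun ∘ Om u ∘ φ.toFun) Q x :=
      ConicalWithinAt.comp (h := Om u ∘ φ.toFun) (φ.conical_inv _ (hΩ.mapsTo (φ.mapsTo hx.1))) a1
        (hΩ.mapsTo.comp φ.mapsTo) (hΩ.cont.comp φ.cont φ.mapsTo x hx.1)
    exact a2.mono_set (hh x hx).conicalSetAt sdiff_subset

theorem cone2 : CONE2 := cone2_of enb stm lip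

theorem cone3 : CONE3 := cone3_of enb stm lip

end P073
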