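import Vale.Agent.P073.SCH.Schoenflies
import Vale.Agent.P073.HB.Haj
import Vale.Agent.P251.G.BrDeg

/-!
# Definitions for the approximation theorem (exponents below two)
-/

open Set Metric Topology Filter MeasureTheory
open scoped ENNReal NNReal

namespace P073

/-- the plane with the sup norm -/
abbrev E2 := Fin 2 → ℝ
/-- the space with the sup norm -/
abbrev E3 := Fin 3 → ℝ

variable {E F : Type} [NormedAddCommGroup E] [NormedSpace ℝ E]
  [NormedAddCommGroup F] [NormedSpace ℝ F]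

/-- piecewise linear map on a set: continuous and conical -/
def PLOn (h : E → F) (X : Set E) : Prop := ContinuousOn h X ∧ ConicalOn h X

/-- `X` is polyhedral at all points of `V` -/
def LocConeOn (X V : Set E) : Prop := ∀ x ∈ V, LocConeAt X x

/-- `X` is closed at all points of `V` -/
def ClosedIn {T : Type} [TopologicalSpace T] (X V : Set T) : Prop :=
  ∀ x ∈ V, x ∈ closure X → x ∈ X

/-- the family `X` is locally finite at all points of `V` -/
def LFIn {T ι : Type} [TopologicalSpace T] (X : ι → Set T) (V : Set T) : Prop :=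
  ∀ x ∈ V, ∃ U ∈ 𝓝 x, {i | (X i ∩ U).Nonempty}.Finite

/-- the set `Z` is a closed discrete subset of `V` -/
def DiscreteIn {T : Type} [TopologicalSpace T] (Z V : Set T) : Prop :=
  Z ⊆ V ∧ ∀ x ∈ V, ∃ U ∈ 𝓝 x, (Z ∩ U).Finite

/-- a positive continuous function on `X` -/
def Gauge {T : Type} [TopologicalSpace T] (r : T → ℝ) (X : Set T) : Prop :=
  ContinuousOn r X ∧ ∀ x ∈ X, 0 < r x

/-- the set `K` is small for the gauge `r` -/
def Small {T : Type} [PseudoMetricSpace T] (r : T → ℝ) (K : Set T) : Prop :=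
  ∀ x ∈ K, ∀ y ∈ K, dist x y < r x

/-- `f` and `g` are inverse homeomorphisms between `X` and `Y` -/
structure HomeoOn {S T : Type} [TopologicalSpace S] [TopologicalSpace T]
    (f : S → T) (g : T → S) (X : Set S) (Y : Set T) : Prop where
  mapsTo : MapsTo f X Y
  mapsTo_inv : MapsTo g Y X
  left_inv : LeftInvOn g f X
  right_inv : RightInvOn g f Y
  cont : ContinuousOn f X
  cont_inv : ContinuousOn g Y

/-- PL manifold without boundary, of dimension `n` -/
def PLMan (n : ℕ) (X : Set E) : Prop :=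
  ∀ x ∈ X, ∃ C B : Set E, ConBall n C B ∧ x ∈ C \ B ∧ C ⊆ X ∧ C ∈ 𝓝[X] x

/-- the union of the bounded components of the complement -/
def Inside {T : Type} [PseudoMetricSpace T] (S : Set T) : Set T :=
  {x | x ∉ S ∧ Bornology.IsBounded (connectedComponentIn Sᶜ x)}

/-- a regular PL cell complex -/
structure RCx (E : Type) [NormedAddCommGroup E] [NormedSpace ℝ E] where
  /-- index of the cells -/
  ι : Type
  /-- closed cells -/
  cell : ι → Set E
  /-- their boundaries -/
  bd : ι → Set E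
  /-- their dimensions -/
  dim : ι → ℕ
  ball : ∀ i, ConBall (dim i) (cell i) (bd i)
  disj : ∀ i j, i ≠ j → Disjoint (cell i \ bd i) (cell j \ bd j)
  bdry : ∀ i, ∀ x ∈ bd i, ∃ j, x ∈ cell j \ bd j ∧ cell j ⊆ bd i ∧ dim j < dim i
  lf : LFIn cell (⋃ i, cell i)

namespace RCx

variable (K : RCx E)

/-- the union of the cells -/
def carrier : Set E := ⋃ i, K.cell i

/-- the open cell -/
def ocell (i : K.ι) : Set E := K.cell i \ K.bd i

/-- the `k`-skeleton -/
def skel (k : ℕ) : Set E := ⋃ i, ⋃ (_ : K.dim i ≤ k), K.cell i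

/-- all cells are convex, with their geometric boundary and dimension -/
def Cvx : Prop := ∀ i, Convex ℝ (K.cell i) ∧ K.bd i = intrinsicFrontier ℝ (K.cell i) ∧
  K.dim i = Module.finrank ℝ (vectorSpan ℝ (K.cell i))

/-- `X` is a union of cells -/
def Sub (X : Set E) : Prop := ∀ x ∈ X, ∃ i, x ∈ K.cell i ∧ K.cell i ⊆ X

/-- the boundary of a family of sets indexed by the cells -/
def rbd {T : Type} (R : K.ι → Set T) (i : K.ι) : Set T :=
  ⋃ j, ⋃ (_ : K.cell j ⊆ K.bd i), R j

/-- the union of the members of dimension at most `k` -/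
def rskel {T : Type} (R : K.ι → Set T) (k : ℕ) : Set T := ⋃ i, ⋃ (_ : K.dim i ≤ k), R i

end RCx

/-- the sets `R i` form a copy of the `k`-skeleton of `K` -/
structure Realiz (K : RCx E) (k : ℕ) (R : K.ι → Set F) : Prop where
  ball : ∀ i, K.dim i ≤ k → ConBall (K.dim i) (R i) (K.rbd R i)
  disj : ∀ i j, K.dim i ≤ k → K.dim j ≤ k → i ≠ j →
    Disjoint (R i \ K.rbd R i) (R j \ K.rbd R j)
  lf : ∀ y ∈ K.rskel R k, ∃ U ∈ 𝓝 y, {i | K.dim i ≤ k ∧ (R i ∩ U).Nonempty}.Finite

/-- derived (barycentric) coordinates of a convex complex -/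
structure Derived (K : RCx E) where
  /-- the barycentres -/
  b : K.ι → E
  /-- the coordinates -/
  t : K.ι → E → ℝ
  b_mem : ∀ i, b i ∈ K.ocell i
  pl : ∀ i, PLOn (t i) K.carrier
  nonneg : ∀ i x, 0 ≤ t i x
  zero_out : ∀ i x, x ∉ K.carrier → t i x = 0
  /-- the support is a chain -/
  chain : ∀ x i j, t i x ≠ 0 → t j x ≠ 0 → K.cell i ⊆ K.cell j ∨ K.cell j ⊆ K.cell i
  /-- the top of the chain is the carrier cell -/
  top : ∀ i, ∀ x ∈ K.ocell i, t i x ≠ 0 ∧ ∀ j, t j x ≠ 0 → K.cell j ⊆ K.cell i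
  /-- the coordinates of a convex combination along a chain -/
  coord : ∀ (s : Finset K.ι) (a : K.ι → ℝ), (∀ i ∈ s, ∀ j ∈ s, K.cell i ⊆ K.cell j ∨ K.cell j ⊆ K.cell i) →
    (∀ i ∈ s, 0 ≤ a i) → ∑ i ∈ s, a i = 1 →
    (∑ i ∈ s, a i • b i) ∈ K.carrier ∧ (∀ i ∈ s, t i (∑ i ∈ s, a i • b i) = a i) ∧
      ∀ j, j ∉ s → t j (∑ i ∈ s, a i • b i) = 0
  /-- every point is the convex combination given by its coordinates -/
  repr : ∀ x ∈ K.carrier, ∃ s : Finset K.ι, (∀ i, t i x ≠ 0 ↔ i ∈ s) ∧ ∑ i ∈ s, t i x = 1 ∧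
    ∑ i ∈ s, t i x • b i = x

/-- pointwise upper Lipschitz constant of `h` at `x` within `X` -/
noncomputable def lipAt {S T : Type} [PseudoMetricSpace S] [PseudoEMetricSpace T]
    (h : S → T) (X : Set S) (x : S) : ℝ≥0∞ :=
  ⨅ (r : ℝ) (_ : 0 < r), ⨆ (y : S) (_ : y ∈ X ∩ ball x r), edist (h y) (h x) / edist y x

/-- the `k`-dimensional `p`-energy of `h` on `X` -/
noncomputable def En {S T : Type} [MetricSpace S] [MeasurableSpace S] [BorelSpace S]
    [PseudoEMetricSpace T] (k : ℕ) (p : ℝ) (h : S → T) (X : Set S) : ℝ≥0∞ :=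
  ∫⁻ x in X, lipAt h X x ^ p ∂(μH[(k : ℝ)])

/-- `C` has a PL chart onto the cube with two-sided Lipschitz constant `M` -/
def BiChart (n : ℕ) (C B : Set E) (M : ℝ≥0) : Prop :=
  B ⊆ C ∧ ∃ φ : ConHomeo C (closedBall (0 : Fin n → ℝ) 1), φ.toFun '' B = sphere 0 1 ∧
    LipschitzOnWith M φ.toFun C ∧ LipschitzOnWith M φ.invFun (closedBall 0 1)

/-- winding number of a map of the boundary of the cube, given through an extension `G` -/
noncomputable def wind {n : ℕ} (G : (Fin n → ℝ) → (Fin n → ℝ)) (y : Fin n → ℝ) : ℝ :=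
  Vale.Agent.P251.G.degR (fun x => G x - y) (ball 0 1)

/-- the variation of `f` along the segment from `a` to `b` -/
noncomputable def segVar {T : Type} [PseudoEMetricSpace T] (f : E → T) (a b : E) : ℝ≥0∞ :=
  eVariationOn (fun s : ℝ => f (AffineMap.lineMap a b s)) (Icc 0 1)

/-- for every `x`, for almost every `y`, the map has bounded variation on all segments
inside `U` and inside the half open segment from `x` to `y` -/
def GenBV {T : Type} [PseudoEMetricSpace T] (f : E3 → T) (U : Set E3) : Prop :=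
  ∀ x : E3, ∀ᵐ y : E3, ∀ a ∈ segment ℝ x y, ∀ b ∈ segment ℝ x y, x ∉ segment ℝ a b →
    segment ℝ a b ⊆ U → segVar f a b < ⊤

end P073
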