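import Vale.Agent.P073Z.Sk3

/-!
# Densities of periodic sets
-/

open Set Metric Topology Filter MeasureTheory
open scoped ENNReal NNReal Pointwise

namespace P073.Dens

/-- the lattice with steps `c` -/
def pts (c : E3) : Set E3 := {x | ∀ i, ∃ k : ℤ, x i = c i * k}

/-- integer points -/
def zc (z : Fin 3 → ℤ) : E3 := fun i => (z i : ℝ)

/-- the steps `n` on `J` and one elsewhere -/
noncomputable def step (J : Finset (Fin 3)) (n : ℝ) : E3 := fun i => if i ∈ J then n else 1

/-- the segments between neighbouring integer points -/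
def kwire : Set E3 :=
  {x | ∃ v w : Fin 3 → ℤ, (∀ i, |v i - w i| ≤ 1) ∧ x ∈ segment ℝ (zc v) (zc w)}

/-- the flats where the coordinates in `J` are multiples of `n` -/
def flat (J : Finset (Fin 3)) (n : ℝ) : Set E3 := {x | ∀ i ∈ J, ∃ k : ℤ, x i = n * k}

/-- the part of the lattice lines close to the lattice points -/
def nearLines (t : ℝ) : Set E3 := {x ∈ gridLines | ∃ z : Fin 3 → ℤ, dist x (zc z) ≤ t}

theorem mem_pts_one {x : E3} : x ∈ pts 1 ↔ ∀ i, ∃ k : ℤ, x i = k := by
  simp [pts]

theorem zc_mem (z : Fin 3 → ℤ) : zc z ∈ pts 1 := mem_pts_one.2 fun i => ⟨z i, rfl⟩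

theorem countable_pts (c : E3) : (pts c).Countable := by
  refine (countable_range fun (z : Fin 3 → ℤ) (i : Fin 3) => c i * (z i : ℝ)).mono fun x hx => ?_
  choose k hk using hx
  exact ⟨k, funext fun i => (hk i).symm⟩

theorem hm_one_countable {N : Set E3} (h : N.Countable) : μH[1] N = 0 := by
  rw [← biUnion_of_singleton N]
  refine (measure_biUnion_null_iff h).2 fun x _ => ?_
  rw [← segment_same ℝ, hausdorffMeasure_segment, edist_self]

/-- lattice points in a cube -/
theorem exists_finset {c : E3} (hc : ∀ i, 0 < c i) (y : E3) {R : ℝ} (hR : 0 ≤ R) :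
    ∃ t : Finset E3, pts c ∩ closedBall y R ⊆ t ∧ (t.card : ℝ) ≤ ∏ i, (2 * R / c i + 1) := by
  classical
  let s : Fin 3 → Finset ℤ := fun i => Finset.Icc ⌈(y i - R) / c i⌉ ⌊(y i + R) / c i⌋
  refine ⟨(Fintype.piFinset s).image fun z i => c i * (z i : ℝ), ?_, ?_⟩
  · rintro x ⟨hx, hb⟩
    choose k hk using hx
    refine Finset.mem_coe.2 (Finset.mem_image.2 ⟨k, Fintype.mem_piFinset.2 fun i => ?_,
      funext fun i => (hk i).symm⟩)
    have h1 : |x i - y i| ≤ R := (dist_le_pi_dist x y i).trans hb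
    rw [abs_le, hk i] at h1
    rw [Finset.mem_Icc, Int.ceil_le, Int.le_floor, div_le_iff₀ (hc i), le_div_iff₀ (hc i)]
    constructor <;> linarith [h1.1, h1.2]
  · refine (Nat.cast_le.2 Finset.card_image_le).trans ?_
    rw [Fintype.card_piFinset, Nat.cast_prod]
    refine Finset.prod_le_prod (fun _ _ => Nat.cast_nonneg _) fun i _ => ?_
    have h1 : 0 ≤ 2 * R / c i := div_nonneg (by linarith) (hc i).le
    have h2 := Int.le_ceil ((y i - R) / c i)
    have h3 := Int.floor_le ((y i + R) / c i)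
    have h4 : (y i + R) / c i - (y i - R) / c i = 2 * R / c i := by ring
    rw [Int.card_Icc, ← Int.cast_natCast, Int.toNat_eq_max, Int.cast_max]
    push_cast
    exact max_le (by linarith) (by linarith)

theorem encard_pts {c : E3} (hc : ∀ i, 0 < c i) (y : E3) {R : ℝ} (hR : 0 ≤ R) :
    ((pts c ∩ closedBall y R).encard : ℝ≥0∞) ≤ ENNReal.ofReal (∏ i, (2 * R / c i + 1)) := by
  obtain ⟨t, h1, h2⟩ := exists_finset hc y hR
  refine (ENat.toENNReal_le.2 (encard_le_encard h1)).trans ?_
  rw [encard_coe_eq_coe_finsetCard, ENat.toENNReal_coe, ← ENNReal.ofReal_natCast]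
  exact ENNReal.ofReal_le_ofReal h2

/-- **periodic sets**: the measure in a cube -/
theorem hm_periodic {d : ℝ} {c : E3} (hc : ∀ i, 0 < c i) {T T₀ N : Set E3} {r : ℝ} (hr : 0 ≤ r)
    (h0 : T₀ ⊆ closedBall 0 r) (hN : μH[d] N = 0)
    (hT : ∀ x ∈ T, x ∉ N → ∃ v ∈ pts c, x - v ∈ T₀) (y : E3) {R : ℝ} (hR : 0 ≤ R) :
    μH[d] (T ∩ closedBall y R) ≤ ENNReal.ofReal (∏ i, (2 * (R + r) / c i + 1)) * μH[d] T₀ := by
  obtain ⟨t, h1, h2⟩ := exists_finset hc y (add_nonneg hR hr)
  have h3 : T ∩ closedBall y R ⊆ N ∪ ⋃ v ∈ t, (fun x => v + x) '' T₀ := by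
    rintro x ⟨hx, hb⟩
    by_cases hn : x ∈ N
    · exact Or.inl hn
    obtain ⟨v, hv, h4⟩ := hT x hx hn
    refine Or.inr (mem_biUnion (h1 ⟨hv, ?_⟩) ⟨x - v, h4, add_sub_cancel v x⟩)
    have h5 := h0 h4
    rw [mem_closedBall_zero_iff, ← dist_eq_norm] at h5
    rw [mem_closedBall] at hb ⊢
    linarith [dist_triangle_left v y x]
  refine (measure_mono h3).trans ((measure_union_le _ _).trans ?_)
  rw [hN, zero_add]
  refine (measure_biUnion_finset_le _ _).trans ?_
  rw [Finset.sum_congr rfl fun v _ => (isometry_add_left v).hausdorffMeasure_image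
    (Or.inr (add_left_surjective v)) T₀, Finset.sum_const, nsmul_eq_mul, ← ENNReal.ofReal_natCast]
  exact mul_le_mul_left (ENNReal.ofReal_le_ofReal h2) _

theorem step_pos (J : Finset (Fin 3)) {n : ℝ} (hn : 0 < n) (i : Fin 3) : 0 < step J n i := by
  unfold step
  split_ifs
  exacts [hn, one_pos]

/-- the count for the steps `n` on `J`, in a cube of size `R n` -/
theorem prod_step_le (J : Finset (Fin 3)) {n R : ℝ} (hn : 1 ≤ n) (hR : 0 ≤ R) :
    ∏ i, (2 * (R * n) / step J n i + 1) ≤ (2 * R + 1) ^ 3 * n ^ (3 - J.card) := by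
  have h0 : 0 < n := one_pos.trans_le hn
  have h1 : ∏ i, (2 * (R * n) / step J n i + 1) ≤
      ∏ i : Fin 3, ((2 * R + 1) * if i ∈ Jᶜ then n else 1) := by
    refine Finset.prod_le_prod (fun i _ => ?_) fun i _ => ?_
    · have := step_pos J h0 i
      positivity
    · unfold step
      by_cases h : i ∈ J
      · rw [if_pos h, if_neg (by simpa using h), ← mul_assoc, mul_div_assoc, div_self h0.ne',
          mul_one, mul_one]
      · rw [if_neg h, if_pos (by simpa using h), div_one]
        nlinarith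
  refine h1.trans_eq ?_
  rw [Finset.prod_mul_distrib, Finset.prod_const, Finset.prod_ite_mem, Finset.univ_inter,
    Finset.prod_const, Finset.card_compl]
  simp

theorem prod_one (R : ℝ) : ∏ i, (2 * R / (1 : E3) i + 1) = (2 * R + 1) ^ 3 := by
  simp

/-- the star of axis segments -/
theorem hm_axes {t : ℝ} (ht : 0 ≤ t) :
    μH[1] (⋃ i : Fin 3, segment ℝ (Pi.single i (-t) : E3) (Pi.single i t)) ≤
      ENNReal.ofReal (6 * t) := by
  refine (measure_iUnion_fintype_le _ _).trans ?_
  have h1 : ∀ i : Fin 3, μH[1] (segment ℝ (Pi.single i (-t) : E3) (Pi.single i t)) =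
      ENNReal.ofReal (2 * t) := fun i => by
    rw [hausdorffMeasure_segment, edist_dist, dist_eq_norm, ← Pi.single_sub, Pi.norm_single,
      Real.norm_of_nonpos (by linarith)]
    congr 1
    ring
  rw [Finset.sum_congr rfl fun i _ => h1 i, Finset.sum_const, Finset.card_univ, Fintype.card_fin,
    nsmul_eq_mul, ← ENNReal.ofReal_natCast, ← ENNReal.ofReal_mul (Nat.cast_nonneg _)]
  exact ENNReal.ofReal_le_ofReal (by push_cast; linarith)

theorem axes_subset {t : ℝ} (ht : 0 ≤ t) :
    (⋃ i : Fin 3, segment ℝ (Pi.single i (-t) : E3) (Pi.single i t)) ⊆ closedBall 0 t :=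
  iUnion_subset fun i => (convex_closedBall _ _).segment_subset
    (by rw [mem_closedBall_zero_iff, Pi.norm_single, norm_neg, Real.norm_of_nonneg ht])
    (by rw [mem_closedBall_zero_iff, Pi.norm_single, Real.norm_of_nonneg ht])

theorem single_mem_axes {t s : ℝ} (h : |s| ≤ t) (i : Fin 3) :
    (Pi.single i s : E3) ∈ ⋃ i : Fin 3, segment ℝ (Pi.single i (-t) : E3) (Pi.single i t) := by
  have h1 : s ∈ segment ℝ (-t) t := by
    rw [segment_eq_Icc (by linarith [abs_nonneg s])]
    exact abs_le.1 h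
  have h2 := mem_image_of_mem (LinearMap.single ℝ (fun _ : Fin 3 => ℝ) i).toAffineMap h1
  rw [image_segment] at h2
  exact mem_iUnion.2 ⟨i, h2⟩

/-- lattice lines near the lattice points -/
theorem hm_nearLines {t : ℝ} (ht : 0 ≤ t) (y : E3) {R : ℝ} (hR : 0 ≤ R) :
    μH[1] (nearLines t ∩ closedBall y R) ≤ ENNReal.ofReal ((2 * (R + t) + 1) ^ 3 * (6 * t)) := by
  refine (hm_periodic (c := 1) (fun _ => one_pos) ht (axes_subset ht) measure_empty
    (fun x hx _ => ?_) y hR).trans ?_
  · obtain ⟨⟨i, hi⟩, z, hz⟩ := hx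
    refine ⟨Function.update x i (z i), mem_pts_one.2 fun j => ?_, ?_⟩
    · rcases eq_or_ne j i with rfl | h
      · exact ⟨z j, Function.update_self _ _ _⟩
      · rw [Function.update_of_ne h]
        exact hi j h
    · have h1 : x - Function.update x i (z i) = Pi.single i (x i - z i) := by
        funext j
        rcases eq_or_ne j i with rfl | h
        · simp
        · simp [h]
      rw [h1]
      exact single_mem_axes ((dist_le_pi_dist x (zc z) i).trans hz) i
  · rw [prod_one, ENNReal.ofReal_mul (by positivity)]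
    exact mul_le_mul_right (hm_axes ht) _

theorem gridLines_eq : gridLines = nearLines (1 / 2) := by
  refine Subset.antisymm (fun x hx => ⟨hx, fun i => round (x i), ?_⟩) fun x hx => hx.1
  exact (dist_pi_le_iff (by norm_num)).2 fun i => abs_sub_round (x i)

/-- lattice lines -/
theorem hm_gridLines (y : E3) {R : ℝ} (hR : 0 ≤ R) :
    μH[1] (gridLines ∩ closedBall y R) ≤ ENNReal.ofReal (3 * (2 * R + 2) ^ 3) := by
  rw [gridLines_eq]
  refine (hm_nearLines (by norm_num) y hR).trans_eq ?_
  congr 1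
  ring

/-- the star of the segments to the neighbours -/
def star0 : Set E3 := ⋃ d : Fin 3 → SignType, segment ℝ 0 (fun i => (d i : ℝ))

theorem norm_sign_le (d : Fin 3 → SignType) : ‖(fun i => (d i : ℝ) : E3)‖ ≤ 1 :=
  (pi_norm_le_iff_of_nonneg zero_le_one).2 fun i => by
    rcases d i with _ | _ | _ <;> simp

theorem hm_star0 : μH[1] star0 ≤ 27 := by
  refine (measure_iUnion_fintype_le _ _).trans ((Finset.sum_le_card_nsmul _ _ 1 fun d _ => ?_).trans ?_)
  · rw [hausdorffMeasure_segment, edist_dist, dist_zero_left]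
    exact ENNReal.ofReal_le_one.2 (norm_sign_le d)
  · rw [Finset.card_univ, Fintype.card_fun, Fintype.card_fin,
      show Fintype.card SignType = 3 from rfl]
    norm_num

theorem star0_subset : star0 ⊆ closedBall 0 1 :=
  iUnion_subset fun d => (convex_closedBall _ _).segment_subset (mem_closedBall_self zero_le_one)
    (mem_closedBall_zero_iff.2 (norm_sign_le d))

theorem exists_step {J : Finset (Fin 3)} {n : ℕ} {x : E3} (hx : x ∈ kwire ∩ flat J n)
    (hn : x ∉ pts 1) : ∃ v ∈ pts (step J n), x - v ∈ star0 := by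
  obtain ⟨⟨v, w, hvw, hs⟩, hf⟩ := hx
  rw [segment_eq_image'] at hs
  obtain ⟨s, hs, rfl⟩ := hs
  have h1 : ∀ i, ((SignType.sign (w i - v i) : SignType) : ℝ) = (w i : ℝ) - v i := fun i => by
    have h2 := abs_le.1 (hvw i)
    have h3 : w i - v i = -1 ∨ w i - v i = 0 ∨ w i - v i = 1 := by omega
    rw [← Int.cast_sub]
    rcases h3 with h | h | h <;> rw [h] <;> simp
  refine ⟨zc v, fun i => ?_, mem_iUnion.2 ⟨fun i => SignType.sign (w i - v i), ?_⟩⟩
  · unfold step
    split_ifs with h
    · obtain ⟨k, hk⟩ := hf i h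
      refine ⟨k, ?_⟩
      have h2 : (v i : ℝ) + s * ((w i : ℝ) - v i) = n * k := hk
      by_contra h3
      refine hn (mem_pts_one.2 fun j => ?_)
      have h4 : s * ((w i - v i : ℤ) : ℝ) = ((n * k - v i : ℤ) : ℝ) := by
        push_cast
        linarith
      have h5 : n * k - v i ≠ 0 := fun h5 => h3 (by
        have h6 : ((n * k - v i : ℤ) : ℝ) = 0 := by rw [h5, Int.cast_zero]
        push_cast at h6
        change (v i : ℝ) = _
        linarith)
      have h6 : (1 : ℝ) ≤ |s * ((w i - v i : ℤ) : ℝ)| := by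
        rw [h4, ← Int.cast_abs]
        exact_mod_cast Int.one_le_abs h5
      have h7 : |((w i - v i : ℤ) : ℝ)| ≤ 1 := by
        rw [← Int.cast_abs, abs_sub_comm]
        exact_mod_cast hvw i
      rw [abs_mul, abs_of_nonneg hs.1] at h6
      have h8 : s = 1 := le_antisymm hs.2 (by nlinarith [hs.1])
      exact ⟨w j, by simp [h8, zc]⟩
    · exact ⟨v i, (one_mul _).symm⟩
  · rw [segment_eq_image']
    refine ⟨s, hs, ?_⟩
    funext i
    simp [h1, zc]

/-- the segments between neighbours, on the flats -/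
theorem hm_kwire (J : Finset (Fin 3)) {n : ℕ} (hn : 1 ≤ n) (y : E3) {R : ℝ} (hR : 0 ≤ R) :
    μH[1] (kwire ∩ flat J n ∩ closedBall y (R * n)) ≤
      ENNReal.ofReal (27 * (2 * R + 3) ^ 3 * (n : ℝ) ^ (3 - J.card)) := by
  have h0 : (1 : ℝ) ≤ n := by exact_mod_cast hn
  have h1 : R * n + 1 ≤ (R + 1) * n := by linarith
  refine (hm_periodic (step_pos J (one_pos.trans_le h0)) zero_le_one star0_subset
    (hm_one_countable (countable_pts 1)) (fun x hx h => exists_step hx h) y
    (by positivity)).trans ?_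
  have h2 : ∏ i, (2 * (R * n + 1) / step J n i + 1) ≤ (2 * R + 3) ^ 3 * (n : ℝ) ^ (3 - J.card) := by
    refine le_trans (Finset.prod_le_prod (fun i _ => ?_) fun i _ => ?_)
      ((prod_step_le J h0 (R := R + 1) (by linarith)).trans_eq (by ring))
    · have := step_pos J (one_pos.trans_le h0) i
      positivity
    · have := step_pos J (one_pos.trans_le h0) i
      gcongr
  rw [mul_assoc, ENNReal.ofReal_mul (by norm_num), mul_comm, ENNReal.ofReal_ofNat]
  exact mul_le_mul' hm_star0 (ENNReal.ofReal_le_ofReal h2)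

theorem pts_step {J : Finset (Fin 3)} {n : ℝ} : pts 1 ∩ flat J n ⊆ pts (step J n) := by
  rintro x ⟨h1, h2⟩ i
  unfold step
  split_ifs with h
  exacts [h2 i h, h1 i]

/-- lattice points on the flats -/
theorem encard_flat (J : Finset (Fin 3)) {n : ℝ} (hn : 1 ≤ n) (y : E3) {R : ℝ} (hR : 0 ≤ R) :
    ((pts 1 ∩ flat J n ∩ closedBall y (R * n)).encard : ℝ≥0∞) ≤
      ENNReal.ofReal ((2 * R + 1) ^ 3 * n ^ (3 - J.card)) :=
  (ENat.toENNReal_le.2 (encard_le_encard (inter_subset_inter_left _ pts_step))).trans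
    ((encard_pts (step_pos J (one_pos.trans_le hn)) y (by positivity)).trans
      (ENNReal.ofReal_le_ofReal (prod_step_le J hn hR)))

/-- the Hausdorff measure of dimension zero counts -/
theorem hm_zero_eq {X : Type*} [EMetricSpace X] [MeasurableSpace X] [BorelSpace X] (S : Set X) :
    μH[0] S = S.encard := by
  classical
  have key : ∀ t : Finset X, μH[0] (t : Set X) = t.card := fun t => by
    rw [← sum_measure_singleton, Finset.sum_congr rfl fun x _ =>
      Measure.hausdorffMeasure_zero_singleton x, Finset.sum_const, nsmul_eq_mul, mul_one]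
  rcases S.finite_or_infinite with h | h
  · rw [h.encard_eq_coe_toFinset_card, ENat.toENNReal_coe, ← key, h.coe_toFinset]
  · rw [h.encard_eq, ENat.toENNReal_top]
    refine ENNReal.eq_top_of_forall_nnreal_le fun r => ?_
    obtain ⟨t, ht, hc⟩ := h.exists_subset_card_eq ⌈r⌉₊
    refine le_trans ?_ (measure_mono ht)
    rw [key, hc]
    exact_mod_cast Nat.le_ceil r

/-- transport along a bi-Lipschitz change of coordinates -/
theorem hm_transport {d : ℝ} (hd : 0 ≤ d) {ν : E3 → E3} {A B : ℝ≥0} (hA : LipschitzWith A ν)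
    (hB : AntilipschitzWith B ν) {T : Set E3} {η : ℝ} {D : ℝ≥0∞}
    (h : ∀ y, μH[d] (T ∩ closedBall y (A * η)) ≤ D) (x : E3) :
    μH[d] (ν ⁻¹' T ∩ closedBall x η) ≤ (B : ℝ≥0∞) ^ d * D := by
  have h1 : ν ⁻¹' T ∩ closedBall x η ⊆ ν ⁻¹' (T ∩ closedBall (ν x) (A * η)) := fun z hz =>
    ⟨hz.1, hA.mapsTo_closedBall x η hz.2⟩
  exact (measure_mono h1).trans ((hB.hausdorffMeasure_preimage_le hd _).trans
    (mul_le_mul_right (h _) _))

theorem measurableSet_int (c : ℝ) : MeasurableSet {s : ℝ | ∃ k : ℤ, s = c * k} :=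
  Countable.measurableSet ((countable_range fun k : ℤ => c * (k : ℝ)).mono
    fun _ h => h.imp fun _ hk => hk.symm)

theorem measurableSet_pts (c : E3) : MeasurableSet (pts c) := (countable_pts c).measurableSet

theorem measurableSet_flat (J : Finset (Fin 3)) (n : ℝ) : MeasurableSet (flat J n) := by
  have h : flat J n = ⋂ i ∈ J, (fun x : E3 => x i) ⁻¹' {s : ℝ | ∃ k : ℤ, s = n * k} := by
    ext x
    simp [flat]
  rw [h]
  exact J.measurableSet_biInter fun i _ => measurable_pi_apply i (measurableSet_int n)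

theorem measurableSet_gridLines : MeasurableSet gridLines := by
  have h : gridLines = ⋃ i : Fin 3, flat {i}ᶜ 1 := by
    ext x
    simp [gridLines, flat]
  rw [h]
  exact MeasurableSet.iUnion fun i => measurableSet_flat _ _

theorem measurableSet_nearLines (t : ℝ) : MeasurableSet (nearLines t) := by
  have h : nearLines t = gridLines ∩ ⋃ z : Fin 3 → ℤ, closedBall (zc z) t := by
    ext x
    simp [nearLines]
  rw [h]
  exact measurableSet_gridLines.inter (MeasurableSet.iUnion fun _ => measurableSet_closedBall)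

theorem measurableSet_kwire : MeasurableSet kwire := by
  have h : kwire = ⋃ v : Fin 3 → ℤ, ⋃ w : Fin 3 → ℤ, ⋃ _ : ∀ i, |v i - w i| ≤ 1,
      segment ℝ (zc v) (zc w) := by
    ext x
    simp [kwire]
  rw [h]
  refine MeasurableSet.iUnion fun v => MeasurableSet.iUnion fun w => MeasurableSet.iUnion fun _ => ?_
  rw [segment_eq_image_lineMap]
  exact (isCompact_Icc.image AffineMap.lineMap_continuous).isClosed.measurableSet

end P073.Dens
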