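import Vale.Agent.P073Z.FACE.Cut
import Vale.Agent.P073Z.Sk2

/-!
# Pairing, strips and middle arcs in one face; pass levels are countable
-/

open Set Metric Topology Filter

namespace P073

namespace Face

open A12

variable {E : Type} [NormedAddCommGroup E] [NormedSpace ℝ E] {D B : Set E} {ψ : E → ℝ} {c : ℝ}
  {Z : Finset E} {I : E → Set E} {zp zm : E → E} {z w : E}

theorem countable_up {n : ℕ} (hD : ConBall n D B) (hψ : ContinuousOn ψ D) :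
    {c | ¬ Up D B ψ c}.Countable := by
  obtain ⟨T, h1, h2, h3⟩ := hD.isCompact_bdry.isSeparable.exists_countable_dense_subset
  refine (h2.biUnion fun a _ => h2.biUnion fun b _ => Set.Subsingleton.countable
    (s := {c | b ∉ connectedComponentIn {x ∈ D | c < ψ x} a ∧
      ∀ c' < c, b ∈ connectedComponentIn {x ∈ D | c' < ψ x} a}) fun c hc c' hc' =>
    le_antisymm (not_lt.1 fun h => hc'.1 (hc.2 _ h)) (not_lt.1 fun h => hc.1 (hc'.2 _ h))).mono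
    fun c hc => ?_
  have key : ∀ a ∈ B, c < ψ a → ∃ a' ∈ T, a' ∈ connectedComponentIn {x ∈ D | c < ψ x} a := by
    intro a ha h4
    obtain ⟨O, -, h5, -, h6, -⟩ := comp_split hD (ro_lt (f := fun _ => c) continuousOn_const hψ) a
    obtain ⟨a', h7, h8⟩ := mem_closure_iff.1 (h3 ha) O h5
      (h6.ge (mem_connectedComponentIn ⟨hD.1 ha, h4⟩)).2
    exact ⟨a', h8, h6.le ⟨hD.1 (h1 h8), h7⟩⟩
  simp only [Up, mem_ofPred_eq, not_forall, not_or, not_exists, not_and, not_not] at hc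
  obtain ⟨a, ha, b, hb, h4, h5, h6, h7⟩ := hc
  obtain ⟨a', h8, h9⟩ := key a ha h4
  obtain ⟨b', h10, h11⟩ := key b hb h5
  exact mem_biUnion h8 (mem_biUnion h10 ⟨fun h => h6 (cn_trans h9 (cn_trans h (cn_symm h11))),
    fun c' hc' => cn_trans (cn_symm (up_mono Subset.rfl hc'.le h9))
      (cn_trans (h7 c' hc') (up_mono Subset.rfl hc'.le h11))⟩)

/-- a strip between two zeros -/
structure Str (D B : Set E) (ψ : E → ℝ) (c : ℝ) (I : E → Set E) (zp zm : E → E) (z w : E)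
    (s : Set E × Set E × Set E) : Prop where
  ap : IsArc s.2.1 (zp z) (zp w)
  am : IsArc s.2.2 (zm z) (zm w)
  pos : ∀ x ∈ s.2.1, c < ψ x
  neg : ∀ x ∈ s.2.2, ψ x < c
  bp : s.2.1 ∩ B = {zp z, zp w}
  bm : s.2.2 ∩ B = {zm z, zm w}
  ball : ConBall 2 s.1 (I z ∪ I w ∪ s.2.1 ∪ s.2.2)
  sub : s.1 ⊆ D
  inter : s.1 ∩ B = I z ∪ I w

variable {s : Set E × Set E × Set E}

theorem Str.symm (h : Str D B ψ c I zp zm z w s) : Str D B ψ c I zp zm w z s :=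
  ⟨h.ap.symm, h.am.symm, h.pos, h.neg, pair_comm _ _ ▸ h.bp, pair_comm _ _ ▸ h.bm,
    union_comm (I z) _ ▸ h.ball, h.sub, union_comm (I z) _ ▸ h.inter⟩

theorem Str.lift {D' B' : Set E} {Z' : Finset E} (H : Hyp D B ψ c Z' I zp zm) (hz : z ∈ Z')
    (hw : w ∈ Z') (h : Str D' B' ψ c I zp zm z w s) (h1 : D' ⊆ D) (h2 : D' ∩ B ⊆ B') :
    Str D B ψ c I zp zm z w s := by
  have k : ∀ {A P : Set E}, A ⊆ s.1 → A ∩ B' = P → P ⊆ B → A ∩ B = P := fun k1 k2 k3 =>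
    Subset.antisymm (fun x hx => k2.le ⟨hx.1, h2 ⟨h.sub (k1 hx.1), hx.2⟩⟩)
      fun x hx => ⟨(k2.ge hx).1, k3 hx⟩
  obtain ⟨z1, z2, -⟩ := H.arc z hz
  obtain ⟨w1, w2, -⟩ := H.arc w hw
  exact ⟨h.ap, h.am, h.pos, h.neg, k (fun x hx => h.ball.1 (Or.inl (Or.inr hx))) h.bp
    (insert_subset (z2 z1.right_mem) (singleton_subset_iff.2 (w2 w1.right_mem))),
    k (fun x hx => h.ball.1 (Or.inr hx)) h.bm
    (insert_subset (z2 z1.left_mem) (singleton_subset_iff.2 (w2 w1.left_mem))), h.ball,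
    h.sub.trans h1, k Subset.rfl h.inter (union_subset z2 w2)⟩

theorem Hyp.str (h : Hyp D B ψ c Z I zp zm) (hz : z ∈ Z) (hw : w ∈ Z) (hwz : w ≠ z)
    (h1 : zp w ∈ connectedComponentIn {x ∈ D | c < ψ x} (zp z))
    (h2 : zm w ∈ connectedComponentIn {x ∈ D | ψ x < c} (zm z)) :
    ∃ s, Str D B ψ c I zp zm z w s := by
  obtain ⟨z1, z2, -⟩ := h.arc z hz
  obtain ⟨w1, w2, -⟩ := h.arc w hw
  have hd : ∀ {x}, x ∈ I z → x ∉ I w := fun k1 k2 => hwz (h.eq_of hw hz k2 k1)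
  obtain ⟨P, p1, p2, p3⟩ := join h.ball (ro_lt continuousOn_const h.cont) h1
    fun e => hd z1.right_mem (e ▸ w1.right_mem)
  obtain ⟨M, m1, m2, m3⟩ := join h.ball (ro_lt h.cont continuousOn_const) h2
    fun e => hd z1.left_mem (e ▸ w1.left_mem)
  have hJ := isCircle_of_arcs
    (z1.trans p1 fun x hx => (p3 ⟨hx.2, z2 hx.1⟩).resolve_right fun e =>
      hd hx.1 (e ▸ w1.right_mem))
    (m1.trans w1 fun x hx => (m3 ⟨hx.1, w2 hx.2⟩).resolve_left fun e =>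
      hd (e ▸ z1.left_mem) hx.2) (by
      rintro x ⟨k1 | k1, k2 | k2⟩
      · exact Or.inl ((m3 ⟨k2, z2 k1⟩).resolve_right fun e => hd k1 (e ▸ w1.left_mem))
      · exact absurd k2 (hd k1)
      · exact absurd (p2 k1).2 (lt_asymm (m2 k2).2)
      · exact Or.inr ((p3 ⟨k1, w2 k2⟩).resolve_left fun e => hd (e ▸ z1.right_mem) k2))
  rw [show I z ∪ P ∪ (M ∪ I w) = I z ∪ I w ∪ P ∪ M by ac_rfl] at hJ
  obtain ⟨σ, s1, s2, s3, -⟩ := exists_subdisc h.ball hJ (union_subset (union_subset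
    ((union_subset z2 w2).trans h.ball.1) fun x hx => (p2 hx).1) fun x hx => (m2 hx).1)
  refine ⟨(σ, P, M), p1, m1, fun x hx => (p2 hx).2, fun x hx => (m2 hx).2, p3.antisymm
    (subset_inter (pair_subset_arc p1) (insert_subset (z2 z1.right_mem)
      (singleton_subset_iff.2 (w2 w1.right_mem)))), m3.antisymm
    (subset_inter (pair_subset_arc m1) (insert_subset (z2 z1.left_mem)
      (singleton_subset_iff.2 (w2 w1.left_mem)))), s2, s1, Subset.antisymm (fun x hx => ?_)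
    fun x hx => ⟨s2.1 (Or.inl (Or.inl hx)), union_subset z2 w2 hx⟩⟩
  by_contra k
  refine disjoint_left.1 s3 ⟨hx.1, ?_⟩ hx.2
  rintro ((k1 | k1) | k1)
  · exact k k1
  · rcases p3 ⟨k1, hx.2⟩ with rfl | rfl
    exacts [k (Or.inl z1.right_mem), k (Or.inr w1.right_mem)]
  · rcases m3 ⟨k1, hx.2⟩ with rfl | rfl
    exacts [k (Or.inl z1.left_mem), k (Or.inr w1.left_mem)]

theorem Str.mid (H : Hyp D B ψ c Z I zp zm) (hz : z ∈ Z) (hw : w ∈ Z) (hwz : w ≠ z)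
    (h : Str D B ψ c I zp zm z w s) {O : Set E} (hO : IsOpen O) (h0 : {x ∈ D | ψ x = c} ⊆ O) :
    ∃ α, IsArc α z w ∧ α ⊆ O ∩ s.1 ∧ α ∩ (I z ∪ I w ∪ s.2.1 ∪ s.2.2) = {z, w} := by
  obtain ⟨M, P, z1, z2, z3, z4, z5⟩ := H.halves hz
  obtain ⟨M', P', w1, w2, w3, w4, w5⟩ := H.halves hw
  have e1 := ((H.zero z).1 hz).2
  have e2 := ((H.zero w).1 hw).2
  have k : ∀ {u x : E} {A : Set E} {r : ℝ → ℝ → Prop}, ψ u = c → (∀ x ∈ A, x ≠ u → r c (ψ x)) →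
      x ∈ A → r c (ψ x) ∨ ψ x = c := fun {u x _ _} k1 k2 k3 =>
    (eq_or_ne x u).elim (fun e => Or.inr (e ▸ k1)) fun e => Or.inl (k2 x k3 e)
  obtain ⟨α, h1, h2, h3⟩ := join h.ball (ro_inter hO) (Face.mid h.ball (H.cont.mono h.sub)
    (A₁ := P ∪ s.2.1 ∪ P') (A₂ := M ∪ s.2.2 ∪ M')
    ((z2.isConnected.isPreconnected.union _ z2.right_mem h.ap.left_mem
      h.ap.isConnected.isPreconnected).union _ (Or.inr h.ap.right_mem) w2.right_mem
      w2.isConnected.isPreconnected)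
    ((z1.isConnected.isPreconnected.union _ z1.left_mem h.am.left_mem
      h.am.isConnected.isPreconnected).union _ (Or.inr h.am.right_mem) w1.left_mem
      w1.isConnected.isPreconnected) (c := c) (by
      rintro x ((hx | hx) | hx)
      · exact ⟨(h.inter.ge (Or.inl (z3.le (Or.inr hx)))).1, (k e1 z5 hx).elim le_of_lt Eq.ge⟩
      · exact ⟨h.ball.1 (Or.inl (Or.inr hx)), (h.pos x hx).le⟩
      · exact ⟨(h.inter.ge (Or.inr (w3.le (Or.inr hx)))).1, (k e2 w5 hx).elim le_of_lt Eq.ge⟩) (by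
      rintro x ((hx | hx) | hx)
      · exact ⟨(h.inter.ge (Or.inl (z3.le (Or.inl hx)))).1,
          (k (r := (· > ·)) e1 z4 hx).elim le_of_lt Eq.le⟩
      · exact ⟨h.ball.1 (Or.inr hx), (h.neg x hx).le⟩
      · exact ⟨(h.inter.ge (Or.inr (w3.le (Or.inl hx)))).1,
          (k (r := (· > ·)) e2 w4 hx).elim le_of_lt Eq.le⟩)
    ⟨Or.inl (Or.inl z2.left_mem), Or.inl (Or.inl z1.right_mem)⟩
    ⟨Or.inr w2.left_mem, Or.inr w1.right_mem⟩ hO fun x hx => h0 ⟨h.sub hx.1, hx.2⟩) hwz.symm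
  exact ⟨α, h1, inter_comm _ _ ▸ h2, h3.antisymm (subset_inter (pair_subset_arc h1)
    (insert_subset (Or.inl (Or.inl (Or.inl (H.arc z hz).2.2.1)))
      (singleton_subset_iff.2 (Or.inl (Or.inl (Or.inr (H.arc w hw).2.2.1))))))⟩

/-- the pairing with its strips -/
def Res (D B : Set E) (ψ : E → ℝ) (c : ℝ) (Z : Finset E) (I : E → Set E) (zp zm : E → E)
    (τ : E → E) (s : E → Set E × Set E × Set E) : Prop :=
  (∀ z ∈ Z, τ z ∈ Z ∧ τ z ≠ z ∧ τ (τ z) = z ∧ s (τ z) = s z ∧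
    Str D B ψ c I zp zm z (τ z) (s z)) ∧
  ∀ z ∈ Z, ∀ z' ∈ Z, z' ≠ z → z' ≠ τ z → Disjoint (s z).1 (s z').1

open Classical in
theorem Hyp.piece (h : Hyp D B ψ c Z I zp zm) {D₁ B₁ B₂ β : Set E} {p q : E}
    (d₁ : ConBall 2 D₁ (β ∪ B₁)) (hD : D₁ ⊆ D) (b₁ : IsClosed B₁) (b₂ : IsClosed B₂)
    (hu : B₁ ∪ B₂ = B) (hi : B₁ ∩ B₂ = {p, q}) (hβ : ∀ x ∈ β, ψ x ≠ c)
    (hv : ∀ v ∈ Z, p ∉ I v ∧ q ∉ I v) : Hyp D₁ (β ∪ B₁) ψ c (Z.filter (· ∈ B₁)) I zp zm := by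
  refine ⟨d₁, h.cont.mono hD, fun x => ?_, fun z hz => ?_, fun z hz w hw =>
    h.disj z (Finset.mem_filter.1 hz).1 w (Finset.mem_filter.1 hw).1⟩
  · rw [Finset.mem_filter, h.zero]
    exact ⟨fun k => ⟨Or.inr k.2, k.1.2⟩, fun k => (k.1.resolve_left fun k1 => hβ x k1 k.2) |>
      fun k1 => ⟨⟨hu.le (Or.inl k1), k.2⟩, k1⟩⟩
  · obtain ⟨hz, hz'⟩ := Finset.mem_filter.1 hz
    obtain ⟨z1, z2, z3, z4⟩ := h.arc z hz
    have k : Disjoint (I z) (B₁ ∩ B₂) := by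
      rw [hi, disjoint_right]
      rintro x (rfl | rfl)
      exacts [(hv z hz).1, (hv z hz).2]
    refine ⟨z1, ?_, z3, z4⟩
    rcases subset_or z1.isConnected.isPreconnected b₁ b₂ (hu ▸ z2) k with k1 | k1
    · exact k1.trans subset_union_right
    · exact absurd ⟨hz', k1 z3⟩ (disjoint_left.1 k z3)

theorem exists_res (n : ℕ) : ∀ {D B : Set E} {Z : Finset E}, Z.card = n →
    Hyp D B ψ c Z I zp zm → Up D B ψ c → ∃ τ s, Res D B ψ c Z I zp zm τ s := by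
  classical
  induction n using Nat.strong_induction_on with | _ n ih => ?_
  intro D B Z hn h hup
  rcases Z.eq_empty_or_nonempty with rfl | ⟨z, hz⟩
  · exact ⟨id, fun _ => (∅, ∅, ∅), fun _ k => absurd k (Finset.notMem_empty _),
      fun _ k => absurd k (Finset.notMem_empty _)⟩
  obtain ⟨w, hw, hwz, A, a1, a2, a4, a3⟩ := h.nbr hz
  by_cases h1 : ∀ u ∈ Z, u ≠ z → u = w
  · obtain ⟨w', hw', hwz', A', b1, b2, b4, -⟩ := h.neg.nbr hz
    obtain rfl := h1 w' hw' hwz'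
    obtain ⟨s, hs⟩ := h.str hz hw hwz (a1.isConnected.isPreconnected.subset_connectedComponentIn
      a1.right_mem (fun x hx => mem_sep (h.ball.1 (a2 hx)) (a4 x hx)) a1.left_mem)
      (b1.isConnected.isPreconnected.subset_connectedComponentIn b1.right_mem
        (fun x hx => mem_sep (h.ball.1 (b2 hx)) (neg_lt_neg_iff.1 (b4 x hx))) b1.left_mem)
    refine ⟨fun x => if x = z then w' else z, fun _ => s, fun u hu => ?_, fun u hu v hv k1 k2 => ?_⟩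
    · by_cases k : u = z
      · subst k
        simpa [hwz, hw] using hs
      · obtain rfl := h1 u hu k
        simpa [hwz, hwz.symm, hz] using hs.symm
    · by_cases k : u = z
      · exact absurd (by simpa [k] using h1 v hv (k ▸ k1)) k2
      · by_cases k' : v = z
        · exact absurd (by simp [k, k']) k2
        · exact absurd ((h1 v hv k').trans (h1 u hu k).symm) k1
  push Not at h1
  obtain ⟨u, hu, huz, huw⟩ := h1
  obtain ⟨p, hp, q, hq, β, c1, c2, c3, c4, c5, c6⟩ := h.exists_cut hup hz hw hwz a1 a2 a4 a3 hu huz huw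
  obtain ⟨B₁, B₂, e1, e2, e3, e4⟩ := circle_arcs h.ball.isCircleD hp hq c1.ne
  have c7 : β ∩ B = {p, q} := c3.antisymm (subset_inter (pair_subset_arc c1)
    (insert_subset hp (singleton_subset_iff.2 hq)))
  obtain ⟨D₁, D₂, d₁, d₂, rfl, d4, d5, d6⟩ := crosscut h.ball c1 c2 c7 e1 e2 e3 e4
  have hβ : ∀ x ∈ β, ψ x ≠ c := fun x hx => c4.elim (fun k => (k x hx).ne') fun k => (k x hx).ne
  have H₁ := h.piece d₁ subset_union_left e1.isClosed e2.isClosed e3 e4 hβ c5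
  have H₂ := h.piece d₂ subset_union_right e2.isClosed e1.isClosed (union_comm _ _ ▸ e3)
    (inter_comm _ _ ▸ e4) hβ c5
  have hd : ∀ v ∈ Z, v ∈ B₁ → v ∉ B₂ := fun v hv k1 k2 => by
    rcases e4.le ⟨k1, k2⟩ with rfl | rfl
    exacts [(c5 _ hv).1 (h.arc _ hv).2.2.1, (c5 _ hv).2 (h.arc _ hv).2.2.1]
  obtain ⟨v₁, k1, k2⟩ := c6 B₁ e1.isConnected.isPreconnected (e3 ▸ subset_union_left)
    e1.left_mem e1.right_mem
  obtain ⟨v₂, k3, k4⟩ := c6 B₂ e2.isConnected.isPreconnected (e3 ▸ subset_union_right)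
    e2.left_mem e2.right_mem
  obtain ⟨τ₁, s₁, r1, r2⟩ := ih _ (hn ▸ Finset.card_lt_card (Finset.filter_ssubset.2
    ⟨v₂, k4, fun k => hd v₂ k4 k k3⟩)) rfl H₁ (hup.cut d₁.isClosed d₂.isClosed d4
      c1.isConnected.isPreconnected c4 c1.left_mem hp d5.ge)
  obtain ⟨τ₂, s₂, r3, r4⟩ := ih _ (hn ▸ Finset.card_lt_card (Finset.filter_ssubset.2
    ⟨v₁, k2, hd v₁ k2 k1⟩)) rfl H₂ (Up.cut (union_comm D₁ D₂ ▸ hup) d₂.isClosed d₁.isClosed
      (inter_comm D₁ D₂ ▸ d4) c1.isConnected.isPreconnected c4 c1.left_mem hp d6.ge)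
  simp only [Finset.mem_filter] at r1 r2 r3 r4
  have h2 : ∀ v ∈ Z, v ∉ B₁ → v ∈ B₂ := fun v hv k =>
    (e3.ge ((h.zero v).1 hv).1).resolve_left k
  have h3 : ∀ x ∈ Z, x ∈ B₁ → ∀ y ∈ Z, y ∈ B₂ → Disjoint (s₁ x).1 (s₂ y).1 := by
    intro x hx hx' y hy hy'
    obtain ⟨t1, -, -, -, t2⟩ := r1 x ⟨hx, hx'⟩
    refine disjoint_left.2 fun t ht ht' => ?_
    have t3 := d4.le ⟨t2.sub ht, (r3 y ⟨hy, hy'⟩).2.2.2.2.sub ht'⟩
    rcases t2.inter.le ⟨ht, Or.inl t3⟩ with t4 | t4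
    · rcases c3 ⟨t3, (h.arc x hx).2.1 t4⟩ with rfl | rfl
      exacts [(c5 x hx).1 t4, (c5 x hx).2 t4]
    · rcases c3 ⟨t3, (h.arc _ t1.1).2.1 t4⟩ with rfl | rfl
      exacts [(c5 _ t1.1).1 t4, (c5 _ t1.1).2 t4]
  refine ⟨fun x => if x ∈ B₁ then τ₁ x else τ₂ x, fun x => if x ∈ B₁ then s₁ x else s₂ x,
    fun x hx => ?_, fun x hx y hy => ?_⟩
  · by_cases k : x ∈ B₁
    · obtain ⟨t1, t2, t3, t4, t5⟩ := r1 x ⟨hx, k⟩
      simp only [if_pos k, if_pos t1.2]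
      exact ⟨t1.1, t2, t3, t4, t5.lift h hx t1.1 subset_union_left
        (d5.le.trans subset_union_right)⟩
    · obtain ⟨t1, t2, t3, t4, t5⟩ := r3 x ⟨hx, h2 x hx k⟩
      simp only [if_neg k, if_neg fun k' => hd _ t1.1 k' t1.2]
      exact ⟨t1.1, t2, t3, t4, t5.lift h hx t1.1 subset_union_right
        (d6.le.trans subset_union_right)⟩
  · by_cases k : x ∈ B₁ <;> by_cases k' : y ∈ B₁ <;> simp only [k, k', if_true, if_false]
    · exact r2 x ⟨hx, k⟩ y ⟨hy, k'⟩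
    · exact fun _ _ => h3 x hx k y hy (h2 y hy k')
    · exact fun _ _ => (h3 y hy k' x hx (h2 x hx k)).symm
    · exact r4 x ⟨hx, h2 x hx k⟩ y ⟨hy, h2 y hy k'⟩

end Face

open Face

theorem mpc_face : MPC := by
  intro E _ _ D B ψ hD hψ
  refine ((countable_up hD hψ).union ((countable_up hD hψ.neg).preimage
    neg_injective)).mono fun c hc => ?_
  by_contra h
  simp only [mem_union, mem_preimage, mem_ofPred_eq, not_or, not_not] at h
  refine hc ⟨h.1, fun a ha b hb h1 h2 => ?_⟩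
  rcases h.2 a ha b hb (neg_lt_neg h1) (neg_lt_neg h2) with h3 | ⟨c', h3, h4⟩
  · exact Or.inl (by simpa only [Pi.neg_apply, neg_lt_neg_iff] using h3)
  · exact Or.inr ⟨-c', lt_neg.1 h3, by simpa only [Pi.neg_apply, lt_neg] using h4⟩

theorem face : FACE := by
  intro E _ _ _ D B ψ c Z I zp zm h1 h2 h3 h4 h5 h6
  have H : Hyp D B ψ c Z I zp zm := ⟨h1, h2, h4, h5, h6⟩
  obtain ⟨τ, s, r1, r2⟩ := exists_res _ rfl H h3.1
  refine ⟨τ, fun z => (s z).1, fun z => (s z).2.1, fun z => (s z).2.2, fun z hz => ?_, r2,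
    fun O hO h0 => ?_⟩
  · obtain ⟨t1, t2, t3, t4, t5⟩ := r1 z hz
    exact ⟨t1, t2, t3, by simp only [t4], by simp only [t4], by simp only [t4], t5.ap, t5.am,
      t5.pos, t5.neg, t5.bp, t5.bm, t5.ball, t5.sub, t5.inter⟩
  have key : ∀ P : Set E, ∃ α, ∀ z ∈ Z, {z, τ z} = P → IsArc α z (τ z) ∧ α ⊆ O ∩ (s z).1 ∧
      α ∩ (I z ∪ I (τ z) ∪ (s z).2.1 ∪ (s z).2.2) = {z, τ z} := by
    intro P
    by_cases h : ∃ w ∈ Z, {w, τ w} = P
    · obtain ⟨w, hw, rfl⟩ := h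
      obtain ⟨t1, t2, t3, t4, t5⟩ := r1 w hw
      obtain ⟨α, k1, k2, k3⟩ := t5.mid H hw t1 t2 hO h0
      refine ⟨α, fun z _ e => ?_⟩
      rcases e.le (mem_insert _ _) with rfl | rfl
      · exact ⟨k1, k2, k3⟩
      · rw [t3, t4, union_comm (I (τ w)), pair_comm]
        exact ⟨k1.symm, k2, k3⟩
    · exact ⟨∅, fun z hz e => absurd ⟨z, hz, e⟩ h⟩
  choose α hα using key
  exact ⟨fun z => α {z, τ z}, fun z hz =>
    ⟨by simp only [(r1 z hz).2.2.1, pair_comm], hα _ z hz rfl⟩⟩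

end P073
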