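import Vale.Agent.P073Z.DISC2

/-!
# Duality in a disc: components, cross-cuts and the separation lemma
-/

open Set Metric Topology Filter

namespace P073.Hex

variable {E : Type} [NormedAddCommGroup E] [NormedSpace ℝ E]

omit [NormedSpace ℝ E] in
theorem pos_mem_nhdsWithin {D : Set E} {u : E → ℝ} (hu : ContinuousOn u D) {x : E} (hx : x ∈ D)
    (hux : 0 < u x) : {y ∈ D | 0 < u y} ∈ 𝓝[D] x := by
  have h1 : u ⁻¹' Ioi 0 ∈ 𝓝[D] x := hu x hx (Ioi_mem_nhds hux)
  filter_upwards [h1, self_mem_nhdsWithin] with y hy hyD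
  exact ⟨hyD, hy⟩

/-- components of relatively open sets of a ball are relatively open -/
theorem comp_mem_nhdsWithin {n : ℕ} {D B W : Set E} (hD : ConBall n D B) {x : E} (hx : x ∈ D)
    (hW : W ∈ 𝓝[D] x) : connectedComponentIn W x ∈ 𝓝[D] x := by
  obtain ⟨O, hO, hxO, h1, h2, -⟩ := path.2.2 hD x hx W hW
  exact mem_of_superset (inter_mem_nhdsWithin D (hO.mem_nhds hxO))
    (h2.subset_connectedComponentIn ⟨hx, hxO⟩ h1)

theorem comp_eq_inter {n : ℕ} {D B W : Set E} (hD : ConBall n D B) (hWD : W ⊆ D)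
    (hW : ∀ x ∈ W, W ∈ 𝓝[D] x) (p : E) : ∃ O, IsOpen O ∧ connectedComponentIn W p = D ∩ O := by
  have h1 : ∀ x ∈ connectedComponentIn W p, ∃ O, IsOpen O ∧ x ∈ O ∧
      O ∩ D ⊆ connectedComponentIn W p := by
    intro x hx
    have hxW := connectedComponentIn_subset _ _ hx
    have := comp_mem_nhdsWithin hD (hWD hxW) (hW x hxW)
    rw [← connectedComponentIn_eq hx] at this
    exact mem_nhdsWithin.1 this
  choose! O hO hxO hOs using h1
  refine ⟨⋃ x ∈ connectedComponentIn W p, O x, isOpen_biUnion hO, ?_⟩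
  apply Subset.antisymm
  · intro x hx
    exact ⟨hWD (connectedComponentIn_subset _ _ hx), mem_biUnion hx (hxO x hx)⟩
  · rintro y ⟨hyD, hy⟩
    obtain ⟨x, hx, hyx⟩ := mem_iUnion₂.1 hy
    exact hOs x hx ⟨hyx, hyD⟩

/-- an arc inside a component of a relatively open set, meeting the boundary only at its ends -/
theorem cut' {D B W : Set E} (hD : ConBall 2 D B) (hWD : W ⊆ D) (hW : ∀ x ∈ W, W ∈ 𝓝[D] x)
    {p q : E} (hq : q ∈ connectedComponentIn W p) (hpq : p ≠ q) :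
    ∃ A, IsArc A p q ∧ A ⊆ W ∧ A ∩ B ⊆ {p, q} := by
  obtain ⟨O, hO, e⟩ := comp_eq_inter hD hWD hW p
  have hp : p ∈ connectedComponentIn W p :=
    mem_connectedComponentIn (connectedComponentIn_nonempty_iff.1 ⟨q, hq⟩)
  obtain ⟨A, h1, h2, h3⟩ := path.2.1 hD hO (e ▸ isPreconnected_connectedComponentIn) (e ▸ hp)
    (e ▸ hq) hpq
  exact ⟨A, h1, (e ▸ h2 : A ⊆ connectedComponentIn W p).trans (connectedComponentIn_subset _ _),
    h3⟩

theorem cut {D B : Set E} (hD : ConBall 2 D B) {u : E → ℝ} (hu : ContinuousOn u D) {p q : E}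
    (hq : q ∈ connectedComponentIn {x ∈ D | 0 < u x} p) (hpq : p ≠ q) :
    ∃ A, IsArc A p q ∧ A ⊆ {x ∈ D | 0 < u x} ∧ A ∩ B ⊆ {p, q} :=
  cut' hD (fun _ hx => hx.1) (fun _ hx => pos_mem_nhdsWithin hu hx.1 hx.2) hq hpq

/-- a connected set missing the common part of two closed sets lies in one of them -/
theorem subset_or_of_closed {T : Type*} [TopologicalSpace T] {K D₁ D₂ : Set T}
    (hK : IsPreconnected K) (h₁ : IsClosed D₁) (h₂ : IsClosed D₂) (hs : K ⊆ D₁ ∪ D₂)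
    (hd : Disjoint K (D₁ ∩ D₂)) : K ⊆ D₁ ∨ K ⊆ D₂ := by
  by_contra hn
  rw [not_or, not_subset, not_subset] at hn
  obtain ⟨⟨x, hx, hx1⟩, ⟨y, hy, hy2⟩⟩ := hn
  obtain ⟨z, hz, hz'⟩ := isPreconnected_closed_iff.1 hK D₁ D₂ h₁ h₂ hs
    ⟨y, hy, (hs hy).resolve_right hy2⟩ ⟨x, hx, (hs hx).resolve_left hx1⟩
  exact hd.le_bot ⟨hz, hz'⟩

/-- a connected set meeting both boundary arcs meets the cross-cut -/
theorem nocross {D B β B₁ B₂ K : Set E} {p q : E} (hD : ConBall 2 D B) (hβ : IsArc β p q)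
    (hβD : β ⊆ D) (hβB : β ∩ B = {p, q}) (b₁ : IsArc B₁ p q) (b₂ : IsArc B₂ p q)
    (hu : B₁ ∪ B₂ = B) (hi : B₁ ∩ B₂ = {p, q}) (hK : IsPreconnected K) (hKD : K ⊆ D)
    (h1 : (K ∩ B₁).Nonempty) (h2 : (K ∩ B₂).Nonempty) : (K ∩ β).Nonempty := by
  obtain ⟨D₁, D₂, d₁, d₂, e, e', f₁, f₂⟩ := A12.crosscut hD hβ hβD hβB b₁ b₂ hu hi
  obtain ⟨x, hx, hx1⟩ := h1
  obtain ⟨y, hy, hy2⟩ := h2
  rw [← e']
  exact isPreconnected_closed_iff.1 hK D₁ D₂ d₁.isClosed d₂.isClosed (e ▸ hKD)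
    ⟨x, hx, (f₁ ▸ hx1 : x ∈ D₁ ∩ B).1⟩ ⟨y, hy, (f₂ ▸ hy2 : y ∈ D₂ ∩ B).1⟩

open Classical in
/-- a function with a sign attached to each component of the set where it is positive -/
theorem contOn_sign {n : ℕ} {D B : Set E} (hD : ConBall n D B) {u : E → ℝ}
    (hu : ContinuousOn u D) (S : Set E)
    (hS : ∀ x, ∀ y ∈ connectedComponentIn {x ∈ D | 0 < u x} x, (y ∈ S ↔ x ∈ S)) :
    ContinuousOn (fun x => (if x ∈ S then 1 else -1 : ℝ) * max (u x) 0) D := by
  intro x hx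
  have hm : ContinuousWithinAt (fun y => max (u y) 0) D x :=
    (hu x hx).max continuousWithinAt_const
  by_cases hux : 0 < u x
  · have h1 := comp_mem_nhdsWithin hD hx (pos_mem_nhdsWithin hu hx hux)
    refine (hm.const_mul (if x ∈ S then 1 else -1 : ℝ)).congr_of_eventuallyEq ?_ rfl
    filter_upwards [h1] with y hy
    simp only [hS x y hy]
  · have h0 : max (u x) 0 = 0 := max_eq_right (not_lt.1 hux)
    unfold ContinuousWithinAt at hm ⊢
    simp only [h0, mul_zero] at hm ⊢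
    refine squeeze_zero_norm (fun y => ?_) hm
    rw [norm_mul, Real.norm_of_nonneg (le_max_right _ _)]
    split_ifs <;> simp

/-- a continuous argument of a nonvanishing function on a ball -/
theorem exists_arg {n : ℕ} {D B : Set E} (hD : ConBall n D B) {F : E → ℂ}
    (hF : ContinuousOn F D) (h0 : ∀ x ∈ D, F x ≠ 0) : ∃ lam : E → ℝ, ContinuousOn lam D ∧
      ∀ x ∈ D, Real.cos (lam x) = (F x).re / ‖F x‖ ∧ Real.sin (lam x) = (F x).im / ‖F x‖ := by
  obtain ⟨-, φ, -⟩ := hD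
  have hp : (2 * Real.pi) ≠ 0 := by positivity
  let e := AddCircle.homeomorphAddCircle (2 * Real.pi) 1 hp one_ne_zero
  have hθ : ContinuousOn (fun x => e ((Complex.arg (F x) : ℝ) : AddCircle (2 * Real.pi))) D := by
    refine e.continuous.comp_continuousOn fun x hx => ?_
    exact (Complex.continuousAt_arg_coe_angle (h0 x hx)).comp_continuousWithinAt (hF x hx)
  obtain ⟨lam, h1, h2⟩ := idx (convex_closedBall _ _)
    ⟨φ.mapsTo, φ.mapsTo_inv, φ.left_inv, φ.right_inv, φ.cont, φ.cont_inv⟩ hθ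
  refine ⟨fun x => lam x * (2 * Real.pi), h1.mul continuousOn_const, fun x hx => ?_⟩
  have h3 : ((lam x * (2 * Real.pi) : ℝ) : Real.Angle) = ((Complex.arg (F x) : ℝ) : Real.Angle) := by
    apply e.injective
    refine Eq.trans ?_ (h2 x hx)
    refine (AddCircle.homeomorphAddCircle_apply_mk _ _ hp one_ne_zero _).trans ?_
    congr 1
    field_simp
  constructor
  · rw [← Real.Angle.cos_coe, h3, Real.Angle.cos_coe, Complex.cos_arg (h0 x hx)]
  · rw [← Real.Angle.sin_coe, h3, Real.Angle.sin_coe, Complex.sin_arg]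

/-- a nonvanishing function on a disc does not turn once along the boundary -/
theorem no_turn {n : ℕ} {D B B₁ B₂ : Set E} {a b : E} (hD : ConBall n D B) {f g : E → ℝ}
    (hf : ContinuousOn f D) (hg : ContinuousOn g D) (h0 : ∀ x ∈ D, f x ≠ 0 ∨ g x ≠ 0)
    (c₁ : IsPreconnected B₁) (c₂ : IsPreconnected B₂) (s₁ : B₁ ⊆ D) (s₂ : B₂ ⊆ D)
    (ha : a ∈ B₁ ∩ B₂) (hb : b ∈ B₁ ∩ B₂) (fa : 0 < f a) (ga : g a = 0) (fb : f b < 0)
    (gb : g b = 0) (g₁ : ∀ x ∈ B₁, 0 ≤ g x) (g₂ : ∀ x ∈ B₂, g x ≤ 0) : False := by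
  have hF : ContinuousOn (fun x => ((f x : ℂ) + (g x : ℂ) * Complex.I)) D :=
    (Complex.continuous_ofReal.comp_continuousOn hf).add
      ((Complex.continuous_ofReal.comp_continuousOn hg).mul continuousOn_const)
  have hne : ∀ x ∈ D, ((f x : ℂ) + (g x : ℂ) * Complex.I) ≠ 0 := by
    intro x hx e
    have e1 := congrArg Complex.re e
    have e2 := congrArg Complex.im e
    simp at e1 e2
    exact (h0 x hx).elim (fun h => h e1) fun h => h e2
  obtain ⟨lam, hl, h⟩ := exists_arg hD hF hne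
  have hre : ∀ x, ((f x : ℂ) + (g x : ℂ) * Complex.I).re = f x := fun x => by simp
  have him : ∀ x, ((f x : ℂ) + (g x : ℂ) * Complex.I).im = g x := fun x => by simp
  simp only [hre, him] at h
  have hpos : ∀ x ∈ D, 0 < ‖(f x : ℂ) + (g x : ℂ) * Complex.I‖ :=
    fun x hx => norm_pos_iff.2 (hne x hx)
  have haD := s₁ ha.1
  have hbD := s₁ hb.1
  have ca : 0 < Real.cos (lam a) := by rw [(h a haD).1]; exact div_pos fa (hpos a haD)
  have sa : Real.sin (lam a) = 0 := by rw [(h a haD).2, ga, zero_div]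
  have cb : Real.cos (lam b) < 0 := by
    rw [(h b hbD).1]; exact div_neg_of_neg_of_pos fb (hpos b hbD)
  have sb : Real.sin (lam b) = 0 := by rw [(h b hbD).2, gb, zero_div]
  have hc : Real.cos (lam b - lam a) < 0 := by
    rw [Real.cos_sub, sa, mul_zero, add_zero]
    exact mul_neg_of_neg_of_pos cb ca
  have hout : lam b - lam a ≤ -(Real.pi / 2) ∨ Real.pi / 2 ≤ lam b - lam a := by
    by_contra hn
    rw [not_or, not_le, not_le] at hn
    exact absurd (Real.cos_pos_of_mem_Ioo hn) (not_lt.2 hc.le)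
  have hpi := Real.pi_pos
  rcases hout with k | k
  · obtain ⟨x, hx, e⟩ := c₁.intermediate_value hb.1 ha.1 (hl.mono s₁)
      (show lam a - Real.pi / 2 ∈ Icc (lam b) (lam a) from ⟨by linarith, by linarith⟩)
    have h1 := (h x (s₁ hx)).2
    rw [e, Real.sin_sub_pi_div_two] at h1
    have h2 := div_nonneg (g₁ x hx) (hpos x (s₁ hx)).le
    linarith
  · obtain ⟨x, hx, e⟩ := c₂.intermediate_value ha.2 hb.2 (hl.mono s₂)
      (show lam a + Real.pi / 2 ∈ Icc (lam a) (lam b) from ⟨by linarith, by linarith⟩)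
    have h1 := (h x (s₂ hx)).2
    rw [e, Real.sin_add_pi_div_two] at h1
    have h2 := div_nonpos_of_nonpos_of_nonneg (g₂ x hx) (hpos x (s₂ hx)).le
    linarith

theorem mem_comp_symm {T : Type*} [TopologicalSpace T] {W : Set T} {x y : T}
    (h : y ∈ connectedComponentIn W x) : x ∈ connectedComponentIn W y := by
  rw [← connectedComponentIn_eq h]
  exact mem_connectedComponentIn (connectedComponentIn_nonempty_iff.1 ⟨y, h⟩)

theorem mem_comp_trans {T : Type*} [TopologicalSpace T] {W : Set T} {x y z : T}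
    (h : y ∈ connectedComponentIn W x) (h' : z ∈ connectedComponentIn W y) :
    z ∈ connectedComponentIn W x := by
  rwa [connectedComponentIn_eq h]

/-- **Separation lemma.**  Two relatively open sets cover a ball; either the first one joins `a`
to `b`, or the second one joins two given connected sets through `a` and `b`. -/
theorem hex {n : ℕ} {D B B₁ B₂ : Set E} {a b : E} (hD : ConBall n D B) {u w : E → ℝ}
    (hu : ContinuousOn u D) (hw : ContinuousOn w D) (h0 : ∀ x ∈ D, 0 < u x ∨ 0 < w x)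
    (c₁ : IsPreconnected B₁) (c₂ : IsPreconnected B₂) (s₁ : B₁ ⊆ D) (s₂ : B₂ ⊆ D)
    (ha : a ∈ B₁ ∩ B₂) (hb : b ∈ B₁ ∩ B₂) (wa : w a ≤ 0) (wb : w b ≤ 0) :
    b ∈ connectedComponentIn {x ∈ D | 0 < u x} a ∨
      ∃ x ∈ B₁, ∃ y ∈ B₂, y ∈ connectedComponentIn {x ∈ D | 0 < w x} x := by
  classical
  by_contra hn
  rw [not_or] at hn
  obtain ⟨hab, hn⟩ := hn
  have haD := s₁ ha.1
  have hbD := s₁ hb.1
  have ua : 0 < u a := (h0 a haD).resolve_right (not_lt.2 wa)
  have ub : 0 < u b := (h0 b hbD).resolve_right (not_lt.2 wb)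
  have hf := contOn_sign hD hu (connectedComponentIn {x ∈ D | 0 < u x} a) fun x y hy =>
    ⟨fun h => mem_comp_trans h (mem_comp_symm hy), fun h => mem_comp_trans h hy⟩
  have hg := contOn_sign hD hw {y | ∃ x ∈ B₁, y ∈ connectedComponentIn {x ∈ D | 0 < w x} x}
    fun x y hy => ⟨fun ⟨z, hz, h⟩ => ⟨z, hz, mem_comp_trans h (mem_comp_symm hy)⟩,
      fun ⟨z, hz, h⟩ => ⟨z, hz, mem_comp_trans h hy⟩⟩
  refine no_turn hD hf hg ?_ c₁ c₂ s₁ s₂ ha hb ?_ ?_ ?_ ?_ ?_ ?_
  · intro x hx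
    rcases h0 x hx with h | h
    · left
      rw [max_eq_left h.le]
      exact mul_ne_zero (by split_ifs <;> norm_num) h.ne'
    · right
      rw [max_eq_left h.le]
      exact mul_ne_zero (by split_ifs <;> norm_num) h.ne'
  · have haW : a ∈ {x ∈ D | 0 < u x} := ⟨haD, ua⟩
    rw [if_pos (mem_connectedComponentIn haW), one_mul, max_eq_left ua.le]
    exact ua
  · rw [max_eq_right wa, mul_zero]
  · rw [if_neg hab, max_eq_left ub.le]
    linarith
  · rw [max_eq_right wb, mul_zero]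
  · intro x hx
    by_cases h : 0 < w x
    · rw [if_pos, one_mul]
      · exact le_max_right _ _
      · have hxW : x ∈ {x ∈ D | 0 < w x} := ⟨s₁ hx, h⟩
        exact ⟨x, hx, mem_connectedComponentIn hxW⟩
    · rw [max_eq_right (not_lt.1 h), mul_zero]
  · intro y hy
    rw [if_neg]
    · have := le_max_right (w y) 0
      linarith
    · rintro ⟨x, hx, h⟩
      exact hn ⟨x, hx, y, hy, h⟩

end P073.Hex
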