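import Vale.Agent.P073Z.HAJ
import Mathlib.MeasureTheory.Covering.BesicovitchVectorSpace

/-!
# Selection of the compact sets on which the derivative is close to an admissible type
-/

open Set Metric Topology Filter MeasureTheory
open scoped ENNReal NNReal ContDiff

namespace P073

namespace Ksel

theorem maxLe_mono {F : E3 → (E3 →L[ℝ] E3)} {A : E3 →L[ℝ] E3} {x : E3} {r r' τ : ℝ}
    (h : MaxLe F A x r τ) (hr : r' ≤ r) : MaxLe F A x r' τ :=
  fun ρ hρ => h ρ ⟨hρ.1, hρ.2.trans hr⟩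

/-- the set where the maximal bound holds is closed -/
theorem isClosed_maxLe (F : E3 → (E3 →L[ℝ] E3)) (A : E3 →L[ℝ] E3) (r τ : ℝ) :
    IsClosed {x | MaxLe F A x r τ} := by
  refine isClosed_of_closure_subset fun x hx ρ hρ => ?_
  set ν : Measure E3 := volume.withDensity fun y => ‖F y - A‖ₑ with hν
  set u : ℕ → Set E3 := fun n => ball x (ρ - 1 / ((n : ℝ) + 1)) with hu
  have hm : Monotone u := by
    intro n m hnm
    refine ball_subset_ball ?_
    have : (1:ℝ) / ((m : ℝ) + 1) ≤ 1 / ((n : ℝ) + 1) := Nat.one_div_le_one_div hnm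
    linarith
  have hU : (⋃ n, u n) = ball x ρ := by
    refine Subset.antisymm (iUnion_subset fun n => ball_subset_ball ?_) fun y hy => ?_
    · have : (0:ℝ) < 1 / ((n : ℝ) + 1) := Nat.one_div_pos_of_nat
      linarith
    · obtain ⟨n, hn⟩ := exists_nat_one_div_lt (sub_pos.2 (mem_ball.1 hy))
      refine mem_iUnion.2 ⟨n, ?_⟩
      simp only [hu, mem_ball]
      linarith
  have ht := tendsto_measure_iUnion_atTop (μ := ν) hm
  rw [hU, hν, withDensity_apply _ measurableSet_ball] at ht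
  refine le_of_tendsto' ht fun n => ?_
  obtain ⟨y, hy, hxy⟩ := Metric.mem_closure_iff.1 hx (1 / ((n : ℝ) + 1)) Nat.one_div_pos_of_nat
  have hsub : u n ⊆ ball y ρ := by
    intro z hz
    simp only [hu, mem_ball] at hz ⊢
    have := dist_triangle z x y
    linarith
  calc (volume.withDensity fun y => ‖F y - A‖ₑ) (u n)
      ≤ (volume.withDensity fun y => ‖F y - A‖ₑ) (ball y ρ) := measure_mono hsub
    _ = ∫⁻ z in ball y ρ, ‖F z - A‖ₑ := withDensity_apply _ measurableSet_ball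
    _ ≤ ENNReal.ofReal τ * volume (ball y ρ) := hy ρ hρ
    _ = ENNReal.ofReal τ * volume (ball x ρ) := by
        rw [Haj.vol_ball x hρ.1, Haj.vol_ball y hρ.1]

theorem integrableOn {Ω : Set E3} {F : E3 → (E3 →L[ℝ] E3)} {p : ℝ}
    (hb : Bornology.IsBounded Ω) (hp : 1 ≤ p) (hF : AEStronglyMeasurable F (volume.restrict Ω))
    (hi : ∫⁻ x in Ω, ‖F x‖ₑ ^ p < ⊤) : IntegrableOn F Ω volume := by
  refine ⟨hF, ?_⟩
  have h1 : ∀ x, ‖F x‖ₑ ≤ ‖F x‖ₑ ^ p + 1 := by
    intro x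
    rcases le_total ‖F x‖ₑ 1 with h | h
    · exact h.trans le_add_self
    · refine le_trans ?_ le_self_add
      simpa using ENNReal.rpow_le_rpow_of_exponent_le h hp
  refine lt_of_le_of_lt (lintegral_mono h1) ?_
  rw [lintegral_add_right _ measurable_const, setLIntegral_const, one_mul]
  exact ENNReal.add_lt_top.2 ⟨hi, hb.measure_lt_top⟩

/-- Lebesgue points -/
theorem ae_maxLe0 {V : Type} [NormedAddCommGroup V] {Ω : Set E3} {F : E3 → V} (hΩ : IsOpen Ω)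
    (hF : IntegrableOn F Ω volume) :
    ∀ᵐ x, x ∈ Ω → ∀ (A : V) (τ : ℝ), ‖F x - A‖ < τ → ∃ r, 0 < r ∧
      ∀ ρ ∈ Ioc (0:ℝ) r, ∫⁻ y in ball x ρ, ‖F y - A‖ₑ ≤ ENNReal.ofReal τ * volume (ball x ρ) := by
  have hG : Integrable (Ω.indicator F) volume :=
    (integrable_indicator_iff hΩ.measurableSet).2 hF
  filter_upwards [(Besicovitch.vitaliFamily (volume : Measure E3)
    ).ae_tendsto_lintegral_enorm_sub_div_of_integrable hG] with x hx hxΩ A τ hA
  have ht := hx.comp (Besicovitch.tendsto_filterAt (volume : Measure E3) x)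
  have hε : 0 < ENNReal.ofReal (τ - ‖F x - A‖) := ENNReal.ofReal_pos.2 (sub_pos.2 hA)
  have h1 := ht.eventually (gt_mem_nhds hε)
  obtain ⟨δ, hδ, hδΩ⟩ := Metric.isOpen_iff.1 hΩ x hxΩ
  obtain ⟨r, hr, hr'⟩ := (nhdsGT_basis_Ioc (0:ℝ)).eventually_iff.1 h1
  refine ⟨min r δ, lt_min hr hδ, fun ρ hρ => ?_⟩
  have h2 := hr' (x := ρ) ⟨hρ.1, hρ.2.trans (min_le_left _ _)⟩
  simp only [Function.comp] at h2
  have hV : volume (closedBall x ρ) = volume (ball x ρ) :=
    Measure.addHaar_closedBall_eq_addHaar_ball volume x ρ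
  rw [hV, ENNReal.div_lt_iff (Or.inl (Haj.vol_ne_zero x hρ.1)) (Or.inl (Haj.vol_ne_top x ρ))] at h2
  have hsub : ball x ρ ⊆ Ω := (ball_subset_ball (hρ.2.trans (min_le_right _ _))).trans hδΩ
  calc ∫⁻ y in ball x ρ, ‖F y - A‖ₑ
      ≤ ∫⁻ y in ball x ρ, (‖Ω.indicator F y - Ω.indicator F x‖ₑ + ‖F x - A‖ₑ) := by
        refine setLIntegral_mono' measurableSet_ball fun y hy => ?_
        rw [indicator_of_mem (hsub hy), indicator_of_mem hxΩ]
        have : F y - A = (F y - F x) + (F x - A) := by abel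
        rw [this]
        exact enorm_add_le _ _
    _ = (∫⁻ y in ball x ρ, ‖Ω.indicator F y - Ω.indicator F x‖ₑ) +
          ‖F x - A‖ₑ * volume (ball x ρ) := by
        rw [lintegral_add_right _ measurable_const, setLIntegral_const]
    _ ≤ ENNReal.ofReal (τ - ‖F x - A‖) * volume (ball x ρ) + ‖F x - A‖ₑ * volume (ball x ρ) := by
        gcongr
        exact (lintegral_mono_set ball_subset_closedBall).trans h2.le
    _ = ENNReal.ofReal τ * volume (ball x ρ) := by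
        rw [← add_mul, ← ofReal_norm, ← ENNReal.ofReal_add (sub_pos.2 hA).le (norm_nonneg _),
          sub_add_cancel]

theorem ae_maxLe {Ω : Set E3} {F : E3 → (E3 →L[ℝ] E3)} (hΩ : IsOpen Ω)
    (hF : IntegrableOn F Ω volume) :
    ∀ᵐ x, x ∈ Ω → ∀ (A : E3 →L[ℝ] E3) (τ : ℝ), ‖F x - A‖ < τ →
      ∃ r, 0 < r ∧ MaxLe F A x r τ :=
  ae_maxLe0 hΩ hF

/-- countably many types suffice -/
theorem exists_seq (h : TYPE) (τ : ℕ → ℝ) (hτ : ∀ b, 0 < τ b) :
    ∃ T : ℕ → Ty, ∀ B : E3 →L[ℝ] E3, B ≠ 0 → ∃ n, ‖B - (T n).A‖ < τ (T n).b := by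
  obtain ⟨S, hS, hU⟩ := TopologicalSpace.isOpen_iUnion_countable
    (fun T : Ty => ball T.A (τ T.b)) fun _ => isOpen_ball
  have key : ∀ B : E3 →L[ℝ] E3, B ≠ 0 → ∃ T ∈ S, ‖B - T.A‖ < τ T.b := by
    intro B hB
    obtain ⟨T, hT⟩ := h τ hτ B hB
    have : B ∈ ⋃ T : Ty, ball T.A (τ T.b) := by
      refine mem_iUnion.2 ⟨T, ?_⟩
      rw [mem_ball, dist_comm, dist_eq_norm]
      exact hT
    rw [← hU] at this
    obtain ⟨T', hT', hB'⟩ := mem_iUnion₂.1 this
    exact ⟨T', hT', by rwa [mem_ball, dist_eq_norm] at hB'⟩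
  have hne : S.Nonempty := by
    obtain ⟨T, hT, -⟩ := key (ContinuousLinearMap.id ℝ E3) (by
      intro h0
      have := congrArg (fun L : E3 →L[ℝ] E3 => L (fun _ => 1) 0) h0
      simp at this)
    exact ⟨T, hT⟩
  obtain ⟨T, hT⟩ := hS.exists_eq_range hne
  refine ⟨T, fun B hB => ?_⟩
  obtain ⟨T', hT', hB'⟩ := key B hB
  rw [hT] at hT'
  obtain ⟨n, rfl⟩ := hT'
  exact ⟨n, hB'⟩

/-- a common radius for finitely many disjoint compact sets -/
theorem exists_radius {Ω : Set E3} (hΩ : IsOpen Ω) {N : ℕ} {K : Fin N → Set E3}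
    (hK : ∀ j, IsCompact (K j)) (hKΩ : ∀ j, K j ⊆ Ω)
    (hd : ∀ j j', j ≠ j' → Disjoint (K j) (K j')) {R : ℝ} (hR : 0 < R) :
    ∃ r, 0 < r ∧ r ≤ R ∧ (∀ j, cthickening r (K j) ⊆ Ω) ∧
      ∀ j j', j ≠ j' → ∀ x ∈ K j, ∀ y ∈ K j', r ≤ dist x y := by
  have h1 : ∀ᶠ r in 𝓝[>] (0:ℝ), ∀ j, cthickening r (K j) ⊆ Ω := by
    refine eventually_all.2 fun j => ?_
    obtain ⟨δ, hδ, h⟩ := (hK j).exists_cthickening_subset_open hΩ (hKΩ j)
    filter_upwards [Ioc_mem_nhdsGT hδ] with r hr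
    exact (cthickening_mono hr.2 _).trans h
  have h2 : ∀ᶠ r in 𝓝[>] (0:ℝ), ∀ j j', j ≠ j' → ∀ x ∈ K j, ∀ y ∈ K j', r ≤ dist x y := by
    refine eventually_all.2 fun j => eventually_all.2 fun j' => ?_
    by_cases hj : j = j'
    · exact Eventually.of_forall fun _ h => (h hj).elim
    obtain ⟨δ, hδ, h⟩ := Metric.exists_pos_forall_lt_edist (hK j) (hK j').isClosed (hd j j' hj)
    filter_upwards [Ioc_mem_nhdsGT (show (0:ℝ) < δ from hδ)] with r hr _ x hx y hy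
    have := h x hx y hy
    rw [edist_nndist, ENNReal.coe_lt_coe] at this
    exact hr.2.trans (le_of_lt this)
  obtain ⟨r, hr1, hr2, hr3⟩ := (h1.and (h2.and (Ioc_mem_nhdsGT hR))).exists
  exact ⟨r, hr3.1, hr3.2, hr1, hr2⟩

end Ksel

theorem ksel_of (h : TYPE) : KSEL := by
  intro Ω F p τ₀ δ τ hΩ hb hp hF hi _ hδ hτ
  obtain ⟨T, hT⟩ := Ksel.exists_seq h τ hτ
  have hL := Ksel.ae_maxLe hΩ (Ksel.integrableOn hb hp hF hi)
  set G := hF.mk F with hG
  have hGm : StronglyMeasurable G := hF.stronglyMeasurable_mk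
  have hFG : ∀ᵐ x, x ∈ Ω → F x = G x := (ae_restrict_iff' hΩ.measurableSet).1 hF.ae_eq_mk
  obtain ⟨Z, hZ, hZm, hZ0⟩ := exists_measurable_superset_of_null (ae_iff.1 (hL.and hFG))
  have hgood : ∀ x, x ∉ Z → x ∈ Ω → (∀ (A : E3 →L[ℝ] E3) (t : ℝ), ‖F x - A‖ < t →
      ∃ r, 0 < r ∧ MaxLe F A x r t) ∧ F x = G x := by
    intro x hx hxΩ
    have : ¬ ¬ _ := fun h' => hx (hZ h')
    exact ⟨(not_not.1 this).1 hxΩ, (not_not.1 this).2 hxΩ⟩
  set E : ℕ → Set E3 := fun n => {x | ‖G x - (T n).A‖ < τ (T n).b} with hE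
  have hEm : ∀ n, MeasurableSet (E n) := fun n =>
    measurableSet_lt (hGm.sub stronglyMeasurable_const).norm.measurable measurable_const
  set S : ℕ → ℕ → Set E3 := fun n m => ((disjointed E n ∩ Ω) \ Z) ∩
    {x | MaxLe F (T n).A x (1 / ((m : ℝ) + 1)) (τ (T n).b)} with hS
  have hSm : ∀ n m, MeasurableSet (S n m) := fun n m =>
    (((MeasurableSet.disjointed hEm n).inter hΩ.measurableSet).diff hZm).inter
      (Ksel.isClosed_maxLe _ _ _ _).measurableSet
  set P : ℕ → Set E3 := fun m => ⋃ j : Fin m, S j m with hP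
  have hPm : ∀ m, MeasurableSet (P m) := fun m => MeasurableSet.iUnion fun j => hSm j m
  have hPmono : Monotone P := by
    intro m m' hm x hx
    obtain ⟨j, hj⟩ := mem_iUnion.1 hx
    refine mem_iUnion.2 ⟨⟨j, j.2.trans_le hm⟩, hj.1, ?_⟩
    exact Ksel.maxLe_mono hj.2 (Nat.one_div_le_one_div hm)
  set ν : Measure E3 := (volume.restrict Ω).withDensity fun x => ‖F x‖ₑ ^ p with hν
  have : IsFiniteMeasure ν := isFiniteMeasure_withDensity hi.ne
  have hnull : ν (⋂ m, (P m)ᶜ) = 0 := by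
    rw [← compl_iUnion]
    have : ∀ᵐ x ∂ν, x ∈ ⋃ m, P m := by
      rw [hν, ae_withDensity_iff' (hF.enorm.pow_const p), ae_restrict_iff' hΩ.measurableSet]
      filter_upwards [measure_eq_zero_iff_ae_notMem.1 hZ0] with x hxZ hxΩ hx0
      have hF0 : F x ≠ 0 := by
        intro h0
        apply hx0
        have : ‖F x‖ₑ = 0 := by
          rw [← ofReal_norm, h0, norm_zero, ENNReal.ofReal_zero]
        rw [this]
        exact ENNReal.zero_rpow_of_pos (by linarith)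
      obtain ⟨hg1, hg2⟩ := hgood x hxZ hxΩ
      have hxE : x ∈ ⋃ n, disjointed E n := by
        rw [iUnion_disjointed]
        obtain ⟨n, hn⟩ := hT _ hF0
        exact mem_iUnion.2 ⟨n, by simpa only [hE, mem_ofPred_eq, ← hg2] using hn⟩
      obtain ⟨n, hn⟩ := mem_iUnion.1 hxE
      have hn' : ‖F x - (T n).A‖ < τ (T n).b := by
        have := disjointed_subset E n hn
        simpa only [hE, mem_ofPred_eq, ← hg2] using this
      obtain ⟨r, hr, hM⟩ := hg1 _ _ hn'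
      obtain ⟨m, hm⟩ := exists_nat_one_div_lt hr
      refine mem_iUnion.2 ⟨max m (n + 1), mem_iUnion.2 ⟨⟨n, ?_⟩, ⟨⟨hn, hxΩ⟩, hxZ⟩, ?_⟩⟩
      · exact lt_of_lt_of_le (Nat.lt_succ_self n) (le_max_right _ _)
      · exact Ksel.maxLe_mono hM ((Nat.one_div_le_one_div (le_max_left _ _)).trans hm.le)
    exact ae_iff.1 this
  have hδ2 : 0 < δ / 2 := ENNReal.half_pos hδ.ne'
  have ht := tendsto_measure_iInter_atTop (μ := ν) (s := fun m => (P m)ᶜ)
    (fun m => (hPm m).compl.nullMeasurableSet)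
    (fun m m' hm => compl_subset_compl.2 (hPmono hm)) ⟨0, measure_ne_top _ _⟩
  rw [hnull] at ht
  obtain ⟨N, hN⟩ := (ht.eventually (gt_mem_nhds hδ2)).exists
  simp only [Function.comp] at hN
  obtain ⟨ε, hε, hεs⟩ := ENNReal.exists_pos_sum_of_countable' hδ2.ne' (Fin N)
  have hK : ∀ j : Fin N, ∃ K, K ⊆ S j N ∧ IsCompact K ∧ ν (S j N \ K) < ε j := fun j =>
    (hSm j N).exists_isCompact_sdiff_lt (measure_ne_top _ _) (hε j).ne'
  choose K hKS hKc hKν using hK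
  obtain ⟨r, hr, hrR, hr1, hr2⟩ := Ksel.exists_radius hΩ hKc (fun j x hx => (hKS j hx).1.1.2)
    (fun j j' hj => (disjoint_disjointed E (Fin.val_ne_of_ne hj)).mono
      (fun x hx => (hKS j hx).1.1.1) (fun x hx => (hKS j' hx).1.1.1))
    (Nat.one_div_pos_of_nat (n := N))
  refine ⟨N, fun j => T j, K, r, hr, fun j => ⟨hKc j, hr1 j, fun x hx => ⟨?_, ?_⟩⟩, hr2, ?_⟩
  · have h1 := hKS j hx
    have h2 := disjointed_subset E j h1.1.1.1
    rw [(hgood x h1.1.2 h1.1.1.2).2]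
    exact le_of_lt h2
  · exact Ksel.maxLe_mono (hKS j hx).2 hrR
  · have hm : MeasurableSet (Ω \ ⋃ j, K j) :=
      hΩ.measurableSet.diff (MeasurableSet.iUnion fun j => (hKc j).measurableSet)
    have e : ∫⁻ x in Ω \ ⋃ j, K j, ‖F x‖ₑ ^ p = ν (Ω \ ⋃ j, K j) := by
      rw [hν, withDensity_apply _ hm, Measure.restrict_restrict hm,
        inter_eq_left.2 sdiff_subset]
    rw [e]
    have hsub : Ω \ ⋃ j, K j ⊆ (P N)ᶜ ∪ ⋃ j : Fin N, (S j N \ K j) := by
      intro x hx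
      by_cases hxP : x ∈ P N
      · obtain ⟨j, hj⟩ := mem_iUnion.1 hxP
        exact Or.inr (mem_iUnion.2 ⟨j, hj, fun hK => hx.2 (mem_iUnion.2 ⟨j, hK⟩)⟩)
      · exact Or.inl hxP
    calc ν (Ω \ ⋃ j, K j) ≤ ν (P N)ᶜ + ν (⋃ j : Fin N, (S j N \ K j)) :=
          (measure_mono hsub).trans (measure_union_le _ _)
      _ ≤ δ / 2 + δ / 2 := by
          refine add_le_add hN.le ((measure_iUnion_le _).trans (le_trans ?_ hεs.le))
          exact ENNReal.tsum_le_tsum fun j => (hKν j).le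
      _ = δ := ENNReal.add_halves δ
      _ ≤ _ := le_add_self

end P073
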