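import Vale.Agent.P073Z.Sk2
import Vale.Agent.P073Z.SHELL.A

/-!
# Pseudo-surfaces from the essential normal surface
-/

open Set Metric Topology Filter MeasureTheory

namespace P073

namespace PSa

/-- a gauge of Lebesgue type below local radii -/
theorem exists_gauge {E : Type} [PseudoMetricSpace E] {X : Set E} (δ : E → ℝ)
    (hδ : ∀ u ∈ X, 0 < δ u ∧ δ u ≤ 1) : ∃ r : E → ℝ, Gauge r X ∧ ∀ x ∈ X, ∀ y ∈ X, ∀ t : ℝ,
      dist y x < r x → t < r y → ∃ u ∈ X, dist x u < δ u ∧ dist y u < δ u ∧ t < δ u := by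
  rcases X.eq_empty_or_nonempty with rfl | hne
  · exact ⟨fun _ => 1, ⟨continuousOn_const, fun _ _ => one_pos⟩, fun _ h => h.elim⟩
  have := hne.to_subtype
  set R : E → ℝ := fun x => ⨆ u : X, (δ u - dist x u) with hR
  have hb : ∀ x : E, BddAbove (range fun u : X => δ u - dist x u) := fun x =>
    ⟨1, by
      rintro _ ⟨u, rfl⟩
      linarith [(hδ u u.2).2, dist_nonneg (x := x) (y := u)]⟩
  have h1 : ∀ x y, R x ≤ R y + dist x y := by
    intro x y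
    refine ciSup_le fun u => ?_
    have : δ u - dist y u ≤ R y := le_ciSup (hb y) u
    linarith [dist_triangle y x u, dist_comm x y]
  have h2 : ∀ x ∈ X, 0 < R x := by
    intro x hx
    have : δ x - dist x x ≤ R x := le_ciSup (hb x) ⟨x, hx⟩
    rw [dist_self, sub_zero] at this
    exact (hδ x hx).1.trans_le this
  refine ⟨fun x => R x / 2, ⟨((LipschitzWith.of_le_add h1).continuous.div_const 2).continuousOn,
    fun x hx => half_pos (h2 x hx)⟩, fun x hx y hy t h3 h4 => ?_⟩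
  obtain ⟨u, hu⟩ := exists_lt_of_lt_ciSup
    (show 3 / 4 * R x < ⨆ u : X, (δ u - dist x u) by linarith [h2 x hx])
  have h5 := h1 y x
  have h6 := dist_triangle y x u
  have h7 := dist_nonneg (x := x) (y := u)
  refine ⟨u, u.2, ?_, ?_, ?_⟩ <;> linarith [h2 x hx]

/-- uniform continuity along the fibres -/
theorem exists_radius {E F : Type} [PseudoMetricSpace E] [PseudoMetricSpace F] {G : Set E}
    {σ : E × ℝ → F} (hσ : ContinuousOn σ (G ×ˢ Ioo (-1) 1)) {ε : E → ℝ} (hε : Gauge ε G) {u : E}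
    (hu : u ∈ G) : ∃ δ : ℝ, (0 < δ ∧ δ ≤ 1) ∧ ∀ x ∈ G, ∀ y ∈ G, ∀ c ∈ Ioo (-1 / 2 : ℝ) (1 / 2),
      ∀ s : ℝ, dist x u < δ → dist y u < δ → |s - c| < δ →
        dist (σ (y, s)) (σ (x, c)) < ε x / 2 := by
  have he := hε.2 u hu
  have hK : IsCompact (({u} : Set E) ×ˢ Icc (-1 / 2 : ℝ) (1 / 2)) :=
    isCompact_singleton.prod isCompact_Icc
  have hKs : ({u} : Set E) ×ˢ Icc (-1 / 2 : ℝ) (1 / 2) ⊆ G ×ˢ Ioo (-1) 1 := by
    rintro ⟨a, b⟩ ⟨rfl, hb⟩
    exact ⟨hu, by linarith [hb.1], by linarith [hb.2]⟩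
  obtain ⟨a, ha, h2⟩ : ∃ a > 0, ∀ c ∈ Icc (-1 / 2 : ℝ) (1 / 2), ∀ q ∈ G ×ˢ Ioo (-1 : ℝ) 1,
      dist q (u, c) < a → dist (σ q) (σ (u, c)) < ε u / 8 := by
    obtain ⟨a, ha, h3⟩ := lebesgue_number_lemma_of_metric hK
      (c := fun p : ({u} : Set E) ×ˢ Icc (-1 / 2 : ℝ) (1 / 2) =>
        interior {q | q ∈ G ×ˢ Ioo (-1 : ℝ) 1 → dist (σ q) (σ p) < ε u / 16})
      (fun _ => isOpen_interior) (by
        intro p hp
        refine mem_iUnion.2 ⟨⟨p, hp⟩, mem_interior_iff_mem_nhds.2 ?_⟩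
        exact eventually_nhdsWithin_iff.1
          (Metric.tendsto_nhds.1 (hσ p (hKs hp)) _ (by positivity)))
    refine ⟨a, ha, fun c hc q hq hd => ?_⟩
    obtain ⟨p, hp⟩ := h3 (u, c) ⟨rfl, hc⟩
    have h4 := interior_subset (hp hd) hq
    have h5 := interior_subset (hp (mem_ball_self ha)) (hKs ⟨rfl, hc⟩)
    linarith [dist_triangle_right (σ q) (σ (u, c)) (σ p)]
  obtain ⟨b, hb, h3⟩ := Metric.continuousWithinAt_iff.1 (hε.1 u hu) _ (half_pos he)
  refine ⟨min (min a b) (1 / 2), ⟨by positivity, (min_le_right _ _).trans (by norm_num)⟩,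
    fun x hx y hy c hc s h4 h5 h6 => ?_⟩
  simp only [lt_min_iff] at h4 h5 h6
  have h7 := h2 c (Ioo_subset_Icc_self hc) (y, s)
    ⟨hy, by linarith [(abs_lt.1 h6.2).1, hc.1], by linarith [(abs_lt.1 h6.2).2, hc.2]⟩
    (by rw [Prod.dist_eq]; exact max_lt h5.1.1 h6.1.1)
  have h8 := h2 c (Ioo_subset_Icc_self hc) (x, c) ⟨hx, by linarith [hc.1], by linarith [hc.2]⟩
    (by rw [Prod.dist_eq, dist_self]; exact max_lt h4.1.1 ha)
  have h9 := h3 hx h4.1.2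
  rw [Real.dist_eq] at h9
  linarith [dist_triangle_right (σ (y, s)) (σ (x, c)) (σ (u, c)), (abs_lt.1 h9).1]

/-- product of a conical homeomorphism with the identity -/
def prodId {E F H : Type} [NormedAddCommGroup E] [NormedSpace ℝ E] [NormedAddCommGroup F]
    [NormedSpace ℝ F] [NormedAddCommGroup H] [NormedSpace ℝ H] {X : Set E} {Y : Set F}
    (Φ : ConHomeo X Y) {Z : Set H} (hZ : ConicalSet Z) : ConHomeo (X ×ˢ Z) (Y ×ˢ Z) where
  toFun q := (Φ.toFun q.1, q.2)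
  invFun q := (Φ.invFun q.1, q.2)
  mapsTo := fun _ hq => ⟨Φ.mapsTo hq.1, hq.2⟩
  mapsTo_inv := fun _ hq => ⟨Φ.mapsTo_inv hq.1, hq.2⟩
  left_inv := fun _ hq => Prod.ext (Φ.left_inv hq.1) rfl
  right_inv := fun _ hq => Prod.ext (Φ.right_inv hq.1) rfl
  cont := (Φ.cont.comp continuousOn_fst fun _ hq => hq.1).prodMk continuousOn_snd
  cont_inv := (Φ.cont_inv.comp continuousOn_fst fun _ hq => hq.1).prodMk continuousOn_snd
  conical := (Φ.conical.comp (conicalOn_linear (LinearMap.fst ℝ E H)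
    (Sh.conicalSet_prod Φ.conicalSet_left hZ)) (fun _ hq => hq.1) continuousOn_fst).prodMk
    (conicalOn_linear (LinearMap.snd ℝ E H) (Sh.conicalSet_prod Φ.conicalSet_left hZ))

end PSa

open PSa in
theorem ps_of (hA : APX2) (hS : SURF) (hC : COL) : PS := by
  intro E _ _ _ G V π ψ σ ι a b 𝓛 ε hG hV h hbv hlf hw hL hε
  choose! δ hδ hδ' using fun u (hu : u ∈ G) => exists_radius h.cont_inv hε hu
  obtain ⟨r, hr, hr'⟩ := exists_gauge δ hδ
  have key : ∀ c ∈ Ioo (-1 / 2 : ℝ) (1 / 2), ∀ u ∈ G, ∀ x ∈ V, dist (π x) u < r u →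
      |ψ x - c| < r (π x) → dist x (σ (u, c)) < ε u / 2 := by
    intro c hc u hu x hx h1 h2
    obtain ⟨w, hw, h3, h4, h5⟩ := hr' u hu (π x) (h.mapsTo hx).1 _ h1 h2
    have := hδ' w hw u hu (π x) (h.mapsTo hx).1 c hc (ψ x) h3 h4 h5
    rwa [h.left_inv hx] at this
  obtain ⟨Θ, hΘ, hs⟩ := hS hG
  obtain ⟨𝓡, h𝓡, hΦ⟩ := hA Θ hG hr hΘ
  obtain ⟨c, hc, S, P, M, s1, s2, s3, s4, s5, s6, s7, s8, s9, s10, s11, s12⟩ :=
    hs a b 𝓡 hV h hbv hlf hw hL h𝓡 hr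
  obtain ⟨Φ, hΦ⟩ := hΦ S π s3 (h.cont.fst.mono s1) (fun x hx => (h.mapsTo (s1 hx)).1) s11
  obtain ⟨Y, κ, lam, y1, y2, -, y3, y4, y5, y6⟩ := hC (ε := fun x => ε (Φ.invFun x) / 2) hV s1 s2 s3
    s4 s5 s6 s7 s8 s9 ⟨(hε.1.comp Φ.cont_inv Φ.mapsTo_inv).div_const 2,
      fun x hx => half_pos (hε.2 _ (Φ.mapsTo_inv hx))⟩
  have near : ∀ u ∈ G, ∀ s ∈ Icc (-1:ℝ) 1,
      dist (κ.toFun (Φ.toFun u, s)) (σ (u, c)) < ε u := by
    intro u hu s hs
    have hx := Φ.mapsTo hu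
    have h1 := ((y4 _ hx).2 s hs).2
    rw [Φ.left_inv hu] at h1
    have h0 : Φ.toFun u ∉ P ∪ M := fun h => (s7 ▸ h).2 hx
    have h2 := key c hc.2 u hu _ (s1 hx) (hΦ u hu) (by
      rw [abs_lt]
      constructor
      · by_contra h3
        exact h0 (Or.inr ((s10 _ (s1 hx)).2 (by linarith)))
      · by_contra h3
        exact h0 (Or.inl ((s10 _ (s1 hx)).1 (by linarith))))
    linarith [dist_triangle (κ.toFun (Φ.toFun u, s)) (Φ.toFun u) (σ (u, c))]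
  refine ⟨c, hc, Y, (prodId Φ (Convex.conicalSet (convex_Icc _ _))).trans κ, lam, y1, y2, y3,
    fun u hu s hs => ⟨((y4 _ (Φ.mapsTo hu)).2 s hs).1, near u hu s hs⟩, y5, fun x hx hfar => ?_,
    fun i u hu hi => ?_⟩
  · have h1 : x ∉ Y := by
      intro hy
      have h2 := κ.mapsTo_inv hy
      have h3 := near _ (Φ.mapsTo_inv h2.1) _ h2.2
      rw [Φ.right_inv h2.1, Prod.mk.eta, κ.right_inv hy] at h3
      exact h3.not_ge (hfar _ (Φ.mapsTo_inv h2.1))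
    have h2 : r (π x) ≤ |ψ x - c| := by
      by_contra h2
      have hu := (h.mapsTo hx).1
      have h3 := key c hc.2 _ hu x hx (by rw [dist_self]; exact hr.2 _ hu) (not_le.1 h2)
      linarith [hfar _ hu, hε.2 _ hu]
    constructor
    · intro h3
      rw [abs_of_pos (sub_pos.2 h3)] at h2
      have h4 := (y6 x hx).1.1 ((s10 x hx).1 (by linarith))
      exact (y5 x ⟨hx, h1⟩).resolve_right fun e => by linarith
    · intro h3
      rw [abs_of_neg (sub_neg.2 h3)] at h2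
      have h4 := (y6 x hx).2.1 ((s10 x hx).2 (by linarith))
      exact (y5 x ⟨hx, h1⟩).resolve_left fun e => by linarith
  · have h1 : ((prodId Φ (Convex.conicalSet (convex_Icc _ _))).trans κ).toFun (u, 0) =
        Φ.toFun u := (y4 _ (Φ.mapsTo hu)).1
    rw [h1] at hi ⊢
    exact s12 i _ (Φ.mapsTo hu) hi

end P073
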