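import Vale.Agent.P073Z.STR.Vert
import Vale.Agent.P073Z.STR.Cross
import Vale.Agent.P073Z.STR.Lev
import Vale.Agent.P073Z.STR.Tent
import Vale.Agent.P073Z.STR.Edge
import Vale.Agent.P073Z.PUSH.A

/-!
# Straightening the good edges
-/

open Set Metric Topology Filter MeasureTheory
open scoped ENNReal NNReal

namespace P073

open STR in
theorem str_of_edge (hCS : CS) (hE : EDGE) : STR := by
  refine ⟨kap, kap_pos, fun Q f β γ hβ hO hQ hf => ?_⟩
  have hex : ∀ p : Q.ι × Fin 3 × Bool, ∃ A : Set ℝ, p.1 ∈ γ.G → Q.dim p.1 = 0 →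
      MeasurableSet A ∧ volume A ≠ 0 ∧
        ∀ x, Q.cell p.1 = {x} → ∀ t ∈ A, LevOK γ p.1 x p.2 t := by
    intro p
    by_cases h : p.1 ∈ γ.G ∧ Q.dim p.1 = 0
    · obtain ⟨x, hx⟩ := Q.exists_vertex h.2
      obtain ⟨A, h1, h2, h3⟩ := exists_levels γ lev hQ hf h.1 h.2 hx p.2
      refine ⟨A, fun _ _ => ⟨h1, h2, fun y hy => ?_⟩⟩
      obtain rfl : x = y := singleton_injective (hx.symm.trans hy)
      exact h3
    · exact ⟨∅, fun h1 h2 => absurd ⟨h1, h2⟩ h⟩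
  choose A hA using hex
  refine ⟨A, fun v hv hv0 k => ⟨(hA (v, k) hv hv0).1, (hA (v, k) hv hv0).2.1⟩,
    fun t Y ψ ht hψ hfin => ?_⟩
  obtain ⟨R, hR⟩ := stage1 γ hCS cross hβ hO hQ t ψ (fun v hv x hv0 hx k =>
    ⟨(hA (v, k) hv hv0).2.2 x hx _ (ht v hv hv0 k).1, fun e y he =>
      (ht v hv hv0 k).2 e x y he.1 (hx ▸ singleton_subset_iff.2 he.left_mem) he.2.2.1⟩) hψ hfin
  exact hE Q γ _ R hβ hO hQ hR hfin

theorem str_of (hCS : CS) : STR := str_of_edge hCS (STR.edge_of hCS (STR.tent_of nearid))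

end P073
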