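import Vale.Agent.P073Z.SCH3F
import Vale.Agent.P073Z.CS
import Vale.Agent.P073Z.STR
import Vale.Agent.P073Z.Cone
import Vale.Agent.P073Z.TOPO.Fill

/-!
# Unconditional forms: cone surgery, straightening, filling
-/

namespace P073

theorem cs_thm : CS := cs_of star_thm

theorem str_thm : STR := str_of cs_thm

theorem fill_thm : FILL := fill_of cone2 cone3 sch3 asmg jb

end P073
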