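import Vale.Agent.P073Z.Collapse

/-!
# Filling of a PL sphere off one point, from the cellularity of the core
-/

open Set Metric Topology Filter

namespace P073

/-- the core of the inside of a bicollared sphere is cellular -/
def CELL : Prop := ∀ {S Y : Set E3} (κ : ConHomeo (S ×ˢ Icc (-1:ℝ) 1) Y) (lam : E3 → ℝ),
  ConSphere 2 S → IsOpen (κ.toFun '' (S ×ˢ Ioo (-1) 1)) → PLOn lam univ →
  (∀ x ∈ S, κ.toFun (x, 0) = x ∧ ∀ s ∈ Icc (-1:ℝ) 1, lam (κ.toFun (x, s)) = s) →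
  (∀ y, y ∉ Y → lam y = 1 ∨ lam y = -1) →
  (∀ y, (y ∈ (S ∪ Inside S)ᶜ ↔ 0 < lam y) ∧ (y ∈ Inside S ↔ lam y < 0)) →
  ∀ U, IsOpen U → {y | lam y = -1} ⊆ U →
    ∃ D B, ConBall 3 D B ∧ {y | lam y = -1} ⊆ D \ B ∧ D ⊆ U

namespace Sch3Fin

/-- a chart of a ball centred at a given interior point -/
theorem exists_chart (hM : MOVE) {E : Type} [NormedAddCommGroup E] [NormedSpace ℝ E] {n : ℕ}
    {C B : Set E} {z : E} (h : ConBall n C B) (hz : z ∈ C \ B) :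
    ∃ ψ : ConHomeo C (closedBall (0 : Fin n → ℝ) 1), ψ.toFun '' B = sphere 0 1 ∧ ψ.toFun z = 0 := by
  obtain ⟨hBC, φ, hφ⟩ := id h
  have h0 : (0 : Fin n → ℝ) ∈ closedBall (0 : Fin n → ℝ) 1 := mem_closedBall_self zero_le_one
  obtain ⟨Θ, K, -, hK, h1, h2⟩ := hM (q := φ.invFun 0) h hz ⟨φ.mapsTo_inv h0, fun hb => by
    have h1 : φ.toFun (φ.invFun 0) ∈ sphere (0 : Fin n → ℝ) 1 := hφ ▸ mem_image_of_mem _ hb
    rw [φ.right_inv h0] at h1
    simp at h1⟩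
  refine ⟨Θ.trans φ, ?_, ?_⟩
  · rw [← hφ]
    refine image_congr fun x hx => ?_
    show φ.toFun (Θ.toFun x) = _
    rw [h1 x ⟨hBC hx, fun hk => (hK hk).2 hx⟩]
  · show φ.toFun (Θ.toFun z) = _
    rw [h2, φ.right_inv h0]

/-- polar coordinates of a punctured ball, with values in the inner collar -/
theorem exists_polar (hM : MOVE) (hP : PUNCT) {E : Type} [NormedAddCommGroup E] [NormedSpace ℝ E]
    {C B : Set E} {S : Set E3} (e : ConHomeo B S) {z : E} (h : ConBall 3 C B) (hz : z ∈ C \ B) :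
    ∃ q : E → E3 × ℝ, ContinuousOn q (C \ {z}) ∧ ConicalOn q (C \ {z}) ∧
      BijOn q (C \ {z}) (S ×ˢ Ioc (-1:ℝ) 0) ∧ (∀ x ∈ B, q x = (e.toFun x, 0)) ∧
      Tendsto (fun c => (q c).2) (𝓝[C \ {z}] z) (𝓝 (-1)) := by
  obtain ⟨ψ, hψ, hψz⟩ := exists_chart hM h hz
  obtain ⟨R, hR⟩ := hP 3
  have hcon : ConicalSet (C \ {z}) :=
    h.conicalSet.inter (IsOpen.conicalSet isOpen_compl_singleton)
  have m1 : MapsTo ψ.toFun (C \ {z}) (closedBall 0 1 \ {0}) := fun c hc =>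
    ⟨ψ.mapsTo hc.1, fun e => hc.2 (ψ.injOn hc.1 hz.1 (e.trans hψz.symm))⟩
  have m2 : MapsTo (R.invFun ∘ ψ.toFun) (C \ {z}) (sphere 0 1 ×ˢ Ioc 0 1) := R.mapsTo_inv.comp m1
  have c2 : ContinuousOn (R.invFun ∘ ψ.toFun) (C \ {z}) :=
    R.cont_inv.comp (ψ.cont.mono sdiff_subset) m1
  have k2 : ConicalOn (R.invFun ∘ ψ.toFun) (C \ {z}) :=
    R.conical_inv.comp (ψ.conical.mono hcon sdiff_subset) m1 (ψ.cont.mono sdiff_subset)
  have m3 : MapsTo ψ.invFun (sphere 0 1) B := by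
    intro x hx
    rw [← hψ] at hx
    obtain ⟨b, hb, rfl⟩ := hx
    rwa [ψ.left_inv (h.1 hb)]
  have m4 : MapsTo ψ.toFun B (sphere 0 1) := fun b hb => hψ ▸ mem_image_of_mem _ hb
  have c3 : ContinuousOn (e.toFun ∘ ψ.invFun) (sphere 0 1) :=
    e.cont.comp (ψ.cont_inv.mono sphere_subset_closedBall) m3
  have k3 : ConicalOn (e.toFun ∘ ψ.invFun) (sphere 0 1) :=
    e.conical.comp (ψ.conical_inv.mono (conicalSet_sphere_pi 3) sphere_subset_closedBall) m3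
      (ψ.cont_inv.mono sphere_subset_closedBall)
  have hn : ∀ c ∈ C \ {z}, (R.invFun (ψ.toFun c)).2 = ‖ψ.toFun c‖ := by
    intro c hc
    exact ((hR _ (m2 hc).1).2 _ (m2 hc).2).symm.trans (congrArg _ (R.right_inv (m1 hc)))
  refine ⟨fun c => (e.toFun (ψ.invFun (R.invFun (ψ.toFun c)).1), (R.invFun (ψ.toFun c)).2 - 1),
    ?_, ?_, ⟨?_, ?_, ?_⟩, ?_, ?_⟩
  · exact (c3.comp c2.fst fun c hc => (m2 hc).1).prodMk (c2.snd.sub continuousOn_const)
  · exact (k3.comp (k2.linear_comp (LinearMap.fst ℝ _ _)) (fun c hc => (m2 hc).1) c2.fst).prodMk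
      ((k2.linear_comp (LinearMap.snd ℝ _ _)).sub (conicalOn_const 1 hcon))
  · intro c hc
    have : (R.invFun (ψ.toFun c)).2 ∈ Ioc (0:ℝ) 1 := (m2 hc).2
    have h1 : (R.invFun (ψ.toFun c)).2 - 1 ∈ Ioc (-1:ℝ) 0 :=
      ⟨by linarith [this.1], by linarith [this.2]⟩
    exact ⟨e.mapsTo (m3 (m2 hc).1), h1⟩
  · intro c hc c' hc' he
    have h1 := ψ.symm.injOn (sphere_subset_closedBall (m2 hc).1)
      (sphere_subset_closedBall (m2 hc').1)
      (e.injOn (m3 (m2 hc).1) (m3 (m2 hc').1) (congrArg Prod.fst he))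
    have h2 := sub_left_injective (congrArg Prod.snd he)
    exact ψ.injOn hc.1 hc'.1 (R.symm.injOn (m1 hc) (m1 hc') (Prod.ext h1 h2))
  · rintro ⟨x, s⟩ ⟨hx, hs⟩
    have h1 : (ψ.toFun (e.invFun x), s + 1) ∈ sphere (0 : Fin 3 → ℝ) 1 ×ˢ Ioc (0:ℝ) 1 :=
      ⟨m4 (e.mapsTo_inv hx), by linarith [hs.1], by linarith [hs.2]⟩
    have h2 := R.mapsTo h1
    refine ⟨ψ.invFun (R.toFun (ψ.toFun (e.invFun x), s + 1)), ⟨ψ.mapsTo_inv h2.1, fun h3 => ?_⟩, ?_⟩
    · refine h2.2 ?_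
      rw [← ψ.right_inv h2.1, mem_singleton_iff.1 h3, hψz]
      rfl
    · simp only [ψ.right_inv h2.1, R.left_inv h1, ψ.left_inv (h.1 (e.mapsTo_inv hx)),
        e.right_inv hx, add_sub_cancel_right]
  · intro x hx
    have h1 : R.invFun (ψ.toFun x) = (ψ.toFun x, 1) := by
      conv_lhs => rw [← (hR _ (m4 hx)).1]
      exact R.left_inv ⟨m4 hx, zero_lt_one, le_rfl⟩
    simp only [h1, ψ.left_inv (h.1 hx), sub_self]
  · have h1 : Tendsto (fun c => ‖ψ.toFun c‖ - 1) (𝓝[C \ {z}] z) (𝓝 (‖ψ.toFun z‖ - 1)) :=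
      (((ψ.cont z hz.1).mono sdiff_subset).norm.sub continuousWithinAt_const).tendsto
    rw [hψz, norm_zero, zero_sub] at h1
    refine h1.congr' ?_
    filter_upwards [self_mem_nhdsWithin] with c hc
    rw [hn c hc]

end Sch3Fin

open Sch3Fin in
theorem sch3_of_cell (hJ : JB) (hC : COL) (hX : MANEX) (hM : MOVE) (hP : PUNCT) (hS : SHRINK)
    (hcell : CELL) : SCH3 := by
  intro E _ _ C B S N e z h hz hN hN'
  classical
  have hSs : ConSphere 2 S := by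
    obtain ⟨φ⟩ := h.conSphere
    exact ⟨e.symm.trans φ⟩
  obtain ⟨j1, j2, -, -, j3, j4, -⟩ := hJ.1 hSs
  obtain ⟨Y, κ, lam, -, -, l1, l2, l3, l4, l5⟩ := hC (S := S) (U := univ) (P := (S ∪ Inside S)ᶜ)
    (M := Inside S) (ε := fun _ => 1) isOpen_univ (subset_univ _)
    (fun x _ hx => by rwa [← j2, isClosed_frontier.closure_eq, j2] at hx) (hX.2.1 hSs)
    j4.isClosed.isOpen_compl j1 (disjoint_compl_left_iff_subset.2 subset_union_right) (by
      ext x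
      have : x ∈ Inside S → x ∉ S := fun h => h.1
      simp only [mem_union, mem_compl_iff, Set.mem_sdiff, mem_univ, true_and]
      tauto) (j3.symm.subset.trans frontier_subset_closure)
    (j2.symm.subset.trans frontier_subset_closure) ⟨continuousOn_const, fun _ _ => one_pos⟩
  have hl : Continuous lam := continuousOn_univ.1 l2.1
  have hAV : {y | lam y = -1} ⊆ Inside S := fun y hy =>
    (l5 y (mem_univ y)).2.2 (by rw [show lam y = -1 from hy]; norm_num)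
  have hA : IsCompact {y | lam y = -1} :=
    j4.of_isClosed_subset (isClosed_eq hl continuous_const) (hAV.trans subset_union_right)
  have hSne : S.Nonempty := by
    obtain ⟨φ⟩ := hSs
    obtain ⟨p, hp⟩ : (sphere (0 : Fin (2 + 1) → ℝ) 1).Nonempty :=
      NormedSpace.sphere_nonempty.2 zero_le_one
    exact ⟨_, φ.mapsTo_inv hp⟩
  obtain ⟨x₀, hx₀⟩ := hSne
  obtain ⟨Φ, Ψ, a, K, -, hK, ha, haN, hΦ, h1, h2, h3, h4⟩ := collapse_of hS hA
    ⟨κ.toFun (x₀, -1), ((l3 x₀ hx₀).2 _ (by simp)).1⟩ j1 hAV hN hN'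
    (hcell κ lam hSs l1 l2 (fun x hx => ⟨(l3 x hx).1, fun s hs => ((l3 x hx).2 s hs).1⟩)
      (fun y hy => l4 y ⟨mem_univ y, hy⟩) fun y => l5 y (mem_univ y))
  obtain ⟨q, q1, q2, q3, q4, q5⟩ := exists_polar hM hP e h hz
  have m1 : MapsTo q (C \ {z}) (S ×ˢ Icc (-1:ℝ) 1) := fun c hc =>
    ⟨(q3.mapsTo hc).1, (q3.mapsTo hc).2.1.le, (q3.mapsTo hc).2.2.trans zero_le_one⟩
  have hlam : ∀ c ∈ C \ {z}, lam (κ.toFun (q c)) = (q c).2 :=
    fun c hc => ((l3 _ (m1 hc).1).2 _ (m1 hc).2).1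
  have m2 : MapsTo (κ.toFun ∘ q) (C \ {z}) {y | lam y = -1}ᶜ := by
    intro c hc e'
    have := (q3.mapsTo hc).2.1
    rw [← hlam c hc] at this
    exact this.ne' e'
  have m3 : MapsTo (κ.toFun ∘ q) (C \ {z}) (S ∪ Inside S) := by
    intro c hc
    by_contra h5
    have h6 := (l5 _ (mem_univ _)).1.1 h5
    have := (q3.mapsTo hc).2.2
    rw [← hlam c hc] at this
    exact this.not_gt h6
  have hout : ∀ y, y ∉ S ∪ Inside S → Φ y = y ∧ y ∈ {y | lam y = -1}ᶜ := fun y hy =>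
    ⟨h1 y fun hk => hy (Or.inr (hK hk)), fun h5 => hy (Or.inr (hAV h5))⟩
  have c1 : ContinuousOn (κ.toFun ∘ q) (C \ {z}) := κ.cont.comp q1 m1
  set H : E → E3 := Function.update (Φ ∘ κ.toFun ∘ q) z a with hH
  have H1 : ∀ c, c ≠ z → H c = Φ (κ.toFun (q c)) := fun c hc => Function.update_of_ne hc _ _
  have H0 : H z = a := Function.update_self _ _ _
  have hc : ContinuousOn H C := by
    rw [hH, continuousOn_update_iff]
    refine ⟨hΦ.comp_continuousOn c1, fun _ => ?_⟩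
    rw [Metric.tendsto_nhds]
    intro ε hε
    have hL : IsCompact ((S ∪ Inside S) \ Φ ⁻¹' ball a ε) := j4.diff (isOpen_ball.preimage hΦ)
    have h5 : {t : ℝ | t ∉ lam '' ((S ∪ Inside S) \ Φ ⁻¹' ball a ε)} ∈ 𝓝 (-1 : ℝ) := by
      refine (hL.image hl).isClosed.isOpen_compl.mem_nhds ?_
      rintro ⟨y, hy, e'⟩
      exact hy.2 (by rw [mem_preimage, h2 y e']; exact mem_ball_self hε)
    filter_upwards [q5 h5, self_mem_nhdsWithin] with c h6 hc
    by_contra h7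
    exact h6 ⟨_, ⟨m3 hc, h7⟩, hlam c hc⟩
  have hi : InjOn H C := by
    intro c hc c' hc' e'
    by_cases h5 : c = z
    · by_contra h6
      rw [h5, H0, H1 c' fun h => h6 (h5.trans h.symm)] at e'
      exact h3.mapsTo (m2 ⟨hc', fun h => h6 (h5.trans (mem_singleton_iff.1 h).symm)⟩) e'.symm
    by_cases h6 : c' = z
    · rw [h6, H0, H1 c h5] at e'
      exact absurd e' (h3.mapsTo (m2 ⟨hc, h5⟩))
    rw [H1 c h5, H1 c' h6] at e'
    exact q3.injOn ⟨hc, h5⟩ ⟨hc', h6⟩ (κ.injOn (m1 ⟨hc, h5⟩) (m1 ⟨hc', h6⟩)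
      (h3.left_inv.injOn (m2 ⟨hc, h5⟩) (m2 ⟨hc', h6⟩) e'))
  have him : H '' C = S ∪ Inside S := by
    refine Subset.antisymm ?_ fun y hy => ?_
    · rintro _ ⟨c, hc, rfl⟩
      by_cases h5 : c = z
      · rw [h5, H0]
        exact Or.inr ha
      rw [H1 c h5]
      by_contra h6
      have h7 := h3.left_inv.injOn (hout _ h6).2 (m2 ⟨hc, h5⟩) (hout _ h6).1
      exact h6 (h7 ▸ m3 ⟨hc, h5⟩)
    · by_cases h5 : y = a
      · exact ⟨z, hz.1, H0.trans h5.symm⟩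
      have h6 : Ψ y ∈ S ∪ Inside S := by
        by_contra h6
        have h7 := (hout _ h6).1
        rw [h3.right_inv h5] at h7
        exact h6 (h7 ▸ hy)
      have h7 : ¬ 0 < lam (Ψ y) := fun h => (l5 _ (mem_univ _)).1.2 h h6
      have h8 : lam (Ψ y) ≠ -1 := h3.mapsTo_inv h5
      have h9 : Ψ y ∈ Y := by
        by_contra h9
        rcases l4 _ ⟨mem_univ _, h9⟩ with h | h
        · exact h7 (h ▸ one_pos)
        · exact h8 h
      have h10 := κ.mapsTo_inv h9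
      have h11 := ((l3 _ h10.1).2 _ h10.2).1
      rw [Prod.mk.eta, κ.right_inv h9] at h11
      obtain ⟨c, hc, e'⟩ := q3.surjOn (show κ.invFun (Ψ y) ∈ S ×ˢ Ioc (-1:ℝ) 0 from
        ⟨h10.1, lt_of_le_of_ne h10.2.1 (h11 ▸ h8.symm), h11 ▸ not_lt.1 h7⟩)
      exact ⟨c, hc.1, by rw [H1 c hc.2, e', κ.right_inv h9, h3.right_inv h5]⟩
  have : Nonempty E := ⟨z⟩
  refine ⟨H, Function.invFunOn H C, ⟨him ▸ mapsTo_image _ _, fun y hy => ?_,
    hi.leftInvOn_invFunOn, fun y hy => ?_, hc,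
    him ▸ A8a.continuousOn_invFunOn h.isCompact hc hi⟩, fun x hx => ?_, ?_, H0 ▸ haN⟩
  · exact Function.invFunOn_mem (him.symm.subset hy)
  · exact Function.invFunOn_eq (him.symm.subset hy)
  · rw [H1 x fun h => hz.2 (h ▸ hx), q4 x hx, (l3 _ (e.mapsTo hx)).1]
    exact h1 _ fun hk => (hK hk).1 (e.mapsTo hx)
  · exact (h4.comp (κ.conical.comp q2 m1 q1) m2 c1).congr fun c hc => H1 c hc.2

end P073
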