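import Vale.Agent.P073Z.Sk1

/-!
# Winding numbers and the jump lemma
-/

open Set Metric Topology Filter MeasureTheory Bornology
open scoped ContDiff

namespace P073

open Vale.Agent.P251.G Vale.Agent.P205.TI.Deg

variable {n : ℕ}

/-- Tietze extension for maps into `Fin n → ℝ` -/
theorem exists_cont_ext {T : Type} [TopologicalSpace T] [NormalSpace T] {K : Set T}
    (hK : IsClosed K) {f : T → (Fin n → ℝ)} (hf : ContinuousOn f K) :
    ∃ F : T → (Fin n → ℝ), Continuous F ∧ EqOn F f K := by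
  obtain ⟨F, hF⟩ := ContinuousMap.exists_restrict_eq hK
    (⟨K.domRestrict f, continuousOn_iff_continuous_domRestrict.1 hf⟩ : C(K, Fin n → ℝ))
  exact ⟨F, F.continuous, fun x hx => congrArg (fun G : C(K, Fin n → ℝ) => G ⟨x, hx⟩) hF⟩

section deg

variable {W : Set (Fin n → ℝ)} {f g : (Fin n → ℝ) → (Fin n → ℝ)}

/-- Rouche -/
theorem degR_near (hW : IsOpen W) (hWb : IsBounded W) (hf : ContinuousOn f (closure W))
    (hg : ContinuousOn g (closure W)) (h : ∀ x ∈ frontier W, ‖g x - f x‖ < ‖f x‖) :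
    degR f W = degR g W := by
  refine degR_homotopy hW hWb hf hg fun x hx t ht h0 => ?_
  have h1 : f x = -(t • (g x - f x)) := by
    rw [eq_neg_iff_add_eq_zero, ← h0, smul_sub, sub_smul, one_smul]
    abel
  have h2 : ‖f x‖ ≤ ‖g x - f x‖ := by
    calc ‖f x‖ = ‖t • (g x - f x)‖ := by rw [← norm_neg (t • (g x - f x)), ← h1]
      _ = t * ‖g x - f x‖ := by rw [norm_smul, Real.norm_eq_abs, abs_of_nonneg ht.1]
      _ ≤ _ := mul_le_of_le_one_left (norm_nonneg _) ht.2
  exact absurd (h x hx) (not_lt.2 h2)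

theorem degR_congr_frontier (hW : IsOpen W) (hWb : IsBounded W) (hf : ContinuousOn f (closure W))
    (hg : ContinuousOn g (closure W)) (h : EqOn f g (frontier W))
    (h0 : ∀ x ∈ frontier W, f x ≠ 0) : degR f W = degR g W :=
  degR_near hW hWb hf hg fun x hx => by
    rw [← h hx, sub_self, norm_zero]
    exact norm_pos_iff.2 (h0 x hx)

/-- the degree is an integer -/
theorem degR_int (hW : IsOpen W) (hWb : IsBounded W) (hf : ContinuousOn f (closure W))
    (h0 : ∀ x ∈ frontier W, f x ≠ 0) : ∃ m : ℤ, degR f W = m := by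
  obtain ⟨m, hm, hmb⟩ := exists_pos_lower_bound (frontier_compact hWb)
    (hf.mono frontier_subset_closure) h0
  obtain ⟨g, hg, hg'⟩ := exists_smooth_approx (closure_compact hWb) hf (half_pos hm)
  have hd : Differentiable ℝ g := hg.differentiable (by simp)
  have hS : volume (g '' {x | (fderiv ℝ g x).det = 0}) = 0 :=
    addHaar_image_eq_zero_of_det_fderivWithin_eq_zero volume
      (fun x _ => (hd x).hasFDerivAt.hasFDerivWithinAt) fun x hx => hx
  obtain ⟨y, hy, hy'⟩ : ∃ y ∈ ball (0 : Fin n → ℝ) (m / 2), y ∉ g '' {x | (fderiv ℝ g x).det = 0} := by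
    by_contra hc
    push Not at hc
    exact (measure_ball_pos volume 0 (half_pos hm)).ne' (measure_mono_null hc hS)
  have hlt : ∀ x ∈ frontier W, ‖(g x - y) - f x‖ < ‖f x‖ := fun x hx => by
    have h1 := hg' x (frontier_subset_closure hx)
    have h2 := mem_ball_zero_iff.1 hy
    have h3 := norm_sub_le (g x - f x) y
    rw [sub_right_comm] at h3
    linarith [hmb x hx]
  have hgy : ContDiff ℝ ∞ fun x => g x - y := hg.sub contDiff_const
  obtain ⟨Z, -, hZ⟩ := degR_regular hgy hW hWb (fun x hx h1 => by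
    have := hlt x hx
    rw [h1, zero_sub, norm_neg] at this
    exact lt_irrefl _ this) fun x _ h1 h2 => hy' ⟨x, by rwa [fderiv_sub_const] at h2, sub_eq_zero.1 h1⟩
  refine ⟨∑ z ∈ Z, sg (fderiv ℝ (fun x => g x - y) z).det, ?_⟩
  rw [degR_near hW hWb hf hgy.continuous.continuousOn hlt, hZ]
  push_cast
  rfl

/-- invariance in connected families -/
theorem degR_family {T : Type} [TopologicalSpace T] {S : Set T} (hS : IsPreconnected S)
    (hW : IsOpen W) (hWb : IsBounded W) {F : T × (Fin n → ℝ) → (Fin n → ℝ)} (hF : Continuous F)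
    (h0 : ∀ t ∈ S, ∀ x ∈ frontier W, F (t, x) ≠ 0) {s t : T} (hs : s ∈ S) (ht : t ∈ S) :
    degR (fun x => F (s, x)) W = degR (fun x => F (t, x)) W := by
  have hc : ∀ t, Continuous fun x => F (t, x) := fun t => hF.comp (Continuous.prodMk_right t)
  refine hS.induction₂' (fun s t => degR (fun x => F (s, x)) W = degR (fun x => F (t, x)) W)
    (fun s hs => ?_) (fun _ _ _ _ _ _ h1 h2 => h1.trans h2) hs ht
  have h1 : ∀ᶠ t in 𝓝 s, ∀ x ∈ frontier W, ‖F (t, x) - F (s, x)‖ < ‖F (s, x)‖ := by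
    refine (frontier_compact hWb).eventually_forall_of_forall_eventually fun x hx => ?_
    have c1 : Continuous fun z : T × (Fin n → ℝ) => F (s, z.2) := (hc s).comp continuous_snd
    refine (isOpen_lt (hF.sub c1).norm c1.norm).mem_nhds ?_
    simpa using h0 s hs x hx
  filter_upwards [mem_nhdsWithin_of_mem_nhds h1] with t ht
  have := degR_near hW hWb (hc s).continuousOn (hc t).continuousOn ht
  exact ⟨this, this.symm⟩

/-- invariance under homotopies of the boundary values -/
theorem degR_bd_homotopy (hW : IsOpen W) (hWb : IsBounded W) (hf : ContinuousOn f (closure W))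
    (hg : ContinuousOn g (closure W)) {H : ℝ × (Fin n → ℝ) → (Fin n → ℝ)}
    (hH : ContinuousOn H (Icc 0 1 ×ˢ frontier W))
    (h : ∀ x ∈ frontier W, H (0, x) = f x ∧ H (1, x) = g x ∧ ∀ t ∈ Icc (0:ℝ) 1, H (t, x) ≠ 0) :
    degR f W = degR g W := by
  obtain ⟨F, hF, hFH⟩ := exists_cont_ext (isClosed_Icc.prod isClosed_frontier) hH
  have hc : ∀ t, Continuous fun x => F (t, x) := fun t => hF.comp (Continuous.prodMk_right t)
  have z0 : (0:ℝ) ∈ Icc (0:ℝ) 1 := left_mem_Icc.2 zero_le_one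
  have z1 : (1:ℝ) ∈ Icc (0:ℝ) 1 := right_mem_Icc.2 zero_le_one
  have h0 : ∀ t ∈ Icc (0:ℝ) 1, ∀ x ∈ frontier W, F (t, x) ≠ 0 := fun t ht x hx => by
    rw [hFH (mk_mem_prod ht hx)]
    exact (h x hx).2.2 t ht
  rw [← degR_congr_frontier hW hWb (hc 0).continuousOn hf
      (fun x hx => (hFH (mk_mem_prod z0 hx)).trans (h x hx).1) (h0 0 z0),
    ← degR_congr_frontier hW hWb (hc 1).continuousOn hg
      (fun x hx => (hFH (mk_mem_prod z1 hx)).trans (h x hx).2.1) (h0 1 z1)]
  exact degR_family isPreconnected_Icc hW hWb hF h0 z0 z1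

/-- the degree of an affine isomorphism -/
theorem degR_affine (hW : IsOpen W) (hWb : IsBounded W) (L : (Fin n → ℝ) →L[ℝ] (Fin n → ℝ))
    (hL : Function.Injective L) {a : Fin n → ℝ} (ha : a ∈ W) :
    degR (fun x => L (x - a)) W = 1 ∨ degR (fun x => L (x - a)) W = -1 := by
  have hdet : L.det ≠ 0 := fun h0 =>
    LinearMap.det_eq_zero_iff_ker_ne_bot.1 h0 (LinearMap.ker_eq_bot.2 hL)
  have hz : ∀ x, L (x - a) = 0 → x = a := fun x hx => sub_eq_zero.1 (hL (hx.trans (map_zero L).symm))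
  have hd : ∀ x, fderiv ℝ (fun x => L (x - a)) x = L := fun x =>
    (L.hasFDerivAt.comp x ((hasFDerivAt_id x).sub_const a)).fderiv
  obtain ⟨Z, hZ, hZ'⟩ := degR_regular (f := fun x => L (x - a))
    (L.contDiff.comp (contDiff_id.sub contDiff_const)) hW hWb (fun x hx h0 => by
      rw [hW.frontier_eq, hz x h0] at hx
      exact hx.2 ha) fun x _ _ => by rwa [hd]
  have hZe : Z = {a} := by
    ext z
    rw [hZ, Finset.mem_singleton]
    exact ⟨fun h => hz z h.2, fun h => by rw [h, sub_self, map_zero]; exact ⟨ha, rfl⟩⟩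
  rw [hZ', hZe, Finset.sum_singleton, hd]
  rcases hdet.lt_or_gt with h | h
  · right
    rw [sg_neg h]
    norm_num
  · left
    rw [sg_pos h]
    norm_num

end deg

theorem wind_thm : WIND := by
  intro n G hG
  have c1 : closure (ball (0 : Fin n → ℝ) 1) = closedBall 0 1 := closure_ball 0 one_ne_zero
  have f1 : frontier (ball (0 : Fin n → ℝ) 1) = sphere 0 1 := frontier_ball 0 one_ne_zero
  have hc : ∀ {G : (Fin n → ℝ) → (Fin n → ℝ)}, ContinuousOn G (closedBall 0 1) → ∀ y,
      ContinuousOn (fun x => G x - y) (closure (ball 0 1)) := fun hG y => by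
    rw [c1]
    exact hG.sub continuousOn_const
  refine ⟨fun y hy => ?_, fun S hS hd y hy y' hy' => ?_, fun y G' H hG' hH h => ?_, fun y hy => ?_⟩
  · exact degR_int isOpen_ball isBounded_ball (hc hG y) fun x hx h0 =>
      hy ⟨x, f1 ▸ hx, sub_eq_zero.1 h0⟩
  · obtain ⟨F, hF, hFG⟩ := exists_cont_ext isClosed_closedBall hG
    have h0 : ∀ t ∈ S, ∀ x ∈ frontier (ball (0 : Fin n → ℝ) 1), F x - t ≠ 0 := fun t ht x hx h0 => by
      rw [f1] at hx
      exact disjoint_left.1 hd ht ⟨x, hx, by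
        rw [← hFG (sphere_subset_closedBall hx)]; exact sub_eq_zero.1 h0⟩
    have h1 : ∀ t ∈ S, wind G t = degR (fun x => F x - t) (ball 0 1) := fun t ht =>
      (degR_congr_frontier isOpen_ball isBounded_ball (hc hF.continuousOn t) (hc hG t)
        (fun x hx => by
          rw [f1] at hx
          simp only [hFG (sphere_subset_closedBall hx)]) (h0 t ht)).symm
    rw [h1 y hy, h1 y' hy']
    exact degR_family (F := fun z => F z.2 - z.1) hS isOpen_ball isBounded_ball
      ((hF.comp continuous_snd).sub continuous_fst) h0 hy hy'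
  · refine degR_bd_homotopy (H := fun z => H z - y) isOpen_ball isBounded_ball (hc hG y) (hc hG' y)
      (by rw [f1]; exact hH.sub continuousOn_const) fun x hx => ?_
    rw [f1] at hx
    obtain ⟨h1, h2, h3⟩ := h x hx
    exact ⟨by simp only [h1], by simp only [h2], fun t ht => sub_ne_zero.2 (h3 t ht)⟩
  · exact degR_empty_zero isBounded_ball isOpen_ball (hc hG y) fun x hx h0 =>
      hy ⟨x, c1 ▸ hx, sub_eq_zero.1 h0⟩

/-- the jump across a place where the boundary map is affine -/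
theorem wind_jump_core {G : (Fin n → ℝ) → (Fin n → ℝ)} (hG : ContinuousOn G (closedBall 0 1))
    (L : (Fin n → ℝ) →L[ℝ] (Fin n → ℝ)) (hL : Function.Injective L) {q c : Fin n → ℝ} {δ : ℝ}
    (hδ : 0 < δ) (hA : ∀ x ∈ sphere (0 : Fin n → ℝ) 1, x ∈ closedBall q δ → G x = c + L (x - q))
    (hq : ∀ x ∈ sphere (0 : Fin n → ℝ) 1, G x = c → x ∈ ball q δ) :
    ∃ ε > 0, ∀ a b : Fin n → ℝ, ‖a‖ < ε → ‖b‖ < ε → q + a ∈ ball (0 : Fin n → ℝ) 1 →
      q + b ∉ closedBall (0 : Fin n → ℝ) 1 → c + L a ∉ G '' sphere 0 1 →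
      c + L b ∉ G '' sphere 0 1 →
      wind G (c + L a) - wind G (c + L b) = 1 ∨ wind G (c + L a) - wind G (c + L b) = -1 := by
  classical
  have c1 : closure (ball (0 : Fin n → ℝ) 1) = closedBall 0 1 := closure_ball 0 one_ne_zero
  have f1 : frontier (ball (0 : Fin n → ℝ) 1) = sphere 0 1 := frontier_ball 0 one_ne_zero
  have hAc : Continuous fun x => c + L (x - q) := by fun_prop
  have hK : ContinuousOn (fun x => if x ∈ closedBall q δ then c + L (x - q) else G x)
      (sphere 0 1 ∪ closedBall q δ) := by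
    refine ContinuousOn.union_of_isClosed ?_ ?_ isClosed_sphere isClosed_closedBall
    · refine (hG.mono sphere_subset_closedBall).congr fun x hx => ?_
      by_cases h : x ∈ closedBall q δ
      · simp only [if_pos h, hA x hx h]
      · simp only [if_neg h]
    · exact hAc.continuousOn.congr fun x hx => if_pos hx
  obtain ⟨F, hF, hFe⟩ := exists_cont_ext (isClosed_sphere.union isClosed_closedBall) hK
  have e1 : ∀ x ∈ closedBall q δ, F x = c + L (x - q) := fun x hx =>
    (hFe (Or.inr hx)).trans (if_pos hx)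
  have e2 : ∀ x ∈ sphere (0 : Fin n → ℝ) 1, F x = G x := fun x hx => by
    by_cases h : x ∈ closedBall q δ
    · rw [e1 x h, hA x hx h]
    · exact (hFe (Or.inl hx)).trans (if_neg h)
  set W₁ := ball (0 : Fin n → ℝ) 1 ∩ ball q δ with hW₁
  set W₂ := ball (0 : Fin n → ℝ) 1 \ closedBall q δ with hW₂
  have o1 : IsOpen W₁ := isOpen_ball.inter isOpen_ball
  have o2 : IsOpen W₂ := isOpen_ball.sdiff isClosed_closedBall
  have b1 : IsBounded W₁ := isBounded_ball.subset inter_subset_left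
  have b2 : IsBounded W₂ := isBounded_ball.subset sdiff_subset
  have hFy : ∀ y, Continuous fun x => F x - y := fun y => hF.sub continuous_const
  have k2 : ∀ x ∈ frontier W₂, F x - c ≠ 0 := by
    intro x hx h0
    rw [o2.frontier_eq] at hx
    have a1 : x ∈ closedBall (0 : Fin n → ℝ) 1 := c1 ▸ closure_mono sdiff_subset hx.1
    have a2 : x ∉ ball q δ := by
      have : W₂ ⊆ (ball q δ)ᶜ := fun z hz hz' => hz.2 (ball_subset_closedBall hz')
      exact closure_minimal this isOpen_ball.isClosed_compl hx.1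
    by_cases h : x ∈ closedBall q δ
    · rw [e1 x h, add_sub_cancel_left, ← map_zero L] at h0
      exact a2 (by rw [sub_eq_zero.1 (hL h0)]; exact mem_ball_self hδ)
    · have a3 : x ∈ sphere (0 : Fin n → ℝ) 1 := by
        rw [← closedBall_sdiff_ball]
        exact ⟨a1, fun h1 => hx.2 ⟨h1, h⟩⟩
      exact a2 (hq x a3 (by rw [← e2 x a3]; exact sub_eq_zero.1 h0))
  obtain ⟨m, hm, hmb⟩ := exists_pos_lower_bound (frontier_compact b2) (hFy c).continuousOn k2
  have hn := norm_nonneg L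
  have key : ∀ a : Fin n → ℝ, ‖a‖ < min δ (m / (‖L‖ + 1)) → c + L a ∉ G '' sphere 0 1 →
      wind G (c + L a) = degR (fun x => L (x - (q + a))) W₁ + degR (fun x => F x - c) W₂ := by
    intro a ha hy
    have ha1 : ‖a‖ < δ := ha.trans_le (min_le_left _ _)
    have ha2 : ‖L a‖ < m := by
      have h1 := ha.trans_le (min_le_right _ _)
      rw [lt_div_iff₀ (by positivity)] at h1
      nlinarith [L.le_opNorm a, norm_nonneg a]
    have h0 : ∀ x ∈ sphere (0 : Fin n → ℝ) 1, F x - (c + L a) ≠ 0 := fun x hx h0 =>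
      hy ⟨x, hx, by rw [← e2 x hx]; exact sub_eq_zero.1 h0⟩
    have e3 : ∀ x ∈ closedBall q δ, F x - (c + L a) = L (x - (q + a)) := fun x hx => by
      rw [e1 x hx, add_sub_add_left_eq_sub, ← map_sub, sub_sub]
    have h1 : wind G (c + L a) = degR (fun x => F x - (c + L a)) (ball 0 1) :=
      (degR_congr_frontier isOpen_ball isBounded_ball (hFy _).continuousOn
        (by rw [c1]; exact hG.sub continuousOn_const)
        (fun x hx => by simp only [e2 x (f1 ▸ hx)]) fun x hx => h0 x (f1 ▸ hx)).symm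
    have hz : ∀ x ∈ closedBall (0 : Fin n → ℝ) 1, F x - (c + L a) = 0 → x ∈ W₁ ∨ x ∈ W₂ := by
      intro x hx h2
      have a1 : x ∈ ball (0 : Fin n → ℝ) 1 := by
        by_contra h3
        exact h0 x (by rw [← closedBall_sdiff_ball]; exact ⟨hx, h3⟩) h2
      by_cases h : x ∈ closedBall q δ
      · rw [e3 x h, ← map_zero L] at h2
        refine Or.inl ⟨a1, ?_⟩
        rw [sub_eq_zero.1 (hL h2), mem_ball, dist_eq_norm, add_sub_cancel_left]
        exact ha1
      · exact Or.inr ⟨a1, h⟩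
    have hd : Disjoint W₁ W₂ :=
      disjoint_left.2 fun x h1 h2 => h2.2 (ball_subset_closedBall h1.2)
    have h2 := degR_sum isBounded_ball isOpen_ball (hFy (c + L a)).continuousOn
      (Finset.univ : Finset Bool) (U := fun k => cond k W₁ W₂)
      (fun k _ => by cases k; exacts [o2, o1])
      (fun k _ => by cases k; exacts [sdiff_subset, inter_subset_left])
      (fun k _ l _ hkl => by
        cases k <;> cases l
        exacts [absurd rfl hkl, hd.symm, hd, absurd rfl hkl])
      (fun x hx h0 => (hz x (c1 ▸ hx) h0).elim (fun h => ⟨true, Finset.mem_univ _, h⟩)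
        fun h => ⟨false, Finset.mem_univ _, h⟩)
    rw [Fintype.sum_bool, cond_true, cond_false] at h2
    rw [h1, h2]
    congr 1
    · have s1 : closure W₁ ⊆ closedBall q δ :=
        closure_minimal (fun x hx => ball_subset_closedBall hx.2) isClosed_closedBall
      refine degR_congr_frontier o1 b1 (hFy _).continuousOn (by fun_prop)
        (fun x hx => e3 x (s1 (frontier_subset_closure hx))) fun x hx h3 => ?_
      rw [o1.frontier_eq] at hx
      rcases hz x (c1 ▸ closure_mono inter_subset_left hx.1) h3 with h4 | h4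
      · exact hx.2 h4
      · exact h4.2 (s1 hx.1)
    · refine (degR_near o2 b2 (hFy _).continuousOn (hFy _).continuousOn fun x hx => ?_).symm
      rw [show F x - (c + L a) - (F x - c) = -L a by abel, norm_neg]
      exact ha2.trans_le (hmb x hx)
  refine ⟨min δ (m / (‖L‖ + 1)), lt_min hδ (by positivity), fun a b ha hb hqa hqb hya hyb => ?_⟩
  have h1 := degR_affine o1 b1 L hL (a := q + a) ⟨hqa, by
    rw [mem_ball, dist_eq_norm, add_sub_cancel_left]
    exact ha.trans_le (min_le_left _ _)⟩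
  have h2 : degR (fun x => L (x - (q + b))) W₁ = 0 :=
    degR_empty_zero b1 o1 (by fun_prop) fun x hx h0 => by
      rw [← map_zero L] at h0
      exact hqb (sub_eq_zero.1 (hL h0) ▸ c1 ▸ closure_mono inter_subset_left hx)
  rw [key a ha hya, key b hb hyb, h2, zero_add, add_sub_cancel_right]
  exact h1

/-- an affine germ of the boundary map on a face -/
theorem exists_affine_face (hAE : AEAFF) {G : (Fin n → ℝ) → (Fin n → ℝ)}
    (hG : ContinuousOn G (closedBall 0 1)) {O : Set (Fin n → ℝ)} (hO : IsOpen O)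
    (hc : ConicalOn G (sphere 0 1 ∩ G ⁻¹' O)) (hne : (sphere 0 1 ∩ G ⁻¹' O).Nonempty) :
    ∃ (q : Fin n → ℝ) (i : Fin n) (δ : ℝ) (M : (Fin n → ℝ) →ₗ[ℝ] (Fin n → ℝ)), 0 < δ ∧
      |q i| = 1 ∧ (∀ j, j ≠ i → |q j| < 1) ∧
      (∀ x ∈ sphere (0 : Fin n → ℝ) 1, x ∈ closedBall q δ → x i = q i) ∧
      ∀ v : Fin n → ℝ, v i = 0 → ‖v‖ ≤ δ →
        q + v ∈ sphere (0 : Fin n → ℝ) 1 ∩ G ⁻¹' O ∧ G (q + v) = G q + M v := by
  obtain ⟨x₀, hx₀, hx₀'⟩ := hne
  obtain ⟨i, hi⟩ : ∃ i, |x₀ i| = 1 := by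
    have h1 := mem_sphere_zero_iff_norm.1 hx₀
    by_contra h
    push Not at h
    have : ‖x₀‖ < 1 := (pi_norm_lt_iff one_pos).2 fun j =>
      lt_of_le_of_ne (h1 ▸ norm_le_pi_norm x₀ j) (h j)
    exact this.ne h1
  obtain ⟨ε, hε, hε'⟩ := Metric.mem_nhdsWithin_iff.1
    (hG x₀ (sphere_subset_closedBall hx₀) (hO.mem_nhds hx₀'))
  set s := min (ε / 2) 1 with hs
  have s0 : 0 < s := lt_min (half_pos hε) one_pos
  have s1 : s ≤ ε / 2 := min_le_left _ _
  have s2 : s ≤ 1 := min_le_right _ _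
  set V := ball ((1 - s) • x₀) s with hV
  have hV1 : ∀ x ∈ V, ‖x‖ < 1 := fun x hx => by
    have h1 := mem_ball_iff_norm.1 hx
    have h2 := norm_add_le (x - (1 - s) • x₀) ((1 - s) • x₀)
    rw [sub_add_cancel, norm_smul, mem_sphere_zero_iff_norm.1 hx₀, Real.norm_eq_abs,
      abs_of_nonneg (by linarith)] at h2
    linarith
  have hV2 : ∀ x ∈ V, ‖x - x₀‖ < ε := fun x hx => by
    have h1 := mem_ball_iff_norm.1 hx
    have h2 := norm_sub_le (x - (1 - s) • x₀) (s • x₀)
    rw [show x - (1 - s) • x₀ - s • x₀ = x - x₀ by rw [sub_smul, one_smul]; abel, norm_smul,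
      mem_sphere_zero_iff_norm.1 hx₀, Real.norm_eq_abs, abs_of_pos s0] at h2
    linarith
  let P : (Fin n → ℝ) → (Fin n → ℝ) := fun x => Function.update x i (x₀ i)
  have hPc : Continuous P := continuous_id.update i continuous_const
  have hP : MapsTo P V (sphere 0 1 ∩ G ⁻¹' O) := fun x hx => by
    have h1 : P x ∈ sphere (0 : Fin n → ℝ) 1 := by
      rw [mem_sphere_zero_iff_norm]
      refine le_antisymm ((pi_norm_le_iff_of_nonneg zero_le_one).2 fun j => ?_) ?_
      · by_cases h : j = i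
        · rw [h]
          simp [P, hi]
        · simp only [P, Function.update_of_ne h]
          exact (norm_le_pi_norm x j).trans (hV1 x hx).le
      · have := norm_le_pi_norm (P x) i
        simpa [P, hi] using this
    refine ⟨h1, hε' ⟨?_, sphere_subset_closedBall h1⟩⟩
    rw [mem_ball_iff_norm, pi_norm_lt_iff hε]
    intro j
    by_cases h : j = i
    · rw [h]
      simpa [P] using hε
    · simp only [P, Pi.sub_apply, Function.update_of_ne h]
      exact (norm_le_pi_norm (x - x₀) j).trans_lt (hV2 x hx)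
  have hadd : ∀ x v : Fin n → ℝ, P (x + v) = P x + Function.update v i 0 := fun x v => by
    funext j
    by_cases h : j = i
    · rw [h]
      simp [P]
    · simp [P, Function.update_of_ne h]
  have hPk : ConicalOn P V := fun x hx => by
    obtain ⟨r, hr, h⟩ := conicalSetAt_of_mem_nhds (isOpen_ball.mem_nhds hx)
    refine ⟨r, hr, fun v hv hxv t ht => ⟨h v hv hxv t ht, ?_⟩⟩
    rw [hadd, hadd, add_sub_cancel_left, ← Function.update_smul, smul_zero]
  have hPL : PLOn (G ∘ P) V :=
    ⟨hG.comp hPc.continuousOn fun x hx => sphere_subset_closedBall (hP hx).1,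
      hc.comp hPk hP hPc.continuousOn⟩
  obtain ⟨x₁, hx₁, A, hA⟩ : ∃ x₁ ∈ V, ∃ A : (Fin n → ℝ) →ᵃ[ℝ] (Fin n → ℝ), G ∘ P =ᶠ[𝓝 x₁] A := by
    have h1 := (hAE isOpen_ball hPL).2
    by_contra h
    refine (measure_ball_pos volume ((1 - s) • x₀) s0).ne' (measure_mono_null ?_ (ae_iff.1 h1))
    exact fun x hx h2 => h ⟨x, hx, h2 hx⟩
  obtain ⟨δ, hδ, hδ'⟩ := Metric.nhds_basis_closedBall.mem_iff.1
    (hA.and (show ∀ᶠ x in 𝓝 x₁, x ∈ V from isOpen_ball.mem_nhds hx₁))
  have q0 : P x₁ i = x₀ i := by simp [P]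
  refine ⟨P x₁, i, min δ 1, A.linear, lt_min hδ one_pos, q0 ▸ hi, fun j hj => ?_,
    fun x hx hxq => ?_, fun v hv hv' => ?_⟩
  · simp only [P, Function.update_of_ne hj]
    exact (norm_le_pi_norm x₁ j).trans_lt (hV1 x₁ hx₁)
  · have h1 := mem_closedBall_iff_norm.1 hxq
    have h2 : Function.update x i (x₁ i) ∈ closedBall x₁ δ := by
      rw [mem_closedBall_iff_norm, pi_norm_le_iff_of_nonneg hδ.le]
      intro j
      by_cases h : j = i
      · rw [h]
        simpa using hδ.le
      · have := (norm_le_pi_norm (x - P x₁) j).trans (h1.trans (min_le_left _ _))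
        simpa [P, Function.update_of_ne h] using this
    have h3 := hV1 _ (hδ' h2).2
    have h4 : |x i| = 1 := by
      have a1 := mem_sphere_zero_iff_norm.1 hx
      by_contra h
      have : ‖x‖ < 1 := (pi_norm_lt_iff one_pos).2 fun j => by
        by_cases hj : j = i
        · rw [hj]
          exact lt_of_le_of_ne (a1 ▸ norm_le_pi_norm x i) h
        · have := (norm_le_pi_norm _ j).trans_lt h3
          rwa [Function.update_of_ne hj] at this
      exact this.ne a1
    have h5 := (norm_le_pi_norm (x - P x₁) i).trans (h1.trans (min_le_right _ _))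
    rw [Pi.sub_apply, q0, Real.norm_eq_abs, abs_le] at h5
    rw [q0]
    rcases (abs_eq zero_le_one).1 h4 with a | a <;> rcases (abs_eq zero_le_one).1 hi with b | b <;>
      linarith [h5.1, h5.2]
  · have h1 : x₁ + v ∈ closedBall x₁ δ := by
      rw [mem_closedBall_iff_norm, add_sub_cancel_left]
      exact hv'.trans (min_le_left _ _)
    have h2 : P (x₁ + v) = P x₁ + v := by rw [hadd, ← hv, Function.update_eq_self]
    have h3 := (hδ' h1).1
    have h4 := (hδ' (mem_closedBall_self hδ.le)).1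
    simp only [Function.comp] at h3 h4
    refine ⟨h2 ▸ hP (hδ' h1).2, ?_⟩
    rw [← h2, h3, h4, add_comm x₁, ← vadd_eq_add, A.map_vadd, vadd_eq_add, add_comm]

theorem jmp_of (hAE : AEAFF) : JMP := by
  intro n G ℓ p r hG hl hp hr hinj hcon himg y₁ hy₁ y₂ hy₂ h₁ h₂
  have hne : (sphere 0 1 ∩ G ⁻¹' ball p r).Nonempty := by
    have : p ∈ G '' (sphere 0 1 ∩ G ⁻¹' ball p r) := himg ▸ ⟨mem_ball_self hr, hp⟩
    exact this.elim fun x hx => ⟨x, hx.1⟩
  obtain ⟨q, i, δ, M, hδ, hqi, hqj, hface, hM⟩ :=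
    exists_affine_face hAE hG isOpen_ball hcon hne
  have hz : ∀ x ∈ sphere (0 : Fin n → ℝ) 1, G x ∈ ball p r → ℓ (G x) = 0 := fun x hx hx' => by
    have : G x ∈ ball p r ∩ {y | ℓ y = 0} := himg ▸ mem_image_of_mem G ⟨hx, hx'⟩
    exact this.2
  have hq := (hM 0 rfl (by simpa using hδ.le)).1
  rw [add_zero] at hq
  have hadd : ∀ x v, ℓ (x + v) = ℓ x + ℓ.linear v := fun x v => by
    rw [add_comm x, ← vadd_eq_add, ℓ.map_vadd, vadd_eq_add, add_comm]
  have hsm : ∀ v : Fin n → ℝ, ∃ t : ℝ, 0 < t ∧ ‖t • v‖ ≤ δ := fun v => by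
    refine ⟨δ / (‖v‖ + 1), by positivity, ?_⟩
    rw [norm_smul, Real.norm_eq_abs, abs_of_pos (by positivity), div_mul_eq_mul_div,
      div_le_iff₀ (by positivity)]
    nlinarith
  have hM1 : ∀ v : Fin n → ℝ, v i = 0 → ℓ.linear (M v) = 0 := fun v hv => by
    obtain ⟨t, ht, ht'⟩ := hsm v
    obtain ⟨a1, a2⟩ := hM (t • v) (by simp [hv]) ht'
    have a3 := hz _ a1.1 a1.2
    rw [a2, hadd, hz q hq.1 hq.2, zero_add, map_smul, map_smul, smul_eq_mul] at a3
    exact (mul_eq_zero.1 a3).resolve_left ht.ne'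
  have hM2 : ∀ v : Fin n → ℝ, v i = 0 → M v = 0 → v = 0 := fun v hv hv' => by
    obtain ⟨t, ht, ht'⟩ := hsm v
    obtain ⟨a1, a2⟩ := hM (t • v) (by simp [hv]) ht'
    rw [map_smul, hv', smul_zero, add_zero] at a2
    exact (smul_eq_zero.1 (add_eq_left.1 (hinj a1 hq a2))).resolve_left ht.ne'
  obtain ⟨w, hw⟩ : ∃ w, ℓ.linear w = -q i := by
    obtain ⟨u, hu⟩ : ∃ u, ℓ.linear u ≠ 0 := by
      by_contra h
      push Not at h
      exact hl (LinearMap.ext h)
    exact ⟨(-q i / ℓ.linear u) • u, by rw [map_smul, smul_eq_mul, div_mul_cancel₀ _ hu]⟩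
  let e : Fin n → ℝ := Pi.single i 1
  let L : (Fin n → ℝ) →L[ℝ] (Fin n → ℝ) := LinearMap.toContinuousLinearMap
    (M + (LinearMap.proj i : (Fin n → ℝ) →ₗ[ℝ] ℝ).smulRight (w - M e))
  have hLv : ∀ v, L v = M (v - v i • e) + v i • w := fun v => by
    show M v + v i • (w - M e) = _
    rw [map_sub, map_smul, smul_sub]
    abel
  have he : ∀ v : Fin n → ℝ, (v - v i • e) i = 0 := fun v => by simp [e]
  have hlL : ∀ v, ℓ.linear (L v) = -(q i * v i) := fun v => by
    rw [hLv, map_add, hM1 _ (he v), map_smul, hw, smul_eq_mul]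
    ring
  have qq : q i * q i = 1 := by rw [← abs_mul_abs_self, hqi, mul_one]
  have hL : Function.Injective L := by
    refine (injective_iff_map_eq_zero L).2 fun v hv => ?_
    have a1 := hlL v
    rw [hv, map_zero, eq_comm, neg_eq_zero, mul_eq_zero] at a1
    have a2 : v i = 0 := a1.resolve_left fun h => by simp [h] at qq
    rw [hLv, a2, zero_smul, zero_smul, sub_zero, add_zero] at hv
    exact hM2 v a2 hv
  obtain ⟨ε, hε, hjump⟩ := wind_jump_core hG L hL (q := q) (c := G q) hδ (fun x hx hxq => by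
      have a1 : (x - q) i = 0 := by rw [Pi.sub_apply, hface x hx hxq, sub_self]
      have a2 := (hM (x - q) a1 (mem_closedBall_iff_norm.1 hxq)).2
      rw [add_sub_cancel] at a2
      rw [a2, hLv, a1, zero_smul, zero_smul, sub_zero, add_zero])
    fun x hx hxq => by
      rw [hinj ⟨hx, by rw [mem_preimage, hxq]; exact hq.2⟩ hq hxq]
      exact mem_ball_self hδ
  have hten : ∀ u : Fin n → ℝ, ∀ᶠ t : ℝ in 𝓝[>] 0, ‖t • u‖ < ε ∧ G q + L (t • u) ∈ ball p r := by
    intro u
    have c1 : Continuous fun t : ℝ => ‖t • u‖ := by fun_prop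
    have c2 : Continuous fun t : ℝ => G q + L (t • u) := by fun_prop
    refine mem_nhdsWithin_of_mem_nhds (((c1.tendsto 0).eventually (gt_mem_nhds ?_)).and
      ((c2.tendsto 0).eventually (isOpen_ball.mem_nhds ?_)))
    · simpa using hε
    · simpa using hq.2
  obtain ⟨t, ⟨⟨a1, a2⟩, b1, b2⟩, t0, t1⟩ := (((hten (-(q i • e))).and (hten (q i • e))).and
    (Ioo_mem_nhdsGT one_pos)).exists
  have l1 : ℓ (G q + L (t • -(q i • e))) = t := by
    rw [hadd, hz q hq.1 hq.2, hlL]
    simp only [e, Pi.smul_apply, Pi.neg_apply, Pi.single_eq_same, smul_eq_mul]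
    linear_combination t * qq
  have l2 : ℓ (G q + L (t • q i • e)) = -t := by
    rw [hadd, hz q hq.1 hq.2, hlL]
    simp only [e, Pi.smul_apply, Pi.single_eq_same, smul_eq_mul]
    linear_combination -t * qq
  have hoff : ∀ y ∈ ball p r, ℓ y ≠ 0 → y ∉ G '' sphere 0 1 := by
    rintro _ hy hy' ⟨x, hx, rfl⟩
    exact hy' (hz x hx hy)
  have hj := hjump _ _ a1 b1 ?_ ?_ (hoff _ a2 (by rw [l1]; exact t0.ne'))
    (hoff _ b2 (by rw [l2]; exact neg_ne_zero.2 t0.ne'))
  · have hW := (wind_thm hG).2.1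
    have k1 : Convex ℝ (ball p r ∩ ℓ ⁻¹' Ioi 0) :=
      (convex_ball p r).inter ((convex_Ioi 0).affine_preimage ℓ)
    have k2 : Convex ℝ (ball p r ∩ ℓ ⁻¹' Iio 0) :=
      (convex_ball p r).inter ((convex_Iio 0).affine_preimage ℓ)
    rw [hW _ k1.isPreconnected (disjoint_left.2 fun y hy => hoff y hy.1 (ne_of_gt hy.2)) y₁
        ⟨hy₁, h₁⟩ _ ⟨a2, by rw [mem_preimage, l1]; exact t0⟩,
      hW _ k2.isPreconnected (disjoint_left.2 fun y hy => hoff y hy.1 (ne_of_lt hy.2)) y₂
        ⟨hy₂, h₂⟩ _ ⟨b2, by rw [mem_preimage, l2]; exact neg_lt_zero.2 t0⟩]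
    exact hj
  · rw [mem_ball_zero_iff, pi_norm_lt_iff one_pos]
    intro j
    by_cases h : j = i
    · have : (q + t • -(q i • e)) j = (1 - t) * q i := by
        rw [h]
        simp only [e, Pi.add_apply, Pi.smul_apply, Pi.neg_apply, Pi.single_eq_same, smul_eq_mul]
        ring
      rw [this, Real.norm_eq_abs, abs_mul, hqi, abs_of_pos (by linarith)]
      linarith
    · simpa [e, Pi.single_eq_of_ne h] using hqj j h
  · intro h
    have h1 := (norm_le_pi_norm _ i).trans (mem_closedBall_zero_iff.1 h)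
    have : (q + t • q i • e) i = (1 + t) * q i := by
      simp only [e, Pi.add_apply, Pi.smul_apply, Pi.single_eq_same, smul_eq_mul]
      ring
    rw [this, Real.norm_eq_abs, abs_mul, hqi, abs_of_pos (by linarith)] at h1
    linarith

end P073
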